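import Mathlib

/-!
Definitions for P007: the space `X_n = SL_n(Z) \ SL_n(R)` of unimodular lattices (row vectors,
right action), orders in totally real fields with an ordering of the real embeddings, and the
union of the orbits of the packet attached to such an order.
-/

open MeasureTheory NumberField

noncomputable section

namespace Vale.Agent.P007

/-- `X_n = SL_n(Z) \ SL_n(R)`: orbits of `SL_n(R)` under left multiplication by (the image of)
`SL_n(Z)`. -/
def X (n : ℕ) : Type :=
  MulAction.orbitRel.Quotient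
    (Matrix.SpecialLinearGroup.map (n := Fin n) (Int.castRingHom ℝ)).range
    (Matrix.SpecialLinearGroup (Fin n) ℝ)

/-- The quotient topology. -/
instance instTopologicalSpaceX (n : ℕ) : TopologicalSpace (X n) :=
  TopologicalSpace.coinduced
    (fun h : Matrix.SpecialLinearGroup (Fin n) ℝ => (Quotient.mk _ h : X n)) inferInstance

/-- The Borel sigma-algebra. -/
instance instMeasurableSpaceX (n : ℕ) : MeasurableSpace (X n) := borel (X n)

/-- The right action `(Γ h) · g = Γ (h g)`. -/
def act {n : ℕ} (g : Matrix.SpecialLinearGroup (Fin n) ℝ) (x : X n) : X n :=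
  Quotient.mk _ (Quotient.out x * g)

/-- The lattice `Z^n h` (integer span of the rows of `h`) of the point `Γ h`. -/
def lattice {n : ℕ} (x : X n) : Submodule ℤ (Fin n → ℝ) :=
  Submodule.span ℤ (Set.range fun i j => (Quotient.out x).1 i j)

/-- A totally real field `K` of degree `n`, an ordering `σ` of its real embeddings and an
order `O` of `K` (a full-rank subring of the ring of integers). -/
structure Datum (n : ℕ) where
  K : Type
  [field : Field K]
  [numberField : NumberField K]
  totallyReal : IsTotallyReal K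
  degree : Module.finrank ℚ K = n
  σ : Fin n ≃ (K →+* ℝ)
  O : Subring K
  integral : ∀ x ∈ O, IsIntegral ℤ x
  fullRank : Submodule.span ℚ (O : Set K) = ⊤

attribute [instance] Datum.field Datum.numberField

/-- `|Disc O| = |Disc K| · [O_K : O]^2`. -/
def Datum.absDisc {n : ℕ} (D : Datum n) : ℕ :=
  (discr D.K).natAbs *
    (D.O.toAddSubgroup.relIndex (integralClosure ℤ D.K).toSubring.toAddSubgroup) ^ 2

/-- Fractional `O`-ideals: nonzero finitely generated `O`-submodules of `K`. -/
def Datum.IsFracIdeal {n : ℕ} (D : Datum n) (I : Submodule ℤ D.K) : Prop :=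
  I ≠ ⊥ ∧ I.FG ∧ ∀ a ∈ D.O, ∀ y ∈ I, a * y ∈ I

/-- Proper invertible fractional `O`-ideals. -/
def Datum.IsProperInv {n : ℕ} (D : Datum n) (I : Submodule ℤ D.K) : Prop :=
  D.IsFracIdeal I ∧ {α : D.K | ∀ y ∈ I, α * y ∈ I} = (D.O : Set D.K) ∧
    ∃ J : Submodule ℤ D.K, D.IsFracIdeal J ∧ ((I * J : Submodule ℤ D.K) : Set D.K) = D.O

/-- The lattice `σ(I) ⊆ R^n`. -/
def Datum.embed {n : ℕ} (D : Datum n) (I : Submodule ℤ D.K) : Submodule ℤ (Fin n → ℝ) :=
  Submodule.span ℤ ((fun y j => D.σ j y) '' (I : Set D.K))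

/-- The orbit `Λ w A_n` of the normalised lattice `Λ = covol(L)^(-1/n) L` multiplied by the
diagonal matrix `w`; here `a = diag(exp u_1, …, exp u_n)` with `∑ u_j = 0`. -/
def orbit {n : ℕ} (L : Submodule ℤ (Fin n → ℝ)) (w : Fin n → ℝ) : Set (X n) :=
  {x | ∃ u : Fin n → ℝ, ∑ j, u j = 0 ∧ (lattice x : Set (Fin n → ℝ)) =
    (fun v j => ZLattice.covolume L ^ (-(1 : ℝ) / n) * v j * w j * Real.exp (u j)) ''
      (L : Set (Fin n → ℝ))}

/-- The packet: the set of distinct orbits `Λ_I w A_n`, `I` a proper invertible fractional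
`O`-ideal and `w` a diagonal sign matrix. -/
def Datum.packet {n : ℕ} (D : Datum n) : Set (Set (X n)) :=
  {S | ∃ (I : Submodule ℤ D.K) (w : Fin n → ℝ), D.IsProperInv I ∧ (∀ j, w j = 1 ∨ w j = -1) ∧
    S = orbit (D.embed I) w}

end Vale.Agent.P007
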