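import Vale.Agent.P007.RStm
import Vale.Agent.P007.HCov

/-! The space of unimodular lattices carries an invariant probability measure. -/

noncomputable section
namespace TP
open MeasureTheory Filter Set Matrix
open Vale.Agent.P007 (X act Gam proj IsInvariantProb act_proj proj_eq_iff)
open scoped Classical Topology ENNReal

variable {m : ℕ}

/-- Normalisation of the determinant. -/
def nz (g : Fin (m + 1) → Fin (m + 1) → ℝ) : G (m + 1) :=
  if h : 0 < (of g).det then ⟨((of g).det ^ (-(1 : ℝ) / (m + 1 : ℕ))) • of g, by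
    rw [det_smul, Fintype.card_fin, ← Real.rpow_natCast, ← Real.rpow_mul h.le,
      div_mul_cancel₀ _ (by positivity), Real.rpow_neg_one, inv_mul_cancel₀ h.ne']⟩ else 1

theorem HEx_cdet : Continuous fun g : Fin (m + 1) → Fin (m + 1) → ℝ => (of g).det :=
  Continuous.matrix_det (A := fun g : Fin (m + 1) → Fin (m + 1) → ℝ => of g)
    (continuous_pi fun i => continuous_pi fun j => by
      change Continuous fun g : Fin (m + 1) → Fin (m + 1) → ℝ => g i j
      fun_prop)

theorem HEx_det : Measurable fun g : Fin (m + 1) → Fin (m + 1) → ℝ => (of g).det :=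
  HEx_cdet.measurable

theorem HEx_coe (g : Fin (m + 1) → Fin (m + 1) → ℝ) (h : 0 < (of g).det) :
    (nz g).1 = ((of g).det ^ (-(1 : ℝ) / (m + 1 : ℕ))) • of g := by
  exact congrArg Subtype.val (dif_pos h)

theorem HEx_meas : Measurable (nz : (Fin (m + 1) → Fin (m + 1) → ℝ) → G (m + 1)) := by
  have h0 : Topology.IsClosedEmbedding fun (g : G (m + 1)) (i j : Fin (m + 1)) => g.1 i j := emb_G
  rw [← h0.measurableEmbedding.measurable_comp_iff]
  have : ((fun (g : G (m + 1)) (i j : Fin (m + 1)) => g.1 i j) ∘ nz) = fun g =>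
      if 0 < (of g).det then fun i j => (of g).det ^ (-(1 : ℝ) / (m + 1 : ℕ)) * g i j
      else fun i j => (1 : Matrix (Fin (m + 1)) (Fin (m + 1)) ℝ) i j := by
    funext g
    split_ifs with h
    · exact HEx_coe g h
    · exact congrArg Subtype.val (dif_neg h)
  rw [this]
  refine Measurable.ite (measurableSet_lt measurable_const HEx_det) ?_ measurable_const
  exact measurable_pi_lambda _ fun i => measurable_pi_lambda _ fun j =>
    (HEx_det.pow_const _).mul (by fun_prop)

theorem HEx_mul (a b : G (m + 1)) (g : Fin (m + 1) → Fin (m + 1) → ℝ) (h : 0 < (of g).det) :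
    (of fun i j => (a.1 * of g * b.1) i j).det = (of g).det ∧
      nz (fun i j => (a.1 * of g * b.1) i j) = a * nz g * b := by
  have e : (of fun i j => (a.1 * of g * b.1) i j).det = (of g).det := by
    change (a.1 * of g * b.1).det = _
    rw [det_mul, det_mul, a.2, b.2, one_mul, mul_one]
  refine ⟨e, Subtype.ext ?_⟩
  refine (HEx_coe _ (e.symm ▸ h)).trans ?_
  change _ • (a.1 * of g * b.1) = a.1 * (nz g).1 * b.1
  rw [e, HEx_coe g h, Matrix.mul_smul, Matrix.smul_mul]

theorem HEx_mp (a b : G (m + 1)) :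
    MeasurePreserving (fun (g : Fin (m + 1) → Fin (m + 1) → ℝ) i j => (a.1 * of g * b.1) i j) :=
  (HCov_right (m := m + 1) b.1 (by rw [b.2, abs_one])).comp (HCov_left a.1 (by rw [a.2, abs_one]))

theorem HEx_ex (hS : ExSec) (hL : LiftA) : ∃ μ : Measure (X (m + 1)), IsInvariantProb μ := by
  obtain ⟨F, hFm, hFv, hFc⟩ := HCov_sl m
  let Y : Set (Fin (m + 1) → Fin (m + 1) → ℝ) := {g | (of g).det ∈ Ioc 0 1}
  have hY : MeasurableSet Y := measurableSet_Ioc.preimage HEx_det
  let T (a b : G (m + 1)) (g : Fin (m + 1) → Fin (m + 1) → ℝ) (i j : Fin (m + 1)) :=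
    (a.1 * of g * b.1) i j
  have hTY : ∀ a b g, T a b g ∈ Y ↔ g ∈ Y := fun a b g => by
    have e : (of (T a b g)).det = (of g).det := by
      change (a.1 * of g * b.1).det = _
      rw [det_mul, det_mul, a.2, b.2, one_mul, mul_one]
    simp only [Y, mem_setOf_eq, e]
  have hT : ∀ a b g, T a 1 (T b 1 g) = T (a * b) 1 g := fun a b g => by
    change a.1 * (b.1 * of g * 1) * 1 = a.1 * b.1 * of g * 1
    simp only [Matrix.mul_one, Matrix.mul_assoc]
  have hT1 : ∀ g, T 1 1 g = g := fun g => by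
    change 1 * of g * 1 = of g
    simp
  let ν : Measure (G (m + 1)) := (volume.restrict Y).map nz
  have hν : ∀ E, MeasurableSet E → ν E = volume (nz ⁻¹' E ∩ Y) := fun E hE => by
    rw [Measure.map_apply HEx_meas hE, Measure.restrict_apply (HEx_meas hE)]
  have hinv : ∀ a b : G (m + 1), MeasurePreserving (fun g => a * g * b) ν ν := fun a b => by
    have hm : Measurable fun g : G (m + 1) => a * g * b := by fun_prop
    refine ⟨hm, Measure.ext fun E hE => ?_⟩
    rw [Measure.map_apply hm hE, hν _ (hm hE), hν _ hE, ← (HEx_mp a b).measure_preimage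
      ((HEx_meas hE).inter hY).nullMeasurableSet]
    congr 1
    ext g
    refine ⟨fun h => ⟨?_, (hTY a b g).2 h.2⟩, fun h => ⟨?_, (hTY a b g).1 h.2⟩⟩
    · exact (congrArg (· ∈ E) (HEx_mul a b g h.2.1).2).mpr h.1
    · exact (congrArg (· ∈ E) (HEx_mul a b g ((hTY a b g).1 h.2).1).2).mp h.1
  have : SMulInvariantMeasure (Gam (m + 1)) (G (m + 1)) ν := ⟨fun γ E hE => by
    have := (hinv γ.1 1).measure_preimage hE.nullMeasurableSet
    simp only [mul_one] at this
    exact this⟩
  have hsec := (hS (m + 1)).1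
  set S := range (sec : X (m + 1) → G (m + 1)) with hSd
  have hSm : MeasurableSet S := (hL (m + 1)).2.2.2.2.2.2.2.2.1
  have hex : ∀ g : G (m + 1), ∃! γ : Gam (m + 1), γ.1 * g ∈ S := fun g => by
    refine ⟨⟨sec (proj g) * g⁻¹, (proj_eq_iff _ _).1 (hsec.2.1 _)⟩, ⟨proj g, by simp⟩, ?_⟩
    rintro γ ⟨x, hx⟩
    have : x = proj g := by rw [← hsec.2.1 x, hx, proj_gam]
    refine Subtype.ext ?_
    simp only [← this, hx, mul_inv_cancel_right]
  have hfd : ∀ h : G (m + 1), IsFundamentalDomain (Gam (m + 1)) ((· * h) ⁻¹' S) ν := fun h =>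
    IsFundamentalDomain.mk' (hSm.preimage (by fun_prop)).nullMeasurableSet fun g => by
      have := hex (g * h)
      simp only [← mul_assoc] at this
      exact this
  have hfd1 : IsFundamentalDomain (Gam (m + 1)) S ν := by simpa using hfd 1
  have hν0 : ν ≠ 0 := by
    intro e
    have h1 := hν univ MeasurableSet.univ
    rw [e, preimage_univ, univ_inter] at h1
    have h2 : IsOpen {g : Fin (m + 1) → Fin (m + 1) → ℝ | (of g).det ∈ Ioo 0 1} :=
      isOpen_Ioo.preimage HEx_cdet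
    refine h2.measure_ne_zero volume ⟨fun i j => (Matrix.diagonal fun _ => (1 / 2 : ℝ)) i j, ?_⟩
      (measure_mono_null (t := Y) (fun g hg => ⟨hg.1, hg.2.le⟩) h1.symm)
    change (Matrix.diagonal fun _ : Fin (m + 1) => (1 / 2 : ℝ)).det ∈ Ioo (0 : ℝ) 1
    rw [det_diagonal, Finset.prod_const, Finset.card_univ, Fintype.card_fin]
    exact ⟨by positivity, pow_lt_one₀ (by norm_num) (by norm_num) (by omega)⟩
  have hfin : ν S ≠ ∞ := by
    rw [hν S hSm]
    have h1 : nz ⁻¹' S ∩ Y ⊆ ⋃ γ : Gam (m + 1), T γ.1 1 ⁻¹' (T γ.1⁻¹ 1 ⁻¹' (nz ⁻¹' S ∩ Y) ∩ F) := by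
      intro g hg
      obtain ⟨γ, hγ, hF⟩ := hFc (of g) hg.2.1.ne' (by rw [abs_of_pos hg.2.1]; exact hg.2.2)
      have e : T (SpecialLinearGroup.map (Int.castRingHom ℝ) ⟨γ, hγ⟩)⁻¹ 1
          (T (SpecialLinearGroup.map (Int.castRingHom ℝ) ⟨γ, hγ⟩) 1 g) = g := by
        rw [hT, inv_mul_cancel, hT1]
      refine mem_iUnion.2 ⟨⟨SpecialLinearGroup.map (Int.castRingHom ℝ) ⟨γ, hγ⟩, _, rfl⟩,
        (congrArg (· ∈ nz ⁻¹' S ∩ Y) e).mpr hg, (congrArg (· ∈ F) ?_).mp hF⟩
      exact (Matrix.mul_one (γ.map (Int.cast : ℤ → ℝ) * of g)).symm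
    have h2 : ∀ γ : Gam (m + 1), MeasurableSet (T γ.1⁻¹ 1 ⁻¹' (nz ⁻¹' S ∩ Y) ∩ F) := fun γ =>
      ((HEx_mp _ _).measurable ((HEx_meas hSm).inter hY)).inter hFm
    refine ne_top_of_le_ne_top hFv ((measure_mono h1).trans ((measure_iUnion_le _).trans ?_))
    simp only [fun γ : Gam (m + 1) => (HEx_mp γ.1 1).measure_preimage (h2 γ).nullMeasurableSet, T]
    rw [← measure_iUnion (fun γ γ' hne => disjoint_left.2 fun g hg hg' => hne ?_) h2]
    · exact measure_mono (iUnion_subset fun _ => inter_subset_right)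
    have h3 : ∀ γ : Gam (m + 1), g ∈ T γ.1⁻¹ 1 ⁻¹' (nz ⁻¹' S ∩ Y) → (γ⁻¹).1 * nz g ∈ S :=
      fun γ h => by
        have := (HEx_mul γ.1⁻¹ 1 g ((hTY _ _ g).1 h.2).1).2
        rw [mul_one] at this
        exact (congrArg (· ∈ S) this).mp h.1
    exact inv_injective ((hex (nz g)).unique (h3 γ hg.1) (h3 γ' hg'.1))
  have hp : Measurable (proj : G (m + 1) → X (m + 1)) := continuous_proj.measurable
  let μ : Measure (X (m + 1)) := (ν.restrict S).map proj
  have hμ : ∀ E, MeasurableSet E → μ E = ν (proj ⁻¹' E ∩ S) := fun E hE => by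
    rw [Measure.map_apply hp hE, Measure.restrict_apply (hp hE)]
  have hu : μ univ = ν S := by rw [hμ _ MeasurableSet.univ, preimage_univ, univ_inter]
  refine ⟨(ν S)⁻¹ • μ, ⟨?_⟩, fun h => MeasurePreserving.smul_measure ⟨measurable_act h,
    Measure.ext fun E hE => ?_⟩ _⟩
  · rw [Measure.smul_apply, hu, smul_eq_mul,
      ENNReal.inv_mul_cancel (hfd1.measure_ne_zero hν0) hfin]
  · rw [Measure.map_apply (measurable_act h) hE, hμ _ (measurable_act h hE), hμ _ hE,
      hfd1.measure_set_eq (hfd h⁻¹) (hp hE) fun γ => ?_, ← (hinv 1 h).measure_preimage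
        ((hp hE).inter (hSm.preimage (by fun_prop))).nullMeasurableSet]
    · congr 1
      ext g
      simp [act_proj]
    · ext g
      change proj (γ.1 * g) ∈ E ↔ proj g ∈ E
      rw [proj_gam]

end TP
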