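import Vale.Agent.P007.NStm

noncomputable section
namespace TP
open Complex MeasureTheory NumberField Filter ART
open Vale.Agent.P007 (Datum X lattice act orbit diagA stab vol IsOrbitMeasure)
open scoped Classical Topology ArithmeticFunction.omega

theorem NBnd_gron {f : ℂ → ℂ} (p v : ℂ) (hv : ‖v‖ = 1) {T K : ℝ} (hT : 0 ≤ T)
    (hd : ∀ s ∈ Set.Icc 0 T, DifferentiableAt ℂ f (p + (s : ℝ) * v))
    (h0 : ∀ s ∈ Set.Icc 0 T, f (p + (s : ℝ) * v) ≠ 0)
    (hb : ∀ s ∈ Set.Icc 0 T, ‖deriv f (p + (s : ℝ) * v) / f (p + (s : ℝ) * v)‖ ≤ K) :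
    ‖f (p + T * v)‖ ≤ ‖f p‖ * Real.exp (K * T) := by
  have h1 : ∀ s ∈ Set.Icc 0 T, HasDerivAt (fun s : ℝ => f (p + (s : ℝ) * v))
      (deriv f (p + (s : ℝ) * v) * (1 * v)) s := fun s hs =>
    (((hd s hs).hasDerivAt.comp (s : ℂ) (((hasDerivAt_id (s : ℂ)).mul_const v).const_add p))
      ).comp_ofReal
  have h2 := norm_le_gronwallBound_of_norm_deriv_right_le (δ := ‖f p‖) (K := K) (ε := 0)
    (fun s hs => (h1 s hs).continuousAt.continuousWithinAt)
    (fun s hs => (h1 s (Set.Ico_subset_Icc_self hs)).hasDerivWithinAt) (by simp)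
    (fun s hs => by
      have h3 := hb s (Set.Ico_subset_Icc_self hs)
      rw [norm_div, div_le_iff₀ (norm_pos_iff.2 (h0 s (Set.Ico_subset_Icc_self hs)))] at h3
      rwa [norm_mul, one_mul, hv, mul_one, add_zero]) T ⟨hT, le_rfl⟩
  rwa [gronwallBound_ε0, sub_zero] at h2

theorem NBnd_crude {C₀ A L : ℝ} {f : ℂ → ℂ} (hC : 0 < C₀)
    (hBC : ∀ (c : ℂ) (L : ℝ), 1 ≤ L → DifferentiableOn ℂ f (Metric.ball c (13 / 12)) →
      (∀ z ∈ Metric.ball c (13 / 12), f z ≠ 0) →
      (∀ z ∈ Metric.ball c (13 / 12), ‖f z‖ ≤ Real.exp L * ‖f c‖) →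
      ∀ z ∈ Metric.closedBall c (26 / 25), ‖deriv f z / f z‖ ≤ C₀ * L)
    (hA : 1 ≤ A) (hL : 1 ≤ L) (hd : DifferentiableOn ℂ f {z | 11 / 12 < z.re})
    (h0 : ∀ z : ℂ, 11 / 12 < z.re → f z ≠ 0)
    (hb : ∀ z : ℂ, 11 / 12 < z.re → z.re ≤ 4 → ‖f z‖ ≤ Real.exp (L * (1 + |z.im|)))
    (h2 : ∀ t : ℝ, Real.exp (-A) ≤ ‖f (2 + t * I)‖) {z : ℂ} (z1 : 24 / 25 ≤ z.re)
    (z2 : z.re ≤ 2) : ‖deriv f z / f z / z‖ ≤ 3 * C₀ * (3 + A) * L := by
  have hre : ∀ w ∈ Metric.ball (2 + z.im * I) (13 / 12), 11 / 12 < w.re ∧ w.re ≤ 4 ∧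
      |w.im| ≤ |z.im| + 13 / 12 := fun w hw => by
    rw [Metric.mem_ball, dist_eq_norm] at hw
    have a1 := abs_lt.1 ((abs_re_le_norm _).trans_lt hw)
    have a2 := (abs_im_le_norm _).trans_lt hw
    simp only [sub_re, add_re, re_ofNat, mul_re, ofReal_re, I_re, mul_zero, ofReal_im, I_im,
      mul_one, sub_self, add_zero, sub_im, add_im, im_ofNat, mul_im, zero_add] at a1 a2
    have a3 := abs_sub_abs_le_abs_sub w.im z.im
    exact ⟨by linarith [a1.1], by linarith [a1.2], by linarith⟩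
  have t0 := abs_nonneg z.im
  have h3 := hBC (2 + z.im * I) (L * (3 * (1 + |z.im|)) + A) (by nlinarith)
    (hd.mono fun w hw => (hre w hw).1) (fun w hw => h0 w (hre w hw).1) (fun w hw => by
      obtain ⟨a1, a2, a3⟩ := hre w hw
      refine (hb w a1 a2).trans (le_trans ?_ (mul_le_mul_of_nonneg_left (h2 _) (by positivity)))
      rw [← Real.exp_add]
      exact Real.exp_le_exp.2 (by nlinarith)) z (by
      have e : z - (2 + z.im * I) = ((z.re - 2 : ℝ) : ℂ) := by
        apply Complex.ext <;> simp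
      rw [Metric.mem_closedBall, dist_eq_norm, e, norm_real, Real.norm_eq_abs, abs_le]
      constructor <;> linarith)
  have n1 := re_le_norm z
  have n2 := abs_im_le_norm z
  rw [norm_div, div_le_iff₀ (by linarith)]
  refine h3.trans ?_
  have n3 : L * (3 * (1 + |z.im|)) + A ≤ (3 + A) * L * (1 + |z.im|) := by
    nlinarith [mul_le_mul hL (show 1 ≤ 1 + |z.im| by linarith) zero_le_one (by linarith)]
  have n4 : (3 + A) * L * (1 + |z.im|) ≤ (3 + A) * L * (3 * ‖z‖) :=
    mul_le_mul_of_nonneg_left (by linarith) (by positivity)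
  nlinarith [mul_le_mul_of_nonneg_left (n3.trans n4) hC.le]

theorem NBnd_lines {g : ℂ → ℂ} {B L : ℝ} (hB : 0 < B) (hL : 1 ≤ L)
    (hd : DifferentiableOn ℂ g {z | 11 / 12 < z.re})
    (h1 : ∀ z : ℂ, 24 / 25 ≤ z.re → z.re ≤ 2 → ‖g z‖ ≤ B * L)
    (h2 : ∀ z : ℂ, z.re = 201 / 200 → ‖g z‖ ≤ B) {z : ℂ} (z1 : 199 / 200 ≤ z.re)
    (z2 : z.re ≤ 201 / 200) : ‖g z‖ ≤ B * L ^ (1 / 4 : ℝ) := by
  have h := HadamardThreeLines.norm_le_interp_of_mem_verticalClosedStrip' (f := g) (z := z)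
    (a := B * L) (b := B) (l := 24 / 25) (u := 201 / 200) (by norm_num) ⟨by linarith, z2⟩
    (DifferentiableOn.diffContOnCl (hd.mono fun s hs => by
      rw [HadamardThreeLines.verticalStrip, closure_preimage_re, closure_Ioo (by norm_num)] at hs
      exact lt_of_lt_of_le (by norm_num) hs.1))
    ⟨B * L, by
      rintro _ ⟨s, hs, rfl⟩
      exact h1 s hs.1 (hs.2.trans (by norm_num))⟩
    (fun s hs => h1 s (le_of_eq hs.symm) ((le_of_eq hs).trans (by norm_num))) h2
  refine h.trans ?_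
  rw [Real.mul_rpow hB.le (by linarith), mul_right_comm, ← Real.rpow_add hB, sub_add_cancel,
    Real.rpow_one]
  refine mul_le_mul_of_nonneg_left (Real.rpow_le_rpow_of_exponent_le hL ?_) hB.le
  have : (3 / 4 : ℝ) ≤ (z.re - 24 / 25) / (201 / 200 - 24 / 25) := by
    rw [le_div_iff₀ (by norm_num)]
    linarith
  linarith

theorem s_BND (hBC : NQ.BC) : BND := by
  obtain ⟨C₀, hC, hBC⟩ := hBC
  intro A hA
  have hB : 0 < 3 * C₀ * (3 + A) + A := by positivity
  have hAB : A ≤ 3 * C₀ * (3 + A) + A := le_add_of_nonneg_left (by positivity)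
  refine ⟨A + 4 * (3 * C₀ * (3 + A) + A), by positivity, fun f L hL hd h0 hb h2 h3 => ?_⟩
  have ho : IsOpen {z : ℂ | 11 / 12 < z.re} := isOpen_lt continuous_const continuous_re
  have hg : DifferentiableOn ℂ (fun z => deriv f z / f z / z) {z | 11 / 12 < z.re} :=
    ((hd.deriv ho).div hd h0).div differentiableOn_id fun z hz e => by
      rw [e] at hz
      norm_num at hz
  have h4 := fun (z : ℂ) => NBnd_lines (z := z) hB hL hg (fun z z1 z2 =>
    (NBnd_crude hC (hBC f) hA hL hd h0 hb (fun t => (h2 t).1) z1 z2).trans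
      (mul_le_mul_of_nonneg_right (by linarith) (by linarith))) fun z hz => by
    have n1 := re_le_norm z
    rw [norm_div, div_le_iff₀ (by linarith)]
    refine (h3 z hz.ge (by linarith)).trans (hAB.trans ?_)
    exact le_mul_of_one_le_right hB.le (by linarith)
  generalize 3 * C₀ * (3 + A) + A = B at *
  have hq : 1 ≤ L ^ (1 / 4 : ℝ) := Real.one_le_rpow hL (by norm_num)
  generalize L ^ (1 / 4 : ℝ) = q at *
  have h5 : ∀ z : ℂ, 199 / 200 ≤ z.re → z.re ≤ 2 →
      ‖deriv f z / f z‖ ≤ 2 * B * q * (1 + |z.im|) := fun z z1 z2 => by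
    have t0 := abs_nonneg z.im
    have hBq : B ≤ B * q := le_mul_of_one_le_right hB.le hq
    rcases le_total z.re (201 / 200) with h | h
    · have h6 := h4 z z1 h
      have n1 := re_le_norm z
      have n2 := norm_le_abs_re_add_abs_im z
      rw [abs_of_nonneg (show 0 ≤ z.re by linarith)] at n2
      rw [norm_div, div_le_iff₀ (by linarith)] at h6
      refine h6.trans ?_
      have := mul_le_mul_of_nonneg_left (show ‖z‖ ≤ 2 * (1 + |z.im|) by linarith)
        (show 0 ≤ B * q by positivity)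
      linarith
    · refine (h3 z h z2).trans ?_
      nlinarith [mul_nonneg (show 0 ≤ B * q by positivity) t0]
  have hda : ∀ z : ℂ, 11 / 12 < z.re → DifferentiableAt ℂ f z := fun z hz =>
    hd.differentiableAt (ho.mem_nhds hz)
  have hAq : A ≤ A * q := le_mul_of_one_le_right (by linarith) hq
  refine ⟨?_, fun z z1 z2 => ?_⟩
  · have r : ∀ s : ℝ, ((1 : ℂ) + (s : ℝ) * 1).re = 1 + s := fun s => by simp
    have h6 := NBnd_gron (f := f) 1 1 norm_one (T := 1) (K := 2 * B * q) zero_le_one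
      (fun s hs => hda _ (by rw [r]; linarith [hs.1]))
      (fun s hs => h0 _ (by rw [r]; linarith [hs.1])) fun s hs => by
        simpa using h5 (1 + (s : ℝ) * 1) (by rw [r]; linarith [hs.1]) (by rw [r]; linarith [hs.2])
    have h7 := (h2 0).1
    have e : (2 : ℂ) + (0 : ℝ) * I = 1 + (1 : ℝ) * 1 := by norm_num
    rw [e] at h7
    have h8 := h7.trans h6
    rw [← div_le_iff₀ (Real.exp_pos _), ← Real.exp_sub] at h8
    refine le_trans (Real.exp_le_exp.2 ?_) h8
    nlinarith [mul_pos hB (show 0 < q by linarith)]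
  · have r : ∀ s : ℝ, ((2 : ℂ) + z.im * I + (s : ℝ) * -1).re = 2 - s := fun s => by
      simp [sub_eq_add_neg]
    have r' : ∀ s : ℝ, ((2 : ℂ) + z.im * I + (s : ℝ) * -1).im = z.im := fun s => by simp
    have h6 := NBnd_gron (f := f) (2 + z.im * I) (-1) (by simp) (T := 2 - z.re)
      (K := 2 * B * q * (1 + |z.im|)) (by linarith)
      (fun s hs => hda _ (by rw [r]; linarith [hs.2]))
      (fun s hs => h0 _ (by rw [r]; linarith [hs.2])) fun s hs => by
        have := h5 _ (by rw [r s]; linarith [hs.2]) (by rw [r s]; linarith [hs.1])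
        rwa [r'] at this
    have e : (2 : ℂ) + z.im * I + ((2 - z.re : ℝ) : ℂ) * -1 = z := by
      apply Complex.ext <;> simp
    rw [e] at h6
    refine h6.trans ((mul_le_mul_of_nonneg_right (h2 _).2 (by positivity)).trans ?_)
    rw [← Real.exp_add]
    refine Real.exp_le_exp.2 ?_
    have t0 : 0 ≤ 1 + |z.im| := by positivity
    have h9 : 0 ≤ 2 * B * q * (1 + |z.im|) := by positivity
    nlinarith [mul_le_mul_of_nonneg_right hAq t0,
      mul_le_mul_of_nonneg_left (show 2 - z.re ≤ 2 by linarith) h9]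

end TP
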