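import Vale.Agent.P007.NStm

noncomputable section
namespace TP
open Complex MeasureTheory NumberField Filter ART
open Vale.Agent.P007 (Datum X lattice act orbit diagA stab vol IsOrbitMeasure)
open scoped Classical Topology ArithmeticFunction.omega

theorem NCnt0_exp {a α β η : ℝ} (hα : 0 ≤ α) (hβ : 0 ≤ β) (hη : 0 < η) :
    ∃ C : ℝ, 0 < C ∧ ∀ d : ℝ, 1 ≤ d → Real.exp (a * √(α + β * Real.log d)) ≤ C * d ^ η := by
  have hε : 0 < η / (β + 1) := by positivity
  have hε' : η / (β + 1) * β ≤ η := by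
    rw [div_mul_eq_mul_div, div_le_iff₀ (by positivity)]
    nlinarith
  generalize η / (β + 1) = ε at hε hε'
  refine ⟨Real.exp (ε * α + a ^ 2 / (4 * ε)), Real.exp_pos _, fun d hd => ?_⟩
  have hl := Real.log_nonneg hd
  rw [Real.rpow_def_of_pos (by linarith), ← Real.exp_add, Real.exp_le_exp]
  have h1 : √(α + β * Real.log d) ^ 2 = α + β * Real.log d := Real.sq_sqrt (by positivity)
  generalize √(α + β * Real.log d) = s at h1
  have h2 : a * s ≤ ε * s ^ 2 + a ^ 2 / (4 * ε) := by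
    have : ε * s ^ 2 + a ^ 2 / (4 * ε) - a * s = (2 * ε * s - a) ^ 2 / (4 * ε) := by
      field_simp
      ring
    have h3 : 0 ≤ (2 * ε * s - a) ^ 2 / (4 * ε) := by positivity
    linarith
  rw [h1] at h2
  nlinarith [mul_le_mul_of_nonneg_right hε' hl]

section aux
variable {K : Type} [Field K] [NumberField K]

theorem NCnt0_pos (J : {J : Ideal (𝓞 K) // J ≠ ⊥}) : (0 : ℝ) < Ideal.absNorm J.1 :=
  Nat.cast_pos.2 (Nat.pos_of_ne_zero fun h => J.2 (Ideal.absNorm_eq_zero_iff.1 h))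

theorem NCnt0_two (hEP : EP) (t : ℝ) : ‖zeta K (2 + t * I)‖ ≤ (zeta K 2).re := by
  have hs := (hEP K).1 2 one_lt_two
  have h1 : zeta K 2 =
      ((∑' J : {J : Ideal (𝓞 K) // J ≠ ⊥}, (Ideal.absNorm J.1 : ℝ) ^ (-(2 : ℝ)) : ℝ) : ℂ) := by
    rw [Complex.ofReal_tsum, NQ.zeta]
    refine tsum_congr fun J => ?_
    rw [Complex.ofReal_cpow (NCnt0_pos J).le]
    push_cast
    rfl
  rw [h1, ofReal_re]
  refine tsum_of_norm_bounded hs.hasSum fun J => le_of_eq ?_
  rw [← Complex.ofReal_natCast, Complex.norm_cpow_eq_rpow_re_of_pos (NCnt0_pos J)]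
  simp

theorem NCnt0_D (hZ : ZetaF K) {z : ℂ} (hz : 201 / 200 ≤ z.re) :
    ‖∑' i : HS K × ℕ, (Real.log (qv i.1) : ℂ) * (((qv i.1 : ℝ) ^ (i.2 + 1) : ℝ) : ℂ) ^ (-z)‖ ≤
      ∑' i : HS K × ℕ, Real.log (qv i.1) * ((qv i.1 : ℝ) ^ (i.2 + 1)) ^ (-(201 / 200 : ℝ)) := by
  refine tsum_of_norm_bounded (hZ.1 _ (by norm_num)).hasSum fun i => ?_
  have hq : (1 : ℝ) ≤ qv i.1 := by
    exact_mod_cast (by have := two_le_qv i.1; omega : 1 ≤ qv i.1)
  have h1 : (1 : ℝ) ≤ (qv i.1 : ℝ) ^ (i.2 + 1) := one_le_pow₀ hq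
  rw [norm_mul, Complex.norm_real, Real.norm_of_nonneg (Real.log_nonneg hq),
    Complex.norm_cpow_eq_rpow_re_of_pos (by linarith), neg_re]
  exact mul_le_mul_of_nonneg_left (Real.rpow_le_rpow_of_exponent_le h1 (by linarith))
    (Real.log_nonneg hq)

theorem NCnt0_ld (hZ : ZetaF K) {f : ℂ → ℂ} (hf : ∀ z : ℂ, 1 < z.re → f z = (z - 1) * zeta K z)
    {z : ℂ} (hz : 201 / 200 ≤ z.re) (h0 : f z ≠ 0) : ‖deriv f z / f z‖ ≤ 200 +
      ∑' i : HS K × ℕ, Real.log (qv i.1) * ((qv i.1 : ℝ) ^ (i.2 + 1)) ^ (-(201 / 200 : ℝ)) := by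
  have hz1 : 1 < z.re := by linarith
  have h1 := ((hasDerivAt_id z).sub_const 1).mul (hZ.2.1 z hz1)
  have h2 : f =ᶠ[𝓝 z] fun w => (w - 1) * zeta K w :=
    ((isOpen_lt continuous_const Complex.continuous_re).eventually_mem hz1).mono fun w hw => hf w hw
  have h3 := NCnt0_D hZ hz
  have h4 : deriv f z = _ := (h1.congr_of_eventuallyEq h2).deriv
  rw [hf z hz1] at h0
  rw [h4, hf z hz1]
  generalize ∑' i : HS K × ℕ, (Real.log (qv i.1) : ℂ) *
    (((qv i.1 : ℝ) ^ (i.2 + 1) : ℝ) : ℂ) ^ (-z) = D at h3 ⊢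
  have h5 := left_ne_zero_of_mul h0
  have h6 := right_ne_zero_of_mul h0
  have h7 : (1 * zeta K z + (id z - 1) * (-D * zeta K z)) / ((z - 1) * zeta K z)
      = (z - 1)⁻¹ - D := by
    rw [id]
    field_simp
    ring
  have h8 : ‖(z - 1)⁻¹‖ ≤ 200 := by
    have h9 := Complex.re_le_norm (z - 1)
    rw [sub_re, one_re] at h9
    rw [norm_inv]
    exact inv_le_of_inv_le₀ (by norm_num) (by linarith)
  rw [h7]
  exact (norm_sub_le _ _).trans (add_le_add h8 h3)

end aux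

theorem s_Cnt0 (hFZ : FZ) (hEB : EB) (hBND : BND) (hContT : ContT) (hZetaA : ZetaA) (hEP : EP) :
    Cnt0 := by
  intro n τ σ η hτ hτ1 hσ hσ1 hη
  obtain ⟨c, hc, hF⟩ := hFZ
  obtain ⟨A, hA, hE⟩ := hEB
  have hn : (0 : ℝ) ≤ n := n.cast_nonneg
  have hAn : 0 ≤ A * n := by positivity
  obtain ⟨B, hB, hB'⟩ := hBND (2 * n + 200 + A * n) (by linarith)
  obtain ⟨T, hT, hT'⟩ := hContT τ σ hτ hτ1 hσ hσ1
  obtain ⟨C, hC, hC'⟩ := NCnt0_exp (a := B + T * (B + 1) ^ 2) (α := 1 + c * n * n) (β := c * n)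
    (by positivity) (by positivity) hη
  refine ⟨C, hC, fun K _ _ _ hK => ?_⟩
  obtain ⟨f, f1, f2, f3, f4, f5⟩ := hF K
  have hZ := hZetaA K
  have hd : (1 : ℝ) ≤ dc K := Nat.one_le_cast.2 dc_pos
  have hl := Real.log_nonneg hd
  have h1 := hC' _ hd
  have hE' := hE K
  have z3 : (zeta K 2).re ≤ Real.exp (2 * dg K) := hZ.2.2.1
  have z4 : ∀ t : ℝ, Real.exp (-(2 * dg K)) ≤ ‖zeta K (2 + t * I)‖ := hZ.2.2.2
  rw [hK] at f5 hE' z3 z4
  have hL : c * n * (n + Real.log (dc K)) ≤ 1 + c * n * n + c * n * Real.log (dc K) := by linarith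
  have hL1 : 1 ≤ 1 + c * n * n + c * n * Real.log (dc K) := by
    have : 0 ≤ c * n * n + c * n * Real.log (dc K) := by positivity
    linarith
  generalize 1 + c * n * n + c * n * Real.log (dc K) = L at h1 hL hL1
  obtain ⟨b1, b2⟩ := hB' f L hL1 f1 f4 (fun z a b => (f5 z a b).trans (by gcongr)) (fun t => by
      have a1 : 1 ≤ ‖(2 : ℂ) + t * I - 1‖ := by
        have := Complex.re_le_norm ((2 : ℂ) + t * I - 1)
        norm_num at this
        exact this
      have a2 : ‖(2 : ℂ) + t * I - 1‖ ≤ Real.exp |t| := by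
        rw [show (2 : ℂ) + t * I - 1 = 1 + t * I by ring]
        refine (norm_add_le _ _).trans ?_
        simpa [add_comm] using Real.add_one_le_exp |t|
      rw [f2 _ (by simp), norm_mul]
      constructor
      · refine le_trans ?_ (mul_le_mul a1 (z4 t) (by positivity) (norm_nonneg _))
        rw [one_mul, Real.exp_le_exp]
        linarith
      · refine (mul_le_mul a2 ((NCnt0_two hEP t).trans z3) (norm_nonneg _) (by positivity)).trans ?_
        rw [← Real.exp_add, Real.exp_le_exp]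
        nlinarith [abs_nonneg t])
    (fun z a _ => (NCnt0_ld hZ f2 a (f4 z (by linarith))).trans (by linarith))
  have q1 : 1 ≤ L ^ (1 / 4 : ℝ) := Real.one_le_rpow hL1 (by norm_num)
  have q2 : (L ^ (1 / 4 : ℝ)) ^ 2 = √L := by
    rw [← Real.rpow_natCast, ← Real.rpow_mul (by linarith), Real.sqrt_eq_rpow]
    norm_num
  rw [← q2] at h1
  generalize L ^ (1 / 4 : ℝ) = q at b1 b2 q1 h1
  have q3 : q ≤ q ^ 2 := by nlinarith
  have q4 : 0 ≤ T * (B + 1) ^ 2 * q ^ 2 := by positivity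
  have q5 : B * q ≤ B * q ^ 2 := by gcongr
  have q6 : 0 ≤ B * q := by positivity
  have hρ := dedekindZeta_residue_pos K
  refine ⟨?_, fun Y hY => ?_⟩
  · rw [f3, Complex.norm_real, Real.norm_of_nonneg hρ.le] at b1
    refine le_trans ?_ (mul_le_mul h1 b1 (by positivity) (by positivity))
    rw [← Real.exp_add, Real.one_le_exp_iff]
    linarith
  · have := countable_ideal (K := K)
    obtain ⟨t1, t2⟩ := hT' {J : Ideal (𝓞 K) // J ≠ ⊥} inferInstance (fun J => Ideal.absNorm J.1) f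
      (dedekindZeta_residue K) ((B + 1) * q) (by nlinarith) NCnt0_pos ((hEP K).1 2 one_lt_two) f1 f3
      (fun t => by rw [f2 _ (by simp)]; simp only [Complex.ofReal_natCast]; rfl)
      (fun z a b => (b2 z a b).trans (by gcongr; linarith)) Y hY
    refine ⟨t1, t2.trans (mul_le_mul_of_nonneg_right (le_trans ?_ h1) (by positivity))⟩
    rw [Real.exp_le_exp]
    nlinarith

end TP
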