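import Vale.Agent.P007.NStm

noncomputable section
namespace TP
open Complex MeasureTheory NumberField Filter ART
open Vale.Agent.P007 (Datum X lattice act orbit diagA stab vol IsOrbitMeasure)
open scoped Classical Topology ArithmeticFunction.omega

section Aux
variable {K : Type} [Field K] [NumberField K]

theorem NCnt1_dvd (T : Finset (HS K)) (a : Ideal (𝓞 K)) :
    (∏ v ∈ T, v.asIdeal) ∣ a ↔ ∀ v ∈ T, v.asIdeal ∣ a := by
  refine ⟨fun h v hv => (Finset.dvd_prod_of_mem _ hv).trans h, fun h => ?_⟩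
  refine Finset.prod_dvd_of_coprime (fun v _ w _ hvw => ?_) h
  exact Ideal.isCoprime_iff_sup_eq.mpr
    (v.isMaximal.coprime_of_ne w.isMaximal fun e => hvw (IsDedekindDomain.HeightOneSpectrum.ext e))

theorem NCnt1_ne (T : Finset (HS K)) : (∏ v ∈ T, v.asIdeal) ≠ ⊥ :=
  Finset.prod_ne_zero_iff.mpr fun v _ => v.ne_bot

theorem NCnt1_pr (P : Finset (HS K)) (g : HS K → ℝ) :
    ∏ v ∈ P, (1 - g v) = ∑ T ∈ P.powerset, (-1 : ℝ) ^ T.card * ∏ v ∈ T, g v := by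
  rw [Finset.prod_sub (fun _ => (1 : ℝ)) g P]
  simp

theorem NCnt1_ind (P : Finset (HS K)) (a : Ideal (𝓞 K)) :
    (if ∀ v ∈ P, ¬ v.asIdeal ∣ a then (1 : ℝ) else 0) =
      ∑ T ∈ P.powerset, (-1 : ℝ) ^ T.card * if (∏ v ∈ T, v.asIdeal) ∣ a then 1 else 0 := by
  have h1 : (if ∀ v ∈ P, ¬ v.asIdeal ∣ a then (1 : ℝ) else 0) =
      ∏ v ∈ P, (1 - if v.asIdeal ∣ a then (1 : ℝ) else 0) := by
    split_ifs with h
    · exact (Finset.prod_eq_one fun v hv => by simp [h v hv]).symm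
    · push Not at h
      obtain ⟨v, hv, hd⟩ := h
      exact (Finset.prod_eq_zero hv (by simp [hd])).symm
  rw [h1, NCnt1_pr]
  refine Finset.sum_congr rfl fun T _ => ?_
  congr 1
  rw [Finset.prod_ite_zero, Finset.prod_const_one]
  simp only [NCnt1_dvd]

theorem NCnt1_shift (g : ℕ → ℝ) (t : Ideal (𝓞 K)) (ht : t ≠ ⊥) {s : ℝ}
    (h : HasSum (fun J : {J : Ideal (𝓞 K) // J ≠ ⊥} => g (Ideal.absNorm t * Ideal.absNorm J.1)) s) :
    HasSum (fun J : {J : Ideal (𝓞 K) // J ≠ ⊥} =>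
      (if t ∣ J.1 then (1 : ℝ) else 0) * g (Ideal.absNorm J.1)) s := by
  let e : {J : Ideal (𝓞 K) // J ≠ ⊥} → {J : Ideal (𝓞 K) // J ≠ ⊥} :=
    fun J => ⟨t * J.1, mul_ne_zero ht J.2⟩
  have he : Function.Injective e := fun a b hab =>
    Subtype.ext (mul_left_cancel₀ ht (congrArg Subtype.val hab))
  refine (he.hasSum_iff fun J hJ => ?_).mp ?_
  · rw [if_neg, zero_mul]
    rintro ⟨b, hb⟩
    refine hJ ⟨⟨b, ?_⟩, Subtype.ext hb.symm⟩
    rintro rfl
    exact J.2 (by rw [hb]; simp)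
  · have : ((fun J : {J : Ideal (𝓞 K) // J ≠ ⊥} =>
        (if t ∣ J.1 then (1 : ℝ) else 0) * g (Ideal.absNorm J.1)) ∘ e) =
        fun J => g (Ideal.absNorm t * Ideal.absNorm J.1) := by
      funext J
      simp [e]
    rw [this]; exact h
end Aux

theorem s_Cnt1 (hPhiL : PhiL) : Cnt1 := by
  intro K _ _ f τ σ ρ E hf hσ hE h Y F hY hF
  obtain ⟨hfin, hcard, -, -⟩ := hPhiL K f hf
  set P := hfin.toFinset with hP
  have hN : ∀ T : Finset (HS K), (1 : ℝ) ≤ (Ideal.absNorm (∏ v ∈ T, v.asIdeal) : ℝ) := fun T => by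
    exact_mod_cast Nat.one_le_iff_ne_zero.mpr (Ideal.absNorm_eq_zero_iff.not.mpr (NCnt1_ne T))
  let S : Finset (HS K) → ℝ := fun T => ∑' J : {J : Ideal (𝓞 K) // J ≠ ⊥},
    kt τ (Ideal.absNorm J.1 / (Y / Ideal.absNorm (∏ v ∈ T, v.asIdeal)))
  have h1 : ∀ T : Finset (HS K), HasSum (fun J : {J : Ideal (𝓞 K) // J ≠ ⊥} =>
      (if (∏ v ∈ T, v.asIdeal) ∣ J.1 then (1 : ℝ) else 0) * kt τ (Ideal.absNorm J.1 / Y)) (S T) := by
    intro T
    have h0 := hN T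
    refine NCnt1_shift (fun k => kt τ (k / Y)) _ (NCnt1_ne T) ?_
    have := (h (Y / Ideal.absNorm (∏ v ∈ T, v.asIdeal)) (by positivity)).1.hasSum
    have e : (fun J : {J : Ideal (𝓞 K) // J ≠ ⊥} =>
        kt τ (((Ideal.absNorm (∏ v ∈ T, v.asIdeal) * Ideal.absNorm J.1 : ℕ) : ℝ) / Y)) =
        fun J => kt τ (Ideal.absNorm J.1 / (Y / Ideal.absNorm (∏ v ∈ T, v.asIdeal))) := by
      funext J
      congr 1
      push_cast
      field_simp
    rw [e]; exact this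
  have h2 : HasSum (fun J : {J : Ideal (𝓞 K) // J ≠ ⊥} =>
      (if ∀ v ∈ P, ¬ v.asIdeal ∣ J.1 then (1 : ℝ) else 0) * kt τ (Ideal.absNorm J.1 / Y))
      (∑ T ∈ P.powerset, (-1 : ℝ) ^ T.card * S T) := by
    have := hasSum_sum (s := P.powerset) fun T _ => (h1 T).mul_left ((-1 : ℝ) ^ T.card)
    have e : (fun J : {J : Ideal (𝓞 K) // J ≠ ⊥} =>
        (if ∀ v ∈ P, ¬ v.asIdeal ∣ J.1 then (1 : ℝ) else 0) * kt τ (Ideal.absNorm J.1 / Y)) =
        fun J => ∑ T ∈ P.powerset, (-1 : ℝ) ^ T.card *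
          ((if (∏ v ∈ T, v.asIdeal) ∣ J.1 then (1 : ℝ) else 0) * kt τ (Ideal.absNorm J.1 / Y)) := by
      funext J
      rw [NCnt1_ind, Finset.sum_mul]
      exact Finset.sum_congr rfl fun T _ => mul_assoc _ _ _
    rw [e]; exact this
  have h3 : ∑ a ∈ F, kt τ (Ideal.absNorm a / Y) ≤ ∑ T ∈ P.powerset, (-1 : ℝ) ^ T.card * S T := by
    rw [← Finset.sum_subtype_of_mem (p := fun J : Ideal (𝓞 K) => J ≠ ⊥) _ fun a ha => (hF a ha).1]
    refine le_trans (le_of_eq (Finset.sum_congr rfl fun J hJ => ?_))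
      (sum_le_hasSum (F.subtype fun J => J ≠ ⊥) (fun J _ => ?_) h2)
    · rw [if_pos, one_mul]
      intro v hv hd
      have hv' : (f : 𝓞 K) ∈ v.asIdeal := hfin.mem_toFinset.mp hv
      have h4 := (hF J.1 (Finset.mem_subtype.mp hJ)).2
      refine v.isPrime.ne_top (top_le_iff.mp ?_)
      rw [← h4]
      exact sup_le (Ideal.le_of_dvd hd) ((Ideal.span_singleton_le_iff_mem _).mpr hv')
    · have : 0 ≤ kt τ (Ideal.absNorm J.1 / Y) := (Real.exp_pos _).le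
      split_ifs <;> simp [this]
  have h4 : eul K f = ∑ T ∈ P.powerset,
      (-1 : ℝ) ^ T.card * (Ideal.absNorm (∏ v ∈ T, v.asIdeal) : ℝ)⁻¹ := by
    rw [eul, finprod_mem_eq_finite_toFinset_prod _ hfin, NCnt1_pr]
    refine Finset.sum_congr rfl fun T _ => ?_
    rw [map_prod, Nat.cast_prod, Finset.prod_inv_distrib]; rfl
  have h5 : ∀ T ∈ P.powerset, (-1 : ℝ) ^ T.card * S T ≤
      ρ * ((-1 : ℝ) ^ T.card * (Ideal.absNorm (∏ v ∈ T, v.asIdeal) : ℝ)⁻¹) * Y + E * Y ^ σ := by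
    intro T _
    have h0 := hN T
    have h6 := (h (Y / Ideal.absNorm (∏ v ∈ T, v.asIdeal)) (by positivity)).2
    have h7 : (Y / Ideal.absNorm (∏ v ∈ T, v.asIdeal)) ^ σ ≤ Y ^ σ :=
      Real.rpow_le_rpow (by positivity) (div_le_self hY.le h0) hσ
    have h8 : |(-1 : ℝ) ^ T.card * (S T - ρ * (Y / Ideal.absNorm (∏ v ∈ T, v.asIdeal)))|
        ≤ E * Y ^ σ := by
      rw [abs_mul, abs_pow, abs_neg, abs_one, one_pow, one_mul]
      exact h6.trans (by gcongr)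
    have h9 := (le_abs_self _).trans h8
    rw [div_eq_mul_inv] at h9
    linarith
  have h6 : (P.powerset.card : ℝ) ≤ 2 ^ (dg K * ω f) := by
    rw [Finset.card_powerset]
    push_cast
    refine pow_le_pow_right₀ (by norm_num) ?_
    rwa [Set.ncard_eq_toFinset_card _ hfin] at hcard
  refine h3.trans ((Finset.sum_le_sum h5).trans ?_)
  rw [Finset.sum_add_distrib, ← Finset.sum_mul, ← Finset.mul_sum, ← h4, Finset.sum_const,
    nsmul_eq_mul, mul_assoc (2 ^ (dg K * ω f) : ℝ)]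
  have : 0 ≤ E * Y ^ σ := by positivity
  gcongr

end TP
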