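import Vale.Agent.P007.NStm

noncomputable section
namespace TP
open Complex MeasureTheory NumberField Filter ART
open Vale.Agent.P007 (Datum X lattice act orbit diagA stab vol IsOrbitMeasure)
open scoped Classical Topology ArithmeticFunction.omega

theorem NCnt2_kt (τ v : ℝ) : 0 ≤ kt τ v := (Real.exp_pos _).le

/-- Grouping by the part of the extension that is composed of primes above the index. -/
theorem NCnt2_group (hOrdA : OrdA) (hM1 : M1) (hMov : Mov) {n : ℕ} (D : Datum n) (τ Y : ℝ)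
    (B : Ideal (𝓞 D.K) → ℝ) (F : Finset (Submodule ℤ D.K)) (hF : ∀ I ∈ F, I ∈ BB D)
    (hB : ∀ c : Ideal (𝓞 D.K), c ≠ ⊥ → ∀ G : Finset (Ideal (𝓞 D.K)),
      (∀ a ∈ G, a ≠ ⊥ ∧ a ⊔ Ideal.span {(ix D : 𝓞 D.K)} = ⊤) →
      ∑ a ∈ G, kt τ (Ideal.absNorm a / (Y / Ideal.absNorm c)) ≤ B c) :
    ∃ (k : ℕ) (Cs : Finset (Ideal (𝓞 D.K))), (∀ c ∈ Cs, c ≠ ⊥ ∧ (ix D : 𝓞 D.K) ^ k ∈ c) ∧
      ∑ I ∈ F, kt τ (Ideal.absNorm (up D I) / Y) ≤ ∑ c ∈ Cs, (mlt D c : ℝ) * B c := by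
  have hO := hOrdA n D
  have hne : ∀ I ∈ BB D, up D I ≠ ⊥ := hO.2.2.2.2.2.2.2.2.2.2.2.2.2.2.1
  have hex : ∀ a : Ideal (𝓞 D.K), ∃ (c a' : Ideal (𝓞 D.K)) (k : ℕ), a ≠ ⊥ → a = c * a' ∧
      (ix D : 𝓞 D.K) ^ k ∈ c ∧ a' ≠ ⊥ ∧ a' ⊔ Ideal.span {(ix D : 𝓞 D.K)} = ⊤ := by
    intro a
    by_cases ha : a = ⊥
    · exact ⟨⊥, ⊥, 0, fun h => absurd ha h⟩
    · obtain ⟨c, a', k, h⟩ := (hMov D.K (ix D) hO.1).2 a ha
      exact ⟨c, a', k, fun _ => h⟩
  choose cc aa kk hcc using hex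
  have hA : ∀ a ∈ F.image (up D), a ≠ ⊥ := by
    intro a ha
    obtain ⟨I, hI, rfl⟩ := Finset.mem_image.1 ha
    exact hne I (hF I hI)
  have hc0 : ∀ a ∈ F.image (up D), cc a ≠ ⊥ := by
    intro a ha h
    have := (hcc a (hA a ha)).1
    rw [h, Ideal.bot_mul] at this
    exact hA a ha this
  refine ⟨(F.image (up D)).sup kk, (F.image (up D)).image cc, fun c hc => ?_, ?_⟩
  · obtain ⟨a, ha, rfl⟩ := Finset.mem_image.1 hc
    refine ⟨hc0 a ha, ?_⟩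
    obtain ⟨j, hj⟩ := Nat.exists_eq_add_of_le (Finset.le_sup (f := kk) ha)
    rw [hj, pow_add]
    exact Ideal.mul_mem_right _ _ (hcc a (hA a ha)).2.1
  have h1 : ∑ I ∈ F, kt τ (Ideal.absNorm (up D I) / Y) ≤
      ∑ a ∈ F.image (up D), (mlt D (cc a) : ℝ) * kt τ (Ideal.absNorm a / Y) := by
    rw [Finset.sum_comp (fun a : Ideal (𝓞 D.K) => kt τ (Ideal.absNorm a / Y)) (up D)]
    refine Finset.sum_le_sum fun a ha => ?_
    rw [nsmul_eq_mul]
    refine mul_le_mul_of_nonneg_right (Nat.cast_le.2 ?_) (NCnt2_kt _ _)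
    have h2 : (F.filter fun I => up D I = a).card ≤ mlt D a := by
      rw [mlt, ← Set.ncard_coe_finset]
      refine Set.ncard_le_ncard (fun I hI => ?_) ((hM1 n D).1 a)
      have := Finset.mem_filter.1 hI
      exact ⟨hF I this.1, this.2⟩
    obtain ⟨e, -, h3, h4⟩ := hcc a (hA a ha)
    have h5 := (hM1 n D).2 (cc a) (aa a) h3 h4
    rw [← e] at h5
    exact h2.trans h5
  refine h1.trans ?_
  rw [← Finset.sum_fiberwise_of_maps_to (g := cc) (fun a ha => Finset.mem_image_of_mem cc ha)]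
  refine Finset.sum_le_sum fun c hc => ?_
  have hc' : c ≠ ⊥ := by
    obtain ⟨a, ha, rfl⟩ := Finset.mem_image.1 hc
    exact hc0 a ha
  have hN : (Ideal.absNorm c : ℝ) ≠ 0 := by
    exact_mod_cast Ideal.absNorm_eq_zero_iff.not.2 hc'
  have h6 : ∑ a ∈ (F.image (up D)).filter (fun a => cc a = c),
      (mlt D (cc a) : ℝ) * kt τ (Ideal.absNorm a / Y) =
      (mlt D c : ℝ) * ∑ a ∈ ((F.image (up D)).filter (fun a => cc a = c)).image aa,
        kt τ (Ideal.absNorm a / (Y / Ideal.absNorm c)) := by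
    rw [Finset.sum_image, Finset.mul_sum]
    · refine Finset.sum_congr rfl fun a ha => ?_
      obtain ⟨ha1, ha2⟩ := Finset.mem_filter.1 ha
      have e := (hcc a (hA a ha1)).1
      rw [ha2] at e ⊢
      congr 2
      conv_lhs => rw [e, map_mul, Nat.cast_mul]
      rw [div_div_eq_mul_div, mul_comm]
    · intro a ha a' ha' e
      obtain ⟨ha1, ha2⟩ := Finset.mem_filter.1 ha
      obtain ⟨ha1', ha2'⟩ := Finset.mem_filter.1 ha'
      rw [(hcc a (hA a ha1)).1, (hcc a' (hA a' ha1')).1, ha2, ha2', e]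
  rw [h6]
  refine mul_le_mul_of_nonneg_left (hB c hc' _ fun a' ha' => ?_) (Nat.cast_nonneg _)
  obtain ⟨a, ha, rfl⟩ := Finset.mem_image.1 ha'
  exact (hcc a (hA a (Finset.mem_filter.1 ha).1)).2.2

theorem NCnt2_big {A η δ : ℝ} (hA : 0 < A) (hη : 0 < η) (hδ : 0 < δ) :
    ∃ D0 : ℕ, ∀ m : ℕ, D0 ≤ m → A * (m : ℝ) ^ (-δ) ≤ η := by
  have h := ((tendsto_rpow_neg_atTop hδ).comp tendsto_natCast_atTop_atTop).const_mul A
  rw [mul_zero] at h
  obtain ⟨D0, hD⟩ := eventually_atTop.1 (h.eventually (ge_mem_nhds hη))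
  exact ⟨D0, hD⟩

theorem NCnt2_err {W T E ρ f d δ C0 C' η p fn : ℝ} (hf : 0 < f) (hd : 0 < d) (hT : 0 < T)
    (hE : E = C0 * d ^ (δ / 8)) (hC0 : 0 < C0) (hρ : 1 ≤ E * ρ) (hW0 : 0 ≤ W)
    (hW : T * T * W ≤ C' * f ^ (δ / 2)) (hp0 : 0 ≤ p) (hp : fn ≤ T * p)
    (hη : C' * C0 ^ 2 * (d * f ^ 2) ^ (-(δ / 4)) ≤ η) :
    T * E * (√(d * f ^ 2)) ^ (1 - δ) * (W * fn / f) ≤ p * (ρ * √d) * η := by
  have hE0 : 0 < E := by rw [hE]; positivity
  have hρ0 : 0 < ρ := by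
    by_contra h
    push Not at h
    nlinarith [mul_nonneg hE0.le (neg_nonneg.2 h)]
  have hdf : 0 < d * f ^ 2 := by positivity
  have e1 : (√(d * f ^ 2)) ^ (1 - δ) = √d * f * (d * f ^ 2) ^ (-(δ / 2)) := by
    rw [sub_eq_add_neg, Real.rpow_add (Real.sqrt_pos.2 hdf), Real.rpow_one]
    congr 1
    · rw [Real.sqrt_mul hd.le, Real.sqrt_sq hf.le]
    · rw [Real.sqrt_eq_rpow, ← Real.rpow_mul hdf.le]
      congr 1
      ring
  have e2 : E * E * f ^ (δ / 2) * (d * f ^ 2) ^ (-(δ / 2)) =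
      C0 ^ 2 * (d * f ^ 2) ^ (-(δ / 4)) := by
    have a1 : d ^ (δ / 8) * d ^ (δ / 8) * f ^ (δ / 2) = (d * f ^ 2) ^ (δ / 4) := by
      rw [← Real.rpow_add hd, Real.mul_rpow hd.le (sq_nonneg f), ← Real.rpow_natCast f 2,
        ← Real.rpow_mul hf.le]
      congr 2
      · ring
      · push_cast; ring
    have a2 : (d * f ^ 2) ^ (δ / 4) * (d * f ^ 2) ^ (-(δ / 2)) = (d * f ^ 2) ^ (-(δ / 4)) := by
      rw [← Real.rpow_add hdf]
      congr 1
      ring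
    rw [hE, ← a2, ← a1]
    ring
  have hq : 0 < (d * f ^ 2) ^ (-(δ / 2)) := Real.rpow_pos_of_pos hdf _
  rw [e1]
  generalize (d * f ^ 2) ^ (-(δ / 2)) = q at hq e2
  have hsd : 0 ≤ √d := Real.sqrt_nonneg d
  calc T * E * (√d * f * q) * (W * fn / f) = (T * E * √d * q * W) * fn * 1 := by field_simp
    _ ≤ (T * E * √d * q * W) * (T * p) * (E * ρ) := by gcongr
    _ = p * (ρ * √d) * (T * T * W * (E * E * q)) := by ring
    _ ≤ p * (ρ * √d) * (C' * f ^ (δ / 2) * (E * E * q)) := by gcongr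
    _ = p * (ρ * √d) * (C' * (E * E * f ^ (δ / 2) * q)) := by ring
    _ ≤ p * (ρ * √d) * η := by
      rw [e2, ← mul_assoc C']
      gcongr

theorem s_Cnt2 (hOrdA : OrdA) (hCnt0 : Cnt0) (hCnt1 : Cnt1) (hPhiL : PhiL)
    (hOmB : OmB) (hM1 : M1) (hM2 : M2) (hMov : Mov) :
    Cnt2 := by
  intro n τ hn hτ hτ1 η hη
  have hn1 : (1 : ℝ) ≤ n := by exact_mod_cast hn
  obtain ⟨δ, hδ⟩ : ∃ δ : ℝ, δ = 1 / (200 * n) := ⟨_, rfl⟩
  have hδ0 : 0 < δ := by rw [hδ]; positivity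
  have hδ1 : δ ≤ 1 / 200 := by
    rw [hδ]
    exact one_div_le_one_div_of_le (by norm_num) (by linarith)
  have hδ2 : δ ≤ 1 / (2 * n) := by
    rw [hδ]
    exact one_div_le_one_div_of_le (by positivity) (by linarith)
  rw [← hδ]
  obtain ⟨C0, hC0, h0⟩ := hCnt0 n τ (1 - δ) (δ / 8) hτ hτ1 (by linarith) (by linarith)
    (by positivity)
  obtain ⟨C1, -, hC1, hM0⟩ := hM2 n 0 le_rfl (by positivity)
  obtain ⟨C2, hC2, -, hMδ⟩ := hM2 n δ hδ0.le hδ2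
  have h4 : (1 : ℝ) ≤ 2 ^ n := one_le_pow₀ (by norm_num)
  obtain ⟨C', hC', hω⟩ := hOmB (2 ^ n * 2 ^ n * C2) (δ / 2)
    (one_le_mul_of_one_le_of_one_le (one_le_mul_of_one_le_of_one_le h4 h4) hC2) (by positivity)
  obtain ⟨D0, hD0⟩ := NCnt2_big (A := C' * C0 ^ 2) (δ := δ / 4) (by positivity) hη (by positivity)
  refine ⟨D0, fun D hD s F hs hF => ?_⟩
  have := D.totallyReal
  have hO := hOrdA n D
  have hf : 0 < ix D := hO.1
  have hdg : dg D.K = n := hO.2.1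
  have hfR : (0 : ℝ) < ix D := by exact_mod_cast hf
  have hdR : (0 : ℝ) < dc D.K := by
    have : dc D.K ≠ 0 := Int.natAbs_ne_zero.2 (discr_ne_zero D.K)
    exact_mod_cast Nat.pos_of_ne_zero this
  have hab : (D.absDisc : ℝ) = dc D.K * (ix D : ℝ) ^ 2 := by
    rw [hO.2.2.1]; push_cast; ring
  have hyy : yy D = √((dc D.K : ℝ) * (ix D : ℝ) ^ 2) := by rw [yy, hab]
  have hyy' : yy D = √(dc D.K : ℝ) * ix D := by
    rw [hyy, Real.sqrt_mul hdR.le, Real.sqrt_sq hfR.le]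
  have hy0 : 0 < yy D := by rw [hyy]; positivity
  obtain ⟨hρ, hcount⟩ := h0 D.K hdg
  obtain ⟨-, -, he1, he2⟩ := hPhiL D.K (ix D) hf
  rw [hdg] at he1 he2
  obtain ⟨E, hE⟩ : ∃ E : ℝ, E = C0 * (dc D.K : ℝ) ^ (δ / 8) := ⟨_, rfl⟩
  rw [← hE] at hρ hcount
  have hE0 : 0 ≤ E := by rw [hE]; positivity
  have hT : (0 : ℝ) < 2 ^ (n * ω (ix D)) := by positivity
  have heul : 0 ≤ eul D.K (ix D) := le_trans (inv_pos.2 hT).le he1
  have hres : 0 < dedekindZeta_residue D.K := dedekindZeta_residue_pos D.K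
  have hct : 0 ≤ ct τ := by unfold ct; positivity
  have hY : 0 < yy D * s := mul_pos hy0 hs
  obtain ⟨k, Cs, hCs, hsum⟩ := NCnt2_group hOrdA hM1 hMov D τ (yy D * s)
    (fun c => dedekindZeta_residue D.K * ct τ * eul D.K (ix D) * (yy D * s / Ideal.absNorm c) +
      2 ^ (n * ω (ix D)) * E * (yy D * s / Ideal.absNorm c) ^ (1 - δ)) F hF (fun c hc G hG => by
      have hN : (0 : ℝ) < Ideal.absNorm c := by
        exact_mod_cast Nat.pos_of_ne_zero (Ideal.absNorm_eq_zero_iff.not.2 hc)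
      have := hCnt1 D.K (ix D) τ (1 - δ) (dedekindZeta_residue D.K * ct τ) E hf (by linarith) hE0
        hcount _ G (div_pos hY hN) hG
      rwa [hdg] at this)
  have m0 := hM0 D k Cs fun c hc => (hCs c hc).2
  have mδ := hMδ D k Cs fun c hc => (hCs c hc).2
  rw [hC1 rfl, one_pow, one_mul] at m0
  rw [← le_div_iff₀ hfR] at m0 mδ
  have esum : ∑ c ∈ Cs, (mlt D c : ℝ) *
      (dedekindZeta_residue D.K * ct τ * eul D.K (ix D) * (yy D * s / Ideal.absNorm c) +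
        2 ^ (n * ω (ix D)) * E * (yy D * s / Ideal.absNorm c) ^ (1 - δ)) =
      dedekindZeta_residue D.K * ct τ * eul D.K (ix D) * (yy D * s) *
        ∑ c ∈ Cs, (mlt D c : ℝ) * (Ideal.absNorm c : ℝ) ^ ((0 : ℝ) - 1) +
      2 ^ (n * ω (ix D)) * E * (yy D * s) ^ (1 - δ) *
        ∑ c ∈ Cs, (mlt D c : ℝ) * (Ideal.absNorm c : ℝ) ^ (δ - 1) := by
    rw [Finset.mul_sum, Finset.mul_sum, ← Finset.sum_add_distrib]
    refine Finset.sum_congr rfl fun c hc => ?_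
    have hN : (0 : ℝ) < Ideal.absNorm c := by
      exact_mod_cast Nat.pos_of_ne_zero (Ideal.absNorm_eq_zero_iff.not.2 (hCs c hc).1)
    rw [Real.div_rpow hY.le hN.le, zero_sub, Real.rpow_neg_one, ← neg_sub 1 δ,
      Real.rpow_neg hN.le]
    ring
  rw [esum] at hsum
  simp only [div_div]
  have hP : (0 : ℝ) ≤ phiO D := Nat.cast_nonneg _
  have hW : (2 : ℝ) ^ (n * ω (ix D)) * 2 ^ (n * ω (ix D)) * C2 ^ ω (ix D) ≤
      C' * (ix D : ℝ) ^ (δ / 2) := by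
    have := hω (ix D) hf
    rwa [mul_pow, mul_pow, ← pow_mul] at this
  have hp : (ix D : ℝ) ^ n ≤ 2 ^ (n * ω (ix D)) * phiK D.K (ix D) := by
    rw [← he2, mul_left_comm]
    refine le_mul_of_one_le_right (by positivity) ?_
    rwa [inv_le_iff_one_le_mul₀' hT] at he1
  have herr := NCnt2_err (η := η) hfR hdR hT hE hC0 hρ (pow_nonneg (zero_le_one.trans hC2) _) hW
    (Nat.cast_nonneg _) hp (by rw [← hab]; exact hD0 _ hD)
  rw [← hyy] at herr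
  have hsδ : 0 < s ^ (1 - δ) := Real.rpow_pos_of_pos hs _
  have hyδ : 0 < yy D ^ (1 - δ) := Real.rpow_pos_of_pos hy0 _
  have t1 : dedekindZeta_residue D.K * ct τ * eul D.K (ix D) * (yy D * s) *
      ((∑ c ∈ Cs, (mlt D c : ℝ) * (Ideal.absNorm c : ℝ) ^ ((0 : ℝ) - 1)) * phiO D) ≤
      phiK D.K (ix D) * (dedekindZeta_residue D.K * √(dc D.K : ℝ)) * (ct τ * s) := by
    refine (mul_le_mul_of_nonneg_left m0 (by positivity)).trans_eq ?_
    rw [← he2, hyy']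
    field_simp
  have t2 : 2 ^ (n * ω (ix D)) * E * (yy D * s) ^ (1 - δ) *
      ((∑ c ∈ Cs, (mlt D c : ℝ) * (Ideal.absNorm c : ℝ) ^ (δ - 1)) * phiO D) ≤
      phiK D.K (ix D) * (dedekindZeta_residue D.K * √(dc D.K : ℝ)) * (η * s ^ (1 - δ)) := by
    refine (mul_le_mul_of_nonneg_left mδ (by positivity)).trans ?_
    rw [Real.mul_rpow hy0.le hs.le]
    have := mul_le_mul_of_nonneg_right herr hsδ.le
    linarith
  refine (mul_le_mul_of_nonneg_right hsum hP).trans ?_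
  rw [add_mul, mul_add, mul_assoc _ _ (phiO D : ℝ), mul_assoc _ _ (phiO D : ℝ)]
  exact add_le_add t1 t2

end TP
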