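import Vale.Agent.P007.NStm
import Vale.Agent.NQ.Cont

noncomputable section
namespace TP
open Complex MeasureTheory NumberField Filter ART
open Vale.Agent.P007 (Datum X lattice act orbit diagA stab vol IsOrbitMeasure)
open scoped Classical Topology ArithmeticFunction.omega

theorem NCont_pos (τ v : ℝ) : 0 < kt τ v := Real.exp_pos _

theorem NCont_le_rpow {τ : ℝ} (hτ : 0 < τ) (A : ℝ) {y : ℝ} (hy : 0 < y) :
    kt τ y ≤ Real.exp (A ^ 2 * τ ^ 2) * y ^ (-A) := by
  rw [Real.rpow_def_of_pos hy, ← Real.exp_add]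
  refine Real.exp_le_exp.2 ?_
  rw [div_le_iff₀ (by positivity)]
  nlinarith [sq_nonneg (2 * A * τ ^ 2 - Real.log y)]

theorem NCont_le2 {τ : ℝ} (hτ : 0 < τ) (A : ℝ) {x y : ℝ} (hx : 0 < x) (hy : 0 < y) :
    kt τ (y / x) ≤ Real.exp (A ^ 2 * τ ^ 2) * x ^ A * y ^ (-A) := by
  refine (NCont_le_rpow hτ A (div_pos hy hx)).trans (le_of_eq ?_)
  rw [Real.div_rpow hy.le hx.le, Real.rpow_neg hx.le]
  field_simp

theorem NCont_meas (τ x : ℝ) : Measurable fun y : ℝ => kt τ (y / x) := by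
  unfold kt
  fun_prop

theorem NCont_intOn {τ x : ℝ} (hτ : 0 < τ) (hx : 0 < x) :
    IntegrableOn (fun y : ℝ => kt τ (y / x)) (Set.Ioi 1) := by
  have h := (integrableOn_Ioi_rpow_of_lt (a := -2) (c := 1) (by norm_num) one_pos).const_mul
    (Real.exp (2 ^ 2 * τ ^ 2) * x ^ (2 : ℝ))
  refine h.mono' (NCont_meas τ x).aestronglyMeasurable ?_
  refine (ae_restrict_iff' measurableSet_Ioi).2 (Eventually.of_forall fun y hy => ?_)
  have hy0 : 0 < y := lt_trans one_pos hy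
  rw [Real.norm_eq_abs, abs_of_pos (NCont_pos _ _)]
  exact NCont_le2 hτ 2 hx hy0

theorem NCont_low {τ x σ : ℝ} (hτ : 0 < τ) (hx : 0 < x) (hσ : σ < 1) :
    IntegrableOn (fun y : ℝ => kt τ (y / x)) (Set.Ioc 0 1) ∧
      ∫ y in Set.Ioc (0 : ℝ) 1, kt τ (y / x) ≤ Real.exp (σ ^ 2 * τ ^ 2) * x ^ σ / (1 - σ) := by
  have h0 : IntervalIntegrable (fun y : ℝ => y ^ (-σ)) volume 0 1 :=
    intervalIntegral.intervalIntegrable_rpow' (by linarith)
  have h : IntegrableOn (fun y : ℝ => Real.exp (σ ^ 2 * τ ^ 2) * x ^ σ * y ^ (-σ)) (Set.Ioc 0 1) :=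
    ((intervalIntegrable_iff_integrableOn_Ioc_of_le zero_le_one).1 h0).const_mul _
  have hi : IntegrableOn (fun y : ℝ => kt τ (y / x)) (Set.Ioc 0 1) := by
    refine h.mono' (NCont_meas τ x).aestronglyMeasurable ?_
    refine (ae_restrict_iff' measurableSet_Ioc).2 (Eventually.of_forall fun y hy => ?_)
    rw [Real.norm_eq_abs, abs_of_pos (NCont_pos _ _)]
    exact NCont_le2 hτ σ hx hy.1
  refine ⟨hi, (setIntegral_mono_on hi h measurableSet_Ioc fun y hy =>
    NCont_le2 hτ σ hx hy.1).trans (le_of_eq ?_)⟩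
  rw [integral_const_mul, ← intervalIntegral.integral_of_le zero_le_one,
    integral_rpow (Or.inl (by linarith)), Real.one_rpow, Real.zero_rpow (by linarith)]
  rw [show -σ + 1 = 1 - σ by ring]
  ring

theorem NCont_total {τ x : ℝ} (hτ : 0 < τ) (hx : 0 < x) :
    ∫ y in Set.Ioi (0 : ℝ), kt τ (y / x) = ct τ * x := by
  have him : (fun u : ℝ => x * Real.exp u) '' Set.univ = Set.Ioi 0 := by
    ext y
    constructor
    · rintro ⟨u, -, rfl⟩
      exact mul_pos hx (Real.exp_pos u)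
    · intro hy
      refine ⟨Real.log (y / x), trivial, ?_⟩
      simp only
      rw [Real.exp_log (div_pos hy hx)]
      field_simp
  have h := integral_image_eq_integral_abs_deriv_smul (s := Set.univ)
    (f := fun u : ℝ => x * Real.exp u) (f' := fun u : ℝ => x * Real.exp u) MeasurableSet.univ
    (fun u _ => ((Real.hasDerivAt_exp u).const_mul x).hasDerivWithinAt)
    (fun u _ v _ huv => Real.exp_injective (mul_left_cancel₀ hx.ne' huv))
    (fun y => kt τ (y / x))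
  rw [him, Measure.restrict_univ] at h
  rw [h]
  have e : ∀ u : ℝ, |x * Real.exp u| • kt τ (x * Real.exp u / x) =
      x * Real.exp (τ ^ 2) * Real.exp (-(1 / (4 * τ ^ 2)) * (u - 2 * τ ^ 2) ^ 2) := by
    intro u
    rw [abs_of_pos (mul_pos hx (Real.exp_pos u)), smul_eq_mul, mul_div_cancel_left₀ _ hx.ne']
    unfold kt
    rw [Real.log_exp, mul_assoc, mul_assoc, ← Real.exp_add, ← Real.exp_add]
    congr 2
    field_simp
    ring
  simp only [e]
  rw [integral_const_mul, integral_sub_right_eq_self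
    (fun u : ℝ => Real.exp (-(1 / (4 * τ ^ 2)) * u ^ 2)) (2 * τ ^ 2), integral_gaussian]
  have e2 : √(Real.pi / (1 / (4 * τ ^ 2))) = √Real.pi * (2 * τ) := by
    rw [show Real.pi / (1 / (4 * τ ^ 2)) = Real.pi * (2 * τ) ^ 2 by field_simp; ring,
      Real.sqrt_mul Real.pi_pos.le, Real.sqrt_sq (by positivity)]
  rw [e2]
  unfold ct
  ring

theorem NCont_gauss {τ : ℝ} (hτ : 0 < τ) (l : ℝ) :
    ∫ t : ℝ, Complex.exp (τ ^ 2 * (2 + t * I) ^ 2 - (2 + t * I) * l)
    = ((√Real.pi / τ * Real.exp (-l ^ 2 / (4 * τ ^ 2)) : ℝ) : ℂ) := by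
  have hb : (-(τ : ℂ) ^ 2).re < 0 := by
    rw [← ofReal_pow, ← ofReal_neg, ofReal_re]
    have := pow_pos hτ 2
    linarith
  have h := integral_cexp_quadratic hb ((4 * τ ^ 2 - l) * I) (4 * τ ^ 2 - 2 * l)
  have e : ∀ t : ℝ, (τ : ℂ) ^ 2 * (2 + t * I) ^ 2 - (2 + t * I) * l =
      -(τ : ℂ) ^ 2 * (t : ℂ) ^ 2 + (4 * τ ^ 2 - l) * I * t + (4 * τ ^ 2 - 2 * l) := fun t => by
    linear_combination (τ : ℂ) ^ 2 * (t : ℂ) ^ 2 * I_sq
  simp only [e]
  have hτ' : (τ : ℂ) ≠ 0 := by exact_mod_cast hτ.ne'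
  have e2 : √Real.pi / τ = (Real.pi / τ ^ 2) ^ (1 / 2 : ℝ) := by
    rw [← Real.sqrt_eq_rpow, Real.sqrt_div Real.pi_pos.le, Real.sqrt_sq hτ.le]
  rw [h, neg_neg, e2, ofReal_mul, ofReal_cpow (by positivity), ofReal_exp]
  congr 2
  · push_cast
    rfl
  · simp
  · push_cast
    field_simp
    linear_combination (4 * (τ : ℂ) ^ 2 - (l : ℂ)) ^ 2 * I_sq

/-- The weight on vertical lines. -/
def NContW (τ x : ℝ) (z : ℂ) : ℂ := Complex.exp (τ ^ 2 * z ^ 2 + z * Real.log x)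

theorem NCont_normW (τ : ℝ) {x : ℝ} (hx : 0 < x) (z : ℂ) :
    ‖NContW τ x z‖ =
      Real.exp (z.re ^ 2 * τ ^ 2) * x ^ z.re * Real.exp (-τ ^ 2 * z.im ^ 2) := by
  unfold NContW
  rw [Complex.norm_exp, Real.rpow_def_of_pos hx, ← Real.exp_add, ← Real.exp_add]
  congr 1
  simp only [add_re, sq, mul_re, mul_im, ofReal_re, ofReal_im]
  ring

theorem NCont_kt {τ x y : ℝ} (hτ : 0 < τ) (hx : 0 < x) (hy : 0 < y) :
    ∫ t : ℝ, (y : ℂ) ^ (-(2 + t * I)) * NContW τ x (2 + t * I) =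
      ((√Real.pi / τ * kt τ (y / x) : ℝ) : ℂ) := by
  unfold kt
  rw [← NCont_gauss hτ]
  refine integral_congr_ae (Eventually.of_forall fun t => ?_)
  simp only [NQ.Cont_cpow hy, NContW, ← Complex.exp_add, Real.log_div hy.ne' hx.ne']
  congr 1
  push_cast
  ring

theorem NCont_norm2 (τ : ℝ) {x y : ℝ} (hx : 0 < x) (hy : 0 < y) (t : ℝ) :
    ‖(y : ℂ) ^ (-(2 + t * I)) * NContW τ x (2 + t * I)‖ =
      y ^ (-2 : ℝ) * (Real.exp (2 ^ 2 * τ ^ 2) * x ^ (2 : ℝ) * Real.exp (-τ ^ 2 * t ^ 2)) := by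
  rw [norm_mul, NCont_normW τ hx, norm_cpow_eq_rpow_re_of_pos hy]
  simp

theorem NCont_diffW (τ x : ℝ) : Differentiable ℂ (NContW τ x) := by
  unfold NContW
  fun_prop

theorem NCont_mm {τ x : ℝ} (hτ : 0 < τ) (hx : 0 < x) :
    ∫ t : ℝ, 1 / (2 + t * I - 1) * NContW τ x (2 + t * I) =
      ((√Real.pi / τ * ∫ y in Set.Ioi (1 : ℝ), kt τ (y / x) : ℝ) : ℂ) := by
  have hi : Integrable (Function.uncurry fun (y t : ℝ) => Complex.exp (-((2 + t * I) * Real.log y)) *
      NContW τ x (2 + t * I)) ((volume.restrict (Set.Ioi (1 : ℝ))).prod volume) := by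
    have h := Integrable.mul_prod
      (integrableOn_Ioi_rpow_of_lt (a := -2) (c := 1) (by norm_num) one_pos)
      ((integrable_exp_neg_mul_sq (pow_pos hτ 2)).const_mul
        (Real.exp (2 ^ 2 * τ ^ 2) * x ^ (2 : ℝ)))
    refine h.mono' (Measurable.aestronglyMeasurable
      (by unfold NContW Function.uncurry; fun_prop)) ?_
    rw [Measure.restrict_prod_eq_prod_univ]
    refine (ae_restrict_iff' (measurableSet_Ioi.prod MeasurableSet.univ)).2
      (Eventually.of_forall fun p hp => ?_)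
    have hy : 0 < p.1 := lt_trans one_pos hp.1
    rw [← NCont_norm2 τ hx hy, NQ.Cont_cpow hy]
    exact le_rfl
  have h := integral_integral_swap hi
  have e1 : ∫ y in Set.Ioi (1 : ℝ), ∫ t : ℝ, Complex.exp (-((2 + t * I) * Real.log y)) *
      NContW τ x (2 + t * I) =
      ((√Real.pi / τ * ∫ y in Set.Ioi (1 : ℝ), kt τ (y / x) : ℝ) : ℂ) := by
    rw [← integral_const_mul, ← integral_complex_ofReal]
    refine setIntegral_congr_fun measurableSet_Ioi fun y hy => ?_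
    have hy0 : 0 < y := lt_trans one_pos hy
    simp only [← NQ.Cont_cpow hy0]
    exact NCont_kt hτ hx hy0
  rw [← e1, h]
  refine integral_congr_ae (Eventually.of_forall fun t => ?_)
  simp only
  rw [integral_mul_const]
  congr 1
  have e2 := integral_Ioi_cpow_of_lt (a := -(2 + t * I)) (c := 1) (by simp) one_pos
  rw [ofReal_one, one_cpow] at e2
  rw [setIntegral_congr_fun measurableSet_Ioi
    (fun y hy => (NQ.Cont_cpow (lt_trans one_pos hy) (2 + t * I)).symm), e2,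
    show -(2 + t * I) + 1 = -(2 + t * I - 1) by ring, neg_div_neg_eq]

theorem NCont_sum {ι : Type} [Countable ι] {N : ι → ℝ} {τ x : ℝ} (hτ : 0 < τ) (hx : 0 < x)
    (hN : ∀ i, 0 < N i) (hs : Summable fun i => N i ^ (-2 : ℝ)) :
    ∫ t : ℝ, (∑' i, (N i : ℂ) ^ (-(2 + t * I))) * NContW τ x (2 + t * I) =
      ((√Real.pi / τ * ∑' i, kt τ (N i / x) : ℝ) : ℂ) := by
  have hg := (integrable_exp_neg_mul_sq (pow_pos hτ 2)).const_mul
    (Real.exp (2 ^ 2 * τ ^ 2) * x ^ (2 : ℝ))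
  have h := integral_tsum_of_summable_integral_norm (μ := volume)
    (F := fun i (t : ℝ) => (N i : ℂ) ^ (-(2 + t * I)) * NContW τ x (2 + t * I))
    (fun i => (hg.const_mul (N i ^ (-2 : ℝ))).mono' (by
      simp only [NQ.Cont_cpow (hN i)]
      exact Continuous.aestronglyMeasurable (by unfold NContW; fun_prop))
      (Eventually.of_forall fun t => (NCont_norm2 τ hx (hN i) t).le))
    (by
      simp only [NCont_norm2 τ hx (hN _), integral_const_mul]
      exact hs.mul_right _)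
  simp only [← tsum_mul_right]
  rw [← h, ← tsum_mul_left, ofReal_tsum]
  exact tsum_congr fun i => NCont_kt hτ hx (hN i)

theorem NCont_line {f : ℂ → ℂ} {a K c : ℝ} (hc : 0 < c)
    (hf : ∀ z : ℂ, z.re = a → DifferentiableAt ℂ f z)
    (hK : ∀ z : ℂ, z.re = a → ‖f z‖ ≤ K * Real.exp (-c * z.im ^ 2)) :
    Integrable fun t : ℝ => f (a + t * I) := by
  refine ((integrable_exp_neg_mul_sq hc).const_mul K).mono'
    (Continuous.aestronglyMeasurable (continuous_iff_continuousAt.2 fun t => ?_))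
    (Eventually.of_forall fun t => ?_)
  · exact ContinuousAt.comp (f := fun t : ℝ => (a : ℂ) + t * I)
      (hf _ (by simp)).continuousAt (by fun_prop)
  · simpa using hK (a + t * I) (by simp)

/-- Shift of the contour. -/
theorem NCont_shift {f : ℂ → ℂ} {a b K c : ℝ} (hc : 0 < c) (hab : a ≤ b)
    (hf : ∀ z : ℂ, a ≤ z.re → z.re ≤ b → DifferentiableAt ℂ f z)
    (ia : Integrable fun t : ℝ => f (a + t * I)) (ib : Integrable fun t : ℝ => f (b + t * I))
    (hK : ∀ z : ℂ, a ≤ z.re → z.re ≤ b → 1 ≤ |z.im| → ‖f z‖ ≤ K * Real.exp (-c * z.im ^ 2)) :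
    ∫ t : ℝ, f (a + t * I) = ∫ t : ℝ, f (b + t * I) := by
  have ta := intervalIntegral_tendsto_integral ia tendsto_neg_atTop_atBot tendsto_id
  have tb := intervalIntegral_tendsto_integral ib tendsto_neg_atTop_atBot tendsto_id
  have t0 : Tendsto (fun T : ℝ => K * Real.exp (-c * T ^ 2) * |b - a|) atTop (𝓝 0) := by
    have h1 : Tendsto (fun T : ℝ => -c * T ^ 2) atTop atBot :=
      (tendsto_pow_atTop (α := ℝ) two_ne_zero).const_mul_atTop_of_neg (by linarith)
    have h3 := ((Real.tendsto_exp_atBot.comp h1).const_mul K).mul_const |b - a|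
    simpa only [mul_zero, zero_mul, Function.comp] using h3
  have hor : ∀ s : ℝ, 1 ≤ |s| → ‖∫ x : ℝ in a..b, f (x + s * I)‖ ≤
      K * Real.exp (-c * s ^ 2) * |b - a| := fun s hs =>
    intervalIntegral.norm_integral_le_of_norm_le_const fun x hx => by
      rw [Set.uIoc_of_le hab] at hx
      simpa using hK (x + s * I) (by simpa using hx.1.le) (by simpa using hx.2) (by simpa using hs)
  have h1 : Tendsto (fun T : ℝ => ∫ x : ℝ in a..b, f (x + T * I)) atTop (𝓝 0) := by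
    refine squeeze_zero_norm' ?_ t0
    filter_upwards [eventually_ge_atTop 1] with T hT
    exact hor T (hT.trans (le_abs_self T))
  have h2 : Tendsto (fun T : ℝ => ∫ x : ℝ in a..b, f (x + (-T : ℝ) * I)) atTop (𝓝 0) := by
    refine squeeze_zero_norm' ?_ t0
    filter_upwards [eventually_ge_atTop 1] with T hT
    simpa only [neg_sq] using hor (-T) (by rw [abs_neg]; exact hT.trans (le_abs_self T))
  have key := ((h2.sub h1).add (tb.const_smul I)).sub (ta.const_smul I)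
  have z : ∀ T : ℝ, (∫ x : ℝ in a..b, f (x + (-T : ℝ) * I)) - (∫ x : ℝ in a..b, f (x + T * I)) +
      I • (∫ y : ℝ in (-T)..id T, f (b + y * I)) - I • (∫ y : ℝ in (-T)..id T, f (a + y * I))
      = 0 := fun T =>
    integral_boundary_rect_eq_zero_of_differentiableOn f ⟨a, -T⟩ ⟨b, T⟩ fun z hz => by
      have h := (mem_reProdIm.1 hz).1
      rw [Set.uIcc_of_le hab] at h
      exact (hf z h.1 h.2).differentiableWithinAt
  simp only [z] at key
  have e := tendsto_nhds_unique key tendsto_const_nhds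
  rw [sub_zero, zero_add, ← smul_sub, smul_eq_zero] at e
  exact (sub_eq_zero.1 (e.resolve_left I_ne_zero)).symm

theorem NCont_exp {τ M t : ℝ} (hτ : 0 < τ) :
    Real.exp (M * (1 + |t|)) * Real.exp (-τ ^ 2 * t ^ 2) ≤
      Real.exp (M + M ^ 2 / (2 * τ ^ 2)) * Real.exp (-(τ ^ 2 / 2) * t ^ 2) := by
  rw [← Real.exp_add, ← Real.exp_add]
  refine Real.exp_le_exp.2 ?_
  have h : M * |t| - τ ^ 2 / 2 * t ^ 2 ≤ M ^ 2 / (2 * τ ^ 2) := by
    rw [le_div_iff₀ (by positivity), ← sq_abs t]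
    nlinarith [sq_nonneg (M - τ ^ 2 * |t|)]
  linarith

theorem NCont_fin {A M τ : ℝ} (hA0 : 0 < A) (hM : 1 ≤ M) :
    A * Real.exp (M + M ^ 2 / (2 * τ ^ 2)) ≤ Real.exp ((A + 1 + 1 / (2 * τ ^ 2)) * M ^ 2) := by
  have a1 : A ≤ Real.exp A := by linarith [Real.add_one_le_exp A]
  refine (mul_le_mul_of_nonneg_right a1 (Real.exp_pos _).le).trans ?_
  rw [← Real.exp_add]
  refine Real.exp_le_exp.2 ?_
  have a2 : 1 ≤ M ^ 2 := by nlinarith
  have a3 : M ≤ M ^ 2 := by nlinarith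
  have a4 : A ≤ A * M ^ 2 := by nlinarith
  have a5 : (A + 1 + 1 / (2 * τ ^ 2)) * M ^ 2 = A * M ^ 2 + M ^ 2 + M ^ 2 / (2 * τ ^ 2) := by ring
  linarith

theorem NCont_e4 {r τ : ℝ} (h0 : 0 ≤ r) (h2 : r ≤ 2) (hτ : τ ^ 2 ≤ 1) :
    Real.exp (r ^ 2 * τ ^ 2) ≤ Real.exp 4 := by
  refine Real.exp_le_exp.2 ?_
  have : r ^ 2 ≤ 4 := by nlinarith
  nlinarith [sq_nonneg r]

theorem s_ContT : ContT := by
  intro τ σ hτ hτ1 hσ hσ1
  set C0 : ℝ := ∫ t : ℝ, Real.exp (-(τ ^ 2 / 2) * t ^ 2) with hC0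
  have hC : 0 ≤ C0 := integral_nonneg fun t => by positivity
  have hδ : 0 < 1 - σ := by linarith
  set A : ℝ := Real.exp 4 / (1 - σ) * (2 * C0 + 1) with hA
  have hA0 : 0 < A := by positivity
  refine ⟨A + 1 + 1 / (2 * τ ^ 2), by positivity, ?_⟩
  intro ι _ N f ρ M hM hN hs hd h1 he hb x hx
  refine ⟨Summable.of_nonneg_of_le (fun i => (NCont_pos _ _).le)
    (fun i => NCont_le2 hτ 2 hx (hN i)) (hs.mul_left _), ?_⟩
  have hc : 0 < τ ^ 2 / 2 := by positivity
  have hτ2 : τ ^ 2 ≤ 1 := by nlinarith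
  set E : ℝ := Real.exp (M + M ^ 2 / (2 * τ ^ 2)) with hE
  have hE0 : 0 < E := Real.exp_pos _
  have hρ : |ρ| ≤ Real.exp M := by
    have := hb 1 (by simp; norm_num) (by simp)
    rw [h1] at this
    simpa using this
  have hopen : IsOpen {z : ℂ | 11 / 12 < z.re} := isOpen_lt continuous_const continuous_re
  have hds : DifferentiableOn ℂ (dslope f 1) {z : ℂ | 11 / 12 < z.re} :=
    (Complex.differentiableOn_dslope (hopen.mem_nhds (by simp; norm_num))).2 hd
  have hdiff : ∀ z : ℂ, σ ≤ z.re → DifferentiableAt ℂ (fun z => dslope f 1 z * NContW τ x z) z :=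
    fun z hz => (hds.differentiableAt (hopen.mem_nhds
      (show 11 / 12 < z.re by linarith))).mul (NCont_diffW τ x z)
  have hsl : ∀ z : ℂ, σ ≤ z.re → z.re ≤ 2 → 1 - σ ≤ ‖z - 1‖ →
      ‖dslope f 1 z‖ ≤ 2 / (1 - σ) * Real.exp (M * (1 + |z.im|)) := by
    intro z h1' h2 h3
    have hz : z ≠ 1 := by
      rintro rfl
      simp at h3
      linarith
    rw [dslope_of_ne _ hz, slope_def_field, norm_div, h1]
    have k1 := hb z (by linarith) h2
    have k2 : Real.exp M ≤ Real.exp (M * (1 + |z.im|)) :=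
      Real.exp_le_exp.2 (by nlinarith [abs_nonneg z.im])
    have k3 : ‖f z - ρ‖ ≤ 2 * Real.exp (M * (1 + |z.im|)) := by
      refine (norm_sub_le _ _).trans ?_
      rw [Complex.norm_real, Real.norm_eq_abs]
      linarith
    refine (div_le_div₀ (by positivity) k3 hδ h3).trans (le_of_eq (by ring))
  have hbd : ∀ z : ℂ, σ ≤ z.re → z.re ≤ 2 → 1 - σ ≤ ‖z - 1‖ → ‖dslope f 1 z * NContW τ x z‖ ≤
      2 / (1 - σ) * Real.exp 4 * E * x ^ z.re * Real.exp (-(τ ^ 2 / 2) * z.im ^ 2) := by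
    intro z h1' h2 h3
    rw [norm_mul, NCont_normW τ hx]
    have k1 := hsl z h1' h2 h3
    have k2 : Real.exp (z.re ^ 2 * τ ^ 2) ≤ Real.exp 4 := NCont_e4 (by linarith) h2 hτ2
    have k3 := NCont_exp (M := M) (t := z.im) hτ
    calc _ ≤ 2 / (1 - σ) * Real.exp (M * (1 + |z.im|)) *
          (Real.exp 4 * x ^ z.re * Real.exp (-τ ^ 2 * z.im ^ 2)) := by gcongr
      _ = 2 / (1 - σ) * Real.exp 4 * x ^ z.re *
          (Real.exp (M * (1 + |z.im|)) * Real.exp (-τ ^ 2 * z.im ^ 2)) := by ring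
      _ ≤ 2 / (1 - σ) * Real.exp 4 * x ^ z.re * (E * Real.exp (-(τ ^ 2 / 2) * z.im ^ 2)) := by
          gcongr
      _ = _ := by ring
  have n1 : ∀ z : ℂ, z.re = σ → 1 - σ ≤ ‖z - 1‖ := fun z hz => by
    refine le_trans ?_ (abs_re_le_norm _)
    rw [sub_re, one_re, hz, abs_sub_comm]
    exact le_abs_self _
  have n2 : ∀ z : ℂ, z.re = 2 → 1 - σ ≤ ‖z - 1‖ := fun z hz => by
    refine le_trans ?_ (re_le_norm _)
    rw [sub_re, one_re, hz]
    linarith
  have n3 : ∀ z : ℂ, 1 ≤ |z.im| → 1 - σ ≤ ‖z - 1‖ := fun z hz => by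
    refine le_trans ?_ (abs_im_le_norm _)
    rw [sub_im, one_im, sub_zero]
    linarith
  have i0 := NCont_line (f := fun z => dslope f 1 z * NContW τ x z) (a := σ)
    (K := 2 / (1 - σ) * Real.exp 4 * E * x ^ σ) hc (fun z hz => hdiff z hz.ge)
    fun z hz => by rw [← hz]; rw [← hz] at hbd; exact hbd z le_rfl (by linarith) (hz ▸ n1 z hz)
  have i1 := NCont_line (f := fun z => dslope f 1 z * NContW τ x z) (a := 2)
    (K := 2 / (1 - σ) * Real.exp 4 * E * x ^ (2 : ℝ)) hc (fun z hz => hdiff z (by linarith))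
    fun z hz => by
      have := hbd z (by linarith) hz.le (n2 z hz)
      rwa [hz] at this
  have sh := NCont_shift (f := fun z => dslope f 1 z * NContW τ x z) (a := σ) (b := 2)
    (K := 2 / (1 - σ) * Real.exp 4 * E * Real.exp (2 * |Real.log x|)) hc (by linarith)
    (fun z h1 _ => hdiff z h1) i0 i1 fun z h1' h2 h3 => by
      refine (hbd z h1' h2 (n3 z h3)).trans ?_
      have : x ^ z.re ≤ Real.exp (2 * |Real.log x|) := by
        rw [Real.rpow_def_of_pos hx]
        refine Real.exp_le_exp.2 ?_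
        nlinarith [le_abs_self (Real.log x), abs_nonneg (Real.log x)]
      gcongr
  simp only [ofReal_ofNat] at sh i1
  have hre : ∀ t : ℝ, 1 ≤ ‖(2 + t * I - 1 : ℂ)‖ := fun t => by
    refine le_trans (le_of_eq ?_) (re_le_norm _)
    simp
    norm_num
  have i2 : Integrable fun t : ℝ => 1 / (2 + t * I - 1) * NContW τ x (2 + t * I) := by
    refine ((integrable_exp_neg_mul_sq (pow_pos hτ 2)).const_mul
      (Real.exp (2 ^ 2 * τ ^ 2) * x ^ (2 : ℝ))).mono' (Continuous.aestronglyMeasurable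
      (Continuous.mul (continuous_const.div
      (by fun_prop) fun t => norm_pos_iff.1 (by linarith [hre t])) (by unfold NContW; fun_prop)))
      (Eventually.of_forall fun t => ?_)
    have h2 : ‖(1 / (2 + t * I - 1) : ℂ)‖ ≤ 1 := by
      rw [norm_div, norm_one]
      exact (div_le_one (by linarith [hre t])).2 (hre t)
    rw [norm_mul, NCont_normW τ hx]
    refine (mul_le_mul_of_nonneg_right h2 (by positivity)).trans (le_of_eq ?_)
    simp
  set mm : ℝ := ∫ y in Set.Ioi (1 : ℝ), kt τ (y / x) with hmm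
  have e : ((√Real.pi / τ * (∑' i, kt τ (N i / x) - ρ * mm) : ℝ) : ℂ) =
      ∫ t : ℝ, dslope f 1 (2 + t * I) * NContW τ x (2 + t * I) := by
    rw [mul_sub, ofReal_sub, mul_left_comm, ofReal_mul ρ, ← NCont_mm hτ hx,
      ← NCont_sum hτ hx hN hs, sub_eq_iff_eq_add, ← integral_const_mul,
      ← integral_add i1 (i2.const_mul _)]
    refine integral_congr_ae (Eventually.of_forall fun t => ?_)
    have hz : (2 + t * I - 1 : ℂ) ≠ 0 := norm_pos_iff.1 (by linarith [hre t])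
    simp only
    rw [dslope_of_ne _ (sub_ne_zero.1 hz), slope_def_field, he, h1]
    field_simp
    ring
  rw [← sh] at e
  have hn := congrArg norm e
  rw [Complex.norm_real, Real.norm_eq_abs, abs_mul, abs_of_nonneg (by positivity)] at hn
  have k1 : ‖∫ t : ℝ, dslope f 1 (σ + t * I) * NContW τ x (σ + t * I)‖ ≤
      2 / (1 - σ) * Real.exp 4 * E * x ^ σ * C0 := by
    rw [hC0, ← integral_const_mul]
    refine norm_integral_le_of_norm_le ((integrable_exp_neg_mul_sq hc).const_mul _)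
      (Eventually.of_forall fun t => ?_)
    have := hbd (σ + t * I) (by simp) (by simp; linarith) (n1 _ (by simp))
    simpa only [add_im, add_re, mul_re, ofReal_im, mul_im, ofReal_re, I_im, I_re, mul_one, mul_zero,
      add_zero, zero_add, zero_mul, sub_zero] using this
  have k2 : 1 ≤ √Real.pi / τ := by
    rw [one_le_div hτ]
    exact hτ1.trans (Real.one_le_sqrt.2 (by linarith [Real.pi_gt_three]))
  have k3 := mul_le_mul_of_nonneg_right k2 (abs_nonneg (∑' i, kt τ (N i / x) - ρ * mm))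
  have k4 : |∑' i, kt τ (N i / x) - ρ * mm| ≤ 2 / (1 - σ) * Real.exp 4 * E * x ^ σ * C0 := by
    linarith
  obtain ⟨l1, l2⟩ := NCont_low hτ hx hσ1
  have k5 : ct τ * x = (∫ y in Set.Ioc (0 : ℝ) 1, kt τ (y / x)) + mm := by
    rw [← NCont_total hτ hx, ← Set.Ioc_union_Ioi_eq_Ioi zero_le_one,
      setIntegral_union (Set.Ioc_disjoint_Ioi le_rfl) measurableSet_Ioi l1 (NCont_intOn hτ hx)]
  have l0 : 0 ≤ ∫ y in Set.Ioc (0 : ℝ) 1, kt τ (y / x) :=
    integral_nonneg fun y => (NCont_pos _ _).le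
  generalize ∫ y in Set.Ioc (0 : ℝ) 1, kt τ (y / x) = J at k5 l2 l0
  have k6 : |ρ * J| ≤ E * (Real.exp 4 * x ^ σ / (1 - σ)) := by
    rw [abs_mul, abs_of_nonneg l0]
    refine mul_le_mul (hρ.trans (Real.exp_le_exp.2 ?_)) (l2.trans ?_) l0 hE0.le
    · have : 0 ≤ M ^ 2 / (2 * τ ^ 2) := by positivity
      linarith
    · have : Real.exp (σ ^ 2 * τ ^ 2) ≤ Real.exp 4 := NCont_e4 (by linarith) (by linarith) hτ2
      gcongr
  have k7 : A * E ≤ Real.exp ((A + 1 + 1 / (2 * τ ^ 2)) * M ^ 2) := NCont_fin hA0 hM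
  have k8 : ∑' i, kt τ (N i / x) - ρ * ct τ * x = (∑' i, kt τ (N i / x) - ρ * mm) - ρ * J := by
    rw [mul_assoc, k5]
    ring
  rw [k8]
  refine (abs_sub _ _).trans ((add_le_add k4 k6).trans ?_)
  refine le_trans (le_of_eq ?_) (mul_le_mul_of_nonneg_right k7 (Real.rpow_nonneg hx.le σ))
  rw [hA]
  ring

end TP
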