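import Vale.Agent.P007.NStm

noncomputable section
namespace TP
open Complex MeasureTheory NumberField Filter ART
open Vale.Agent.P007 (Datum X lattice act orbit diagA stab vol IsOrbitMeasure)
open scoped Classical Topology ArithmeticFunction.omega

section
variable {n : ℕ} (D : Datum n)

/-- The real embeddings exhaust the complex embeddings. -/
theorem NCov_equiv : ∃ e : Fin n ≃ (D.K →ₐ[ℚ] ℂ), ∀ j x, e j x = ((D.σ j x : ℝ) : ℂ) := by
  let f : Fin n → (D.K →ₐ[ℚ] ℂ) := fun j => (Complex.ofRealHom.comp (D.σ j)).toRatAlgHom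
  have hf : Function.Injective f := by
    intro i j hij
    apply D.σ.injective
    ext x
    have := DFunLike.congr_fun hij x
    simpa [f] using this
  have hb : Function.Bijective f := by
    rw [Fintype.bijective_iff_injective_and_card]
    exact ⟨hf, by rw [AlgHom.card, D.degree, Fintype.card_fin]⟩
  exact ⟨Equiv.ofBijective f hb, fun j x => rfl⟩

theorem NCov_prod (x : D.K) : ∏ j, D.σ j x = ((Algebra.norm ℚ x : ℚ) : ℝ) := by
  obtain ⟨e, he⟩ := NCov_equiv D
  have h := Algebra.norm_eq_prod_embeddings ℚ ℂ x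
  rw [← e.prod_comp] at h
  simp only [he] at h
  apply Complex.ofReal_injective
  rw [Complex.ofReal_prod, ← h]
  simp

theorem NCov_det_sq (b : Fin n → D.K) :
    (Matrix.of fun i j => D.σ j (b i)).det ^ 2 = ((Algebra.discr ℚ b : ℚ) : ℝ) := by
  obtain ⟨e, he⟩ := NCov_equiv D
  have h := Algebra.discr_eq_det_embeddingsMatrixReindex_pow_two ℚ ℂ b e
  have h1 : Algebra.embeddingsMatrixReindex ℚ ℂ b e =
      Complex.ofRealHom.mapMatrix (Matrix.of fun i j => D.σ j (b i)) := by
    ext i j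
    simp [Algebra.embeddingsMatrixReindex, he]
  rw [h1, ← RingHom.map_det] at h
  apply Complex.ofReal_injective
  rw [Complex.ofReal_pow]
  simpa using h.symm

/-- The embedding as a linear map. -/
def NCov_emb : D.K →ₗ[ℤ] (Fin n → ℝ) :=
  LinearMap.pi fun j => (D.σ j).toAddMonoidHom.toIntLinearMap

theorem NCov_embed (I : Submodule ℤ D.K) : D.embed I = I.map (NCov_emb D) := by
  unfold Datum.embed
  change Submodule.span ℤ (NCov_emb D '' _) = _
  rw [← Submodule.map_span, Submodule.span_eq]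

theorem NCov_inj : Function.Injective (NCov_emb D) := by
  have hn : 0 < n := D.degree ▸ Module.finrank_pos
  intro x y h
  exact (D.σ ⟨0, hn⟩).injective (congrFun h ⟨0, hn⟩)

theorem NCov_span (b : Fin n → D.K) (hb : (Matrix.of fun i j => D.σ j (b i)).det ≠ 0) :
    ∃ bR : Module.Basis (Fin n) ℝ (Fin n → ℝ),
      D.embed (Submodule.span ℤ (Set.range b)) = Submodule.span ℤ (Set.range bR) ∧
      ZLattice.covolume (D.embed (Submodule.span ℤ (Set.range b))) =
        |(Matrix.of fun i j => D.σ j (b i)).det| := by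
  have hli : LinearIndependent ℝ (fun i j => (Matrix.of fun i j => D.σ j (b i)) i j) :=
    Matrix.linearIndependent_rows_of_det_ne_zero hb
  let bR : Module.Basis (Fin n) ℝ (Fin n → ℝ) := basisOfPiSpaceOfLinearIndependent hli
  have hbR : ⇑bR = fun i j => (Matrix.of fun i j => D.σ j (b i)) i j :=
    coe_basisOfPiSpaceOfLinearIndependent hli
  have hemb : D.embed (Submodule.span ℤ (Set.range b)) = Submodule.span ℤ (Set.range bR) := by
    rw [NCov_embed, Submodule.map_span, ← Set.range_comp, hbR]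
    rfl
  refine ⟨bR, hemb, ?_⟩
  rw [hemb, ZLattice.covolume_eq_measure_fundamentalDomain _ _
    (ZSpan.isAddFundamentalDomain bR volume), ZSpan.volume_real_fundamentalDomain, hbR]
  rfl

theorem NCov_det_ne (b : Module.Basis (Fin n) ℚ D.K) :
    (Matrix.of fun i j => D.σ j (b i)).det ≠ 0 := by
  intro h
  have h1 := NCov_det_sq D b
  rw [h] at h1
  have h2 := Algebra.discr_not_zero_of_basis ℚ b
  apply h2
  have : ((Algebra.discr ℚ b : ℚ) : ℝ) = 0 := by rw [← h1]; simp
  exact_mod_cast this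

/-- A full lattice has a basis. -/
theorem NCov_basis (I : Submodule ℤ D.K) (hI : I.FG)
    (hs : Submodule.span ℚ (I : Set D.K) = ⊤) :
    ∃ b : Module.Basis (Fin n) ℚ D.K, I = Submodule.span ℤ (Set.range b) := by
  have : Module.Finite ℤ I := Module.Finite.iff_fg.2 hI
  let b₀ := Module.Free.chooseBasis ℤ I
  have hsp : Submodule.span ℤ (Set.range fun i => (b₀ i : D.K)) = I := by
    have h1 := congrArg (Submodule.map I.subtype) b₀.span_eq
    rw [Submodule.map_span, ← Set.range_comp, Submodule.map_subtype_top] at h1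
    exact h1
  have hli : LinearIndependent ℚ fun i => (b₀ i : D.K) :=
    (LinearIndependent.iff_fractionRing ℤ ℚ).1
      (b₀.linearIndependent.map' I.subtype (Submodule.ker_subtype I))
  have hq : ⊤ ≤ Submodule.span ℚ (Set.range fun i => (b₀ i : D.K)) := by
    rw [← hs, Submodule.span_le]
    intro x hx
    rw [← hsp] at hx
    exact Submodule.span_subset_span ℤ ℚ _ hx
  let b₁ := Module.Basis.mk hli hq
  have hcard : Fintype.card (Module.Free.ChooseBasisIndex ℤ I) = n := by
    rw [← Module.finrank_eq_card_basis b₁, D.degree]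
  refine ⟨b₁.reindex (Fintype.equivFinOfCardEq hcard), ?_⟩
  rw [Module.Basis.range_reindex, Module.Basis.coe_mk, hsp]

theorem NCov_oK : ∃ b : Module.Basis (Fin n) ℚ D.K, oK D = Submodule.span ℤ (Set.range b) ∧
    |(Matrix.of fun i j => D.σ j (b i)).det| = √(dc D.K : ℝ) := by
  have hcard : Fintype.card (Module.Free.ChooseBasisIndex ℤ (𝓞 D.K)) = n := by
    rw [← Module.finrank_eq_card_chooseBasisIndex, RingOfIntegers.rank, D.degree]
  refine ⟨(integralBasis D.K).reindex (Fintype.equivFinOfCardEq hcard), ?_, ?_⟩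
  · ext x
    rw [Module.Basis.range_reindex, mem_span_integralBasis]
    constructor
    · intro hx
      exact ⟨⟨x, hx⟩, rfl⟩
    · rintro ⟨y, rfl⟩
      exact y.2
  · have h := NCov_det_sq D ((integralBasis D.K).reindex (Fintype.equivFinOfCardEq hcard))
    rw [Module.Basis.coe_reindex, Algebra.discr_reindex, ← coe_discr] at h
    rw [← Real.sqrt_sq_eq_abs, Module.Basis.coe_reindex, h]
    congr 1
    have h0 : (0 : ℝ) ≤ ((discr D.K : ℚ) : ℝ) := by
      rw [← h]
      positivity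
    have h1 : 0 ≤ discr D.K := by exact_mod_cast h0
    unfold dc
    rw [Nat.cast_natAbs, abs_of_nonneg h1]
    simp

/-- The covolume of an integral lattice. -/
theorem NCov_index (I : Submodule ℤ D.K) (hI : I.FG)
    (hs : Submodule.span ℚ (I : Set D.K) = ⊤) (hle : I ≤ oK D) :
    ZLattice.covolume (D.embed I) =
      I.toAddSubgroup.relIndex (oK D).toAddSubgroup * √(dc D.K : ℝ) := by
  obtain ⟨b, hb⟩ := NCov_basis D I hI hs
  obtain ⟨b', hb', hd⟩ := NCov_oK D
  obtain ⟨bR, h1, -⟩ := NCov_span D b (NCov_det_ne D b)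
  obtain ⟨bR', h1', h2'⟩ := NCov_span D b' (NCov_det_ne D b')
  rw [← hb] at h1
  rw [← hb'] at h1' h2'
  have hle' : D.embed I ≤ D.embed (oK D) := by
    rw [NCov_embed, NCov_embed]
    exact Submodule.map_mono hle
  have h3 : (D.embed I).toAddSubgroup.relIndex (D.embed (oK D)).toAddSubgroup =
      I.toAddSubgroup.relIndex (oK D).toAddSubgroup := by
    rw [NCov_embed, NCov_embed, Submodule.map_toAddSubgroup, Submodule.map_toAddSubgroup]
    exact AddSubgroup.relIndex_map_map_of_injective _ _ (NCov_inj D)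
  have h4 : ZLattice.covolume (D.embed I) / ZLattice.covolume (D.embed (oK D)) =
      (D.embed I).toAddSubgroup.relIndex (D.embed (oK D)).toAddSubgroup := by
    rw [h1, h1'] at hle' ⊢
    exact ZLattice.covolume_div_covolume_eq_relIndex _ _ hle'
  rw [h3, h2', div_eq_iff (abs_ne_zero.2 (NCov_det_ne D b')), hd] at h4
  exact h4

/-- The covolume of a multiple of a lattice. -/
theorem NCov_scale (I : Submodule ℤ D.K) (hI : I.FG)
    (hs : Submodule.span ℚ (I : Set D.K) = ⊤) (a : D.K) (ha : a ≠ 0) :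
    0 < ZLattice.covolume (D.embed I) ∧
    ZLattice.covolume (D.embed (sm D a I)) = |∏ j, D.σ j a| * ZLattice.covolume (D.embed I) := by
  obtain ⟨b, hb⟩ := NCov_basis D I hI hs
  obtain ⟨-, -, h1⟩ := NCov_span D b (NCov_det_ne D b)
  have hm : (Matrix.of fun i j => D.σ j (a * b i)) =
      (Matrix.of fun i j => D.σ j (b i)) * Matrix.diagonal fun j => D.σ j a := by
    ext i j
    simp [Matrix.mul_diagonal, mul_comm]
  have hp : ∏ j, D.σ j a ≠ 0 := Finset.prod_ne_zero_iff.2 fun j _ => (map_ne_zero _).2 ha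
  have hd : (Matrix.of fun i j => D.σ j (a * b i)).det =
      (∏ j, D.σ j a) * (Matrix.of fun i j => D.σ j (b i)).det := by
    rw [hm, Matrix.det_mul, Matrix.det_diagonal, mul_comm]
  obtain ⟨-, -, h2⟩ := NCov_span D (fun i => a * b i)
    (by rw [hd]; exact mul_ne_zero hp (NCov_det_ne D b))
  have h3 : sm D a I = Submodule.span ℤ (Set.range fun i => a * b i) := by
    unfold sm
    rw [hb, Submodule.map_span, ← Set.range_comp]
    rfl
  rw [← hb] at h1
  rw [h3, h2, h1, hd, abs_mul]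
  exact ⟨abs_pos.2 (NCov_det_ne D b), rfl⟩

theorem NCov_sm_sm (a b : D.K) (I : Submodule ℤ D.K) : sm D a (sm D b I) = sm D (a * b) I := by
  unfold sm
  rw [← Submodule.map_comp]
  congr 1
  ext x
  simp

theorem NCov_norm (x : 𝓞 D.K) :
    (Ideal.absNorm (Ideal.span {x}) : ℝ) = |∏ j, D.σ j (x : D.K)| := by
  rw [Ideal.absNorm_span_singleton, NCov_prod, ← Algebra.coe_norm_int, Nat.cast_natAbs]
  simp

end

theorem s_CovI (hOrdA : OrdA) (hIdx : Idx) : CovI := by
  intro n D I J hI hJ hIJ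
  obtain ⟨hix, -, hdisc, -, hoo, -, -, hfr, -, -, hsm, hsmul, hup, hpr, hne, -, -⟩ := hOrdA n D
  obtain ⟨-, hs, c, hc, hcI⟩ := hfr I hI.1
  have hc0 : (c : D.K) ≠ 0 := by exact_mod_cast hc.ne'
  obtain ⟨hpos, hsc⟩ := NCov_scale D I hI.1.2.1 hs c hc0
  refine ⟨hpos, fun v hv hv0 => ?_⟩
  have hI1 : sm D c I ∈ BB D := ⟨hsm I c hc0 hI, hcI⟩
  have hvJ : sm D v J ∈ BB D := by
    refine ⟨hsm J v hv0 hJ, ?_⟩
    rw [← hIJ]
    rintro _ ⟨y, hy, rfl⟩
    exact Submodule.mul_mem_mul hv hy
  refine ⟨hvJ, ?_⟩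
  have hcv : (c : D.K) * v ∈ oK D := hoo (hcI ⟨v, hv, rfl⟩)
  let x : 𝓞 D.K := ⟨(c : D.K) * v, hcv⟩
  have hprod : sm D c I * sm D v J = sm D (x : D.K) (oo D) := by
    rw [hsmul, mul_comm I, hsmul, mul_comm J, hIJ, NCov_sm_sm]
    rfl
  have h1 := hup _ _ (hI1.2.trans hoo) (hvJ.2.trans hoo)
  rw [hprod, hpr] at h1
  have h2 : (Ideal.absNorm (up D (sm D c I)) : ℝ) * Ideal.absNorm (up D (sm D v J)) =
      |∏ j, D.σ j c| * |∏ j, D.σ j v| := by
    rw [← Nat.cast_mul, ← map_mul, ← h1, NCov_norm, ← abs_mul, ← Finset.prod_mul_distrib]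
    congr 2
    ext j
    exact map_mul _ _ _
  have h3 := NCov_index D (sm D c I) hI1.1.1.2.1 (hfr _ hI1.1.1).2.1 (hI1.2.trans hoo)
  rw [hIdx n D _ hI1, hsc, Nat.cast_mul] at h3
  have hy : yy D = √(dc D.K : ℝ) * ix D := by
    unfold yy
    rw [hdisc, Nat.cast_mul, Nat.cast_pow, Real.sqrt_mul (Nat.cast_nonneg _),
      Real.sqrt_sq (Nat.cast_nonneg _)]
  have hp : 0 < |∏ j, D.σ j c| :=
    abs_pos.2 (Finset.prod_ne_zero_iff.2 fun j _ => (map_ne_zero _).2 hc0)
  have hd : 0 < √(dc D.K : ℝ) := by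
    apply Real.sqrt_pos.2
    have : dc D.K ≠ 0 := Int.natAbs_ne_zero.2 (discr_ne_zero D.K)
    positivity
  have hix' : (0 : ℝ) < ix D := by exact_mod_cast hix
  rw [hy, div_eq_div_iff hpos.ne' (by positivity)]
  apply mul_left_cancel₀ hp.ne'
  linear_combination (-(√(dc D.K : ℝ) * ix D)) * h2 -
    (Ideal.absNorm (up D (sm D v J)) : ℝ) * h3


end TP
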