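import Vale.Agent.P007.NStm

noncomputable section
namespace TP
open Complex MeasureTheory NumberField Filter ART
open Vale.Agent.P007 (Datum X lattice act orbit diagA stab vol IsOrbitMeasure)
open scoped Classical Topology ArithmeticFunction.omega

section
variable {n : ℕ} (D : Datum n)

theorem NDesc_oo (y : D.K) : y ∈ oo D ↔ y ∈ D.O := Iff.rfl

theorem NDesc_oK (y : D.K) : y ∈ oK D ↔ IsIntegral ℤ y := Iff.rfl

theorem NDesc_ex (y : D.K) (hy : IsIntegral ℤ y) : ∃ x : 𝓞 D.K, (x : D.K) = y :=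
  ⟨⟨y, hy⟩, rfl⟩

theorem NDesc_cm (x y : 𝓞 D.K) : ((x * y : 𝓞 D.K) : D.K) = x * y := by simp

theorem NDesc_ca (x y : 𝓞 D.K) : ((x + y : 𝓞 D.K) : D.K) = x + y := by simp

theorem NDesc_cn (k : ℕ) : (((k : 𝓞 D.K) : 𝓞 D.K) : D.K) = k := by simp

theorem NDesc_sm (a : D.K) (I : Submodule ℤ D.K) (y : D.K) :
    y ∈ sm D a I ↔ ∃ x ∈ I, a * x = y := by
  simp [sm, Submodule.mem_map]

/-- The image of an ideal of the maximal order in the field. -/
def NDesc_im (a : Ideal (𝓞 D.K)) : Submodule ℤ D.K :=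
  (a.restrictScalars ℤ).map ((algebraMap (𝓞 D.K) D.K).toIntAlgHom.toLinearMap)

theorem NDesc_mem_im (a : Ideal (𝓞 D.K)) (y : D.K) :
    y ∈ NDesc_im D a ↔ ∃ x ∈ a, (x : D.K) = y := by
  simp only [NDesc_im, Submodule.mem_map, Submodule.restrictScalars_mem]
  rfl

theorem NDesc_fg_im (a : Ideal (𝓞 D.K)) : (NDesc_im D a).FG := by
  apply Submodule.FG.map
  exact IsNoetherian.noetherian _

/-- The contraction of an ideal to the order. -/
def NDesc_dn (a : Ideal (𝓞 D.K)) : Submodule ℤ D.K := NDesc_im D a ⊓ oo D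

theorem NDesc_mem_dn (a : Ideal (𝓞 D.K)) (y : D.K) :
    y ∈ NDesc_dn D a ↔ (∃ x ∈ a, (x : D.K) = y) ∧ y ∈ D.O := by
  rw [NDesc_dn, Submodule.mem_inf, NDesc_mem_im, NDesc_oo]

theorem NDesc_frac (a : Ideal (𝓞 D.K)) (p : 𝓞 D.K) (hp : p ∈ a) (hp0 : p ≠ 0)
    (hpO : (p : D.K) ∈ D.O) : D.IsFracIdeal (NDesc_dn D a) := by
  refine ⟨?_, (NDesc_fg_im D a).of_le inf_le_left, ?_⟩
  · intro h
    have h1 : (p : D.K) ∈ NDesc_dn D a := (NDesc_mem_dn D a _).2 ⟨⟨p, hp, rfl⟩, hpO⟩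
    rw [h, Submodule.mem_bot] at h1
    exact hp0 (by simpa using h1)
  · intro r hr y hy
    obtain ⟨⟨x, hx, rfl⟩, hyO⟩ := (NDesc_mem_dn D a _).1 hy
    obtain ⟨r', rfl⟩ := NDesc_ex D r (D.integral r hr)
    exact (NDesc_mem_dn D a _).2 ⟨⟨r' * x, a.mul_mem_left _ hx, by simp⟩, D.O.mul_mem hr hyO⟩

theorem NDesc_frac_sm (c : D.K) (hc : c ≠ 0) (J : Submodule ℤ D.K) (hJ : D.IsFracIdeal J) :
    D.IsFracIdeal (sm D c J) := by
  obtain ⟨h0, hfg, hst⟩ := hJ
  refine ⟨?_, hfg.map _, ?_⟩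
  · intro h
    apply h0
    rw [eq_bot_iff]
    intro y hy
    have h1 : c * y ∈ sm D c J := (NDesc_sm D c J _).2 ⟨y, hy, rfl⟩
    rw [h, Submodule.mem_bot] at h1
    rw [Submodule.mem_bot]
    exact (mul_eq_zero.1 h1).resolve_left hc
  · intro r hr y hy
    obtain ⟨x, hx, rfl⟩ := (NDesc_sm D c J _).1 hy
    exact (NDesc_sm D c J _).2 ⟨r * x, hst r hr x hx, by ring⟩

theorem NDesc_sm_sm (a b : D.K) (J : Submodule ℤ D.K) (h : a * b = 1) :
    sm D a (sm D b J) = J := by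
  ext y
  rw [NDesc_sm]
  constructor
  · rintro ⟨x, hx, rfl⟩
    obtain ⟨z, hz, rfl⟩ := (NDesc_sm D b J _).1 hx
    rwa [← mul_assoc, h, one_mul]
  · intro hy
    exact ⟨b * y, (NDesc_sm D b J _).2 ⟨y, hy, rfl⟩, by rw [← mul_assoc, h, one_mul]⟩

/-- The product of the two contractions is principal. -/
theorem NDesc_prod (f : ℕ) (hf : ∀ x : 𝓞 D.K, (f : D.K) * x ∈ D.O) (a b : Ideal (𝓞 D.K))
    (p w : 𝓞 D.K) (hpw : p + f * w = 1) (hab : a * b = Ideal.span {p}) (hp0 : p ≠ 0) :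
    NDesc_dn D a * NDesc_dn D b = sm D (p : D.K) (oo D) := by
  have hpab : p ∈ a * b := by rw [hab]; exact Ideal.mem_span_singleton_self p
  have hpa : p ∈ a := Ideal.mul_le_left hpab
  have hpb : p ∈ b := Ideal.mul_le_right hpab
  have hK : (p : D.K) + f * w = 1 := by
    have := congrArg (fun x : 𝓞 D.K => (x : D.K)) hpw
    simpa using this
  have hpO : (p : D.K) ∈ D.O := by
    have : (p : D.K) = 1 - f * w := by rw [← hK]; ring
    rw [this]
    exact D.O.sub_mem D.O.one_mem (hf w)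
  have hp0' : (p : D.K) ≠ 0 := by simpa using hp0
  apply le_antisymm
  · rw [Submodule.mul_le]
    intro y hy z hz
    obtain ⟨⟨y', hy', rfl⟩, hyO⟩ := (NDesc_mem_dn D a _).1 hy
    obtain ⟨⟨z', hz', rfl⟩, hzO⟩ := (NDesc_mem_dn D b _).1 hz
    have h1 : y' * z' ∈ Ideal.span {p} := hab ▸ Ideal.mul_mem_mul hy' hz'
    obtain ⟨t, ht⟩ := Ideal.mem_span_singleton'.1 h1
    have ht' : (t : D.K) * p = y' * z' := by
      have := congrArg (fun x : 𝓞 D.K => (x : D.K)) ht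
      simpa using this
    refine (NDesc_sm D _ _ _).2 ⟨t, ?_, by rw [← ht']; ring⟩
    have h2 : (t : D.K) = y' * z' + f * ((t * w : 𝓞 D.K) : D.K) := by
      rw [← ht']
      push_cast
      linear_combination (-(t : D.K)) * hK
    rw [NDesc_oo, h2]
    exact D.O.add_mem (D.O.mul_mem hyO hzO) (hf _)
  · have hsq : ∀ z ∈ a * b, (f : D.K) ^ 2 * (z : D.K) ∈ NDesc_dn D a * NDesc_dn D b := by
      intro z hz
      refine Submodule.mul_induction_on hz ?_ ?_
      · intro x hx y hy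
        have h1 : (f : D.K) ^ 2 * ((x * y : 𝓞 D.K) : D.K) = ((f : D.K) * x) * ((f : D.K) * y) := by
          push_cast
          ring
        rw [h1]
        refine Submodule.mul_mem_mul ?_ ?_
        · exact (NDesc_mem_dn D a _).2 ⟨⟨f * x, a.mul_mem_left _ hx, by simp⟩, hf x⟩
        · exact (NDesc_mem_dn D b _).2 ⟨⟨f * y, b.mul_mem_left _ hy, by simp⟩, hf y⟩
      · intro x y hx hy
        have h1 : (f : D.K) ^ 2 * ((x + y : 𝓞 D.K) : D.K)
            = (f : D.K) ^ 2 * x + (f : D.K) ^ 2 * y := by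
          push_cast
          ring
        rw [h1]
        exact Submodule.add_mem _ hx hy
    intro v hv
    obtain ⟨y, hy, rfl⟩ := (NDesc_sm D _ _ _).1 hv
    rw [NDesc_oo] at hy
    obtain ⟨y', hyy⟩ := NDesc_ex D y (D.integral y hy)
    have hpb' : (p : D.K) ∈ NDesc_dn D b := (NDesc_mem_dn D b _).2 ⟨⟨p, hpb, rfl⟩, hpO⟩
    have h1 : (p : D.K) * y = ((p : D.K) * (p * y + f * (((w + w) * y' : 𝓞 D.K) : D.K))) * p
        + (f : D.K) ^ 2 * ((w * w * y' * p : 𝓞 D.K) : D.K) := by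
      simp only [NDesc_cm, NDesc_ca, hyy]
      linear_combination (-(p : D.K) * y * (1 + p + f * w)) * hK
    rw [h1]
    refine Submodule.add_mem _ (Submodule.mul_mem_mul ?_ hpb') (hsq _ ((a * b).mul_mem_left _ hpab))
    refine (NDesc_mem_dn D a _).2 ⟨⟨p * (p * y' + f * ((w + w) * y')), a.mul_mem_right _ hpa, ?_⟩,
      D.O.mul_mem hpO (D.O.add_mem (D.O.mul_mem hpO hy) (hf _))⟩
    simp only [NDesc_cm, NDesc_ca, NDesc_cn, hyy]

/-- A multiple of the extended ideal lies in the lattice. -/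
theorem NDesc_up_mul (I N : Submodule ℤ D.K) (y : D.K)
    (h : ∀ (r x : 𝓞 D.K), (x : D.K) ∈ I → y * (r * x) ∈ N) :
    ∀ z ∈ up D I, y * (z : D.K) ∈ N := by
  have key : ∀ z ∈ up D I, ∀ r : 𝓞 D.K, y * (r * z : D.K) ∈ N := by
    intro z hz
    refine Submodule.span_induction (p := fun z _ => ∀ r : 𝓞 D.K, y * (r * (z : 𝓞 D.K) : D.K) ∈ N)
      ?_ ?_ ?_ ?_ hz
    · intro x hx r
      exact h r x hx
    · intro r
      simp
    · intro u v _ _ hu hv r
      have h1 : y * ((r : D.K) * ((u + v : 𝓞 D.K) : D.K)) = y * (r * u) + y * (r * v) := by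
        push_cast
        ring
      rw [h1]
      exact N.add_mem (hu r) (hv r)
    · intro s u _ hu r
      have h1 : y * ((r : D.K) * ((s • u : 𝓞 D.K) : D.K)) = y * (((r * s : 𝓞 D.K) : D.K) * u) := by
        rw [smul_eq_mul]
        push_cast
        ring
      rw [h1]
      exact hu (r * s)
  intro z hz
  simpa using key z hz 1

end

theorem s_Desc (hOrdA : OrdA) : Desc := by
  intro n D a ha hcop
  obtain ⟨hf0, -, -, hf, -, -, hPI, -, -, -, -, hsm, -⟩ := hOrdA n D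
  have hex : ∃ p ∈ a, ∃ w : 𝓞 D.K, p ≠ 0 ∧ p + ix D * w = 1 := by
    have h1 : (1 : 𝓞 D.K) ∈ a ⊔ Ideal.span {(ix D : 𝓞 D.K)} := by rw [hcop]; trivial
    obtain ⟨p, hp, q, hq, hpq⟩ := Submodule.mem_sup.1 h1
    obtain ⟨w, rfl⟩ := Ideal.mem_span_singleton'.1 hq
    by_cases hp0 : p = 0
    · obtain ⟨x, hx, hx0⟩ := Submodule.exists_mem_ne_zero_of_ne_bot ha
      refine ⟨ix D * x, a.mul_mem_left _ hx, w - x, mul_ne_zero (by exact_mod_cast hf0.ne') hx0, ?_⟩
      rw [hp0] at hpq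
      linear_combination hpq
    · exact ⟨p, hp, w, hp0, by linear_combination hpq⟩
  obtain ⟨p, hp, w, hp0, hpw⟩ := hex
  obtain ⟨b, hb⟩ : a ∣ Ideal.span {p} :=
    Ideal.dvd_iff_le.2 ((Ideal.span_singleton_le_iff_mem a).2 hp)
  have hK : (p : D.K) + ix D * w = 1 := by
    have := congrArg (fun x : 𝓞 D.K => (x : D.K)) hpw
    simpa using this
  have hpO : (p : D.K) ∈ D.O := by
    have : (p : D.K) = 1 - ix D * w := by rw [← hK]; ring
    rw [this]
    exact D.O.sub_mem D.O.one_mem (hf w)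
  have hp0' : (p : D.K) ≠ 0 := by simpa using hp0
  have hpb : p ∈ b := Ideal.mul_le_right (hb ▸ Ideal.mem_span_singleton_self p : p ∈ a * b)
  have hprod := NDesc_prod D (ix D) hf a b p w hpw hb.symm hp0
  refine ⟨NDesc_dn D a, ⟨?_, inf_le_right⟩, ?_, p, (NDesc_mem_dn D a _).2 ⟨⟨p, hp, rfl⟩, hpO⟩,
    w, hK⟩
  · refine (hPI _).2 ⟨NDesc_frac D a p hp hp0 hpO, sm D (p : D.K)⁻¹ (NDesc_dn D b),
      NDesc_frac_sm D _ (inv_ne_zero hp0') _ (NDesc_frac D b p hpb hp0 hpO), ?_⟩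
    rw [mul_comm, hsm, mul_comm, hprod, NDesc_sm_sm D _ _ _ (inv_mul_cancel₀ hp0')]
  · apply le_antisymm
    · rw [up, Ideal.span_le]
      intro x hx
      obtain ⟨⟨x', hx', hxx⟩, -⟩ := (NDesc_mem_dn D a _).1 hx
      have : x' = x := Subtype.ext hxx
      exact this ▸ hx'
    · intro z hz
      have h1 : z = z * p + w * (ix D * z) := by linear_combination (-z) * hpw
      rw [h1]
      refine Ideal.add_mem _ (Ideal.mul_mem_left _ _ (Ideal.subset_span ?_))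
        (Ideal.mul_mem_left _ _ (Ideal.subset_span ?_))
      · exact (NDesc_mem_dn D a _).2 ⟨⟨p, hp, rfl⟩, hpO⟩
      · refine (NDesc_mem_dn D a _).2 ⟨⟨ix D * z, a.mul_mem_left _ hz, rfl⟩, ?_⟩
        simpa using hf z

theorem NDesc_fin (hOrdA : OrdA) (n : ℕ) (D : Datum n) (a : Ideal (𝓞 D.K)) :
    {I ∈ BB D | up D I = a}.Finite := by
  obtain ⟨hf0, -, -, hf, hoK, -, -, -, -, -, -, -, -, -, hne, -⟩ := hOrdA n D
  by_cases ha : a = ⊥
  · have : {I ∈ BB D | up D I = a} = ∅ := by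
      ext I
      simp only [Set.mem_ofPred_eq, Set.mem_empty_iff_false, iff_false, not_and]
      intro hI h
      exact hne I hI (h.trans ha)
    rw [this]
    exact Set.finite_empty
  have hN : Ideal.span {(ix D : 𝓞 D.K)} * a ≠ ⊥ := by
    refine mul_ne_zero ?_ ha
    rw [Ideal.zero_eq_bot, Ne, Ideal.span_singleton_eq_bot]
    exact_mod_cast hf0.ne'
  have := Ideal.finiteQuotientOfFreeOfNeBot _ hN
  have hin : ∀ I ∈ {I ∈ BB D | up D I = a}, ∀ z ∈ Ideal.span {(ix D : 𝓞 D.K)} * a,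
      (z : D.K) ∈ I := by
    rintro I ⟨hI, hIa⟩ z hz
    obtain ⟨t, ht, rfl⟩ := Ideal.mem_span_singleton_mul.1 hz
    have := NDesc_up_mul D I I (ix D : D.K) (fun r x hx => by
      rw [← mul_assoc]
      exact hI.1.1.2.2 _ (hf r) _ hx) t (hIa ▸ ht)
    simpa using this
  have hle : ∀ I ∈ {I ∈ BB D | up D I = a}, ∀ J ∈ {I ∈ BB D | up D I = a},
      {q | ∃ x : 𝓞 D.K, (x : D.K) ∈ I ∧
        Ideal.Quotient.mk (Ideal.span {(ix D : 𝓞 D.K)} * a) x = q} =
      {q | ∃ x : 𝓞 D.K, (x : D.K) ∈ J ∧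
        Ideal.Quotient.mk (Ideal.span {(ix D : 𝓞 D.K)} * a) x = q} → I ≤ J := by
    intro I hI J hJ h y hy
    have hyI : IsIntegral ℤ y := (NDesc_oK D y).1 (hoK (hI.1.2 hy))
    obtain ⟨y', rfl⟩ := NDesc_ex D y hyI
    have h1 : Ideal.Quotient.mk (Ideal.span {(ix D : 𝓞 D.K)} * a) y' ∈
        {q | ∃ x : 𝓞 D.K, (x : D.K) ∈ I ∧
          Ideal.Quotient.mk (Ideal.span {(ix D : 𝓞 D.K)} * a) x = q} := ⟨y', hy, rfl⟩
    rw [h] at h1
    obtain ⟨x, hx, hxy⟩ := h1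
    have h2 := hin J hJ _ (Ideal.Quotient.eq.1 hxy)
    have h3 : (y' : D.K) = (x : D.K) - ((x - y' : 𝓞 D.K) : D.K) := by
      push_cast
      ring
    rw [h3]
    exact J.sub_mem hx h2
  refine Set.Finite.of_finite_image (f := fun I : Submodule ℤ D.K => {q | ∃ x : 𝓞 D.K,
    (x : D.K) ∈ I ∧ Ideal.Quotient.mk (Ideal.span {(ix D : 𝓞 D.K)} * a) x = q})
    (Set.toFinite _) ?_
  intro I hI J hJ h
  exact le_antisymm (hle I hI J hJ h) (hle J hJ I hI h.symm)

theorem s_M1 (hOrdA : OrdA) (hDesc : Desc) : M1 := by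
  intro n D
  refine ⟨NDesc_fin hOrdA n D, ?_⟩
  intro c a ha hcop
  obtain ⟨I', hI', hup, p, hp, w, hpw⟩ := hDesc n D a ha hcop
  obtain ⟨hf0, -, -, hf, hoK, -, -, hfr, hmul, hinv, -, -, hupm, -, hne, -⟩ := hOrdA n D
  obtain ⟨J', hJ', hIJ⟩ := hinv I' hI'.1
  have hcan : ∀ I : Submodule ℤ D.K, D.IsFracIdeal I → I * J' * I' = I := by
    intro I hI
    rw [mul_assoc, mul_comm J', hIJ, (hfr I hI).1]
  refine Set.ncard_le_ncard_of_injOn (fun I => I * J') ?_ ?_ (NDesc_fin hOrdA n D c)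
  · rintro I ⟨hI, hIa⟩
    have hle : I * J' ≤ oo D := by
      intro y hy
      have hyI : ∀ x ∈ I', y * x ∈ I := fun x hx => by
        rw [← hcan I hI.1.1]
        exact Submodule.mul_mem_mul hy hx
      have hint : IsIntegral ℤ y := by
        refine isIntegral_of_smul_mem_submodule (NDesc_im D a) ?_ (NDesc_fg_im D a) y ?_
        · obtain ⟨x, hx, hx0⟩ := Submodule.exists_mem_ne_zero_of_ne_bot ha
          intro h
          have h1 : (x : D.K) ∈ NDesc_im D a := (NDesc_mem_im D a _).2 ⟨x, hx, rfl⟩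
          rw [h, Submodule.mem_bot] at h1
          exact hx0 (by simpa using h1)
        · intro v hv
          obtain ⟨z, hz, rfl⟩ := (NDesc_mem_im D a _).1 hv
          rw [smul_eq_mul]
          refine NDesc_up_mul D I' _ y ?_ z (hup ▸ hz)
          intro r x hx
          have h1 := hyI _ hx
          have h2 : IsIntegral ℤ (y * x) := (NDesc_oK D _).1 (hoK (hI.2 h1))
          obtain ⟨t, h4⟩ := NDesc_ex D _ h2
          have h3 : t ∈ up D I := Ideal.subset_span (show (t : D.K) ∈ I by rw [h4]; exact h1)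
          rw [hIa] at h3
          refine (NDesc_mem_im D a _).2 ⟨r * t, a.mul_mem_left _ (Ideal.mul_le_right h3), ?_⟩
          rw [NDesc_cm, h4]
          ring
      obtain ⟨y', h4⟩ := NDesc_ex D y hint
      have h5 : y = y * p + ix D * ((y' * w : 𝓞 D.K) : D.K) := by
        rw [NDesc_cm, h4]
        linear_combination (-y) * hpw
      rw [NDesc_oo, h5]
      exact D.O.add_mem (hI.2 (hyI p hp)) (hf _)
    refine ⟨⟨hmul I J' hI.1 hJ', hle⟩, ?_⟩
    have h1 := hupm (I * J') I' (hle.trans hoK) (hI'.2.trans hoK)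
    rw [hcan I hI.1.1, hIa, hup] at h1
    exact (mul_right_cancel₀ ha h1).symm
  · rintro I ⟨hI, -⟩ J ⟨hJ, -⟩ h
    have h' : I * J' = J * J' := h
    rw [← hcan I hI.1.1, ← hcan J hJ.1.1, h']

theorem s_Mov : Mov := by
  intro K _ _ f hf
  have hF : Ideal.span {(f : 𝓞 K)} ≠ ⊥ := by
    rw [Ne, Ideal.span_singleton_eq_bot]
    exact_mod_cast hf.ne'
  constructor
  · intro c
    by_cases htop : Ideal.span {(f : 𝓞 K)} = ⊤
    · obtain ⟨a, ha⟩ := ClassGroup.mk0_surjective c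
      exact ⟨a, ha, by rw [htop, sup_top_eq]⟩
    obtain ⟨b, hb⟩ := ClassGroup.mk0_surjective c⁻¹
    have hb0 : (b : Ideal (𝓞 K)) ≠ 0 := nonZeroDivisors.coe_ne_zero b
    obtain ⟨x, hx⟩ := IsDedekindDomain.exists_sup_span_eq
      (I := (b : Ideal (𝓞 K)) * Ideal.span {(f : 𝓞 K)}) (J := b) Ideal.mul_le_left
      (mul_ne_zero hb0 hF)
    obtain ⟨a, ha⟩ : (b : Ideal (𝓞 K)) ∣ Ideal.span {x} :=
      Ideal.dvd_iff_le.2 (le_sup_right.trans hx.le)
    have hcop : a ⊔ Ideal.span {(f : 𝓞 K)} = ⊤ := by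
      rw [ha, ← Ideal.mul_sup] at hx
      rw [sup_comm]
      refine mul_left_cancel₀ hb0 ?_
      rw [hx, Ideal.mul_top]
    have ha0 : a ≠ 0 := by
      intro h
      rw [h, Ideal.zero_eq_bot, bot_sup_eq] at hcop
      exact htop hcop
    refine ⟨⟨a, mem_nonZeroDivisors_of_ne_zero ha0⟩, ?_, hcop⟩
    rw [← inv_inv c, ← hb, ClassGroup.mk0_eq_mk0_inv_iff]
    refine ⟨x, ?_, by rw [ha, mul_comm]⟩
    intro h
    rw [h, Ideal.span_singleton_zero] at ha
    exact mul_ne_zero hb0 ha0 ha.symm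
  · intro a
    refine UniqueFactorizationMonoid.induction_on_prime a ?_ ?_ ?_
    · intro h
      exact absurd rfl h
    · intro u hu _
      rw [Ideal.isUnit_iff] at hu
      exact ⟨⊤, ⊤, 0, by simp [hu], trivial, by simp, by simp⟩
    · intro b P hb hP ih _
      obtain ⟨c, a', k, rfl, hk, ha', hcop⟩ := ih hb
      by_cases hfP : (f : 𝓞 K) ∈ P
      · refine ⟨P * c, a', k + 1, by rw [mul_assoc], ?_, ha', hcop⟩
        rw [pow_succ']
        exact Ideal.mul_mem_mul hfP hk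
      · refine ⟨c, P * a', k, by ring, hk, mul_ne_zero hP.ne_zero ha', ?_⟩
        have hmax : P.IsMaximal := (Ideal.isPrime_of_prime hP).isMaximal hP.ne_zero
        have hPf : P ⊔ Ideal.span {(f : 𝓞 K)} = ⊤ := by
          refine hmax.out.2 _ (lt_of_le_of_ne le_sup_left ?_)
          intro h
          exact hfP (h ▸ Ideal.mem_sup_right (Ideal.mem_span_singleton_self _))
        rw [← Ideal.isCoprime_iff_sup_eq] at hPf hcop ⊢
        exact hPf.mul_left hcop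

end TP
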