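import Vale.Agent.P007.NStm
import Vale.Agent.NQ.EulB

noncomputable section
namespace TP
open Complex MeasureTheory NumberField Filter ART
open Vale.Agent.P007 (Datum X lattice act orbit diagA stab vol IsOrbitMeasure)
open scoped Classical Topology ArithmeticFunction.omega

theorem s_EB : EB := by
  have h1 : (1 : ℝ) < 401 / 400 := by norm_num
  have h0 : 0 ≤ ∑' n : ℕ, ((n + 2 : ℕ) : ℝ) ^ (-(401 / 400) : ℝ) :=
    tsum_nonneg fun _ => by positivity
  refine ⟨800 * (∑' n : ℕ, ((n + 2 : ℕ) : ℝ) ^ (-(401 / 400) : ℝ)) + 1, by positivity,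
    fun K _ _ => ?_⟩
  have h2 := NQ.EulB_sum (F := K) h1
  have h3 : ∑' v : HS K, (qv v : ℝ) ^ (-(401 / 400) : ℝ) ≤ _ :=
    Real.tsum_le_of_sum_le (fun _ => by positivity) (NQ.sum_qv_le h1)
  have h4 := (NQ.EulB_sum_log (F := K) (θ := 201 / 200) (by norm_num)).tsum_le_tsum
    (fun i => ?_) (h2.1.mul_left 400)
  · rw [tsum_mul_left] at h4
    have h5 : (0 : ℝ) ≤ Module.finrank ℚ K := Nat.cast_nonneg _
    refine le_trans h4 ?_
    unfold dg
    nlinarith [h2.2]
  · have k2 := NQ.EulB_two i.1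
    have k3 := NQ.EulB_pos i
    have k4 := (Real.log_le_log (by linarith) (NQ.EulB_le i)).trans
      (Real.log_le_rpow_div k3.le (by norm_num : (0 : ℝ) < 1 / 400))
    refine (mul_le_mul_of_nonneg_right k4 (Real.rpow_nonneg k3.le _)).trans_eq ?_
    rw [show (-(401 / 400) : ℝ) = 1 / 400 + -(201 / 200) by norm_num, Real.rpow_add k3]
    ring


end TP
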