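import Vale.Agent.P007.NStm
import Vale.Agent.NQ.BC

noncomputable section
namespace TP
open Complex MeasureTheory NumberField Filter ART
open Vale.Agent.P007 (Datum X lattice act orbit diagA stab vol IsOrbitMeasure)
open scoped Classical Topology ArithmeticFunction.omega

theorem NFZ_sin (z : ℂ) : ‖sin z‖ ≤ Real.exp |z.im| := by
  have h1 : ‖exp (-z * I)‖ ≤ Real.exp |z.im| := by
    rw [norm_exp]
    exact Real.exp_le_exp.2 (by simpa using le_abs_self _)
  have h2 : ‖exp (z * I)‖ ≤ Real.exp |z.im| := by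
    rw [norm_exp]
    exact Real.exp_le_exp.2 (by simpa using neg_le_abs _)
  have h3 := norm_sub_le (exp (-z * I)) (exp (z * I))
  rw [sin, norm_div, norm_mul, norm_I, mul_one, Complex.norm_two]
  linarith

theorem NFZ_gam {s : ℂ} {B : ℝ} (h : 1 ≤ |s.im|) (hB : ‖Gamma (3 - s)‖ ≤ B) :
    ‖(Gamma s)⁻¹‖ ≤ B * Real.exp (4 * |s.im|) := by
  have h1 : 1 ≤ ‖1 - s‖ := by
    have := abs_im_le_norm (1 - s)
    simp only [sub_im, one_im, zero_sub, abs_neg] at this
    linarith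
  have h2 : 1 ≤ ‖1 - s + 1‖ := by
    have := abs_im_le_norm (1 - s + 1)
    simp only [add_im, sub_im, one_im, zero_sub, add_zero, abs_neg] at this
    linarith
  have h3 : Gamma (3 - s) = (1 - s + 1) * ((1 - s) * Gamma (1 - s)) := by
    rw [← Gamma_add_one _ (norm_pos_iff.1 (by linarith)),
      ← Gamma_add_one _ (norm_pos_iff.1 (by linarith))]
    congr 1
    ring
  have h4 : ‖Gamma (1 - s)‖ ≤ B := by
    rw [h3, norm_mul, norm_mul] at hB
    exact (le_mul_of_one_le_left (norm_nonneg _) h1).trans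
      ((le_mul_of_one_le_left (by positivity) h2).trans hB)
  have hne : ∀ w : ℂ, w.im ≠ 0 → Gamma w ≠ 0 := fun w hw =>
    Gamma_ne_zero fun m hm => hw (by rw [hm]; simp)
  have hs : s.im ≠ 0 := abs_pos.1 (by linarith)
  have g1 := hne s hs
  have g2 := hne (1 - s) (by simpa using hs)
  have h5 := Gamma_mul_Gamma_one_sub s
  have h6 : sin (Real.pi * s) ≠ 0 := fun h0 => by
    rw [h0, div_zero] at h5
    exact mul_ne_zero g1 g2 h5
  have hpi : (Real.pi : ℂ) ≠ 0 := ofReal_ne_zero.2 Real.pi_ne_zero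
  have h7 : (Gamma s)⁻¹ = Gamma (1 - s) * sin (Real.pi * s) / Real.pi := by
    rw [eq_div_iff h6] at h5
    rw [eq_div_iff hpi, inv_mul_eq_iff_eq_mul₀ g1, ← mul_assoc, h5]
  have h8 : ‖sin (Real.pi * s)‖ ≤ Real.exp (4 * |s.im|) := by
    refine (NFZ_sin _).trans (Real.exp_le_exp.2 ?_)
    rw [im_ofReal_mul, abs_mul, abs_of_pos Real.pi_pos]
    exact mul_le_mul_of_nonneg_right Real.pi_le_four (abs_nonneg _)
  rw [h7, norm_div, norm_mul, norm_real, Real.norm_eq_abs, abs_of_pos Real.pi_pos]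
  refine (div_le_self (by positivity) (by linarith [Real.pi_gt_three])).trans ?_
  exact mul_le_mul h4 h8 (norm_nonneg _) ((norm_nonneg _).trans h4)

theorem NFZ_low : ∃ K : ℝ, 0 ≤ K ∧ ∀ s : ℂ, 11 / 24 ≤ s.re → s.re ≤ 2 →
    ‖(GG s)⁻¹‖ ≤ Real.exp (K * (1 + |s.im|)) := by
  have hc : ContinuousOn Real.Gamma (Set.Icc 1 3) := fun x hx =>
    (Real.differentiableAt_Gamma fun m hm => by
      have := hx.1
      rw [hm] at this
      linarith [Nat.cast_nonneg (α := ℝ) m]).continuousAt.continuousWithinAt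
  obtain ⟨B, hB⟩ := isCompact_Icc.exists_bound_of_continuousOn hc
  have hc2 : ContinuousOn (fun s => (GG s)⁻¹) (Set.Icc (11 / 24) 2 ×ℂ Set.Icc (-1) 1) :=
    fun s hs => by
      have h0 : 0 < s.re := by have := hs.1.1; linarith
      exact ((NQ.BC_diff h0).continuousAt.inv₀ (NQ.BC_ne h0)).continuousWithinAt
  obtain ⟨B', hB'⟩ := (isCompact_Icc.reProdIm isCompact_Icc).exists_bound_of_continuousOn hc2
  obtain ⟨a, ha⟩ : ∃ a, a = 2 * Real.pi / √3 := ⟨_, rfl⟩
  have ha1 : 1 ≤ a := ha ▸ NQ.BC_a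
  obtain ⟨A, hA⟩ : ∃ A, A = a ^ 2 * |B| + |B'| := ⟨_, rfl⟩
  have hA1 : a ^ 2 * |B| ≤ A := by rw [hA]; linarith [abs_nonneg B']
  have hA2 : |B'| ≤ A := by
    have : 0 ≤ a ^ 2 * |B| := by positivity
    linarith
  have hA0 : 0 ≤ A := (abs_nonneg _).trans hA2
  have hA3 : A ≤ Real.exp A := by linarith [Real.add_one_le_exp A]
  refine ⟨A + 4, by linarith, fun s h1 h2 => ?_⟩
  have ht := abs_nonneg s.im
  have h3 : ‖(GG s)⁻¹‖ ≤ A * Real.exp (4 * |s.im|) := by
    rcases le_total 1 |s.im| with h | h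
    · have b1 : ‖Gamma (3 - s)‖ ≤ |B| := by
        have e : (3 - s : ℂ).re = 3 - s.re := by simp
        refine (NQ.BC_gam_le (by rw [e]; linarith)).trans ?_
        rw [e]
        exact ((le_abs_self _).trans (hB _ ⟨by linarith, by linarith⟩)).trans (le_abs_self B)
      have b2 := NFZ_gam h b1
      have b3 : a ^ s.re ≤ a ^ 2 := by
        rw [← Real.rpow_two]
        exact Real.rpow_le_rpow_of_exponent_le ha1 h2
      rw [norm_inv, NQ.BC_norm, ← ha, Real.rpow_neg (by linarith), mul_inv, inv_inv, ← norm_inv]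
      calc _ ≤ a ^ 2 * (|B| * Real.exp (4 * |s.im|)) :=
            mul_le_mul b3 b2 (norm_nonneg _) (by positivity)
        _ ≤ _ := by
            rw [← mul_assoc]
            exact mul_le_mul_of_nonneg_right hA1 (Real.exp_pos _).le
    · refine ((hB' s ⟨⟨h1, h2⟩, abs_le.1 h⟩).trans ((le_abs_self _).trans hA2)).trans ?_
      exact le_mul_of_one_le_right hA0 (Real.one_le_exp (by positivity))
  refine h3.trans ((mul_le_mul_of_nonneg_right hA3 (Real.exp_pos _).le).trans ?_)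
  rw [← Real.exp_add]
  refine Real.exp_le_exp.2 ?_
  nlinarith [mul_nonneg hA0 ht]

theorem NFZ_ded (hEP : EP) (K : Type) [Field K] [NumberField K] {s : ℝ} (hs : 1 < s) :
    zeta K s = dedekindZeta K s := by
  have h1 : Summable fun J : {J : Ideal (𝓞 K) // J ≠ ⊥} =>
      (Ideal.absNorm J.1 : ℂ) ^ (-(s : ℂ)) := by
    refine Summable.of_norm (((hEP K).1 s hs).congr fun J => ?_)
    rw [norm_natCast_cpow_of_re_ne_zero _ (by simp; linarith)]
    simp
  have h2 := (h1.hasSum.tsum_fiberwise fun J => Ideal.absNorm J.1).tsum_eq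
  rw [zeta, ← h2, dedekindZeta, LSeries]
  refine tsum_congr fun n => ?_
  have h3 : ∀ b : (fun J : {J : Ideal (𝓞 K) // J ≠ ⊥} => Ideal.absNorm J.1) ⁻¹' {n},
      (Ideal.absNorm b.1.1 : ℂ) ^ (-(s : ℂ)) = (n : ℂ) ^ (-(s : ℂ)) := fun b => by
    have : Ideal.absNorm b.1.1 = n := b.2
    rw [this]
  rw [tsum_congr h3, tsum_const]
  rcases eq_or_ne n 0 with rfl | hn
  · have : (-(s : ℂ)) ≠ 0 := neg_ne_zero.2 (ofReal_ne_zero.2 (by linarith))
    simp [zero_cpow this]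
  · rw [LSeries.term_of_ne_zero hn, nsmul_eq_mul, cpow_neg, div_eq_mul_inv]
    congr 2
    refine Nat.card_congr ⟨fun b => ⟨b.1.1, b.2⟩, fun J => ⟨⟨J.1, fun h => hn ?_⟩, J.2⟩,
      fun _ => rfl, fun _ => rfl⟩
    rw [← J.2, h, Ideal.absNorm_bot]

theorem NFZ_ext {f g : ℂ → ℂ} (hf : DifferentiableOn ℂ f {z | 11 / 12 < z.re})
    (hg : DifferentiableOn ℂ g {z | 11 / 12 < z.re}) (h : ∀ z : ℂ, 1 < z.re → f z = g z) {z : ℂ}
    (hz : 11 / 12 < z.re) : f z = g z := by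
  have hU : IsOpen {z : ℂ | 11 / 12 < z.re} := isOpen_lt continuous_const continuous_re
  refine (hf.analyticOnNhd hU).eqOn_of_preconnected_of_eventuallyEq (hg.analyticOnNhd hU)
    (convex_halfSpace_re_gt _).isPreconnected (z₀ := 2) (by norm_num) ?_ hz
  have : {z : ℂ | 1 < z.re} ∈ 𝓝 (2 : ℂ) :=
    (isOpen_lt continuous_const continuous_re).mem_nhds (by simp)
  filter_upwards [this] with z hz using h z hz

theorem NFZ_d0 : DifferentiableOn ℂ GG {z | 11 / 12 < z.re} := fun z hz =>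
  (NQ.BC_diff (by have : 11 / 12 < z.re := hz; linarith)).differentiableWithinAt

theorem NFZ_re1 {z : ℂ} (hz : 11 / 12 < z.re) : 0 < (z / 2).re := by
  rw [div_ofNat_re]; linarith

theorem NFZ_re2 {z : ℂ} (hz : 11 / 12 < z.re) : 0 < ((z + 1) / 2).re := by
  rw [div_ofNat_re, add_re, one_re]; linarith

theorem NFZ_d1 : DifferentiableOn ℂ (fun z => GG (z / 2)) {z | 11 / 12 < z.re} := fun z hz =>
  (DifferentiableAt.comp (f := fun z : ℂ => z / 2) z (NQ.BC_diff (NFZ_re1 hz))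
    (by fun_prop)).differentiableWithinAt

theorem NFZ_d2 : DifferentiableOn ℂ (fun z => GG ((z + 1) / 2)) {z | 11 / 12 < z.re} := fun z hz =>
  (DifferentiableAt.comp (f := fun z : ℂ => (z + 1) / 2) z (NQ.BC_diff (NFZ_re2 hz))
    (by fun_prop)).differentiableWithinAt

theorem NFZ_nz {z : ℂ} (hz : 11 / 12 < z.re) : z ≠ 0 := by
  rintro rfl
  norm_num at hz

theorem NFZ_zf (h2 : ZFree) (h3 : Dec) (h4 : Rm3) (K : Type) [Field K] [NumberField K]
    [IsTotallyReal K] {Λ Λ3 : ℂ → ℂ} (hd : Differentiable ℂ Λ)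
    (he : ∀ z : ℂ, 1 < z.re → Λ z = z * (z - 1) * GG (z / 2) ^ dg K * zeta K z)
    (hd3 : Differentiable ℂ Λ3)
    (he3 : ∀ z : ℂ, 1 < z.re → Λ3 z = z * (z - 1) * GG ((z + 1) / 2) ^ dg K * zg K x3 z)
    {z : ℂ} (hz : 11 / 12 < z.re) (hz1 : z ≠ 1) : Λ z ≠ 0 := by
  have hw : ¬ ∃ w : K, w ^ 2 + w + 1 = 0 := by
    rintro ⟨w, hw⟩
    obtain ⟨v⟩ : Nonempty (InfinitePlace K) := inferInstance
    have := congrArg (InfinitePlace.embedding_of_isReal (IsTotallyReal.isReal v)) hw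
    rw [map_add, map_add, map_pow, map_one, map_zero] at this
    nlinarith [sq_nonneg (InfinitePlace.embedding_of_isReal (IsTotallyReal.isReal v) w + 1 / 2)]
  obtain ⟨L, _, _, w, hw', hL, hm⟩ := h3 K hw
  obtain ⟨Λ', hd', he', hne⟩ := h2 L w hw'
  have hr : Module.finrank ℚ L / 2 = dg K := by
    change dg L / 2 = dg K
    omega
  obtain ⟨EL, hEL, hEL0, hELe⟩ := h4 L
  obtain ⟨EK, hEK, -, hEKe⟩ := h4 K
  have a1 : Differentiable ℂ fun z => z * (z - 1) * Λ' z * EL z := by fun_prop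
  have a2 : Differentiable ℂ fun z => Λ z * EK z * Λ3 z := by fun_prop
  have k1 := NFZ_ext
    (f := fun z => z * (z - 1) * Λ' z * EL z * (GG (z / 2) ^ dg K * GG ((z + 1) / 2) ^ dg K))
    (g := fun z => Λ z * EK z * Λ3 z * GG z ^ dg K)
    (a1.differentiableOn.mul ((NFZ_d1.pow _).mul (NFZ_d2.pow _)))
    (a2.differentiableOn.mul (NFZ_d0.pow _)) (fun z hz => by
      have e := hm z hz
      rw [hELe z hz, hEKe z hz] at e
      rw [he z hz, he' z hz, he3 z hz, hr]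
      linear_combination (z * (z - 1)) ^ 2 * GG z ^ dg K * GG (z / 2) ^ dg K *
        GG ((z + 1) / 2) ^ dg K * e) hz
  intro h0
  simp only [h0, zero_mul] at k1
  exact mul_ne_zero (mul_ne_zero (mul_ne_zero (mul_ne_zero (NFZ_nz hz) (sub_ne_zero.2 hz1))
    (hne z hz hz1)) (hEL0 z (by linarith))) (mul_ne_zero (pow_ne_zero _ (NQ.BC_ne (NFZ_re1 hz)))
    (pow_ne_zero _ (NQ.BC_ne (NFZ_re2 hz)))) k1

theorem NFZ_num {C B n N t : ℝ} (hC : 0 ≤ C) (hB : 0 ≤ B) (hn : 1 ≤ n) (hN : n ≤ N) (ht : 0 ≤ t) :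
    2 * (4 + t) + C * N + (1 + n * (B * (1 + t / 2))) ≤ (9 + C + B) * N * (1 + t) := by
  have h1 : 1 + t ≤ N * (1 + t) := le_mul_of_one_le_left (by linarith) (by linarith)
  have h2 : 0 ≤ C * N * t := by
    have : 0 ≤ N := by linarith
    positivity
  have h3 : n * (B * (1 + t / 2)) ≤ N * (B * (1 + t)) :=
    mul_le_mul hN (mul_le_mul_of_nonneg_left (by linarith) hB) (by positivity) (by linarith)
  linarith

theorem s_FZ (hHKR : HKR) (hZFree : ZFree) (hDec : Dec) (hRm3 : Rm3) (hEP : EP) : FZ := by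
  obtain ⟨C, hC, hK⟩ := hHKR
  obtain ⟨B, hB, hlow⟩ := NFZ_low
  refine ⟨9 + C + B, by positivity, fun K _ _ _ => ?_⟩
  obtain ⟨⟨Λ, hd, he, hb⟩, Λ3, hd3, he3⟩ := hK K
  have hU : IsOpen {z : ℂ | 11 / 12 < z.re} := isOpen_lt continuous_const continuous_re
  have hden : ∀ z : ℂ, 11 / 12 < z.re → z * GG (z / 2) ^ dg K ≠ 0 := fun z hz =>
    mul_ne_zero (NFZ_nz hz) (pow_ne_zero _ (NQ.BC_ne (NFZ_re1 hz)))
  obtain ⟨f, hf⟩ : ∃ f : ℂ → ℂ, f = fun z => Λ z / (z * GG (z / 2) ^ dg K) := ⟨_, rfl⟩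
  have hfd : DifferentiableOn ℂ f {z | 11 / 12 < z.re} := by
    rw [hf]
    exact hd.differentiableOn.div (differentiableOn_id.mul (NFZ_d1.pow _)) hden
  have hfe : ∀ z : ℂ, 1 < z.re → f z = (z - 1) * zeta K z := fun z hz => by
    rw [hf]
    beta_reduce
    rw [div_eq_iff (hden z (by linarith)), he z hz]
    ring
  have hf1 : f 1 = (dedekindZeta_residue K : ℝ) := by
    have h1 : ContinuousAt f ((1 : ℝ) : ℂ) :=
      hfd.continuousOn.continuousAt (hU.mem_nhds (by norm_num))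
    have h2 : Tendsto (fun s : ℝ => f s) (𝓝[>] 1) (𝓝 (f 1)) :=
      (h1.comp continuous_ofReal.continuousAt).tendsto.mono_left nhdsWithin_le_nhds
    refine tendsto_nhds_unique h2 ((tendsto_sub_one_mul_dedekindZeta_nhdsGT K).congr' ?_)
    filter_upwards [self_mem_nhdsWithin] with s hs
    rw [hfe s hs, NFZ_ded hEP K hs]
  refine ⟨f, hfd, hfe, hf1, fun z hz => ?_, fun z h1 h2 => ?_⟩
  · rcases eq_or_ne z 1 with rfl | hz1
    · rw [hf1]
      exact ofReal_ne_zero.2 (dedekindZeta_residue_ne_zero K)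
    · rw [hf]
      exact div_ne_zero (NFZ_zf hZFree hDec hRm3 K hd he hd3 he3 hz hz1) (hden z hz)
  · have hn : (1 : ℝ) ≤ dg K := by exact_mod_cast (dg_pos (K := K))
    have hdc : (1 : ℝ) ≤ dc K := by exact_mod_cast (dc_pos (K := K))
    have hl := Real.log_nonneg hdc
    have hN : (dg K : ℝ) ≤ dg K * (dg K + Real.log (dc K)) :=
      le_mul_of_one_le_right (by linarith) (by linarith)
    have ht := abs_nonneg z.im
    have b1 : (1 + ‖z‖) ^ 2 ≤ Real.exp (2 * (4 + |z.im|)) := by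
      have c1 := norm_le_abs_re_add_abs_im z
      rw [abs_of_pos (by linarith)] at c1
      have c2 := Real.add_one_le_exp (4 + |z.im|)
      rw [two_mul, Real.exp_add, ← sq]
      exact pow_le_pow_left₀ (by positivity) (by linarith) 2
    have b2 : ‖z⁻¹‖ ≤ Real.exp 1 := by
      have c1 := re_le_norm z
      have c2 := Real.add_one_le_exp 1
      rw [norm_inv]
      refine le_trans ?_ c2
      rw [inv_le_comm₀ (by linarith) (by norm_num)]
      linarith
    have b3 : ‖(GG (z / 2))⁻¹ ^ dg K‖ ≤ Real.exp (dg K * (B * (1 + |z.im| / 2))) := by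
      have c1 := hlow (z / 2) (by rw [div_ofNat_re]; linarith) (by rw [div_ofNat_re]; linarith)
      rw [div_ofNat_im, abs_div, abs_two] at c1
      rw [norm_pow, Real.exp_nat_mul]
      exact pow_le_pow_left₀ (norm_nonneg _) c1 _
    have b4 := (hb z (by linarith) h2).trans (mul_le_mul_of_nonneg_right b1 (Real.exp_pos _).le)
    have e : f z = Λ z * (z⁻¹ * (GG (z / 2))⁻¹ ^ dg K) := by
      rw [hf, inv_pow, ← mul_inv, ← div_eq_mul_inv]
    rw [e, norm_mul, norm_mul]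
    refine (mul_le_mul b4 (mul_le_mul b2 b3 (norm_nonneg _) (Real.exp_pos _).le) (by positivity)
      (by positivity)).trans ?_
    rw [← Real.exp_add, ← Real.exp_add, ← Real.exp_add, mul_assoc C, mul_assoc (9 + C + B)]
    exact Real.exp_le_exp.2 (NFZ_num hC.le hB hn hN ht)


end TP
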