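import Vale.Agent.P007.NStm

noncomputable section
namespace TP
open Complex MeasureTheory NumberField Filter ART
open Vale.Agent.P007 (Datum X lattice act orbit diagA stab vol IsOrbitMeasure)
open scoped Classical Topology ArithmeticFunction.omega

theorem NGA_dvd {p : ℤ} (hp : Prime p) (m : ℕ) (w : ℤ) : ∀ (b : ℕ) (u : ℤ), ¬ p ^ (b + 1) ∣ u →
    p ^ (m + b) ∣ u * w → p ^ m ∣ w := by
  intro b
  induction b with
  | zero => intro u h1 h2; exact hp.pow_dvd_of_dvd_mul_left m (by simpa using h1) h2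
  | succ b ih =>
    intro u h1 h2
    by_cases h : p ∣ u
    · obtain ⟨u', rfl⟩ := h
      refine ih u' (fun h3 => h1 ?_) ?_
      · rw [pow_succ']; exact mul_dvd_mul_left p h3
      · rw [← add_assoc, pow_succ', mul_assoc] at h2
        exact (mul_dvd_mul_iff_left hp.ne_zero).1 h2
    · exact (pow_dvd_pow p (Nat.le_add_right _ _)).trans (hp.pow_dvd_of_dvd_mul_left _ h h2)

theorem NGA_roots {p : ℤ} (hp : Prime p) (b : ℕ) : ∀ (n : ℕ) (P : Polynomial ℤ), P.Monic →
    P.natDegree = n → ∃ R : Finset ℤ, R.card ≤ n ∧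
      ∀ t, p ^ (n * b + 1) ∣ P.eval t → ∃ r ∈ R, p ^ (b + 1) ∣ t - r := by
  intro n
  induction n with
  | zero =>
    intro P hP h0
    refine ⟨∅, le_rfl, fun t ht => ?_⟩
    rw [hP.natDegree_eq_zero.1 h0, Polynomial.eval_one, zero_mul, zero_add, pow_one] at ht
    exact absurd ht hp.not_dvd_one
  | succ n ih =>
    intro P hP hn
    by_cases h : ∃ t, p ^ ((n + 1) * b + 1) ∣ P.eval t
    · obtain ⟨t0, ht0⟩ := h
      have hd : P.degree ≠ 0 := fun h => by
        rw [Polynomial.natDegree_eq_zero_iff_degree_le_zero.2 h.le] at hn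
        omega
      obtain ⟨R, hR, h1⟩ := ih (P /ₘ (Polynomial.X - Polynomial.C t0))
        ((Polynomial.leadingCoeff_divByMonic_X_sub_C P hd t0).trans hP)
        (by rw [Polynomial.natDegree_divByMonic _ (Polynomial.monic_X_sub_C t0),
          Polynomial.natDegree_X_sub_C, hn]; rfl)
      refine ⟨insert t0 R, (Finset.card_insert_le _ _).trans (by omega), fun t ht => ?_⟩
      by_cases h2 : p ^ (b + 1) ∣ t - t0
      · exact ⟨t0, Finset.mem_insert_self _ _, h2⟩
      · have e := congrArg (Polynomial.eval t)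
          (Polynomial.X_sub_C_mul_divByMonic_eq_sub_modByMonic P t0)
        rw [Polynomial.modByMonic_X_sub_C_eq_C_eval, Polynomial.eval_mul, Polynomial.eval_sub,
          Polynomial.eval_sub, Polynomial.eval_X, Polynomial.eval_C, Polynomial.eval_C] at e
        have h3 := dvd_sub ht ht0
        rw [← e, show (n + 1) * b + 1 = n * b + 1 + b by ring] at h3
        obtain ⟨r, hr, h4⟩ := h1 t (NGA_dvd hp _ _ b _ h2 h3)
        exact ⟨r, Finset.mem_insert_of_mem hr, h4⟩
    · exact ⟨∅, Nat.zero_le _, fun t ht => absurd ⟨t, ht⟩ h⟩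

theorem NGA_class (q m : ℕ) (hq : 0 < q) (r : ℤ) :
    ((Finset.range (q * m)).filter fun t : ℕ => (q : ℤ) ∣ t - r).card ≤ m := by
  refine le_trans (Finset.card_le_card_of_injOn (t := Finset.range m) (fun t => t / q)
    (fun t ht => ?_) (fun t ht t' ht' e => ?_)) (Finset.card_range m).le
  · have h1 := Finset.mem_range.1 (Finset.mem_filter.1 ht).1
    exact Finset.mem_coe.2 (Finset.mem_range.2 ((Nat.div_lt_iff_lt_mul hq).2 (by rwa [mul_comm])))
  · have h1 := dvd_sub (Finset.mem_filter.1 ht').2 (Finset.mem_filter.1 ht).2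
    rw [sub_sub_sub_cancel_right] at h1
    have h2 : t % q = t' % q := (Nat.modEq_iff_dvd.2 h1 : t ≡ t' [MOD q])
    have h3 : t / q = t' / q := e
    rw [← Nat.div_add_mod t q, ← Nat.div_add_mod t' q, h2, h3]

theorem NGA_count {p : ℕ} (hp : p.Prime) {n b k : ℕ} (hb : b < k) {P : Polynomial ℤ}
    (hP : P.Monic) (hn : P.natDegree = n) :
    ((Finset.range (p ^ k)).filter fun t : ℕ => (p : ℤ) ^ (n * b + 1) ∣ P.eval (t : ℤ)).card ≤
      n * p ^ (k - (b + 1)) := by
  obtain ⟨R, hR, h⟩ := NGA_roots (Nat.prime_iff_prime_int.1 hp) b n P hP hn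
  have e : p ^ k = p ^ (b + 1) * p ^ (k - (b + 1)) := by rw [← pow_add]; congr 1; omega
  have h1 : ((Finset.range (p ^ k)).filter fun t : ℕ => (p : ℤ) ^ (n * b + 1) ∣ P.eval (t : ℤ)) ⊆
      R.biUnion fun r => (Finset.range (p ^ (b + 1) * p ^ (k - (b + 1)))).filter
        fun t : ℕ => ((p ^ (b + 1) : ℕ) : ℤ) ∣ t - r := by
    intro t ht
    obtain ⟨r, hr, h2⟩ := h t (Finset.mem_filter.1 ht).2
    exact Finset.mem_biUnion.2 ⟨r, hr, Finset.mem_filter.2
      ⟨e ▸ (Finset.mem_filter.1 ht).1, by exact_mod_cast h2⟩⟩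
  refine (Finset.card_le_card h1).trans ((Finset.card_biUnion_le_card_mul _ _ _
    fun r _ => NGA_class _ _ (pow_pos hp.pos _) r).trans ?_)
  exact Nat.mul_le_mul_right _ hR

theorem NGA_pt {p : ℕ} (hp : p.Prime) {n : ℕ} (hn : 0 < n) {δ : ℝ} (h0 : 0 ≤ δ)
    (h1 : δ ≤ 1 / (2 * n)) (k : ℕ) (x : ℤ) :
    ((Int.gcd x (p ^ k : ℕ) : ℕ) : ℝ) ^ δ ≤ 1 + ∑ b ∈ Finset.range k,
      if (p : ℤ) ^ (n * b + 1) ∣ x then √(p : ℝ) ^ (b + 1) else 0 := by
  have hd : Int.gcd x (p ^ k : ℕ) ∣ p ^ k := by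
    exact_mod_cast Int.gcd_dvd_right x (p ^ k : ℕ)
  obtain ⟨j, hj, e⟩ := (Nat.dvd_prime_pow hp).1 hd
  have hx : (p : ℤ) ^ j ∣ x := by
    have := Int.gcd_dvd_left x (p ^ k : ℕ)
    rw [e] at this
    exact_mod_cast this
  have hnn : ∀ b ∈ Finset.range k,
      (0 : ℝ) ≤ if (p : ℤ) ^ (n * b + 1) ∣ x then √(p : ℝ) ^ (b + 1) else 0 := fun b _ => by
    split_ifs <;> positivity
  rw [e]
  rcases Nat.eq_zero_or_pos j with rfl | hj0
  · simpa using Finset.sum_nonneg hnn
  · have k1 := Nat.div_add_mod (j - 1) n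
    have k2 := Nat.mod_lt (j - 1) hn
    have k3 : (j - 1) / n ≤ j - 1 := Nat.div_le_self _ _
    generalize (j - 1) / n = b at k1 k3
    have k4 := Finset.single_le_sum hnn (Finset.mem_range.2 (by omega : b < k))
    rw [if_pos ((pow_dvd_pow _ (by omega)).trans hx)] at k4
    have hp1 : (1 : ℝ) ≤ p := by exact_mod_cast hp.one_le
    have k5 : (((p ^ j : ℕ) : ℝ)) ^ δ ≤ √(p : ℝ) ^ (b + 1) := by
      rw [Nat.cast_pow, ← Real.rpow_natCast, ← Real.rpow_mul (by linarith), Real.sqrt_eq_rpow,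
        ← Real.rpow_natCast, ← Real.rpow_mul (by linarith)]
      refine Real.rpow_le_rpow_of_exponent_le hp1 ?_
      have k6 : (j : ℝ) ≤ n * (b + 1) := by
        have : j ≤ n * (b + 1) := by rw [mul_add, mul_one]; omega
        exact_mod_cast this
      have hn' : (0 : ℝ) < n := by exact_mod_cast hn
      calc (j : ℝ) * δ ≤ n * (b + 1) * (1 / (2 * n)) := mul_le_mul k6 h1 h0 (by positivity)
        _ = _ := by push_cast; field_simp
    linarith

theorem NGA_geo (k : ℕ) : ∑ b ∈ Finset.range k, (3 / 4 : ℝ) ^ (b + 1) ≤ 3 := by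
  have : ∀ k : ℕ, ∑ b ∈ Finset.range k, (3 / 4 : ℝ) ^ (b + 1) = 3 - 3 * (3 / 4) ^ k := by
    intro k
    induction k with
    | zero => simp
    | succ k ih => rw [Finset.sum_range_succ, ih]; ring
  rw [this]
  have : (0 : ℝ) ≤ (3 / 4) ^ k := by positivity
  linarith

theorem NGA_pp {p : ℕ} (hp : p.Prime) {n : ℕ} (hn : 0 < n) {δ : ℝ} (h0 : 0 ≤ δ)
    (h1 : δ ≤ 1 / (2 * n)) (k : ℕ) {P : Polynomial ℤ} (hP : P.Monic) (hd : P.natDegree = n) :
    ∑ t ∈ Finset.range (p ^ k), ((Int.gcd (P.eval (t : ℤ)) (p ^ k : ℕ) : ℕ) : ℝ) ^ δ ≤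
      (1 + 3 * n) * ((p ^ k : ℕ) : ℝ) := by
  refine (Finset.sum_le_sum fun t _ => NGA_pt hp hn h0 h1 k _).trans ?_
  rw [Finset.sum_add_distrib, Finset.sum_comm, Finset.sum_const, Finset.card_range, nsmul_eq_mul,
    mul_one]
  have hp2 : (2 : ℝ) ≤ p := by exact_mod_cast hp.two_le
  have hs : √(p : ℝ) ≤ 3 / 4 * p := by
    rw [Real.sqrt_le_left (by positivity)]; nlinarith
  have h2 : ∀ b ∈ Finset.range k, (∑ t ∈ Finset.range (p ^ k),
      if (p : ℤ) ^ (n * b + 1) ∣ P.eval (t : ℤ) then √(p : ℝ) ^ (b + 1) else 0) ≤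
      n * ((p ^ k : ℕ) : ℝ) * (3 / 4) ^ (b + 1) := by
    intro b hb
    have hb' := Finset.mem_range.1 hb
    rw [← Finset.sum_filter, Finset.sum_const, nsmul_eq_mul]
    have h3 : (((Finset.range (p ^ k)).filter
        fun t : ℕ => (p : ℤ) ^ (n * b + 1) ∣ P.eval (t : ℤ)).card : ℝ) ≤
        n * (p : ℝ) ^ (k - (b + 1)) := by exact_mod_cast NGA_count hp hb' hP hd
    have e : ((p ^ k : ℕ) : ℝ) = (p : ℝ) ^ (k - (b + 1)) * (p : ℝ) ^ (b + 1) := by
      rw [← pow_add, Nat.cast_pow]; congr 1; omega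
    refine (mul_le_mul h3 (pow_le_pow_left₀ (by positivity) hs _) (by positivity)
      (by positivity)).trans (le_of_eq ?_)
    rw [e, mul_pow]; ring
  have h4 := Finset.sum_le_sum h2
  rw [← Finset.mul_sum] at h4
  have h5 := mul_le_mul_of_nonneg_left (NGA_geo k)
    (by positivity : (0 : ℝ) ≤ n * ((p ^ k : ℕ) : ℝ))
  linarith

theorem NGA_gcd_mod (P : Polynomial ℤ) (a t : ℕ) :
    Int.gcd (P.eval ((t % a : ℕ) : ℤ)) a = Int.gcd (P.eval (t : ℤ)) a := by
  have h1 : (a : ℤ) ∣ (t : ℤ) - ((t % a : ℕ) : ℤ) := Nat.modEq_iff_dvd.1 (Nat.mod_modEq t a)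
  obtain ⟨c, hc⟩ := h1.trans (Polynomial.sub_dvd_eval_sub _ _ P)
  rw [show P.eval (t : ℤ) = P.eval ((t % a : ℕ) : ℤ) + a * c by linarith,
    Int.gcd_add_mul_left_left]

theorem NGA_mul {a b : ℕ} (ha : 0 < a) (hb : 0 < b) (h : a.Coprime b) (δ : ℝ) (P : Polynomial ℤ) :
    ∑ t ∈ Finset.range (a * b), ((Int.gcd (P.eval (t : ℤ)) (a * b : ℕ) : ℕ) : ℝ) ^ δ ≤
      (∑ t ∈ Finset.range a, ((Int.gcd (P.eval (t : ℤ)) a : ℕ) : ℝ) ^ δ) *
        ∑ t ∈ Finset.range b, ((Int.gcd (P.eval (t : ℤ)) b : ℕ) : ℝ) ^ δ := by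
  rw [Finset.sum_mul_sum, ← Finset.sum_product']
  have hinj : Set.InjOn (fun t : ℕ => (t % a, t % b)) (Finset.range (a * b)) := by
    intro t ht t' ht' e
    have h1 : t ≡ t' [MOD a * b] := (Nat.modEq_and_modEq_iff_modEq_mul h).1
      ⟨(Prod.ext_iff.1 e).1, (Prod.ext_iff.1 e).2⟩
    exact Nat.ModEq.eq_of_lt_of_lt h1 (Finset.mem_range.1 ht) (Finset.mem_range.1 ht')
  refine le_trans (le_of_eq ?_) (Finset.sum_le_sum_of_subset_of_nonneg
    (s := (Finset.range (a * b)).image fun t : ℕ => (t % a, t % b)) (fun z hz => ?_)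
    (fun z _ _ => by positivity))
  · rw [Finset.sum_image hinj]
    refine Finset.sum_congr rfl fun t _ => ?_
    simp only [NGA_gcd_mod]
    rw [← Real.mul_rpow (by positivity) (by positivity), ← Nat.cast_mul]
    congr 2
    exact h.gcd_mul _
  · obtain ⟨t, -, rfl⟩ := Finset.mem_image.1 hz
    exact Finset.mem_product.2
      ⟨Finset.mem_range.2 (Nat.mod_lt _ ha), Finset.mem_range.2 (Nat.mod_lt _ hb)⟩

theorem s_GA : GA := by
  intro n δ hn h0 h1
  refine ⟨1 + 3 * n, le_add_of_nonneg_right (by positivity), fun P Q hP hd => ?_⟩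
  induction Q using Nat.recOnPosPrimePosCoprime with
  | prime_pow p k hp hk =>
    intro _
    rw [ArithmeticFunction.cardDistinctFactors_apply_prime_pow hp hk.ne', pow_one]
    exact NGA_pp hp hn h0 h1 k hP hd
  | zero => intro h; exact absurd h (lt_irrefl _)
  | one => intro _; simp
  | coprime a b ha hb h iha ihb =>
    intro _
    refine (NGA_mul (by omega) (by omega) h δ P).trans ?_
    refine (mul_le_mul (iha (by omega)) (ihb (by omega))
      (Finset.sum_nonneg fun _ _ => by positivity) (by positivity)).trans (le_of_eq ?_)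
    rw [ArithmeticFunction.cardDistinctFactors_mul h, pow_add]
    push_cast; ring

theorem s_OmB : OmB := by
  intro C η hC hη
  obtain ⟨N, hN⟩ := eventually_atTop.1
    (((tendsto_rpow_atTop hη).comp tendsto_natCast_atTop_atTop).eventually_ge_atTop C)
  refine ⟨C ^ N, by positivity, fun f hf => ?_⟩
  have e : ω f = f.primeFactors.card := by
    rw [ArithmeticFunction.cardDistinctFactors_apply, ← List.card_toFinset]; rfl
  have h1 : C ^ ω f ≤ ∏ p ∈ f.primeFactors, ((if p < N then C else 1) * (p : ℝ) ^ η) := by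
    rw [e, ← Finset.prod_const]
    refine Finset.prod_le_prod (fun _ _ => by linarith) fun p hp => ?_
    have hp1 : (1 : ℝ) ≤ p := by exact_mod_cast (Nat.prime_of_mem_primeFactors hp).one_le
    split_ifs with h
    · exact le_mul_of_one_le_right (by linarith) (Real.one_le_rpow hp1 hη.le)
    · rw [one_mul]; exact hN p (not_lt.1 h)
  refine h1.trans ?_
  rw [Finset.prod_mul_distrib, Real.finsetProd_rpow _ _ (fun _ _ => by positivity),
    ← Finset.prod_filter, Finset.prod_const]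
  refine mul_le_mul (pow_le_pow_right₀ hC ?_) (Real.rpow_le_rpow (by positivity) ?_ hη.le)
    (by positivity) (by positivity)
  · refine le_trans (Finset.card_le_card fun p hp => ?_) (Finset.card_range N).le
    exact Finset.mem_range.2 (Finset.mem_filter.1 hp).2
  · rw [← Nat.cast_prod]
    exact_mod_cast Nat.le_of_dvd hf (Nat.prod_primeFactors_dvd f)

end TP
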