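import Vale.Agent.P007.NStm
import Vale.Agent.P016.HK

noncomputable section
namespace TP
open Complex MeasureTheory NumberField Filter ART
open Vale.Agent.P007 (Datum X lattice act orbit diagA stab vol IsOrbitMeasure)
open scoped Classical Topology ArithmeticFunction.omega

section
variable {K : Type} [Field K] [NumberField K]

theorem NHK_prod [IsTotallyReal K] (x : 𝓞 K) :
    ∏ w : InfinitePlace K, rr w (x : K) = ((Algebra.norm ℤ x : ℤ) : ℝ) := by
  have h1 := Algebra.norm_eq_prod_embeddings ℚ ℂ (x : K)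
  have h2 : (algebraMap ℚ ℂ) (Algebra.norm ℚ (x : K)) = ∏ φ : K →+* ℂ, φ x :=
    h1.trans (Fintype.prod_equiv (RingHom.equivRatAlgHom K ℂ) _ _ fun _ => rfl).symm
  have hb : Function.Bijective (fun w : InfinitePlace K => w.embedding) :=
    ⟨fun w w' h => by
      rw [← InfinitePlace.mk_embedding w, ← InfinitePlace.mk_embedding w']
      exact congrArg _ h,
    fun φ => ⟨InfinitePlace.mk φ, InfinitePlace.embedding_mk_eq_of_isReal
      (IsTotallyReal.complexEmbedding_isReal φ)⟩⟩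
  rw [← hb.prod_comp fun φ : K →+* ℂ => φ x, ← Algebra.coe_norm_int] at h2
  apply ofReal_injective
  rw [ofReal_prod, ofReal_intCast]
  refine Eq.trans (Finset.prod_congr rfl fun w _ => ?_) (h2.symm.trans (by simp))
  rw [rr, ← InfinitePlace.embedding_of_isReal_apply (IsTotallyReal.isReal w), ofReal_re]

theorem NHK_sg [IsTotallyReal K] (x : 𝓞 K) :
    sg (x : K) = ((Int.sign (Algebra.norm ℤ x) : ℤ) : ℝ) := by
  have h : sg (x : K) = (SignType.sign (∏ w : InfinitePlace K, rr w (x : K)) : ℝ) :=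
    (map_prod ((SignType.castHom (α := ℝ)).comp (signHom (α := ℝ))) (fun w => rr w (x : K))
      Finset.univ).symm
  rw [h, NHK_prod]
  rcases lt_trichotomy (Algebra.norm ℤ x) 0 with h | h | h
  · rw [Int.sign_eq_neg_one_of_neg h, sign_neg (by exact_mod_cast h)]
    simp
  · simp [h]
  · rw [Int.sign_eq_one_of_pos h, sign_pos (by exact_mod_cast h)]
    simp

/-- the odd character modulo three on the integers -/
def NHK_chi (k : ℤ) : ℂ := if k % 3 = 0 then 0 else if k % 3 = 1 then 1 else -1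

theorem NHK_chi_eq (k : ℤ) : x3 k.natAbs * ((Int.sign k : ℤ) : ℂ) = NHK_chi k := by
  unfold x3 NHK_chi
  rcases lt_trichotomy k 0 with h | h | h
  · rw [Int.sign_eq_neg_one_of_neg h]
    split_ifs <;> first | omega | simp
  · simp [h]
  · rw [Int.sign_eq_one_of_pos h]
    split_ifs <;> first | omega | simp

theorem NHK_val [IsTotallyReal K] {b : Ideal (𝓞 K)} (hb : b ≠ ⊥) {x : 𝓞 K} (hx : x ∈ b) :
    ∃ k : ℤ, Algebra.norm ℤ x = Ideal.absNorm b * k ∧ tw 1 (rho b x3) x = NHK_chi k := by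
  have hN : 0 < Ideal.absNorm b := Nat.pos_of_ne_zero fun h => hb (Ideal.absNorm_eq_zero_iff.1 h)
  have h := Ideal.absNorm_dvd_absNorm_of_le ((Ideal.span_singleton_le_iff_mem b).2 hx)
  rw [Ideal.absNorm_span_singleton] at h
  obtain ⟨k, hk⟩ := Int.natCast_dvd.2 h
  refine ⟨k, hk, ?_⟩
  rw [tw, rho, if_pos hx, Ideal.absNorm_span_singleton, NHK_sg, hk, Int.natAbs_mul,
    Int.natAbs_natCast, Nat.mul_div_cancel_left _ hN, Int.sign_mul,
    Int.sign_eq_one_of_pos (by exact_mod_cast hN), one_mul, pow_one, ← NHK_chi_eq]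
  simp

theorem NHK_per [IsTotallyReal K] {b : Ideal (𝓞 K)} (hb : b ≠ ⊥) :
    Per (3 * Ideal.absNorm b) (tw 1 (rho b x3)) := by
  intro x y
  have h0 : ((3 * Ideal.absNorm b : ℕ) : 𝓞 K) * y ∈ b := b.mul_mem_right _ (hK_mem b)
  have hN : (Ideal.absNorm b : ℤ) ≠ 0 := by
    exact_mod_cast fun h => hb (Ideal.absNorm_eq_zero_iff.1 h)
  by_cases hx : x ∈ b
  · obtain ⟨k, hk, e⟩ := NHK_val hb hx
    obtain ⟨k', hk', e'⟩ := NHK_val hb (b.add_mem hx h0)
    have h1 := (ZMod.intCast_eq_intCast_iff _ _ _).1 (hK_norm (3 * Ideal.absNorm b) x y)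
    rw [hk, hk', Nat.cast_mul, mul_comm ((3 : ℕ) : ℤ)] at h1
    have h2 : k' % 3 = k % 3 := Int.ModEq.mul_left_cancel' hN h1
    rw [e, e', NHK_chi, NHK_chi, h2]
  · have hx' : ¬ x + ((3 * Ideal.absNorm b : ℕ) : 𝓞 K) * y ∈ b :=
      fun h => hx ((b.add_mem_iff_left h0).1 h)
    rw [tw, tw, rho, rho, if_neg hx, if_neg hx', zero_mul, zero_mul]

theorem NHK_tw [IsTotallyReal K] (b : Ideal (𝓞 K)) : tw 1 (tw 1 (rho b x3)) = rho b x3 := by
  funext x
  by_cases hx : x = 0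
  · subst hx
    simp [tw, rho, x3]
  · have h : Algebra.norm ℤ x ≠ 0 := Algebra.norm_ne_zero_iff.2 hx
    rw [tw, tw, NHK_sg, mul_assoc, pow_one, ← ofReal_mul, ← Int.cast_mul]
    rcases lt_or_gt_of_ne h with h | h
    · simp [Int.sign_eq_neg_one_of_neg h]
    · simp [Int.sign_eq_one_of_pos h]

theorem NHK_x3 (a : ℕ) : ‖x3 a‖ ≤ 1 := by
  unfold x3
  split_ifs <;> simp

theorem NHK_le [IsTotallyReal K] (b : Ideal (𝓞 K)) (x : 𝓞 K) : ‖tw 1 (rho b x3) x‖ ≤ 1 := by
  rw [tw, norm_mul, NHK_sg]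
  refine mul_le_one₀ (hK_le b NHK_x3 x) (norm_nonneg _) ?_
  rcases lt_trichotomy (Algebra.norm ℤ x) 0 with h | h | h
  · simp [Int.sign_eq_neg_one_of_neg h]
  · simp [h]
  · simp [Int.sign_eq_one_of_pos h]

theorem NHK_tw0 (ρ : 𝓞 K → ℂ) : tw 0 ρ = ρ := by
  funext x
  simp [tw]

theorem NHK_per0 (b : Ideal (𝓞 K)) : Per (3 * Ideal.absNorm b) (rho b fun _ => 1) := by
  intro x y
  have h0 : ((3 * Ideal.absNorm b : ℕ) : 𝓞 K) * y ∈ b := b.mul_mem_right _ (hK_mem b)
  unfold rho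
  exact if_congr (b.add_mem_iff_left h0) rfl rfl

end

theorem NHK_real {C d : ℝ} {n : ℕ} (hC : 1 ≤ C) (hd : 1 ≤ d) (hn : 1 ≤ n) :
    (2 ^ n * d) ^ 2 * Real.exp (2 * n) * ((2 ^ n * d) ^ 4 * (C * (3 * (2 ^ n * d)) * d) ^ (12 * n))
      ≤ Real.exp ((36 * C + 40) * n * (n + Real.log d)) := by
  have h := hK_real hC hd hn
  have h1 : (1 : ℝ) ≤ 2 ^ n * d := one_le_mul_of_one_le_of_one_le (one_le_pow₀ one_le_two) hd
  have h2 : (1 : ℝ) ≤ (2 ^ n * d) ^ 2 * Real.exp (2 * n) * (2 ^ n * d) ^ 4 :=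
    one_le_mul_of_one_le_of_one_le (one_le_mul_of_one_le_of_one_le (one_le_pow₀ h1)
      (Real.one_le_exp (by positivity))) (one_le_pow₀ h1)
  have h3 : (0 : ℝ) ≤ (C * (3 * (2 ^ n * d)) * d) ^ (6 * n) := by positivity
  rw [show (36 * C + 40) * n * (n + Real.log d) = (18 * C + 20) * n * (n + Real.log d)
    + (18 * C + 20) * n * (n + Real.log d) by ring, Real.exp_add,
    show 12 * n = 6 * n + 6 * n by ring, pow_add]
  rw [← mul_assoc] at h
  generalize (C * (3 * (2 ^ n * d)) * d) ^ (6 * n) = B at h h3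
  rw [← mul_assoc]
  generalize (2 ^ n * d) ^ 2 * Real.exp (2 * n) * (2 ^ n * d) ^ 4 = A at h h2
  calc A * (B * B) = A * B * (1 * B) := by ring
    _ ≤ A * B * (A * B) := by gcongr
    _ ≤ _ := mul_le_mul h h (by positivity) (Real.exp_pos _).le

theorem s_HKR (hHZR : HZR) (hClsZ : ClsZ) : HKR := by
  obtain ⟨C, hC, h1⟩ := hHZR
  refine ⟨36 * C + 40, by linarith, fun K _ _ _ => ?_⟩
  obtain ⟨B, hB0, hB, hcard, hz⟩ := hClsZ K
  have hN : ∀ b ∈ B, 0 < Ideal.absNorm b := fun b hb =>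
    Nat.pos_of_ne_zero fun h => (hB b hb).1 (Ideal.absNorm_eq_zero_iff.1 h)
  constructor
  · choose! Λ d1 d2 d4 using fun b (hb : b ∈ B) => h1 K 0 (3 * Ideal.absNorm b) (rho b fun _ => 1)
      (by omega) (by have := hN b hb; omega) (NHK_per0 b) (by rw [NHK_tw0]; exact hK_inv b _)
      (hK_le b fun _ => by simp)
    refine ⟨fun z => ∑ b ∈ B, (Ideal.absNorm b : ℂ) ^ z * Λ b z,
      Differentiable.fun_sum fun b hb => Differentiable.mul
        (differentiable_id.const_cpow (.inl (by exact_mod_cast (hN b hb).ne'))) (d1 b hb),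
      fun z h => ?_, fun z h h' => ?_⟩
    · have e : zeta K z = zg K (fun _ => 1) z := by simp [zeta, zg]
      rw [e, hz (fun _ => 1) z (fun _ => by simp) h, Finset.mul_sum]
      exact Finset.sum_congr rfl fun b hb => by
        rw [d2 b hb z h, NHK_tw0, Nat.cast_zero, add_zero]; ring
    · have hd : (1 : ℝ) ≤ dc K := by exact_mod_cast dc_pos
      have key : ∀ b ∈ B, ‖(Ideal.absNorm b : ℂ) ^ z * Λ b z‖ ≤ (1 + ‖z‖) ^ 2 *
          ((2 ^ dg K * dc K) ^ 4 * (C * (3 * (2 ^ dg K * dc K)) * dc K) ^ (12 * dg K)) := by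
        intro b hb
        have a1 : (1 : ℝ) ≤ Ideal.absNorm b := by exact_mod_cast hN b hb
        have a2 : (Ideal.absNorm b : ℝ) ≤ 2 ^ dg K * dc K := by exact_mod_cast (hB b hb).2
        have a3 : ‖(Ideal.absNorm b : ℂ) ^ z‖ ≤ (2 ^ dg K * dc K) ^ 4 := by
          rw [norm_natCast_cpow_of_pos (hN b hb)]
          refine (Real.rpow_le_rpow_of_exponent_le a1 h').trans ?_
          rw [show (4 : ℝ) = (4 : ℕ) by norm_num, Real.rpow_natCast]
          gcongr
        have a4 := d4 b hb z h h'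
        push_cast at a4
        rw [norm_mul, mul_left_comm]
        refine mul_le_mul a3 (a4.trans ?_) (norm_nonneg _) (by positivity)
        gcongr
      refine (norm_sum_le _ _).trans ((Finset.sum_le_card_nsmul _ _ _ key).trans ?_)
      rw [nsmul_eq_mul, mul_left_comm]
      refine mul_le_mul_of_nonneg_left (le_trans ?_ (NHK_real hC hd dg_pos)) (by positivity)
      gcongr
  · choose! Λ d1 d2 d4 using fun b (hb : b ∈ B) => h1 K 1 (3 * Ideal.absNorm b) (tw 1 (rho b x3))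
      le_rfl (by have := hN b hb; omega) (NHK_per (hB b hb).1) (by rw [NHK_tw]; exact hK_inv b _)
      (NHK_le b)
    refine ⟨fun z => ∑ b ∈ B, (Ideal.absNorm b : ℂ) ^ z * Λ b z,
      Differentiable.fun_sum fun b hb => Differentiable.mul
        (differentiable_id.const_cpow (.inl (by exact_mod_cast (hN b hb).ne'))) (d1 b hb),
      fun z h => ?_⟩
    rw [hz x3 z NHK_x3 h, Finset.mul_sum]
    exact Finset.sum_congr rfl fun b hb => by rw [d2 b hb z h, NHK_tw, Nat.cast_one]; ring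

end TP
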