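import Vale.Agent.P007.NStm

noncomputable section
namespace TP
open Complex MeasureTheory NumberField Filter ART
open Vale.Agent.P007 (Datum X lattice act orbit diagA stab vol IsOrbitMeasure)
open scoped Classical Topology ArithmeticFunction.omega

section Aux
variable {n : ℕ} (D : Datum n)

theorem NHLow_mem_sm {a z : D.K} {I : Submodule ℤ D.K} :
    z ∈ sm D a I ↔ ∃ y ∈ I, a * y = z := Submodule.mem_map

theorem NHLow_sm_sm (a b : D.K) (I : Submodule ℤ D.K) : sm D a (sm D b I) = sm D (a * b) I := by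
  ext z
  simp only [NHLow_mem_sm]
  constructor
  · rintro ⟨_, ⟨y, hy, rfl⟩, rfl⟩
    exact ⟨y, hy, mul_assoc _ _ _⟩
  · rintro ⟨y, hy, rfl⟩
    exact ⟨_, ⟨y, hy, rfl⟩, (mul_assoc _ _ _).symm⟩

theorem NHLow_sm_one (I : Submodule ℤ D.K) : sm D 1 I = I := by
  ext z
  simp [NHLow_mem_sm]

theorem NHLow_mem_oK {z : D.K} : z ∈ oK D ↔ ∃ y : 𝓞 D.K, (y : D.K) = z :=
  ⟨fun h => ⟨⟨z, h⟩, rfl⟩, by
    rintro ⟨y, rfl⟩
    exact y.2⟩

theorem NHLow_coe_oK (y : 𝓞 D.K) : (y : D.K) ∈ oK D := (NHLow_mem_oK D).2 ⟨y, rfl⟩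

theorem NHLow_one_oK : (1 : D.K) ∈ oK D := (NHLow_mem_oK D).2 ⟨1, rfl⟩

theorem NHLow_mul_oK {a b : D.K} (ha : a ∈ oK D) (hb : b ∈ oK D) : a * b ∈ oK D := by
  obtain ⟨a, rfl⟩ := (NHLow_mem_oK D).1 ha
  obtain ⟨b, rfl⟩ := (NHLow_mem_oK D).1 hb
  exact (NHLow_mem_oK D).2 ⟨a * b, rfl⟩

theorem NHLow_le_mul (I : Submodule ℤ D.K) : I ≤ I * oK D := fun z hz => by
  simpa using Submodule.mul_mem_mul hz (NHLow_one_oK D)

theorem NHLow_oK_sq : oK D * oK D = oK D :=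
  le_antisymm (Submodule.mul_le.2 fun _ ha _ hb => NHLow_mul_oK D ha hb) (NHLow_le_mul D _)

theorem NHLow_oo_oK (h : oo D ≤ oK D) : oo D * oK D = oK D := by
  refine le_antisymm (Submodule.mul_le.2 fun _ ha _ hb => NHLow_mul_oK D (h ha) hb) fun z hz => ?_
  simpa using Submodule.mul_mem_mul (show (1 : D.K) ∈ oo D from D.O.one_mem) hz

/-- An ideal of the maximal order as a lattice. -/
def NHLow_ph (a : Ideal (𝓞 D.K)) : Submodule ℤ D.K :=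
  (a.restrictScalars ℤ).map (algebraMap (𝓞 D.K) D.K).toIntAlgHom.toLinearMap

theorem NHLow_mem_ph {a : Ideal (𝓞 D.K)} {z : D.K} :
    z ∈ NHLow_ph D a ↔ ∃ y ∈ a, (y : D.K) = z := Submodule.mem_map

theorem NHLow_ph_inj {a b : Ideal (𝓞 D.K)} (h : NHLow_ph D a = NHLow_ph D b) : a = b := by
  have key : ∀ a b : Ideal (𝓞 D.K), NHLow_ph D a = NHLow_ph D b → a ≤ b := fun a b h y hy => by
    have h1 : (y : D.K) ∈ NHLow_ph D b := h ▸ (NHLow_mem_ph D).2 ⟨y, hy, rfl⟩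
    obtain ⟨y', hy', e⟩ := (NHLow_mem_ph D).1 h1
    rwa [RingOfIntegers.ext e] at hy'
  exact le_antisymm (key _ _ h) (key _ _ h.symm)

theorem NHLow_ph_top : NHLow_ph D ⊤ = oK D := by
  ext z
  simp [NHLow_mem_ph, NHLow_mem_oK]

theorem NHLow_ph_up {I : Submodule ℤ D.K} (hI : I ≤ oK D) : NHLow_ph D (up D I) = I * oK D := by
  refine le_antisymm (fun z hz => ?_) (Submodule.mul_le.2 fun v hv r hr => ?_)
  · obtain ⟨y, hy, rfl⟩ := (NHLow_mem_ph D).1 hz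
    clear hz
    induction hy using Submodule.span_induction with
    | mem x hx => exact NHLow_le_mul D I hx
    | zero => exact zero_mem _
    | add x y _ _ hx hy => exact add_mem hx hy
    | smul r x _ hx =>
      have h1 := Submodule.mul_mem_mul hx (NHLow_coe_oK D r)
      rw [mul_assoc, NHLow_oK_sq, mul_comm (x : D.K)] at h1
      exact h1
  · obtain ⟨v, rfl⟩ := (NHLow_mem_oK D).1 (hI hv)
    obtain ⟨r, rfl⟩ := (NHLow_mem_oK D).1 hr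
    exact (NHLow_mem_ph D).2 ⟨v * r, Ideal.mul_mem_right _ _ (Ideal.subset_span hv), rfl⟩

theorem NHLow_ph_span (s : 𝓞 D.K) (a : Ideal (𝓞 D.K)) :
    NHLow_ph D (Ideal.span {s} * a) = sm D s (NHLow_ph D a) := by
  ext z
  simp only [NHLow_mem_ph, NHLow_mem_sm, Ideal.mem_span_singleton_mul]
  constructor
  · rintro ⟨_, ⟨y, hy, rfl⟩, rfl⟩
    exact ⟨_, ⟨y, hy, rfl⟩, rfl⟩
  · rintro ⟨_, ⟨y, hy, rfl⟩, rfl⟩
    exact ⟨_, ⟨y, hy, rfl⟩, rfl⟩

theorem NHLow_Ix (h : oo D ≤ oK D) {x x' : 𝓞 D.K}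
    (e : Ideal.Quotient.mk (Ideal.span {(ix D : 𝓞 D.K)}) x = Ideal.Quotient.mk _ x') :
    Ix D x = Ix D x' := by
  have key : ∀ x x' : 𝓞 D.K, Ideal.Quotient.mk (Ideal.span {(ix D : 𝓞 D.K)}) x =
      Ideal.Quotient.mk _ x' → Ix D x ≤ Ix D x' := fun x x' e => by
    refine sup_le (fun z hz => ?_) le_sup_right
    obtain ⟨y, hy, rfl⟩ := (NHLow_mem_sm D).1 hz
    obtain ⟨w, hw⟩ := Ideal.mem_span_singleton'.1 (Ideal.Quotient.eq.1 e)
    have h1 : (x : D.K) * y = x' * y + ix D * (w * y) := by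
      have h2 : ((w * ix D : 𝓞 D.K) : D.K) = ((x - x' : 𝓞 D.K) : D.K) := by rw [hw]
      push_cast at h2
      linear_combination -y * h2
    rw [h1]
    exact Submodule.add_mem_sup ((NHLow_mem_sm D).2 ⟨y, hy, rfl⟩)
      ((NHLow_mem_sm D).2 ⟨_, NHLow_mul_oK D (NHLow_coe_oK D w) (h hy), rfl⟩)
  exact le_antisymm (key _ _ e) (key _ _ e.symm)

/-- Homothety of lattices. -/
def NHLow_eqv : Setoid (Submodule ℤ D.K) where
  r I I' := ∃ a : D.K, a ≠ 0 ∧ I = sm D a I'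
  iseqv := ⟨fun I => ⟨1, one_ne_zero, (NHLow_sm_one D I).symm⟩, by
    rintro I I' ⟨a, ha, rfl⟩
    exact ⟨a⁻¹, inv_ne_zero ha, by rw [NHLow_sm_sm, inv_mul_cancel₀ ha, NHLow_sm_one]⟩, by
    rintro I I' I'' ⟨a, ha, rfl⟩ ⟨b, hb, rfl⟩
    exact ⟨a * b, mul_ne_zero ha hb, NHLow_sm_sm D _ _ _⟩⟩

theorem NHLow_unit {a : D.K} (ha : a ≠ 0) (h : oK D = sm D a (oK D)) :
    ∃ e : (𝓞 D.K)ˣ, ((e : 𝓞 D.K) : D.K) = a := by
  have h1 : a ∈ oK D := by
    rw [h]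
    exact (NHLow_mem_sm D).2 ⟨1, NHLow_one_oK D, mul_one a⟩
  obtain ⟨y, hy, e⟩ := (NHLow_mem_sm D).1 (h ▸ NHLow_one_oK D)
  obtain ⟨a, rfl⟩ := (NHLow_mem_oK D).1 h1
  obtain ⟨y, rfl⟩ := (NHLow_mem_oK D).1 hy
  exact ⟨Units.mkOfMulEqOne a y (RingOfIntegers.ext e), rfl⟩

theorem NHLow_class {a b : nonZeroDivisors (Ideal (𝓞 D.K))} {t : D.K} (ht : t ≠ 0)
    (h : NHLow_ph D a = sm D t (NHLow_ph D b)) : ClassGroup.mk0 a = ClassGroup.mk0 b := by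
  obtain ⟨s, u, hu, rfl⟩ := IsFractionRing.div_surjective (A := 𝓞 D.K) t
  have hu0 : u ≠ 0 := nonZeroDivisors.ne_zero hu
  have hu1 : (algebraMap (𝓞 D.K) D.K u) ≠ 0 := by simpa using hu0
  refine ClassGroup.mk0_eq_mk0_iff.2 ⟨u, s, hu0, fun e => ht (by simp [e]), NHLow_ph_inj D ?_⟩
  rw [NHLow_ph_span, NHLow_ph_span, h, NHLow_sm_sm]
  congr 1
  exact mul_div_cancel₀ _ hu1

end Aux

theorem s_HLow (hOrdA : OrdA) (hDesc : Desc) (hKer : Ker) (hMov : Mov) : HLow := by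
  intro n D
  obtain ⟨hf, -, -, -, hoo, -, -, hfr, hmul, hinv, hsm, hsmm, -, -, hne, hfi, -⟩ := hOrdA n D
  obtain ⟨k1, k2, k3⟩ := hKer n D
  choose a ha ha' using (hMov D.K (ix D) hf).1
  choose Ic hIc hup _ using fun c => hDesc n D (a c).1 (nonZeroDivisors.ne_zero (a c).2) (ha' c)
  choose Jc hJc hIJ using fun c => hinv (Ic c) (hIc c).1
  have : Finite (𝓞 D.K ⧸ Ideal.span {(ix D : 𝓞 D.K)}) :=
    Ideal.finiteQuotientOfFreeOfNeBot _ (by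
      rw [Ne, Ideal.span_singleton_eq_bot]
      exact_mod_cast hf.ne')
  choose xx hxx using fun u : (𝓞 D.K ⧸ Ideal.span {(ix D : 𝓞 D.K)})ˣ =>
    Ideal.Quotient.mk_surjective u.1
  have hxu : ∀ u, IsUnit (Ideal.Quotient.mk (Ideal.span {(ix D : 𝓞 D.K)}) (xx u)) := fun u => by
    rw [hxx]
    exact u.isUnit
  have hphc : ∀ c, NHLow_ph D (a c).1 = Ic c * oK D := fun c => by
    rw [← hup, NHLow_ph_up D ((hIc c).2.trans hoo)]
  have hIxM : ∀ u, Ix D (xx u) * oK D = oK D := fun u => by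
    rw [← NHLow_ph_up D (k1 _ (hxu u)).2.1, (k1 _ (hxu u)).2.2, NHLow_ph_top]
  obtain ⟨Φ, hΦ⟩ : ∃ Φ : ClassGroup (𝓞 D.K) × (𝓞 D.K ⧸ Ideal.span {(ix D : 𝓞 D.K)})ˣ →
    Submodule ℤ D.K, ∀ p, Φ p = Ic p.1 * Ix D (xx p.2) := ⟨_, fun _ => rfl⟩
  have hΦp : ∀ p, D.IsProperInv (Φ p) := fun p => by
    rw [hΦ]
    exact hmul _ _ (hIc _).1 (k1 _ (hxu _)).1
  have hsurj : ∀ I, D.IsProperInv I → ∃ p, NHLow_eqv D I (Φ p) := by
    intro I hI
    obtain ⟨m, hm, hmI⟩ := (hfr I hI.1).2.2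
    have hm0 : (m : D.K) ≠ 0 := by exact_mod_cast hm.ne'
    have hI1 : sm D m I ∈ BB D := ⟨hsm I m hm0 hI, hmI⟩
    have h0 : up D (sm D m I) ∈ nonZeroDivisors (Ideal (𝓞 D.K)) :=
      mem_nonZeroDivisors_of_ne_zero (hne _ hI1)
    obtain ⟨c, hc⟩ : ∃ c, c = ClassGroup.mk0 ⟨_, h0⟩ := ⟨_, rfl⟩
    obtain ⟨x, y, hx, hy, e⟩ := ClassGroup.mk0_eq_mk0_iff.1 (hc.symm.trans (ha c).symm)
    have hx0 : (x : D.K) ≠ 0 := by simpa using hx
    have hy0 : (y : D.K) ≠ 0 := by simpa using hy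
    have e1 := congrArg (NHLow_ph D) e
    rw [NHLow_ph_span, NHLow_ph_span, NHLow_ph_up D (hmI.trans hoo), hphc] at e1
    have e2 : sm D ((y : D.K)⁻¹ * x) (sm D m I * oK D) = Ic c * oK D := by
      rw [← NHLow_sm_sm, e1, NHLow_sm_sm, inv_mul_cancel₀ hy0, NHLow_sm_one]
    have ht : (y : D.K)⁻¹ * x ≠ 0 := mul_ne_zero (inv_ne_zero hy0) hx0
    have hL : D.IsProperInv (sm D ((y : D.K)⁻¹ * x) (sm D m I * Jc c)) :=
      hsm _ _ ht (hmul _ _ hI1.1 (hJc c))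
    have e3 : sm D ((y : D.K)⁻¹ * x) (sm D m I * Jc c) * oK D = oK D := by
      rw [hsmm, mul_right_comm, ← hsmm, e2, mul_right_comm, hIJ, NHLow_oo_oK D hoo]
    have hLK : sm D ((y : D.K)⁻¹ * x) (sm D m I * Jc c) ≤ oK D :=
      (NHLow_le_mul D _).trans e3.le
    obtain ⟨z, hz, e4⟩ := k2 _ hL hLK (NHLow_ph_inj D (by rw [NHLow_ph_up D hLK, e3, NHLow_ph_top]))
    refine ⟨(c, hz.unit), (NHLow_eqv D).symm ⟨(y : D.K)⁻¹ * x * m, mul_ne_zero ht hm0, ?_⟩⟩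
    rw [hΦ, NHLow_Ix D hoo (hxx hz.unit), ← e4, mul_comm, hsmm, mul_assoc, mul_comm (Jc c), hIJ,
      (hfr _ hI1.1.1).1, NHLow_sm_sm]
  have hfib : ∀ p p0, NHLow_eqv D (Φ p) (Φ p0) → p.1 = p0.1 ∧ ∃ (e : (𝓞 D.K)ˣ) (y : 𝓞 D.K),
      (y : D.K) ∈ D.O ∧ p.2.1 = Ideal.Quotient.mk _ (e : 𝓞 D.K) * p0.2.1 *
        Ideal.Quotient.mk _ y := by
    rintro ⟨c, u⟩ ⟨c', u'⟩ ⟨t, ht, e⟩
    rw [hΦ, hΦ] at e
    dsimp only at e ⊢
    have e1 : NHLow_ph D (a c).1 = sm D t (NHLow_ph D (a c').1) := by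
      have := congrArg (· * oK D) e
      rwa [hsmm, mul_assoc, mul_assoc, hIxM, hIxM, ← hphc, ← hphc] at this
    have hcc : c = c' := by rw [← ha c, NHLow_class D ht e1, ha]
    subst hcc
    have e2 : Ix D (xx u) = sm D t (Ix D (xx u')) := by
      have := congrArg (· * Jc c) e
      rwa [hsmm, mul_right_comm, hIJ, mul_right_comm, hIJ, mul_comm, (hfr _ (k1 _ (hxu u)).1.1).1,
        mul_comm, (hfr _ (k1 _ (hxu u')).1.1).1] at this
    have e3 : oK D = sm D t (oK D) := by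
      have := congrArg (· * oK D) e2
      rwa [hsmm, hIxM, hIxM] at this
    obtain ⟨e', rfl⟩ := NHLow_unit D ht e3
    obtain ⟨y, hy, e4⟩ := k3 _ _ e' (hxu u) e2
    refine ⟨rfl, e', y, hy, ?_⟩
    rw [← hxx u, e4, map_mul, map_mul, hxx]
  have := Fintype.ofFinite (𝓞 D.K ⧸ Ideal.span {(ix D : 𝓞 D.K)})ˣ
  have := Fintype.ofFinite ((𝓞 D.K)ˣ ⧸ UO D)
  have := Fintype.ofFinite {x : (𝓞 D.K ⧸ Ideal.span {(ix D : 𝓞 D.K)})ˣ //
    ∃ y : 𝓞 D.K, (y : D.K) ∈ D.O ∧ Ideal.Quotient.mk _ y = x.1}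
  have hout : ∀ I, NHLow_eqv D (Quotient.mk (NHLow_eqv D) I).out I := fun I =>
    Quotient.mk_out (s := NHLow_eqv D) I
  refine ⟨Finset.univ.image fun p => (Quotient.mk (NHLow_eqv D) (Φ p)).out, ⟨?_, ?_, ?_⟩, ?_⟩
  · intro I hI
    obtain ⟨p, -, rfl⟩ := Finset.mem_image.1 hI
    obtain ⟨t, ht, e⟩ := hout (Φ p)
    rw [e]
    exact hsm _ _ ht (hΦp p)
  · intro I hI
    obtain ⟨p, hp⟩ := hsurj I hI
    exact ⟨_, Finset.mem_image_of_mem _ (Finset.mem_univ p),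
      (NHLow_eqv D).trans hp ((NHLow_eqv D).symm (hout _))⟩
  · intro I hI I' hI' t ht e
    obtain ⟨p, -, rfl⟩ := Finset.mem_image.1 hI
    obtain ⟨p', -, rfl⟩ := Finset.mem_image.1 hI'
    have := Quotient.sound (s := NHLow_eqv D) ⟨t, ht, e⟩
    rw [Quotient.out_eq, Quotient.out_eq] at this
    rw [this]
  · have hcard := Finset.card_le_mul_card_image
      (f := fun p => (Quotient.mk (NHLow_eqv D) (Φ p)).out) Finset.univ
      ((UO D).index * phiO D) (by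
        intro b hb
        obtain ⟨p0, -, rfl⟩ := Finset.mem_image.1 hb
        have hc : (UO D).index * phiO D = (Finset.univ : Finset (((𝓞 D.K)ˣ ⧸ UO D) ×
            {x : (𝓞 D.K ⧸ Ideal.span {(ix D : 𝓞 D.K)})ˣ //
              ∃ y : 𝓞 D.K, (y : D.K) ∈ D.O ∧ Ideal.Quotient.mk _ y = x.1})).card := by
          rw [Finset.card_univ, Fintype.card_prod, ← Nat.card_eq_fintype_card,
            ← Nat.card_eq_fintype_card]
          rfl
        rw [hc]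
        refine le_trans (Finset.card_le_card fun p hp => ?_) (Finset.card_image_le (f := fun q =>
          (p0.1, Units.map (Ideal.Quotient.mk (Ideal.span {(ix D : 𝓞 D.K)})).toMonoidHom
            q.1.out * p0.2 * q.2.1)))
        have h1 := congrArg (Quotient.mk (NHLow_eqv D)) (Finset.mem_filter.1 hp).2
        rw [Quotient.out_eq, Quotient.out_eq] at h1
        obtain ⟨h2, e, y, hy, h3⟩ := hfib p p0 (Quotient.exact h1)
        obtain ⟨h, hh⟩ := QuotientGroup.mk_out_eq_mul (UO D) e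
        refine Finset.mem_image.2 ⟨(QuotientGroup.mk e,
          ⟨(Units.map (Ideal.Quotient.mk (Ideal.span {(ix D : 𝓞 D.K)})).toMonoidHom
            (e * h) * p0.2)⁻¹ * p.2, ((h.1⁻¹ : (𝓞 D.K)ˣ) : 𝓞 D.K) * y,
            D.O.mul_mem h.2.2 hy, ?_⟩), Finset.mem_univ _, Prod.ext h2.symm ?_⟩
        · rw [Units.val_mul, eq_comm, Units.inv_mul_eq_iff_eq_mul, h3]
          simp only [Units.val_mul, Units.coe_map, RingHom.toMonoidHom_eq_coe, MonoidHom.coe_coe,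
            map_mul]
          have h4 : Ideal.Quotient.mk (Ideal.span {(ix D : 𝓞 D.K)}) (h.1 : 𝓞 D.K) *
              Ideal.Quotient.mk _ ((h.1⁻¹ : (𝓞 D.K)ˣ) : 𝓞 D.K) = 1 := by
            rw [← map_mul, Units.mul_inv, map_one]
          linear_combination (-(Ideal.Quotient.mk _ (e : 𝓞 D.K) * p0.2.1 *
            Ideal.Quotient.mk _ y)) * h4
        · dsimp only
          rw [hh, mul_inv_cancel_left])
    rw [Finset.card_univ, Fintype.card_prod, ← Nat.card_eq_fintype_card (α := Units _)] at hcard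
    rw [mul_assoc, mul_comm (Finset.card _)]
    exact hcard

end TP
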