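import Vale.Agent.P007.NStm
import Vale.Agent.P016.HZ

noncomputable section
namespace TP
open Complex MeasureTheory NumberField Filter ART
open Vale.Agent.P007 (Datum X lattice act orbit diagA stab vol IsOrbitMeasure)
open scoped Classical Topology ArithmeticFunction.omega

section Aux
variable {K : Type} [Field K] [NumberField K]

theorem NHZ_meas : Measurable (hs : (InfinitePlace K → ℝ) → ℝ) := by
  unfold hs
  fun_prop

theorem NHZ_le (a : ℝ) : MeasurableSet {u : InfinitePlace K → ℝ | hs u ≤ a} :=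
  measurableSet_le NHZ_meas measurable_const

theorem NHZ_ge (a : ℝ) : MeasurableSet {u : InfinitePlace K → ℝ | a ≤ hs u} :=
  measurableSet_le measurable_const NHZ_meas

theorem NHZ_rk [IsTotallyReal K] : Fintype.card (InfinitePlace K) = dg K := by
  have h := InfinitePlace.sum_mult_eq (K := K)
  simp only [IsTotallyReal.mult_eq, Finset.sum_const, Finset.card_univ, smul_eq_mul,
    mul_one] at h
  exact h

theorem NHZ_push {φ : (InfinitePlace K → ℝ) → ℝ} {V : ℝ} (hV : ∀ h : ℝ → ℂ, Integrable h →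
      Integrable (fun u : InfinitePlace K → ℝ => (φ u : ℂ) * h (hs u)) ∧
      ∫ u : InfinitePlace K → ℝ, (φ u : ℂ) * h (hs u) = V * ∫ t, h t)
    {s : ℂ} (hs0 : 0 < s.re) (a : ℝ) :
    IntegrableOn (fun u : InfinitePlace K → ℝ => (φ u : ℂ) * Complex.exp (s * (hs u : ℝ)))
      {u | hs u ≤ a} ∧
    ∫ u in {u : InfinitePlace K → ℝ | hs u ≤ a}, (φ u : ℂ) * Complex.exp (s * (hs u : ℝ))
      = V * (Complex.exp (s * a) / s) := by
  have h1 := hV ((Set.Iic a).indicator fun t : ℝ => Complex.exp (s * t))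
    ((integrable_indicator_iff measurableSet_Iic).2 (integrableOn_exp_mul_complex_Iic hs0 a))
  have e : (fun u : InfinitePlace K → ℝ =>
      (φ u : ℂ) * (Set.Iic a).indicator (fun t : ℝ => Complex.exp (s * t)) (hs u))
      = Set.indicator {u | hs u ≤ a} fun u => (φ u : ℂ) * Complex.exp (s * (hs u : ℝ)) := by
    funext u
    by_cases hu : hs u ≤ a
    · rw [Set.indicator_of_mem (Set.mem_Iic.2 hu), Set.indicator_of_mem (by exact hu)]
    · rw [Set.indicator_of_notMem (mt Set.mem_Iic.1 hu), Set.indicator_of_notMem (by exact hu),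
        mul_zero]
  rw [e, integrable_indicator_iff (NHZ_le a), integral_indicator (NHZ_le a),
    integral_indicator measurableSet_Iic, integral_exp_mul_complex_Iic hs0] at h1
  exact h1

theorem NHZ_cut [IsTotallyReal K] {φ : (InfinitePlace K → ℝ) → ℝ} (hφ : IsPhi φ) {V : ℝ}
    (hV : ∀ h : ℝ → ℂ, Integrable h →
      Integrable (fun u : InfinitePlace K → ℝ => (φ u : ℂ) * h (hs u)) ∧
      ∫ u : InfinitePlace K → ℝ, (φ u : ℂ) * h (hs u) = V * ∫ t, h t)
    {κ c0 : ℝ} {p p' : ℂ} {T T' : (InfinitePlace K → ℝ) → ℂ} (hP : ∀ u, p + T u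
      = ((κ * Real.exp (-hs u) : ℝ) : ℂ) * (p' + T' fun w => c0 - u w))
    {z : ℂ} (hz : 1 < z.re)
    (hi : Integrable fun u => (φ u : ℂ) * T u * Complex.exp (z * (hs u : ℝ))) (a : ℝ) :
    ∫ u in {u | hs u ≤ a}, (φ u : ℂ) * T u * Complex.exp (z * (hs u : ℝ))
      = κ * Complex.exp ((z - 1) * (dg K * c0 / 2 : ℝ)) *
          (∫ u in {u | dg K * c0 / 2 - a ≤ hs u},
            (φ (-u) : ℂ) * T' u * Complex.exp ((1 - z) * (hs u : ℝ)))
        + κ * p' * (V * (Complex.exp ((z - 1) * a) / (z - 1)))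
        - p * (V * (Complex.exp (z * a) / z)) := by
  obtain ⟨i1, e1⟩ := NHZ_push hV (s := z - 1) (by rw [sub_re, one_re]; linarith) a
  obtain ⟨i2, e2⟩ := NHZ_push hV (s := z) (by linarith) a
  have hS : ∀ u : InfinitePlace K → ℝ,
      hs ((fun _ => c0) - u : InfinitePlace K → ℝ) = dg K * c0 / 2 - hs u := by
    intro u
    simp only [hs, Pi.sub_apply]
    rw [Finset.sum_sub_distrib, Finset.sum_const, Finset.card_univ, nsmul_eq_mul, NHZ_rk]
    ring
  have e3 : κ * Complex.exp ((z - 1) * (dg K * c0 / 2 : ℝ)) *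
      (∫ u in {u | dg K * c0 / 2 - a ≤ hs u},
        (φ (-u) : ℂ) * T' u * Complex.exp ((1 - z) * (hs u : ℝ)))
      = ∫ u in {u | hs u ≤ a}, ((φ u : ℂ) * T u * Complex.exp (z * (hs u : ℝ))
        - κ * p' * ((φ u : ℂ) * Complex.exp ((z - 1) * (hs u : ℝ)))
        + p * ((φ u : ℂ) * Complex.exp (z * (hs u : ℝ)))) := by
    rw [← integral_const_mul, ← integral_indicator (NHZ_ge _), ← integral_indicator (NHZ_le a),
      ← integral_sub_left_eq_self _ _ fun _ => c0]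
    refine integral_congr_ae (Eventually.of_forall fun u => ?_)
    dsimp only
    by_cases hu : hs u ≤ a
    · rw [Set.indicator_of_mem (by rw [Set.mem_ofPred_eq, hS]; linarith),
        Set.indicator_of_mem (by exact hu), hS]
      have a1 : φ (-((fun _ => c0) - u)) = φ u := by
        rw [← hφ.2.2.1 u (-c0)]
        refine congrArg φ (funext fun w => ?_)
        simp only [Pi.neg_apply, Pi.sub_apply]
        ring
      have a2 : T' ((fun _ => c0) - u) = T' fun w => c0 - u w := rfl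
      have a3 : Complex.exp ((z - 1) * (dg K * c0 / 2 : ℝ))
          * Complex.exp ((1 - z) * (dg K * c0 / 2 - hs u : ℝ))
          = Complex.exp ((z - 1) * (hs u : ℝ)) := by
        rw [← Complex.exp_add, ofReal_sub]
        refine congrArg Complex.exp ?_
        ring
      have a4 : (Real.exp (-hs u) : ℂ) * Complex.exp (z * (hs u : ℝ))
          = Complex.exp ((z - 1) * (hs u : ℝ)) := by
        rw [ofReal_exp, ← Complex.exp_add, ofReal_neg]
        refine congrArg Complex.exp ?_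
        ring
      have a5 := hP u
      rw [ofReal_mul] at a5
      rw [a1, a2]
      linear_combination (κ * φ u * T' fun w => c0 - u w) * a3
        - (φ u * Complex.exp (z * (hs u : ℝ))) * a5
        - (κ * φ u * (p' + T' fun w => c0 - u w)) * a4
    · rw [Set.indicator_of_notMem (by rw [Set.mem_ofPred_eq, hS]; intro h; exact hu (by linarith)),
        Set.indicator_of_notMem (by exact hu)]
  have i3 : IntegrableOn (fun u => (φ u : ℂ) * T u * Complex.exp (z * (hs u : ℝ))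
      - κ * p' * ((φ u : ℂ) * Complex.exp ((z - 1) * (hs u : ℝ)))) {u | hs u ≤ a} :=
    hi.integrableOn.sub (i1.const_mul _)
  rw [e3, integral_add i3 (i2.const_mul _), integral_sub hi.integrableOn (i1.const_mul _),
    integral_const_mul, integral_const_mul, e1, e2]
  ring

theorem NHZ_B [IsTotallyReal K] (h6 : TailR) {φ : (InfinitePlace K → ℝ) → ℝ} (hφ : IsPhi φ)
    {e : ℕ} (he : e ≤ 1)
    {ρ' : 𝓞 K → ℂ} (h' : ∀ y, ‖ρ' y‖ ≤ 1) {κ y : ℝ} (hκ : 0 ≤ κ) (hy : 1 ≤ y) (a : ℝ) {z : ℂ}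
    (hz : -2 ≤ z.re) :
    ‖κ * Complex.exp ((z - 1) * (dg K * (Real.log (3 / 4) - 2 * Real.log y) / 2 : ℝ)) *
        ∫ u in {u | dg K * (Real.log (3 / 4) - 2 * Real.log y) / 2 - a ≤ hs u},
          (φ (-u) : ℂ) * ThR e ρ' u * Complex.exp ((1 - z) * (hs u : ℝ))‖
      ≤ κ * (((2 * y) ^ dg K) ^ 2) ^ 3 * Real.exp a ^ 2 * Real.exp (z.re * a)
        * Real.exp (2 * dg K) := by
  have h1 := ((h6 K).2 e _ ρ' _ _ he hφ.neg h'
    (NHZ_ge (dg K * (Real.log (3 / 4) - 2 * Real.log y) / 2 - a))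
    fun u hu => hu).2.2 (1 - z) 3 (by norm_num) (by norm_num) (by
      rw [sub_re, one_re]; push_cast; linarith)
  rw [norm_mul, norm_mul, norm_real, Real.norm_of_nonneg hκ, Complex.norm_exp]
  refine (mul_le_mul_of_nonneg_left h1 (by positivity)).trans ?_
  have l2 : 0 ≤ Real.log 2 := Real.log_nonneg (by norm_num)
  have l3 : -Real.log 2 ≤ Real.log (3 / 4) := by
    rw [← Real.log_inv]
    exact Real.log_le_log (by norm_num) (by norm_num)
  have h2 : 0 ≤ (dg K : ℝ) * (Real.log (3 / 4) + Real.log 2) :=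
    mul_nonneg (Nat.cast_nonneg _) (by linarith)
  have h2' : 0 ≤ (dg K : ℝ) * Real.log 2 := mul_nonneg (Nat.cast_nonneg _) l2
  have h2'' : 0 ≤ (dg K : ℝ) * Real.log y := mul_nonneg (Nat.cast_nonneg _) (Real.log_nonneg hy)
  have h3 : (((2 * y) ^ dg K) ^ 2) ^ 3 * Real.exp a ^ 2 * Real.exp (z.re * a)
      = Real.exp (6 * (dg K * (Real.log 2 + Real.log y)) + 2 * a + z.re * a) := by
    rw [← Real.log_mul (by norm_num) (by linarith),
      ← Real.exp_log (show 0 < 2 * y by linarith), ← Real.exp_nat_mul, ← Real.exp_nat_mul,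
      ← Real.exp_nat_mul, ← Real.exp_nat_mul, ← Real.exp_add, ← Real.exp_add, Real.log_exp]
    refine congrArg Real.exp ?_
    push_cast
    ring
  rw [← mul_assoc, mul_assoc κ, ← Real.exp_add, mul_assoc κ (_ ^ 3), mul_assoc κ (_ * _), h3,
    re_mul_ofReal, sub_re, sub_re, one_re]
  refine mul_le_mul_of_nonneg_right (mul_le_mul_of_nonneg_left (Real.exp_le_exp.2 ?_) hκ)
    (Real.exp_pos _).le
  push_cast
  nlinarith

theorem NHZ_tw0 (ρ : 𝓞 K → ℂ) : tw 0 ρ = ρ := by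
  funext x
  simp [tw]

theorem NHZ_ze (e : ℕ) : ‖ze e‖ ≤ 1 := by
  unfold ze
  split_ifs <;> simp

end Aux

theorem s_HZR (hExPhiR : ExPhiR) (hPushR : PushR) (hUnfR : UnfR) (hPoisKR : PoisKR) (hTailR : TailR) :
    HZR := by
  refine ⟨8, by norm_num, fun K _ _ _ => ?_⟩
  obtain ⟨φ, hφ⟩ := hExPhiR K
  obtain ⟨V, hV0, hV⟩ := hPushR K φ hφ
  obtain ⟨κ, hκ1, hκ2, hκ⟩ := hPoisKR K
  have hd : (1 : ℝ) ≤ dc K := Nat.one_le_cast.2 dc_pos
  have hκ0 : 0 < κ := lt_of_lt_of_le (by positivity) hκ1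
  have hn : 1 ≤ dg K := dg_pos
  have hc : ∀ a : ℝ, ∀ u ∈ {u : InfinitePlace K → ℝ | hs u ≤ a}ᶜ, a ≤ hs u :=
    fun a u hu => le_of_not_ge hu
  have hVb : V * κ ^ 2 / 2 ≤ 2 * Real.exp (2 * dg K)
      + κ ^ 5 * (((2 * (dc K : ℝ)) ^ dg K) ^ 2) ^ 3 * Real.exp (2 * dg K) := by
    obtain ⟨ρ', a1, a2, a3⟩ := hκ 0 1 (fun _ => 1) zero_le_one one_pos (fun _ _ => rfl)
      fun _ => norm_one.le
    have two : ((2 : ℕ) : ℂ).re = 2 := by simp
    obtain ⟨a4, a5⟩ := hUnfR K 0 φ (fun _ => 1) (2 : ℕ) zero_le_one hφ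
      (by rw [NHZ_tw0]; exact fun _ _ => rfl) (fun _ => norm_one.le) (by rw [two]; norm_num)
    have a6 := NHZ_cut hφ hV a3 (by rw [two]; norm_num) a4 (Real.log κ)
    have a7 := NHZ_B hTailR hφ zero_le_one a1 hκ0.le (y := ((1 : ℕ) : ℝ) * dc K)
      (by simpa using hd) (Real.log κ) (z := (2 : ℕ)) (by rw [two]; norm_num)
    have a8 := (hTailR K).1 0 2 (fun _ => 1) zero_le_one (fun _ => norm_one.le) le_rfl
      (by norm_num)
    have a9 := ((hTailR K).2 0 φ (fun _ => 1) _ _ zero_le_one hφ (fun _ => norm_one.le)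
      (NHZ_le (Real.log κ)).compl (hc _)).2.2 (2 : ℕ) 2 le_rfl (by norm_num)
      (by rw [two]; norm_num)
    rw [NHZ_tw0] at a5
    rw [← a5, ← integral_add_compl (NHZ_le (Real.log κ)) a4] at a8
    have b1 : Complex.exp ((((2 : ℕ) : ℂ) - 1) * (Real.log κ : ℝ)) = κ := by
      rw [show ((2 : ℕ) : ℂ) - 1 = 1 by norm_num, one_mul, ← ofReal_exp, Real.exp_log hκ0]
    have b2 : Complex.exp (((2 : ℕ) : ℂ) * (Real.log κ : ℝ)) = κ ^ 2 := by
      rw [Complex.exp_nat_mul, ← ofReal_exp, Real.exp_log hκ0]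
    have b0 : ze 0 = 1 := if_pos rfl
    rw [a2 rfl, HZ_mean, b1, b2, b0] at a6
    rw [two, show (2 : ℝ) * Real.log κ = (2 : ℕ) * Real.log κ by norm_num, Real.exp_nat_mul,
      Real.exp_log hκ0] at a7
    rw [two, show (2 : ℝ) - (2 : ℕ) = 0 by norm_num, zero_mul, Real.exp_zero, one_mul] at a9
    generalize (∫ u in {u : InfinitePlace K → ℝ | hs u ≤ Real.log κ}, _ : ℂ) = I1 at a6 a8
    generalize (∫ u in {u : InfinitePlace K → ℝ | hs u ≤ Real.log κ}ᶜ, _ : ℂ) = I2 at a8 a9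
    generalize (κ : ℂ) * Complex.exp _ * _ = B at a6 a7
    have b3 : ((V * κ ^ 2 / 2 : ℝ) : ℂ) = I1 + I2 - I2 - B := by
      rw [a6]
      push_cast
      ring
    have b4 := (norm_sub_le (I1 + I2 - I2) B).trans (add_le_add (norm_sub_le (I1 + I2) I2) le_rfl)
    rw [← b3, norm_real, Real.norm_of_nonneg (by positivity)] at b4
    rw [Nat.cast_one, one_mul] at a7
    nlinarith
  intro e m ρ he hm hp hi hρ
  obtain ⟨ρ', a1, -, a3⟩ := hκ e m ρ he hm hp hρ
  have hm1 : (1 : ℝ) ≤ m := Nat.one_le_cast.2 hm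
  have hmd : (1 : ℝ) ≤ m * dc K := one_le_mul_of_one_le_of_one_le hm1 hd
  obtain ⟨-, tA, bA⟩ := (hTailR K).2 e φ ρ _ _ he hφ hρ (NHZ_le 0).compl (hc 0)
  have tB := ((hTailR K).2 e _ ρ' _ _ he hφ.neg a1
    (NHZ_ge (dg K * (Real.log (3 / 4) - 2 * Real.log (m * dc K)) / 2 - 0)) fun u hu => hu).2.1
  have p1 : ‖ρ 0 * ze e‖ ≤ 1 := by
    rw [norm_mul]
    exact mul_le_one₀ (hρ 0) (norm_nonneg _) (NHZ_ze e)
  have p2 : ‖ρ' 0 * ze e‖ ≤ 1 := by
    rw [norm_mul]
    exact mul_le_one₀ (a1 0) (norm_nonneg _) (NHZ_ze e)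
  generalize ρ 0 * ze e = p at a3 p1
  generalize ρ' 0 * ze e = p' at a3 p2
  refine ⟨fun z => z * (z - 1) * ((∫ u in {u | hs u ≤ 0}ᶜ,
      (φ u : ℂ) * ThR e ρ u * Complex.exp (z * (hs u : ℝ))) +
    κ * Complex.exp ((z - 1) * (dg K * (Real.log (3 / 4) - 2 * Real.log (m * dc K)) / 2 : ℝ)) *
      ∫ u in {u | dg K * (Real.log (3 / 4) - 2 * Real.log (m * dc K)) / 2 - 0 ≤ hs u},
        (φ (-u) : ℂ) * ThR e ρ' u * Complex.exp ((1 - z) * (hs u : ℝ)))
    + κ * p' * V * z - p * V * (z - 1), ?_, fun z hz => ?_, fun z hz hz' => ?_⟩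
  · refine (((differentiable_id.mul (differentiable_id.sub_const 1)).mul (tA.add
      (Differentiable.mul (by fun_prop) (tB.comp (differentiable_id.const_sub 1))))).add
      (by fun_prop)).sub (by fun_prop)
  · obtain ⟨a4, a5⟩ := hUnfR K e φ ρ z he hφ hi hρ hz
    have z0 : z ≠ 0 := fun h => by rw [h, zero_re] at hz; linarith
    have z1 : z - 1 ≠ 0 := fun h => by rw [sub_eq_zero.1 h, one_re] at hz; linarith
    dsimp only
    rw [mul_assoc _ (GG _ ^ dg K), ← a5, ← integral_add_compl (NHZ_le 0) a4,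
      NHZ_cut hφ hV a3 hz a4 0]
    simp only [ofReal_zero, mul_zero, Complex.exp_zero]
    field_simp
    ring
  · have b1 := bA z 4 (by norm_num) le_rfl (by exact_mod_cast hz')
    have b2 := NHZ_B hTailR hφ he a1 hκ0.le hmd 0 hz
    rw [mul_zero, Real.exp_zero, one_mul] at b1
    rw [mul_zero, Real.exp_zero, one_pow, mul_one, mul_one] at b2
    have hX : (2 * (dc K : ℝ)) ^ dg K ≤ (2 * (m * dc K)) ^ dg K :=
      pow_le_pow_left₀ (by positivity) (mul_le_mul_of_nonneg_left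
        (le_mul_of_one_le_left (by positivity) hm1) (by norm_num)) _
    have hX' : (dc K : ℝ) ≤ (2 * (dc K : ℝ)) ^ dg K :=
      le_trans (by linarith) (le_self_pow₀ (by linarith) (by omega))
    have hE : Real.exp (2 * dg K) ≤ (4 ^ dg K) ^ 2 := by
      rw [← pow_mul, mul_comm (dg K), pow_mul, mul_comm, Real.exp_nat_mul]
      refine pow_le_pow_left₀ (Real.exp_pos _).le ?_ _
      rw [show (2 : ℝ) = (2 : ℕ) * 1 by norm_num, Real.exp_nat_mul]
      exact pow_le_pow_left₀ (Real.exp_pos _).le (Real.exp_one_lt_d9.le.trans (by norm_num)) 2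
    have b3 := HZ_num (Real.one_le_exp (by positivity))
      (le_self_pow₀ (by norm_num) (by omega)) (one_le_pow₀ (one_le_pow₀ (by linarith))) hE hκ2
      hκ0.le ((inv_le_iff_one_le_mul₀ (by positivity)).1 hκ1)
      (pow_le_pow_left₀ (by positivity) (hX'.trans hX) 2) hV0.le b1 b2 (hVb.trans (by gcongr))
    have b4 : (((4 : ℝ) ^ dg K) ^ 2 * ((2 * (m * dc K)) ^ dg K) ^ 2) ^ 6
        = (8 * m * dc K) ^ (12 * dg K) := by
      rw [← mul_pow, ← mul_pow, ← pow_mul, ← pow_mul, mul_comm (dg K)]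
      refine congrArg₂ _ ?_ ?_
      · ring
      · norm_num
    rw [← b4]
    refine le_trans ?_ (mul_le_mul_of_nonneg_left b3 (by positivity))
    dsimp only
    generalize (∫ u in {u : InfinitePlace K → ℝ | hs u ≤ 0}ᶜ, _ : ℂ) = A
    generalize (κ : ℂ) * Complex.exp _ * _ = B
    have c1 : ‖z - 1‖ ≤ 1 + ‖z‖ := by linarith [norm_sub_le z 1, norm_one (α := ℂ)]
    have c0 := norm_nonneg z
    have c2 : ‖z * (z - 1) * (A + B)‖ ≤ (1 + ‖z‖) ^ 2 * (‖A‖ + ‖B‖) := by
      rw [norm_mul, norm_mul, sq]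
      gcongr
      · linarith
      · exact norm_add_le _ _
    have c3 : ‖κ * p' * V * z‖ ≤ (1 + ‖z‖) ^ 2 * (κ * V) := by
      rw [norm_mul, norm_mul, norm_mul, norm_real, norm_real, Real.norm_of_nonneg hκ0.le,
        Real.norm_of_nonneg hV0.le]
      calc κ * ‖p'‖ * V * ‖z‖ ≤ κ * 1 * V * (1 + ‖z‖) ^ 2 := by
            gcongr
            nlinarith
        _ = _ := by ring
    have c4 : ‖p * V * (z - 1)‖ ≤ (1 + ‖z‖) ^ 2 * V := by
      rw [norm_mul, norm_mul, norm_real, Real.norm_of_nonneg hV0.le]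
      calc ‖p‖ * V * ‖z - 1‖ ≤ 1 * V * (1 + ‖z‖) ^ 2 := by
            gcongr
            nlinarith
        _ = _ := by ring
    refine (norm_sub_le _ _).trans ((add_le_add (norm_add_le _ _) le_rfl).trans ?_)
    linarith


end TP
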