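import Vale.Agent.P007.NStm

noncomputable section
namespace TP
open Complex MeasureTheory NumberField Filter ART
open Vale.Agent.P007 (Datum X lattice act orbit diagA stab vol IsOrbitMeasure)
open scoped Classical Topology ArithmeticFunction.omega

section
variable {n : ℕ} {D : Datum n}

theorem NKer_oo {z : D.K} : z ∈ oo D ↔ z ∈ D.O := Iff.rfl

theorem NKer_oK {z : D.K} : z ∈ oK D ↔ IsIntegral ℤ z := Iff.rfl

theorem NKer_sm {a z : D.K} {I : Submodule ℤ D.K} : z ∈ sm D a I ↔ ∃ y ∈ I, a * y = z := Iff.rfl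

theorem NKer_lift {z : D.K} (h : IsIntegral ℤ z) : ∃ w : 𝓞 D.K, (w : D.K) = z := ⟨⟨z, h⟩, rfl⟩

theorem NKer_mem {x : 𝓞 D.K} {z : D.K} : z ∈ Ix D x ↔
    ∃ a w : 𝓞 D.K, (a : D.K) ∈ D.O ∧ z = ((x * a + ix D * w : 𝓞 D.K) : D.K) := by
  rw [Ix, Submodule.mem_sup]
  constructor
  · rintro ⟨_, ⟨a, ha, rfl⟩, _, ⟨w, hw, rfl⟩, rfl⟩
    obtain ⟨a', rfl⟩ := NKer_lift (D.integral a ha)
    obtain ⟨w', rfl⟩ := NKer_lift (NKer_oK.1 hw)
    exact ⟨a', w', ha, by simp⟩
  · rintro ⟨a, w, ha, rfl⟩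
    exact ⟨_, NKer_sm.2 ⟨a, ha, rfl⟩, _, NKer_sm.2 ⟨w, w.isIntegral_coe, rfl⟩, by simp⟩

theorem NKer_mem' (x a w : 𝓞 D.K) (ha : (a : D.K) ∈ D.O) :
    ((x * a + ix D * w : 𝓞 D.K) : D.K) ∈ Ix D x := NKer_mem.2 ⟨a, w, ha, rfl⟩

theorem NKer_le (x : 𝓞 D.K) : Ix D x ≤ oK D := by
  intro z hz
  obtain ⟨a, w, -, rfl⟩ := NKer_mem.1 hz
  exact RingOfIntegers.isIntegral_coe _

theorem NKer_fg : (oK D).FG := by
  have h : oK D = LinearMap.range (IsScalarTower.toAlgHom ℤ (𝓞 D.K) D.K).toLinearMap := by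
    ext z
    exact ⟨fun hz => NKer_lift (NKer_oK.1 hz), fun ⟨w, hw⟩ => hw ▸ w.isIntegral_coe⟩
  rw [h]
  exact Submodule.fg_range _

theorem NKer_frac (hf : 0 < ix D) (x : 𝓞 D.K) : D.IsFracIdeal (Ix D x) := by
  refine ⟨fun h => ?_, Submodule.FG.of_le NKer_fg (NKer_le x), fun b hb z hz => ?_⟩
  · have h1 := NKer_mem' x 0 1 (by simp)
    rw [h, Submodule.mem_bot] at h1
    simp at h1
    omega
  · obtain ⟨a, w, ha, rfl⟩ := NKer_mem.1 hz
    obtain ⟨b', rfl⟩ := NKer_lift (D.integral b hb)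
    refine NKer_mem.2 ⟨b' * a, b' * w, by simpa using D.O.mul_mem hb ha, ?_⟩
    push_cast
    ring

theorem NKer_mul (hfO : ∀ x : 𝓞 D.K, (ix D : D.K) * x ∈ D.O) {x x' w0 : 𝓞 D.K}
    (h : x * x' = 1 + ix D * w0) : Ix D x * Ix D x' = oo D := by
  apply le_antisymm
  · rw [Submodule.mul_le]
    intro z hz z' hz'
    obtain ⟨a, w, ha, rfl⟩ := NKer_mem.1 hz
    obtain ⟨a', w', ha', rfl⟩ := NKer_mem.1 hz'
    have e : (x * a + ix D * w) * (x' * a' + ix D * w') =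
        a * a' + ix D * (w0 * a * a' + x * a * w' + w * x' * a' + ix D * w * w') := by
      linear_combination a * a' * h
    have e2 := congrArg (fun t : 𝓞 D.K => (t : D.K)) e
    have h2 := D.O.add_mem (D.O.mul_mem ha ha')
      (hfO (w0 * a * a' + x * a * w' + w * x' * a' + ix D * w * w'))
    rw [NKer_oo]
    push_cast at e2 h2 ⊢
    rwa [e2]
  · intro b hb
    obtain ⟨a, rfl⟩ := NKer_lift (D.integral b hb)
    have m1 := NKer_mem' x a 0 hb
    have m2 := NKer_mem' x' 1 (-(w0 * x')) (by simp)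
    have m3 := NKer_mem' x 0 (a * w0) (by simp)
    have m4 := NKer_mem' x' 0 w0 (by simp)
    have e : a = (x * a + ix D * 0) * (x' * 1 + ix D * -(w0 * x')) +
        (x * 0 + ix D * (a * w0)) * (x' * 0 + ix D * w0) := by
      linear_combination (a * (ix D * w0 - 1)) * h
    have e2 := congrArg (fun t : 𝓞 D.K => (t : D.K)) e
    have h2 := Submodule.add_mem _ (Submodule.mul_mem_mul m1 m2) (Submodule.mul_mem_mul m3 m4)
    push_cast at e2 h2
    rwa [← e2] at h2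

theorem NKer_unit {x : 𝓞 D.K} :
    IsUnit (Ideal.Quotient.mk (Ideal.span {(ix D : 𝓞 D.K)}) x) ↔
      ∃ x' w0 : 𝓞 D.K, x * x' = 1 + ix D * w0 := by
  rw [isUnit_iff_exists_inv]
  constructor
  · rintro ⟨b, hb⟩
    obtain ⟨x', rfl⟩ := Ideal.Quotient.mk_surjective b
    rw [← map_mul, ← map_one (Ideal.Quotient.mk _), Ideal.Quotient.eq,
      Ideal.mem_span_singleton] at hb
    obtain ⟨w0, hw⟩ := hb
    exact ⟨x', w0, by linear_combination hw⟩
  · rintro ⟨x', w0, h⟩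
    refine ⟨Ideal.Quotient.mk _ x', ?_⟩
    rw [← map_mul, ← map_one (Ideal.Quotient.mk _), Ideal.Quotient.eq, Ideal.mem_span_singleton]
    exact ⟨w0, by linear_combination h⟩

end

theorem s_Ker (hOrdA : OrdA) (hLocP : LocP) : Ker := by
  intro n D
  obtain ⟨hf, -, -, hfO, -, -, hiff, -⟩ := hOrdA n D
  refine ⟨fun x hx => ?_, fun I hI hIK hup => ?_, fun x x' e _ h => ?_⟩
  · obtain ⟨x', w0, h⟩ := NKer_unit.1 hx
    refine ⟨(hiff _).2 ⟨NKer_frac hf x, Ix D x', NKer_frac hf x', NKer_mul hfO h⟩, NKer_le x, ?_⟩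
    rw [Ideal.eq_top_iff_one]
    have m1 : x * 1 + ix D * 0 ∈ up D (Ix D x) := Ideal.subset_span (NKer_mem' x 1 0 (by simp))
    have m2 : x * 0 + ix D * w0 ∈ up D (Ix D x) := Ideal.subset_span (NKer_mem' x 0 w0 (by simp))
    have m3 := Ideal.sub_mem _ (Ideal.mul_mem_right x' _ m1) m2
    have e : (x * 1 + ix D * 0) * x' - (x * 0 + ix D * w0) = 1 := by linear_combination h
    rwa [e] at m3
  · obtain ⟨x0, hx0, hx⟩ := hLocP n D I hI
    obtain ⟨x, rfl⟩ := NKer_lift (NKer_oK.1 (hIK hx0))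
    have h1 : I ≤ Ix D x := by
      intro y hy
      obtain ⟨a, ha, z, hz, rfl⟩ := hx y hy
      obtain ⟨a', rfl⟩ := NKer_lift (D.integral a ha)
      obtain ⟨w, rfl⟩ := NKer_lift (NKer_oK.1 (hIK hz))
      refine NKer_mem.2 ⟨a', w, ha, ?_⟩
      push_cast
      ring
    have h2 : up D I ≤ Ideal.span {x} ⊔ Ideal.span {(ix D : 𝓞 D.K)} := by
      refine Ideal.span_le.2 fun y hy => ?_
      obtain ⟨a, w, -, e⟩ := NKer_mem.1 (h1 hy)
      rw [RingOfIntegers.coe_injective e]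
      exact Submodule.add_mem_sup (Ideal.mul_mem_right _ _ (Ideal.mem_span_singleton_self _))
        (Ideal.mul_mem_right _ _ (Ideal.mem_span_singleton_self _))
    have h3 : ∀ t ∈ up D I, ∀ w : 𝓞 D.K, (ix D : D.K) * w * t ∈ I := by
      intro t ht
      induction ht using Submodule.span_induction with
      | mem t ht => exact fun w => hI.1.2.2 _ (hfO w) _ ht
      | zero => intro w; simp
      | add t t' _ _ h h' =>
        intro w
        have := I.add_mem (h w) (h' w)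
        push_cast
        rwa [mul_add]
      | smul r t _ h =>
        intro w
        have := h (w * r)
        rw [smul_eq_mul]
        push_cast at this ⊢
        rwa [← mul_assoc, mul_assoc _ (w : D.K)]
    refine ⟨x, ?_, le_antisymm h1 fun z hz => ?_⟩
    · have h4 : (1 : 𝓞 D.K) ∈ Ideal.span {x} ⊔ Ideal.span {(ix D : 𝓞 D.K)} :=
        h2 (hup ▸ Submodule.mem_top)
      obtain ⟨p, hp, q, hq, e⟩ := Submodule.mem_sup.1 h4
      obtain ⟨p', rfl⟩ := Ideal.mem_span_singleton.1 hp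
      obtain ⟨q', rfl⟩ := Ideal.mem_span_singleton.1 hq
      exact NKer_unit.2 ⟨p', -q', by linear_combination e⟩
    · obtain ⟨a, w, ha, rfl⟩ := NKer_mem.1 hz
      have h5 := h3 1 (hup ▸ Submodule.mem_top) w
      have h6 := I.add_mem (hI.1.2.2 _ ha _ hx0) h5
      push_cast at h6 ⊢
      rwa [mul_one, mul_comm] at h6
  · have m1 := NKer_mem' x 1 0 (by simp)
    rw [h] at m1
    obtain ⟨y, hy, e1⟩ := NKer_sm.1 m1
    obtain ⟨a, w, ha, rfl⟩ := NKer_mem.1 hy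
    refine ⟨a, ha, ?_⟩
    have e2 : (e : 𝓞 D.K) * (x' * a + ix D * w) = x * 1 + ix D * 0 :=
      RingOfIntegers.coe_injective ((map_mul _ _ _).trans e1)
    rw [Ideal.Quotient.eq, Ideal.mem_span_singleton]
    exact ⟨e * w, by linear_combination -e2⟩

end TP
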