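import Vale.Agent.P007.NStm

noncomputable section
namespace TP
open Complex MeasureTheory NumberField Filter ART
open Vale.Agent.P007 (Datum X lattice act orbit diagA stab vol IsOrbitMeasure)
open scoped Classical Topology ArithmeticFunction.omega

theorem NLat_mem {n : ℕ} (g : Matrix.SpecialLinearGroup (Fin n) ℝ) (w : Fin n → ℝ) :
    w ∈ lattice (Vale.Agent.P007.proj g) ↔
      ∃ k : Fin n → ℤ, Matrix.vecMul (fun i => (k i : ℝ)) g.1 = w := by
  rw [Vale.Agent.P007.lattice_proj, Submodule.mem_span_range_iff_exists_fun]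
  refine exists_congr fun k => Eq.congr_left ?_
  funext j
  simp [Matrix.vecMul, dotProduct, Finset.sum_apply]

theorem NLat_surj {n : ℕ} (x : X n) : ∃ g, Vale.Agent.P007.proj g = x :=
  ⟨_, Vale.Agent.P007.proj_out x⟩

theorem NLat_inj {n : ℕ} (x y : X n) (h : lattice x = lattice y) : x = y := by
  obtain ⟨g, rfl⟩ := NLat_surj x
  obtain ⟨g', rfl⟩ := NLat_surj y
  have h1 : ∀ i, ∃ k : Fin n → ℤ, Matrix.vecMul (fun i => (k i : ℝ)) g'.1 = g.1 i := fun i => by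
    rw [← NLat_mem, ← h, Vale.Agent.P007.lattice_proj]
    exact Submodule.subset_span ⟨i, rfl⟩
  choose k hk using h1
  have h2 : (Matrix.of k).map (Int.castRingHom ℝ) * g'.1 = g.1 := by
    ext i j
    rw [← hk i]
    simp [Matrix.mul_apply, Matrix.vecMul, dotProduct]
  have h3 : (Matrix.of k).det = 1 := by
    have h4 := congrArg Matrix.det h2
    rw [Matrix.det_mul, g.2, g'.2, mul_one, ← RingHom.mapMatrix_apply, ← RingHom.map_det] at h4
    exact_mod_cast (show (((Matrix.of k).det : ℤ) : ℝ) = 1 from h4)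
  rw [Vale.Agent.P007.proj_eq_iff]
  refine ⟨⟨Matrix.of k, h3⟩, ?_⟩
  rw [eq_mul_inv_iff_mul_eq]
  exact Subtype.ext h2

theorem NLat_act {n : ℕ} (g : Matrix.SpecialLinearGroup (Fin n) ℝ) (x : X n) :
    (lattice (act g x) : Set (Fin n → ℝ)) = (fun v => Matrix.vecMul v g.1) '' lattice x := by
  obtain ⟨h, rfl⟩ := NLat_surj x
  rw [Vale.Agent.P007.act_proj]
  ext w
  simp only [SetLike.mem_coe, Set.mem_image, NLat_mem]
  constructor
  · rintro ⟨k, rfl⟩
    exact ⟨_, ⟨k, rfl⟩, by rw [Matrix.vecMul_vecMul]; rfl⟩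
  · rintro ⟨_, ⟨k, rfl⟩, rfl⟩
    exact ⟨k, by rw [Matrix.vecMul_vecMul]; rfl⟩

theorem NLat_fin {n : ℕ} (x : X n) (B : ℝ) :
    {w : Fin n → ℝ | w ∈ lattice x ∧ ‖w‖ ≤ B}.Finite := by
  obtain ⟨g, rfl⟩ := NLat_surj x
  obtain ⟨M, hM⟩ : ∃ M : Fin n → ℤ, ∀ j, ∑ i, B * |(g⁻¹).1 i j| ≤ M j :=
    ⟨fun j => ⌈∑ i, B * |(g⁻¹).1 i j|⌉, fun j => Int.le_ceil _⟩
  refine ((Set.finite_Icc (-M) M).image
    fun k : Fin n → ℤ => Matrix.vecMul (fun i => (k i : ℝ)) g.1).subset ?_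
  rintro w ⟨h1, h2⟩
  obtain ⟨k, rfl⟩ := (NLat_mem g w).1 h1
  refine ⟨k, ?_, rfl⟩
  have h3 : ∀ j, |k j| ≤ M j := fun j => by
    have e : Matrix.vecMul (Matrix.vecMul (fun i => (k i : ℝ)) g.1) (g⁻¹).1 =
        fun i => (k i : ℝ) := by
      rw [Matrix.vecMul_vecMul, ← Matrix.SpecialLinearGroup.coe_mul, mul_inv_cancel,
        Matrix.SpecialLinearGroup.coe_one, Matrix.vecMul_one]
    have h4 : |(k j : ℝ)| ≤ M j := by
      rw [← congrFun e j]
      refine le_trans ?_ (hM j)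
      generalize Matrix.vecMul (fun i => (k i : ℝ)) g.1 = w at h2
      change |∑ i, w i * (g⁻¹).1 i j| ≤ _
      refine (Finset.abs_sum_le_sum_abs _ _).trans (Finset.sum_le_sum fun i _ => ?_)
      rw [abs_mul]
      exact mul_le_mul_of_nonneg_right ((norm_le_pi_norm w i).trans h2) (abs_nonneg _)
    exact_mod_cast h4
  exact ⟨fun j => (abs_le.1 (h3 j)).1, fun j => (abs_le.1 (h3 j)).2⟩

theorem NLat_open {n : ℕ} (B s ε : ℝ) : IsOpen (thinSet n B s ε) := by
  rw [← (Vale.Agent.P007.isOpenQuotientMap_proj n).isQuotientMap.isOpen_preimage]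
  have e : Vale.Agent.P007.proj ⁻¹' thinSet n B s ε = ⋃ k : Fin n → ℤ,
      (fun g : Matrix.SpecialLinearGroup (Fin n) ℝ => Matrix.vecMul (fun i => (k i : ℝ)) g.1) ⁻¹'
        {w | w ≠ 0 ∧ ‖w‖ < B ∧ |(|∏ j, w j|) - s| < ε} := by
    ext g
    simp only [thinSet, Set.mem_preimage, Set.mem_ofPred_eq, Set.mem_iUnion, NLat_mem]
    constructor
    · rintro ⟨_, ⟨k, rfl⟩, h⟩
      exact ⟨k, h⟩
    · rintro ⟨k, h⟩
      exact ⟨_, ⟨k, rfl⟩, h⟩
  rw [e]
  refine isOpen_iUnion fun k => IsOpen.preimage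
    (Continuous.matrix_vecMul continuous_const continuous_subtype_val) ?_
  have c : Continuous fun w : Fin n → ℝ => |(|∏ j, w j|) - s| := by fun_prop
  exact isOpen_ne.inter ((isOpen_lt continuous_norm continuous_const).inter
    (isOpen_lt c continuous_const))

theorem s_LatA : LatA := fun _ => ⟨NLat_inj, NLat_act, NLat_fin, NLat_open⟩

end TP
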