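import Vale.Agent.P007.NStm

noncomputable section
namespace TP
open Complex MeasureTheory NumberField Filter ART
open Vale.Agent.P007 (Datum X lattice act orbit diagA stab vol IsOrbitMeasure)
open scoped Classical Topology ArithmeticFunction.omega

section Aux
variable {K : Type} [Field K] [NumberField K] {m : ℕ} (σ : Fin (m + 1) ≃ (K →+* ℝ))

/-- The place of a real embedding. -/
def NLatU_pl (j : Fin (m + 1)) : InfinitePlace K :=
  InfinitePlace.mk (Complex.ofRealHom.comp (σ j))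

omit [NumberField K] in
theorem NLatU_pl_apply (j : Fin (m + 1)) (x : K) : NLatU_pl σ j x = |σ j x| := by
  simp [NLatU_pl, InfinitePlace.apply]

omit [NumberField K] in
theorem NLatU_bij [IsTotallyReal K] : Function.Bijective (NLatU_pl σ) := by
  constructor
  · intro i j h
    have h1 : Complex.ofRealHom.comp (σ i) = Complex.ofRealHom.comp (σ j) := by
      rcases InfinitePlace.mk_eq_iff.1 h with h | h
      · exact h
      · rw [← h]
        ext x
        simp
    refine σ.injective (RingHom.ext fun x => ?_)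
    have := RingHom.congr_fun h1 x
    simpa using this
  · intro w
    refine ⟨σ.symm (InfinitePlace.embedding_of_isReal (IsTotallyReal.isReal w)), ?_⟩
    unfold NLatU_pl
    rw [Equiv.apply_symm_apply]
    conv_rhs => rw [← InfinitePlace.mk_embedding w]
    congr 1
    ext x
    simp

omit [NumberField K] in
theorem NLatU_ne (j : Fin (m + 1)) (e : (𝓞 K)ˣ) : σ j ((e : 𝓞 K) : K) ≠ 0 :=
  (map_ne_zero _).2 (Units.coe_ne_zero e)

/-- The logarithmic embedding. -/
def NLatU_lam : Additive (𝓞 K)ˣ →+ (Fin m → ℝ) where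
  toFun x j := Real.log |σ j.castSucc ((x.toMul : 𝓞 K) : K)|
  map_zero' := by
    funext j
    simp
  map_add' x y := by
    funext j
    simp only [toMul_add, Units.val_mul, RingOfIntegers.coe_eq_algebraMap, map_mul, abs_mul,
      Pi.add_apply]
    exact Real.log_mul (abs_ne_zero.2 (NLatU_ne σ _ _)) (abs_ne_zero.2 (NLatU_ne σ _ _))

omit [NumberField K] in
theorem NLatU_lam_apply (e : (𝓞 K)ˣ) (j : Fin m) :
    NLatU_lam σ (Additive.ofMul e) j = Real.log |σ j.castSucc ((e : 𝓞 K) : K)| := rfl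

theorem NLatU_tors {e : (𝓞 K)ˣ} (h : e ∈ Units.torsion K) :
    NLatU_lam σ (Additive.ofMul e) = 0 := by
  funext j
  rw [NLatU_lam_apply, ← NLatU_pl_apply]
  have := (Units.mem_torsion K).1 h (NLatU_pl σ j.castSucc)
  rw [Pi.zero_apply]
  exact (congrArg Real.log this).trans Real.log_one

theorem NLatU_ker [IsTotallyReal K] {e : (𝓞 K)ˣ} (h : NLatU_lam σ (Additive.ofMul e) = 0) :
    e = 1 ∨ e = -1 := by
  have h1 := Units.sum_mult_mul_log e
  rw [← (Equiv.ofBijective _ (NLatU_bij σ)).sum_comp, Fin.sum_univ_castSucc] at h1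
  simp only [Equiv.ofBijective_apply, IsTotallyReal.mult_eq, Nat.cast_one, one_mul,
    NLatU_pl_apply] at h1
  have h2 : ∑ j : Fin m, Real.log |σ j.castSucc ((e : 𝓞 K) : K)| = 0 :=
    Finset.sum_eq_zero fun j _ => congrFun h j
  have h3 : Real.log |σ (Fin.last m) ((e : 𝓞 K) : K)| = 0 := by
    have h4 : ∑ j : Fin m, Real.log |σ j.castSucc ((e : 𝓞 K) : K)| +
      Real.log |σ (Fin.last m) ((e : 𝓞 K) : K)| = 0 := h1
    linarith
  have h5 : |σ (Fin.last m) ((e : 𝓞 K) : K)| = 1 :=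
    Real.eq_one_of_pos_of_log_eq_zero (abs_pos.2 (NLatU_ne σ _ _)) h3
  rcases (abs_eq zero_le_one).1 h5 with h6 | h6
  · left
    refine Units.ext (RingOfIntegers.ext ((σ (Fin.last m)).injective ?_))
    simpa using h6
  · right
    refine Units.ext (RingOfIntegers.ext ((σ (Fin.last m)).injective ?_))
    simpa using h6

theorem NLatU_basis [IsTotallyReal K] : ∃ b : Module.Basis (Fin m) ℝ (Fin m → ℝ),
    (Submodule.span ℤ (Set.range b)).toAddSubgroup = (NLatU_lam σ).range ∧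
    ZLattice.covolume (Submodule.span ℤ (Set.range b)) = Units.regulator K := by
  let pe : Fin (m + 1) ≃ InfinitePlace K := Equiv.ofBijective _ (NLatU_bij σ)
  let g : Fin m ≃ {w : InfinitePlace K // w ≠ pe (Fin.last m)} :=
    (finSuccAboveEquiv (Fin.last m)).trans (Equiv.subtypeEquiv pe fun _ => by simp)
  have hg : ∀ j, (g j).1 = NLatU_pl σ j.castSucc := fun j => by
    change NLatU_pl σ ((Fin.last m).succAbove j) = _
    rw [Fin.succAbove_last]
  have hr : m = Units.rank K := by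
    rw [Units.rank, ← Fintype.card_congr pe, Fintype.card_fin, Nat.add_sub_cancel]
  let M : Matrix (Fin m) (Fin m) ℝ :=
    Matrix.of fun i => NLatU_lam σ (Additive.ofMul (Units.fundSystem K (finCongr hr i)))
  have hM : Units.regulator K = |M.det| := by
    rw [Units.regulator_eq_det K (pe (Fin.last m)) (g.symm.trans (finCongr hr)),
      ← Matrix.det_submatrix_equiv_self g]
    congr 2
    ext i j
    simp only [Matrix.submatrix_apply, Matrix.of_apply, Equiv.trans_apply, Equiv.symm_apply_apply,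
      IsTotallyReal.mult_eq, Nat.cast_one, one_mul, hg, NLatU_pl_apply, M, NLatU_lam_apply]
  have hd : M.det ≠ 0 := fun h => Units.regulator_ne_zero K (by rw [hM, h, abs_zero])
  have hli := Matrix.linearIndependent_rows_of_det_ne_zero hd
  have hb : ∀ i, basisOfPiSpaceOfLinearIndependent hli i =
      NLatU_lam σ (Additive.ofMul (Units.fundSystem K (finCongr hr i))) := fun i => by
    rw [coe_basisOfPiSpaceOfLinearIndependent]
    rfl
  refine ⟨basisOfPiSpaceOfLinearIndependent hli, le_antisymm ?_ ?_, ?_⟩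
  · have : Submodule.span ℤ (Set.range (basisOfPiSpaceOfLinearIndependent hli)) ≤
        AddSubgroup.toIntSubmodule (NLatU_lam σ).range := by
      rw [Submodule.span_le]
      rintro _ ⟨i, rfl⟩
      exact ⟨_, (hb i).symm⟩
    exact this
  · rintro _ ⟨x, rfl⟩
    obtain ⟨⟨ζ, n⟩, h, -⟩ := Units.exist_unique_eq_mul_prod K x.toMul
    have h1 : x = Additive.ofMul (ζ : (𝓞 K)ˣ) +
        ∑ i, n i • Additive.ofMul (Units.fundSystem K i) := by
      rw [← ofMul_toMul x, h, ofMul_mul, ofMul_prod]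
      simp only [ofMul_zpow]
    rw [h1, map_add, NLatU_tors σ ζ.2, zero_add, map_sum]
    refine sum_mem fun i _ => ?_
    rw [map_zsmul]
    refine AddSubgroup.zsmul_mem _ ?_ _
    refine Submodule.subset_span ⟨(finCongr hr).symm i, ?_⟩
    rw [hb, Equiv.apply_symm_apply]
  · rw [ZLattice.covolume_eq_det _ ((basisOfPiSpaceOfLinearIndependent hli).restrictScalars ℤ), hM]
    congr 3
    funext i
    simp only [Function.comp_apply, Module.Basis.restrictScalars_apply, hb]

/-- The totally positive units. -/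
def NLatU_pos : Subgroup (𝓞 K)ˣ where
  carrier := {e | ∀ j, 0 < σ j ((e : 𝓞 K) : K)}
  mul_mem' := fun {a b} ha hb j => by simpa using mul_pos (ha j) (hb j)
  one_mem' := fun j => by simp
  inv_mem' := fun {a} ha j => by
    have h1 : σ j ((a : 𝓞 K) : K) * σ j (((a⁻¹ : (𝓞 K)ˣ) : 𝓞 K) : K) = 1 := by
      rw [← map_mul, RingOfIntegers.coe_eq_algebraMap, RingOfIntegers.coe_eq_algebraMap, ← map_mul,
        Units.mul_inv, map_one, map_one]
    exact (pos_iff_pos_of_mul_pos (h1 ▸ one_pos)).1 (ha j)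

/-- The lattice of a group of units. -/
def NLatU_L (U : Subgroup (𝓞 K)ˣ) : Submodule ℤ (Fin m → ℝ) :=
  AddSubgroup.toIntSubmodule ((U ⊓ NLatU_pos σ).toAddSubgroup.map (NLatU_lam σ))

omit [NumberField K] in
theorem NLatU_mem {U : Subgroup (𝓞 K)ˣ} {u : Fin m → ℝ} : u ∈ NLatU_L σ U ↔
    ∃ e ∈ U, (∀ j, 0 < σ j ((e : 𝓞 K) : K)) ∧ NLatU_lam σ (Additive.ofMul e) = u :=
  ⟨fun ⟨x, hx, h⟩ => ⟨x.toMul, hx.1, hx.2, h⟩,
    fun ⟨e, h1, h2, h3⟩ => ⟨Additive.ofMul e, ⟨h1, h2⟩, h3⟩⟩

omit [NumberField K] in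
theorem NLatU_span (U : Subgroup (𝓞 K)ˣ) [U.FiniteIndex] (x : Additive (𝓞 K)ˣ) :
    NLatU_lam σ x ∈ Submodule.span ℝ (NLatU_L σ U : Set (Fin m → ℝ)) := by
  have h3 : (U.index * 2) • NLatU_lam σ x ∈ NLatU_L σ U := by
    refine (NLatU_mem σ).2 ⟨x.toMul ^ (U.index * 2), ?_, fun j => ?_, ?_⟩
    · rw [pow_mul]
      exact U.pow_mem (U.pow_index_mem _) 2
    · have := sq_pos_of_ne_zero (NLatU_ne σ j (x.toMul ^ U.index))
      rw [pow_mul]
      simpa using this
    · rw [ofMul_pow, ofMul_toMul, map_nsmul]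
  have h4 : ((U.index * 2 : ℕ) : ℝ) ≠ 0 :=
    Nat.cast_ne_zero.2 (Nat.mul_ne_zero Subgroup.FiniteIndex.index_ne_zero two_ne_zero)
  have h5 : NLatU_lam σ x = ((U.index * 2 : ℕ) : ℝ)⁻¹ • ((U.index * 2) • NLatU_lam σ x) := by
    rw [← Nat.cast_smul_eq_nsmul ℝ, smul_smul, inv_mul_cancel₀ h4, one_smul]
  rw [h5]
  exact Submodule.smul_mem _ _ (Submodule.subset_span h3)

theorem NLatU_comap [IsTotallyReal K] (U : Subgroup (𝓞 K)ˣ) (hU : -1 ∈ U) :
    (NLatU_L σ U).toAddSubgroup.comap (NLatU_lam σ) ≤ U.toAddSubgroup := by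
  intro x hx
  obtain ⟨y, hy, -, hxy⟩ := (NLatU_mem σ).1 (show NLatU_lam σ x ∈ NLatU_L σ U from hx)
  have h3 : NLatU_lam σ (Additive.ofMul (x.toMul * y⁻¹)) = 0 := by
    rw [ofMul_mul, ofMul_inv, ofMul_toMul, map_add, map_neg, hxy, add_neg_cancel]
  have h4 : x.toMul * y⁻¹ ∈ U := by
    rcases NLatU_ker σ h3 with h | h
    · rw [h]; exact U.one_mem
    · rw [h]; exact hU
  have h5 := U.mul_mem h4 hy
  rw [inv_mul_cancel_right] at h5
  exact h5

theorem NLatU_main [IsTotallyReal K] (U : Subgroup (𝓞 K)ˣ) [U.FiniteIndex] (hU : -1 ∈ U) :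
    ∃ (_ : DiscreteTopology (NLatU_L σ U)) (_ : IsZLattice ℝ (NLatU_L σ U)),
      U.index * Units.regulator K ≤ ZLattice.covolume (NLatU_L σ U) := by
  obtain ⟨b, hb1, hb2⟩ := NLatU_basis σ
  have hle : NLatU_L σ U ≤ Submodule.span ℤ (Set.range b) := by
    intro x hx
    obtain ⟨y, -, -, rfl⟩ := (NLatU_mem σ).1 hx
    have : NLatU_lam σ (Additive.ofMul y) ∈ (Submodule.span ℤ (Set.range b)).toAddSubgroup := by
      rw [hb1]
      exact ⟨_, rfl⟩
    exact this
  have hd : DiscreteTopology (NLatU_L σ U) := by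
    rw [← SetLike.isDiscrete_iff_discreteTopology]
    exact (inferInstance : DiscreteTopology (Submodule.span ℤ (Set.range b))).isDiscrete.mono hle
  have hz : IsZLattice ℝ (NLatU_L σ U) := by
    refine ⟨top_le_iff.1 ?_⟩
    rw [← b.span_eq, Submodule.span_le]
    rintro _ ⟨i, rfl⟩
    have h1 : b i ∈ (NLatU_lam σ).range := by
      rw [← hb1]
      exact Submodule.subset_span ⟨i, rfl⟩
    obtain ⟨x, hx⟩ := h1
    rw [← hx]
    exact NLatU_span σ U x
  refine ⟨hd, hz, ?_⟩
  have h1 := ZLattice.covolume_div_covolume_eq_relIndex (NLatU_L σ U) _ hle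
  rw [hb1, hb2, ← AddSubgroup.index_comap] at h1
  have hR := Units.regulator_pos K
  have h3 : 0 < ((NLatU_L σ U).toAddSubgroup.comap (NLatU_lam σ)).index := by
    have := div_pos (ZLattice.covolume_pos (NLatU_L σ U) volume) hR
    rw [h1] at this
    exact Nat.cast_pos.1 this
  have h4 := Nat.le_of_dvd h3 (AddSubgroup.index_dvd_of_le (NLatU_comap σ U hU))
  rw [Subgroup.index_toAddSubgroup] at h4
  rw [← le_div_iff₀ hR, h1]
  exact Nat.cast_le.2 h4

end Aux

theorem s_LatU (hOrdA : OrdA) : LatU := by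
  intro m D
  have := D.totallyReal
  have : (UO D).FiniteIndex := (hOrdA _ D).2.2.2.2.2.2.2.2.2.2.2.2.2.2.2.1
  have hU : -1 ∈ UO D := ⟨by simp, by simp⟩
  obtain ⟨hd, hz, h2⟩ := NLatU_main D.σ (UO D) hU
  refine ⟨NLatU_L D.σ (UO D), hd, hz, ?_, h2⟩
  ext u
  rw [SetLike.mem_coe, NLatU_mem]
  constructor
  · rintro ⟨e, he1, he2, rfl⟩
    refine ⟨e, he1, he2, fun j => ?_⟩
    rw [NLatU_lam_apply, abs_of_pos (he2 _)]
  · rintro ⟨e, he1, he2, he3⟩
    refine ⟨e, he1, he2, funext fun j => ?_⟩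
    rw [NLatU_lam_apply, he3, abs_of_pos (he2 _)]

end TP
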