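import Vale.Agent.P007.NStm

noncomputable section
namespace TP
open Complex MeasureTheory NumberField Filter ART
open Vale.Agent.P007 (Datum X lattice act orbit diagA stab vol IsOrbitMeasure)
open scoped Classical Topology ArithmeticFunction.omega

lemma NLoc_avoid {R M : Type*} [CommRing R] [AddCommGroup M] [Module R M] (I : Submodule R M)
    (N : Ideal R → Submodule R M) (S : Finset (Ideal R)) (hS : ∀ m ∈ S, m.IsMaximal)
    (h1 : ∀ m ∈ S, ∀ r ∈ m, ∀ x ∈ I, r • x ∈ N m) (h2 : ∀ m ∈ S, ∃ x ∈ I, x ∉ N m) :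
    ∃ x ∈ I, ∀ m ∈ S, x ∉ N m := by
  induction S using Finset.induction_on with
  | empty => exact ⟨0, I.zero_mem, by simp⟩
  | insert m S hm ih =>
    obtain ⟨x, hx, hxN⟩ := ih (fun m' h => hS m' (Finset.mem_insert_of_mem h))
      (fun m' h => h1 m' (Finset.mem_insert_of_mem h))
      (fun m' h => h2 m' (Finset.mem_insert_of_mem h))
    by_cases hxm : x ∈ N m
    swap
    · exact ⟨x, hx, fun m' h => by
        rcases Finset.mem_insert.1 h with rfl | h
        exacts [hxm, hxN m' h]⟩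
    obtain ⟨x', hx', hx'N⟩ := h2 m (Finset.mem_insert_self _ _)
    have hmax := hS m (Finset.mem_insert_self _ _)
    have hr : ∃ r : R, r ∉ m ∧ ∀ m' ∈ S, r ∈ m' := by
      have : ∀ m' ∈ S, ∃ r ∈ m', r ∉ m := fun m' h => by
        by_contra hc
        push Not at hc
        have := (hS m' (Finset.mem_insert_of_mem h)).eq_of_le hmax.ne_top hc
        exact hm (this ▸ h)
      choose! g hg hg' using this
      refine ⟨∏ m' ∈ S, g m', fun hc => ?_, fun m' h => ?_⟩
      · obtain ⟨m', h, h'⟩ := (Ideal.IsPrime.prod_mem_iff (hp := hmax.isPrime)).1 hc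
        exact hg' m' h h'
      · exact Ideal.prod_mem m' h (hg m' h)
    obtain ⟨r, hrm, hrS⟩ := hr
    obtain ⟨s, t, ht, hst⟩ := hmax.exists_inv hrm
    refine ⟨x + r • x', I.add_mem hx (I.smul_mem _ hx'), fun m' h hc => ?_⟩
    rcases Finset.mem_insert.1 h with rfl | h
    · have a1 : r • x' ∈ N m' := (Submodule.add_mem_iff_right _ hxm).1 hc
      have a2 := (N m').add_mem ((N m').smul_mem s a1)
        (h1 m' (Finset.mem_insert_self _ _) t ht x' hx')
      rw [smul_smul, ← add_smul, hst, one_smul] at a2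
      exact hx'N a2
    · exact hxN m' h ((Submodule.add_mem_iff_left _
        (h1 m' (Finset.mem_insert_of_mem h) r (hrS m' h) x' hx')).1 hc)

lemma NLoc_fin {R : Type*} [CommRing R] [Module.Finite ℤ R] {f : ℕ} (hf : 0 < f) :
    {m : Ideal R | (f : R) ∈ m}.Finite := by
  have hT : Module.IsTorsion ℤ (R ⧸ Ideal.span {(f : R)}) := fun x => by
    refine ⟨⟨(f : ℤ), mem_nonZeroDivisors_of_ne_zero (by exact_mod_cast hf.ne')⟩, ?_⟩
    have : ((f : ℕ) : R ⧸ Ideal.span {(f : R)}) = 0 := by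
      rw [← map_natCast (Ideal.Quotient.mk _), Ideal.Quotient.eq_zero_iff_mem]
      exact Ideal.mem_span_singleton_self _
    change (f : ℤ) • x = 0
    rw [zsmul_eq_mul, Int.cast_natCast, this, zero_mul]
  have : Module.Finite ℤ (R ⧸ Ideal.span {(f : R)}) :=
    Module.Finite.of_surjective (Ideal.Quotient.mk (Ideal.span {(f : R)})).toIntAlgHom.toLinearMap
      Ideal.Quotient.mk_surjective
  have : Finite (R ⧸ Ideal.span {(f : R)}) := Module.finite_of_fg_torsion _ hT
  refine (Set.finite_range (Ideal.comap (Ideal.Quotient.mk (Ideal.span {(f : R)})))).subset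
    fun m hm => ⟨m.map (Ideal.Quotient.mk _), ?_⟩
  rw [Ideal.comap_map_of_surjective _ Ideal.Quotient.mk_surjective, ← RingHom.ker_eq_comap_bot,
    Ideal.mk_ker, sup_eq_left, Ideal.span_singleton_le_iff_mem]
  exact hm

theorem s_LocP (hOrdA : OrdA) : LocP := by
  intro n D I hI
  obtain ⟨hf, -, -, -, -, hO, -, -, -, hinv, -⟩ := hOrdA n D
  obtain ⟨J, hJ, hIJ⟩ := hinv I hI
  have hmul : ∀ x ∈ I, ∀ y ∈ J, x * y ∈ D.O := fun x hx y hy => by
    have := Submodule.mul_mem_mul hx hy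
    rw [hIJ] at this
    exact this
  have : Module.Finite ℤ D.O := by
    have : Module.Finite ℤ (oo D) := Module.Finite.iff_fg.2 hO.1.2.1
    exact this
  let I' : Submodule D.O D.K :=
    { carrier := I
      add_mem' := I.add_mem
      zero_mem' := I.zero_mem
      smul_mem' := fun a x hx => hI.1.2.2 a a.2 x hx }
  let N : Ideal D.O → Submodule D.O D.K := fun m =>
    { carrier := {x | ∀ y ∈ J, ∃ r ∈ m, (r : D.K) = x * y}
      add_mem' := fun {a b} ha hb y hy => by
        obtain ⟨r, hr, e⟩ := ha y hy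
        obtain ⟨s, hs, e'⟩ := hb y hy
        exact ⟨r + s, m.add_mem hr hs, by rw [Subring.coe_add, e, e', add_mul]⟩
      zero_mem' := fun y _ => ⟨0, m.zero_mem, by simp⟩
      smul_mem' := fun a x hx y hy => by
        obtain ⟨r, hr, e⟩ := hx y hy
        refine ⟨a * r, m.mul_mem_left _ hr, ?_⟩
        rw [Subring.coe_mul, e, ← mul_assoc]; rfl }
  have hfin : {m : Ideal D.O | m.IsMaximal ∧ (ix D : D.O) ∈ m}.Finite :=
    (NLoc_fin hf).subset fun m h => h.2
  obtain ⟨x, hx, hxN⟩ := NLoc_avoid I' N hfin.toFinset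
    (fun m h => (hfin.mem_toFinset.1 h).1)
    (fun m _ r hr x hx y hy => ⟨r * ⟨x * y, hmul x hx y hy⟩, m.mul_mem_right _ hr, by
      rw [Subring.coe_mul, ← mul_assoc]; rfl⟩)
    (fun m h => by
      by_contra hc
      push Not at hc
      have h1 : (1 : D.K) ∈ I * J := by rw [hIJ]; exact D.O.one_mem
      have h2 : ∃ r ∈ m, (r : D.K) = 1 :=
        Submodule.mul_induction_on (C := fun z => ∃ r ∈ m, (r : D.K) = z) h1
          (fun x hx y hy => hc x hx y hy) (fun a b ⟨r, hr, e⟩ ⟨s, hs, e'⟩ =>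
            ⟨r + s, m.add_mem hr hs, by rw [Subring.coe_add, e, e']⟩)
      obtain ⟨r, hr, e⟩ := h2
      have : r = 1 := Subtype.ext e
      exact (hfin.mem_toFinset.1 h).1.ne_top ((Ideal.eq_top_iff_one _).2 (this ▸ hr)))
  let a : Ideal D.O :=
    { carrier := {r | ∃ y ∈ J, ∃ c ∈ D.O, (r : D.K) = x * y + ix D * c}
      add_mem' := fun {r s} ⟨y, hy, c, hc, e⟩ ⟨y', hy', c', hc', e'⟩ =>
        ⟨y + y', J.add_mem hy hy', c + c', D.O.add_mem hc hc', by
          rw [Subring.coe_add, e, e']; ring⟩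
      zero_mem' := ⟨0, J.zero_mem, 0, D.O.zero_mem, by simp⟩
      smul_mem' := fun r s ⟨y, hy, c, hc, e⟩ =>
        ⟨r * y, hJ.1.2.2 r r.2 y hy, r * c, D.O.mul_mem r.2 hc, by
          rw [smul_eq_mul, Subring.coe_mul, e]; ring⟩ }
  have ha : a = ⊤ := by
    by_contra hc
    obtain ⟨m, hm, ham⟩ := Ideal.exists_le_maximal a hc
    refine hxN m (hfin.mem_toFinset.2 ⟨hm, ham ⟨0, J.zero_mem, 1, D.O.one_mem, by simp⟩⟩)
      fun y hy => ⟨⟨x * y, hmul x hx y hy⟩, ham ⟨y, hy, 0, D.O.zero_mem, by simp⟩, rfl⟩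
  obtain ⟨y, hy, c, hc, e⟩ : (1 : D.O) ∈ a := ha ▸ Submodule.mem_top
  refine ⟨x, hx, fun z hz => ⟨z * y, hmul z hz y hy, c * z, hI.1.2.2 c hc z hz, ?_⟩⟩
  rw [Subring.coe_one] at e
  linear_combination z * e

theorem s_Idx (hOrdA : OrdA) (hLocP : LocP) : Idx := by
  intro n D I ⟨hI, hIO⟩
  obtain ⟨-, -, -, hfO, hOK, -⟩ := hOrdA n D
  obtain ⟨x, hx, hgen⟩ := hLocP n D I hI
  have hIK : I ≤ oK D := hIO.trans hOK
  let ι : 𝓞 D.K →+ D.K := (algebraMap (𝓞 D.K) D.K).toAddMonoidHom
  have hι : Function.Injective ι := RingOfIntegers.coe_injective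
  have hK : (oK D).toAddSubgroup = (⊤ : AddSubgroup (𝓞 D.K)).map ι := by
    ext z
    exact ⟨fun hz => ⟨⟨z, hz⟩, trivial, rfl⟩, fun ⟨w, _, e⟩ => e ▸ w.2⟩
  let φ : D.K →+ D.K := AddMonoidHom.mulLeft x
  have hup : ∀ y (hy : y ∈ I), (⟨y, hIK hy⟩ : 𝓞 D.K) ∈ up D I := fun y hy =>
    Ideal.subset_span hy
  have hC : (up D I).toAddSubgroup.map ι = (oK D).toAddSubgroup.map φ ⊔ I.toAddSubgroup := by
    apply le_antisymm
    · rintro _ ⟨w, hw, rfl⟩
      have hw' : w ∈ Ideal.span {x : 𝓞 D.K | (x : D.K) ∈ I} := hw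
      suffices h : ∀ r : 𝓞 D.K, ι (r * w) ∈ (oK D).toAddSubgroup.map φ ⊔ I.toAddSubgroup by
        simpa using h 1
      induction hw' using Submodule.span_induction with
      | mem y hy =>
        intro r
        obtain ⟨a, ha, z, hz, e⟩ := hgen y hy
        have e' : ι (r * y) = φ (r * a) + (ix D * r) * z := by
          change (r : D.K) * (y : D.K) = x * (r * a) + (ix D * r) * z
          rw [e]; ring
        rw [e']
        refine AddSubgroup.add_mem_sup ⟨r * a, ?_, rfl⟩ (hI.1.2.2 _ (hfO r) z hz)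
        exact (integralClosure ℤ D.K).mul_mem r.2 (hOK ha)
      | zero => intro r; simp
      | add u v hu hv ihu ihv =>
        intro r
        rw [mul_add, map_add]
        exact AddSubgroup.add_mem _ (ihu hu r) (ihv hv r)
      | smul s u hu ih =>
        intro r
        rw [smul_eq_mul, ← mul_assoc]
        exact ih hu _
    · refine sup_le ?_ fun y hy => ⟨⟨y, hIK hy⟩, hup y hy, rfl⟩
      rintro _ ⟨z, hz, rfl⟩
      exact ⟨⟨x, hIK hx⟩ * ⟨z, hz⟩, (up D I).mul_mem_right _ (hup x hx), rfl⟩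
  have h1 : ((up D I).toAddSubgroup.map ι).relIndex (oK D).toAddSubgroup =
      Ideal.absNorm (up D I) := by
    rw [hK, AddSubgroup.relIndex_map_map_of_injective _ _ hι, AddSubgroup.relIndex_top_right,
      Ideal.absNorm_eq_index]
  have h2 : I.toAddSubgroup.relIndex ((up D I).toAddSubgroup.map ι) = ix D := by
    rw [hC, AddSubgroup.relIndex_sup_right, ← AddSubgroup.relIndex_comap,
      ← AddSubgroup.inf_relIndex_right]
    have : I.toAddSubgroup.comap φ ⊓ (oK D).toAddSubgroup = D.O.toAddSubgroup := by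
      apply le_antisymm
      · rintro z ⟨hz, hzK⟩
        have hz' : x * z ∈ I := hz
        have : z ∈ {α : D.K | ∀ y ∈ I, α * y ∈ I} := fun y hy => by
          obtain ⟨a, ha, w, hw, e⟩ := hgen y hy
          have e' : z * y = a * (x * z) + (ix D * z) * w := by rw [e]; ring
          rw [e']
          exact I.add_mem (hI.1.2.2 a ha _ hz') (hI.1.2.2 _ (hfO ⟨z, hzK⟩) w hw)
        rw [hI.2.1] at this
        exact this
      · intro z hz
        refine ⟨?_, hOK hz⟩
        change x * z ∈ I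
        rw [mul_comm]
        exact hI.1.2.2 z hz x hx
    rw [this]; rfl
  rw [← h1, ← h2]
  refine (AddSubgroup.relIndex_mul_relIndex _ _ _ (hC ▸ le_sup_right) ?_).symm
  rw [hK]
  exact AddSubgroup.map_mono le_top

end TP
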