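import Vale.Agent.P007.NStm

noncomputable section
namespace TP
open Complex MeasureTheory NumberField Filter ART
open Vale.Agent.P007 (Datum X lattice act orbit diagA stab vol IsOrbitMeasure)
open scoped Classical Topology ArithmeticFunction.omega

theorem NM2_omega_pow (f m : ℕ) (hm : m ≠ 0) : ω (f ^ m) = ω f := by
  have h : ∀ a : ℕ, ω a = a.primeFactors.card := fun a => by
    rw [ArithmeticFunction.cardDistinctFactors_apply, Nat.primeFactors, List.card_toFinset]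
  rw [h, h, Nat.primeFactors_pow _ hm]

/-- the norm of the ideal generated by a translate and a natural number divides a gcd -/
theorem NM2_gcd {K : Type} [Field K] [NumberField K] (y : 𝓞 K) (q : ℕ) :
    ∃ P : Polynomial ℤ, P.Monic ∧ P.natDegree = dg K ∧ ∀ t : ℕ,
      Ideal.absNorm (Ideal.span {y + t} ⊔ Ideal.span {(q : 𝓞 K)}) ∣
        Int.gcd (P.eval (t : ℤ)) ((q ^ dg K : ℕ) : ℤ) := by
  refine ⟨(-(Algebra.lmul ℤ (𝓞 K) y) : Module.End ℤ (𝓞 K)).charpoly, LinearMap.charpoly_monic _,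
    by rw [LinearMap.charpoly_natDegree, RingOfIntegers.rank]; rfl, fun t => ?_⟩
  have e : ((-(Algebra.lmul ℤ (𝓞 K) y) : Module.End ℤ (𝓞 K)).charpoly).eval (t : ℤ) =
      Algebra.norm ℤ (y + t) := by
    rw [LinearMap.eval_charpoly, Algebra.norm_apply]
    congr 1
    ext x
    simp [add_mul, add_comm]
  rw [e, Int.gcd_eq_natAbs]
  refine Nat.dvd_gcd ?_ ?_
  · rw [← Ideal.absNorm_span_singleton]
    exact Ideal.absNorm_dvd_absNorm_of_le le_sup_left
  · rw [Int.natAbs_natCast, dg, ← RingOfIntegers.rank, ← Ideal.absNorm_span_natCast]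
    exact Ideal.absNorm_dvd_absNorm_of_le le_sup_right

theorem NM2_span {R : Type} [CommRing R] {q y y' : R}
    (h : Ideal.Quotient.mk (Ideal.span {q}) y = Ideal.Quotient.mk (Ideal.span {q}) y') :
    Ideal.span {y} ⊔ Ideal.span {q} = Ideal.span {y'} ⊔ Ideal.span {q} := by
  have key : ∀ {a b : R}, a - b ∈ Ideal.span {q} →
      Ideal.span {a} ⊔ Ideal.span {q} ≤ Ideal.span {b} ⊔ Ideal.span {q} := by
    intro a b hab
    refine sup_le ((Ideal.span_singleton_le_iff_mem _).2 ?_) le_sup_right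
    have : a = b + (a - b) := by ring
    rw [this]
    exact Submodule.add_mem_sup (Ideal.mem_span_singleton_self b) hab
  exact le_antisymm (key (Ideal.Quotient.eq.1 h)) (key (Ideal.Quotient.eq.1 h.symm))

theorem NM2_main {n : ℕ} {δ C : ℝ} (hOrdA : OrdA) (hM2a : M2a) (hδ : 0 ≤ δ)
    (hG : ∀ (P : Polynomial ℤ) (Q : ℕ), P.Monic → P.natDegree = n → 0 < Q →
      ∑ t ∈ Finset.range Q, ((Int.gcd (P.eval (t : ℤ)) Q : ℕ) : ℝ) ^ δ ≤ C ^ ω Q * Q)
    (D : Datum n) (k : ℕ) (F : Finset (Ideal (𝓞 D.K))) (hF : ∀ c ∈ F, (ix D : 𝓞 D.K) ^ k ∈ c) :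
    (∑ c ∈ F, (mlt D c : ℝ) * (Ideal.absNorm c : ℝ) ^ (δ - 1)) * phiO D * ix D
      ≤ C ^ ω (ix D) * (ix D : ℝ) ^ n := by
  obtain ⟨hf, hdg, -, hfO, -⟩ := hOrdA n D
  have hn : 0 < n := by rw [← hdg]; exact Module.finrank_pos
  set f := ix D with hfd
  set q : ℕ := f ^ (k + 1) with hq
  have hqc : ((q : ℕ) : 𝓞 D.K) = (f : 𝓞 D.K) ^ (k + 1) := by rw [hq]; push_cast; rfl
  set I : Ideal (𝓞 D.K) := Ideal.span {(f : 𝓞 D.K) ^ (k + 1)} with hI
  have hq0 : 0 < q := pow_pos hf _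
  have hIn : Ideal.absNorm I = q ^ n := by
    rw [hI, ← hqc, Ideal.absNorm_span_natCast, RingOfIntegers.rank, D.degree]
  have hcard : Nat.card (𝓞 D.K ⧸ I) = q ^ n := by
    rw [← hIn, Ideal.absNorm_apply, Submodule.cardQuot_apply]
  have hQ0 : 0 < q ^ n := pow_pos hq0 _
  haveI : Finite (𝓞 D.K ⧸ I) := Nat.finite_of_card_ne_zero (by rw [hcard]; exact hQ0.ne')
  haveI : Fintype (𝓞 D.K ⧸ I) := Fintype.ofFinite _
  let ι : 𝓞 D.K →+ D.K := (algebraMap (𝓞 D.K) D.K).toAddMonoidHom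
  let A' : AddSubgroup (𝓞 D.K) := D.O.toAddSubgroup.comap ι
  let π : 𝓞 D.K →+ 𝓞 D.K ⧸ I := (Ideal.Quotient.mk I).toAddMonoidHom
  let A : AddSubgroup (𝓞 D.K ⧸ I) := A'.map π
  have hA' : A'.index = f := by
    rw [AddSubgroup.index_comap, hfd, ix]
    congr 1
    ext x
    constructor
    · rintro ⟨y, rfl⟩
      exact y.2
    · intro hx
      exact ⟨⟨x, hx⟩, rfl⟩
  have hA : A.index = f := by
    rw [← hA']
    refine AddSubgroup.index_map_eq A' Ideal.Quotient.mk_surjective fun x hx => ?_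
    obtain ⟨z, rfl⟩ := Ideal.mem_span_singleton'.1 (Ideal.Quotient.eq_zero_iff_mem.1 hx)
    have := hfO (z * (f : 𝓞 D.K) ^ k)
    change (algebraMap (𝓞 D.K) D.K) (z * (f : 𝓞 D.K) ^ (k + 1)) ∈ D.O
    have e : (algebraMap (𝓞 D.K) D.K) (z * (f : 𝓞 D.K) ^ (k + 1)) =
        (f : D.K) * ((z * (f : 𝓞 D.K) ^ k : 𝓞 D.K) : D.K) := by
      simp only [map_mul, map_pow, map_natCast, RingOfIntegers.coe_eq_algebraMap]
      ring
    rwa [e]
  set S : Finset (𝓞 D.K ⧸ I) := Finset.univ.filter fun x => x ∈ A with hS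
  have hSc : S.card * f = q ^ n := by
    rw [← hcard, ← AddSubgroup.card_mul_index A, hA, Nat.card_eq_fintype_card,
      Fintype.card_subtype]
  let gI : 𝓞 D.K ⧸ I → Ideal (𝓞 D.K) := fun x => Ideal.span {x.out} ⊔ I
  have hgI : ∀ y, gI (Ideal.Quotient.mk I y) = Ideal.span {y} ⊔ I := fun y =>
    NM2_span (Ideal.Quotient.mk_out _)
  let G : 𝓞 D.K ⧸ I → ℝ := fun x => (Ideal.absNorm (gI x) : ℝ) ^ δ
  have hG0 : ∀ x, 0 ≤ G x := fun x => Real.rpow_nonneg (Nat.cast_nonneg _) _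
  have hav : ∑ x ∈ S, G x ≤ C ^ ω f * S.card := by
    have h1 : ∀ t : ℕ, ∑ x ∈ S, G x = ∑ x ∈ S, G (x + t) := fun t => by
      have ht : (t : 𝓞 D.K ⧸ I) ∈ A :=
        ⟨t, by
          change (algebraMap (𝓞 D.K) D.K) t ∈ D.O
          rw [map_natCast]; exact natCast_mem _ _, map_natCast (Ideal.Quotient.mk I) t⟩
      refine (Finset.sum_bijective (fun x => x + (t : 𝓞 D.K ⧸ I)) (Equiv.addRight _).bijective
        (fun x => ?_) fun _ _ => rfl).symm
      simp only [hS, Finset.mem_filter, Finset.mem_univ, true_and]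
      exact (A.add_mem_cancel_right ht).symm
    have h2 : ∀ x, ∑ t ∈ Finset.range (q ^ n), G (x + t) ≤ C ^ ω f * (q ^ n : ℕ) := fun x => by
      obtain ⟨y, rfl⟩ := Ideal.Quotient.mk_surjective x
      obtain ⟨P, hP1, hP2, hP3⟩ := NM2_gcd y q
      have h3 := hG P (q ^ n) hP1 (hP2.trans hdg) hQ0
      rw [NM2_omega_pow _ _ hn.ne', hq, NM2_omega_pow _ _ (Nat.succ_ne_zero k), ← hq] at h3
      refine le_trans (Finset.sum_le_sum fun t _ => ?_) h3
      have e : Ideal.Quotient.mk I y + t = Ideal.Quotient.mk I (y + t) := by simp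
      simp only [G]
      rw [e, hgI]
      refine Real.rpow_le_rpow (Nat.cast_nonneg _) (Nat.cast_le.2 (Nat.le_of_dvd ?_ ?_)) hδ
      · exact Int.gcd_pos_of_ne_zero_right _ (by exact_mod_cast hQ0.ne')
      · have := hP3 t
        rwa [hqc, hdg] at this
    have h4 : ((q ^ n : ℕ) : ℝ) * ∑ x ∈ S, G x ≤ ((q ^ n : ℕ) : ℝ) * (C ^ ω f * S.card) := by
      calc ((q ^ n : ℕ) : ℝ) * ∑ x ∈ S, G x = ∑ t ∈ Finset.range (q ^ n), ∑ x ∈ S, G x := by
            rw [Finset.sum_const, Finset.card_range, nsmul_eq_mul]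
        _ = ∑ t ∈ Finset.range (q ^ n), ∑ x ∈ S, G (x + t) :=
            Finset.sum_congr rfl fun t _ => h1 t
        _ = ∑ x ∈ S, ∑ t ∈ Finset.range (q ^ n), G (x + t) := Finset.sum_comm
        _ ≤ ∑ x ∈ S, C ^ ω f * (q ^ n : ℕ) := Finset.sum_le_sum fun x _ => h2 x
        _ = _ := by rw [Finset.sum_const, nsmul_eq_mul]; ring
    exact le_of_mul_le_mul_left h4 (by exact_mod_cast hQ0)
  have hone : ∀ c ∈ F, (mlt D c : ℝ) * (Ideal.absNorm c : ℝ) ^ (δ - 1) * phiO D * (f : ℝ) ^ (n * k)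
      ≤ ∑ x ∈ S.filter (fun x => gI x = c), G x := by
    intro c hc
    have hc0 : (0 : ℝ) < Ideal.absNorm c := by
      refine Nat.cast_pos.2 (Nat.pos_of_ne_zero fun h => ?_)
      have h1 := hF c hc
      rw [Ideal.absNorm_eq_zero_iff.1 h, Ideal.mem_bot] at h1
      exact pow_ne_zero k (Nat.cast_ne_zero.2 hf.ne') h1
    have h1 := hM2a n D k c (hF c hc)
    have h2 : Nat.card {x : 𝓞 D.K ⧸ I // ∃ y : 𝓞 D.K, (y : D.K) ∈ D.O ∧
        Ideal.Quotient.mk _ y = x ∧ Ideal.span {y} ⊔ I = c} ≤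
        (S.filter fun x => gI x = c).card := by
      rw [Nat.card_eq_fintype_card, Fintype.card_subtype]
      refine Finset.card_le_card fun x hx => ?_
      obtain ⟨y, h3, rfl, h5⟩ := (Finset.mem_filter.1 hx).2
      exact Finset.mem_filter.2 ⟨Finset.mem_filter.2 ⟨Finset.mem_univ _, y, h3, rfl⟩,
        (hgI y).trans h5⟩
    have h3 : (mlt D c : ℝ) * phiO D * (f : ℝ) ^ (n * k) ≤
        Ideal.absNorm c * (S.filter fun x => gI x = c).card := by
      exact_mod_cast h1.trans (Nat.mul_le_mul_left _ h2)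
    have h4 : ∑ x ∈ S.filter (fun x => gI x = c), G x =
        (S.filter fun x => gI x = c).card * (Ideal.absNorm c : ℝ) ^ δ := by
      rw [← nsmul_eq_mul, ← Finset.sum_const]
      exact Finset.sum_congr rfl fun x hx => by simp only [G, (Finset.mem_filter.1 hx).2]
    rw [h4, Real.rpow_sub_one hc0.ne']
    have h5 : 0 ≤ (Ideal.absNorm c : ℝ) ^ δ / Ideal.absNorm c := by positivity
    calc _ = (Ideal.absNorm c : ℝ) ^ δ / Ideal.absNorm c *
          ((mlt D c : ℝ) * phiO D * (f : ℝ) ^ (n * k)) := by ring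
      _ ≤ (Ideal.absNorm c : ℝ) ^ δ / Ideal.absNorm c *
          (Ideal.absNorm c * (S.filter fun x => gI x = c).card) :=
        mul_le_mul_of_nonneg_left h3 h5
      _ = _ := by field_simp
  have hsum : ∑ c ∈ F, ∑ x ∈ S.filter (fun x => gI x = c), G x ≤ ∑ x ∈ S, G x := by
    rw [Finset.sum_fiberwise_eq_sum_filter]
    exact Finset.sum_le_sum_of_subset_of_nonneg (Finset.filter_subset _ _) fun x _ _ => hG0 x
  have hfR : (0 : ℝ) < f := Nat.cast_pos.2 hf
  have hSc' : (S.card : ℝ) * f = (f : ℝ) ^ n * (f : ℝ) ^ (n * k) := by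
    have : (S.card : ℝ) * f = ((q ^ n : ℕ) : ℝ) := by exact_mod_cast hSc
    rw [this, hq]
    push_cast
    ring
  refine le_of_mul_le_mul_right ?_ (pow_pos hfR (n * k))
  have h6 := (Finset.sum_le_sum hone).trans (hsum.trans hav)
  rw [← Finset.sum_mul, ← Finset.sum_mul] at h6
  calc _ = (∑ c ∈ F, (mlt D c : ℝ) * (Ideal.absNorm c : ℝ) ^ (δ - 1)) * phiO D *
        (f : ℝ) ^ (n * k) * f := by ring
    _ ≤ C ^ ω f * S.card * f := mul_le_mul_of_nonneg_right h6 hfR.le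
    _ = _ := by rw [mul_assoc, hSc']; ring

theorem s_M2 (hOrdA : OrdA) (hM2a : M2a) (hGA : GA) : M2 := by
  intro n δ h0 h1
  by_cases hδ : δ = 0
  · refine ⟨1, le_rfl, fun _ => rfl, fun D k F hF => NM2_main hOrdA hM2a h0 ?_ D k F hF⟩
    intro P Q _ _ _
    simp [hδ]
  rcases Nat.eq_zero_or_pos n with rfl | hn
  · refine ⟨1, le_rfl, fun _ => rfl, fun D => ?_⟩
    exact absurd D.degree Module.finrank_pos.ne'
  obtain ⟨C, hC, h⟩ := hGA n δ hn h0 h1
  exact ⟨C, hC, fun e => absurd e hδ, fun D k F hF => NM2_main hOrdA hM2a h0 h D k F hF⟩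

end TP
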