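import Vale.Agent.P007.NStm

noncomputable section
namespace TP
open Complex MeasureTheory NumberField Filter ART
open Vale.Agent.P007 (Datum X lattice act orbit diagA stab vol IsOrbitMeasure)
open scoped Classical Topology ArithmeticFunction.omega

section Ring
variable {R : Type} [CommRing R]

theorem NM2a_iter (c : Ideal R) (y f : R) (h : c ≤ Ideal.span {y} ⊔ Ideal.span {f} * c) (j : ℕ) :
    c ≤ Ideal.span {y} ⊔ Ideal.span {f ^ j} * c := by
  induction j with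
  | zero => simp
  | succ j ih =>
    refine ih.trans (sup_le le_sup_left ?_)
    calc Ideal.span {f ^ j} * c ≤ Ideal.span {f ^ j} * (Ideal.span {y} ⊔ Ideal.span {f} * c) :=
          Ideal.mul_mono_right h
      _ ≤ _ := by
          rw [Ideal.mul_sup, ← mul_assoc, Ideal.span_singleton_mul_span_singleton (f ^ j) f,
            ← pow_succ]
          exact sup_le_sup_right Ideal.mul_le_right _

theorem NM2a_card (q J : Ideal R) (h : q ≤ J) :
    Nat.card (R ⧸ q) = Nat.card (J.map (Ideal.Quotient.mk q)) * Nat.card (R ⧸ J) := by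
  rw [Submodule.card_eq_card_quotient_mul_card (J.map (Ideal.Quotient.mk q))]
  congr 1
  exact Nat.card_congr (DoubleQuot.quotQuotEquivQuotOfLE h).toEquiv

theorem NM2a_pow (f u : R) [Finite (R ⧸ Ideal.span {f})]
    (hu : IsUnit (Ideal.Quotient.mk (Ideal.span {f}) u)) :
    ∃ (m : ℕ) (r : R), u ^ m * u = 1 + f * r := by
  obtain ⟨U, hU⟩ := hu
  have h1 : U ^ Nat.card (R ⧸ Ideal.span {f})ˣ = 1 := pow_card_eq_one'
  have h2 : 0 < Nat.card (R ⧸ Ideal.span {f})ˣ := Nat.card_pos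
  obtain ⟨m, hm⟩ := Nat.exists_eq_succ_of_ne_zero h2.ne'
  have h3 : Ideal.Quotient.mk (Ideal.span {f}) (u ^ m * u) = Ideal.Quotient.mk _ 1 := by
    rw [← pow_succ, map_pow, ← hU, ← Units.val_pow_eq_pow_val, ← Nat.succ_eq_add_one, ← hm, h1]
    simp
  rw [Ideal.Quotient.eq, Ideal.mem_span_singleton'] at h3
  obtain ⟨r, hr⟩ := h3
  exact ⟨m, r, by linear_combination -hr⟩
end Ring

section Dat
variable {n : ℕ} (D : Datum n)

theorem NM2a_int {a : D.K} (ha : a ∈ D.O) : ∃ b : 𝓞 D.K, (b : D.K) = a :=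
  ⟨⟨a, D.integral a ha⟩, rfl⟩

theorem NM2a_mem_oo {a : D.K} : a ∈ oo D ↔ a ∈ D.O := Iff.rfl

/-- The multiple of the extension by the index lies in the ideal. -/
theorem NM2a_fc (hf : ∀ x : 𝓞 D.K, (ix D : D.K) * x ∈ D.O) {I : Submodule ℤ D.K}
    (hI : D.IsFracIdeal I) {z : 𝓞 D.K} (hz : z ∈ Ideal.span {(ix D : 𝓞 D.K)} * up D I) :
    (z : D.K) ∈ I := by
  rw [Ideal.mem_span_singleton_mul] at hz
  obtain ⟨w, hw, rfl⟩ := hz
  have key : ∀ r : 𝓞 D.K, (((ix D : 𝓞 D.K) * (r * w) : 𝓞 D.K) : D.K) ∈ I := by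
    refine Submodule.span_induction (p := fun w _ =>
      ∀ r : 𝓞 D.K, (((ix D : 𝓞 D.K) * (r * w) : 𝓞 D.K) : D.K) ∈ I) ?_ ?_ ?_ ?_ hw
    · intro y hy r
      have := hI.2.2 _ (hf r) _ hy
      simpa [mul_assoc] using this
    · intro r
      simp
    · intro a b _ _ ha hb r
      have := I.add_mem (ha r) (hb r)
      simpa [mul_add] using this
    · intro s a _ ha r
      have := ha (r * s)
      simpa [mul_assoc] using this
  simpa using key 1

/-- A local generator in the ring of integers. -/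
theorem NM2a_gen (hLocP : LocP) {I : Submodule ℤ D.K} (hI : I ∈ BB D) :
    ∃ x : 𝓞 D.K, (x : D.K) ∈ I ∧ ∀ y ∈ I, ∃ a z : 𝓞 D.K, (a : D.K) ∈ D.O ∧
      z ∈ Ideal.span {(ix D : 𝓞 D.K)} * up D I ∧ y = ((a * x + z : 𝓞 D.K) : D.K) := by
  obtain ⟨x, hx, h⟩ := hLocP n D I hI.1
  obtain ⟨x', rfl⟩ := NM2a_int D (hI.2 hx)
  refine ⟨x', hx, fun y hy => ?_⟩
  obtain ⟨a, ha, z, hz, rfl⟩ := h y hy
  obtain ⟨a', rfl⟩ := NM2a_int D ha
  obtain ⟨z', rfl⟩ := NM2a_int D (hI.2 hz)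
  refine ⟨a', ix D * z', ha, Ideal.mul_mem_mul (Ideal.mem_span_singleton_self _)
    (Ideal.subset_span hz), by simp⟩

theorem NM2a_le {I : Submodule ℤ D.K} {x : 𝓞 D.K}
    (h : ∀ y ∈ I, ∃ a z : 𝓞 D.K, (a : D.K) ∈ D.O ∧
      z ∈ Ideal.span {(ix D : 𝓞 D.K)} * up D I ∧ y = ((a * x + z : 𝓞 D.K) : D.K)) :
    up D I ≤ Ideal.span {x} ⊔ Ideal.span {(ix D : 𝓞 D.K)} * up D I := by
  refine Ideal.span_le.2 fun y hy => ?_
  obtain ⟨a, z, _, hz, hyz⟩ := h _ hy
  have : y = a * x + z := RingOfIntegers.ext hyz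
  rw [this]
  exact Submodule.add_mem_sup (Ideal.mul_mem_left _ _ (Ideal.mem_span_singleton_self _)) hz

/-- A generator multiplied by a unit modulo the index is a generator. -/
theorem NM2a_new {I : Submodule ℤ D.K} {x u z r : 𝓞 D.K} {m : ℕ} (hx : (x : D.K) ∈ I)
    (h : ∀ y ∈ I, ∃ a z : 𝓞 D.K, (a : D.K) ∈ D.O ∧
      z ∈ Ideal.span {(ix D : 𝓞 D.K)} * up D I ∧ y = ((a * x + z : 𝓞 D.K) : D.K))
    (hu : (u : D.K) ∈ D.O) (hm : u ^ m * u = 1 + ix D * r)
    (hz : z ∈ Ideal.span {(ix D : 𝓞 D.K)} * up D I) :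
    ∀ y ∈ I, ∃ a w : 𝓞 D.K, (a : D.K) ∈ D.O ∧
      w ∈ Ideal.span {(ix D : 𝓞 D.K)} * up D I ∧
        y = ((a * (u * x + z) + w : 𝓞 D.K) : D.K) := by
  intro y hy
  obtain ⟨a, w, ha, hw, rfl⟩ := h y hy
  refine ⟨a * u ^ m, w - a * u ^ m * z - ix D * (a * r * x), ?_, ?_, ?_⟩
  · simpa using D.O.mul_mem ha (D.O.pow_mem hu m)
  · refine Ideal.sub_mem _ (Ideal.sub_mem _ hw (Ideal.mul_mem_left _ _ hz)) ?_
    exact Ideal.mul_mem_mul (Ideal.mem_span_singleton_self _)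
      (Ideal.mul_mem_left _ _ (Ideal.subset_span hx))
  · congr 1
    linear_combination (-(a * x)) * hm
end Dat

theorem s_M2a (hOrdA : OrdA) (hLocP : LocP) : M2a := by
  intro n D k c hc
  obtain ⟨hf0, hdg, -, hf, -⟩ := hOrdA n D
  set f : 𝓞 D.K := (ix D : 𝓞 D.K) with hfdef
  have hfne : f ≠ 0 := by
    rw [hfdef]; exact_mod_cast hf0.ne'
  have hc0 : c ≠ ⊥ := by
    rintro rfl
    exact pow_ne_zero k hfne (by simpa using hc)
  set J : Ideal (𝓞 D.K) := Ideal.span {f} * c with hJ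
  set q : Ideal (𝓞 D.K) := Ideal.span {f ^ (k + 1)} with hq
  have hqJ : q ≤ J := by
    rw [hq, Ideal.span_singleton_le_iff_mem, pow_succ']
    exact Ideal.mul_mem_mul (Ideal.mem_span_singleton_self _) hc
  have hq0 : q ≠ ⊥ := by
    rw [hq, Ne, Ideal.span_singleton_eq_bot]; exact pow_ne_zero _ hfne
  have hf0' : Ideal.span {f} ≠ ⊥ := by
    rw [Ne, Ideal.span_singleton_eq_bot]; exact hfne
  have : Finite (𝓞 D.K ⧸ q) := Ideal.finiteQuotientOfFreeOfNeBot q hq0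
  have : Finite (𝓞 D.K ⧸ Ideal.span {f}) := Ideal.finiteQuotientOfFreeOfNeBot _ hf0'
  have hNf : Ideal.absNorm (Ideal.span {f}) = ix D ^ n := by
    rw [hfdef, Ideal.absNorm_span_natCast, RingOfIntegers.rank, D.degree]
  have hW : Nat.card (J.map (Ideal.Quotient.mk q)) * Ideal.absNorm c = ix D ^ (n * k) := by
    have h1 := NM2a_card q J hqJ
    have h2 : Nat.card (𝓞 D.K ⧸ q) = Ideal.absNorm q := by
      rw [Ideal.absNorm_apply, Submodule.cardQuot_apply]
    have h3 : Nat.card (𝓞 D.K ⧸ J) = Ideal.absNorm J := by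
      rw [Ideal.absNorm_apply, Submodule.cardQuot_apply]
    rw [h2, h3, hJ, map_mul, hNf, hq, ← Ideal.span_singleton_pow, map_pow, hNf] at h1
    have h4 : 0 < ix D ^ n := pow_pos hf0 n
    refine Nat.eq_of_mul_eq_mul_left h4 ?_
    rw [pow_mul, ← pow_succ', h1, hq, ← Ideal.span_singleton_pow]
    ring
  set A : Set (Submodule ℤ D.K) := {I ∈ BB D | up D I = c} with hA
  choose xI hxI hgen using fun I : A => NM2a_gen D hLocP I.2.1
  set U := {x : (𝓞 D.K ⧸ Ideal.span {f})ˣ //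
    ∃ y : 𝓞 D.K, (y : D.K) ∈ D.O ∧ Ideal.Quotient.mk _ y = x.1} with hU
  choose uU huO huU using fun x : U => x.2
  have hWex : ∀ w : J.map (Ideal.Quotient.mk q), ∃ z ∈ J, Ideal.Quotient.mk q z = w.1 :=
    fun w => (Ideal.mem_map_iff_of_surjective _ Ideal.Quotient.mk_surjective).1 w.2
  choose zW hzJ hzW using hWex
  have hpow : ∀ x : U, ∃ (m : ℕ) (r : 𝓞 D.K), uU x ^ m * uU x = 1 + f * r := fun x =>
    NM2a_pow f (uU x) (by rw [huU]; exact x.1.isUnit)
  have hJI : ∀ I : A, ∀ z ∈ J, (z : D.K) ∈ I.1 := fun I z hz =>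
    NM2a_fc D hf I.2.1.1.1 (by rw [I.2.2]; exact hz)
  have hyI : ∀ (I : A) (x : U) (w : J.map (Ideal.Quotient.mk q)),
      ((uU x * xI I + zW w : 𝓞 D.K) : D.K) ∈ I.1 := fun I x w => by
    have := I.1.add_mem (I.2.1.1.1.2.2 _ (huO x) _ (hxI I)) (hJI I _ (hzJ w))
    simpa using this
  have hnew : ∀ (I : A) (x : U) (w : J.map (Ideal.Quotient.mk q)), ∀ y ∈ I.1,
      ∃ a w' : 𝓞 D.K, (a : D.K) ∈ D.O ∧ w' ∈ Ideal.span {f} * up D I.1 ∧
        y = ((a * (uU x * xI I + zW w) + w' : 𝓞 D.K) : D.K) := fun I x w => by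
    obtain ⟨m, r, hm⟩ := hpow x
    exact NM2a_new D (hxI I) (hgen I) (huO x) hm (by rw [I.2.2]; exact hzJ w)
  let Φ : A × U × J.map (Ideal.Quotient.mk q) →
      {x : 𝓞 D.K ⧸ q // ∃ y : 𝓞 D.K, (y : D.K) ∈ D.O ∧ Ideal.Quotient.mk _ y = x ∧
        Ideal.span {y} ⊔ q = c} := fun p =>
    ⟨Ideal.Quotient.mk _ (uU p.2.1 * xI p.1 + zW p.2.2), _, p.1.2.1.2 (hyI _ _ _), rfl, by
      have h1 := NM2a_le D (hnew p.1 p.2.1 p.2.2)
      rw [p.1.2.2] at h1
      refine le_antisymm (sup_le ?_ (hqJ.trans Ideal.mul_le_right)) ?_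
      · rw [Ideal.span_singleton_le_iff_mem, ← p.1.2.2]
        exact Ideal.subset_span (hyI _ _ _)
      · exact (NM2a_iter c _ f h1 (k + 1)).trans (sup_le_sup_left Ideal.mul_le_left _)⟩
  have hsub : ∀ p p' : A × U × J.map (Ideal.Quotient.mk q), Φ p = Φ p' → p.1.1 ≤ p'.1.1 := by
    intro p p' h y hy
    have h1 := hqJ (Ideal.Quotient.eq.1 (congrArg Subtype.val h))
    obtain ⟨a, w', ha, hw', rfl⟩ := hnew p.1 p.2.1 p.2.2 y hy
    rw [p.1.2.2] at hw'
    have h2 := p'.1.1.add_mem (p'.1.2.1.1.1.2.2 _ ha _ (hyI p'.1 p'.2.1 p'.2.2))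
      (hJI p'.1 _ (J.add_mem (J.mul_mem_left a h1) hw'))
    convert h2 using 1
    push_cast
    ring
  have hinj : Function.Injective Φ := by
    rintro ⟨I, x, w⟩ ⟨I', x', w'⟩ h
    obtain rfl : I = I' := Subtype.ext (le_antisymm (hsub _ _ h) (hsub _ _ h.symm))
    have h0 := Ideal.Quotient.eq.1 (congrArg Subtype.val h)
    simp only at h0
    have h1 : (uU x - uU x') * xI I ∈ J := by
      have := J.add_mem (J.sub_mem (hqJ h0) (hzJ w)) (hzJ w')
      convert this using 1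
      ring
    have h2 : Ideal.span {uU x - uU x'} * c ≤ Ideal.span {f} * c := by
      have h3 := NM2a_le D (hgen I)
      rw [I.2.2] at h3
      refine (Ideal.mul_mono_right h3).trans ?_
      rw [Ideal.mul_sup, Ideal.span_singleton_mul_span_singleton]
      exact sup_le ((Ideal.span_singleton_le_iff_mem _).2 h1) Ideal.mul_le_right
    have h4 : uU x - uU x' ∈ Ideal.span {f} := by
      rw [← Ideal.span_singleton_le_iff_mem, ← Ideal.dvd_iff_le]
      exact (mul_dvd_mul_iff_right hc0).1 (Ideal.dvd_iff_le.2 h2)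
    obtain rfl : x = x' := by
      apply Subtype.ext
      apply Units.ext
      rw [← huU x, ← huU x']
      exact Ideal.Quotient.eq.2 h4
    obtain rfl : w = w' := by
      apply Subtype.ext
      rw [← hzW w, ← hzW w']
      refine Ideal.Quotient.eq.2 ?_
      convert h0 using 1
      ring
    rfl
  have hle := Nat.card_le_card_of_injective Φ hinj
  rw [Nat.card_prod, Nat.card_prod] at hle
  have e1 : mlt D c = Nat.card A := (Nat.card_coe_set_eq A).symm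
  have e2 : phiO D = Nat.card U := rfl
  rw [e1, e2, ← hW]
  calc Nat.card A * Nat.card U * (Nat.card (J.map (Ideal.Quotient.mk q)) * Ideal.absNorm c)
      = Ideal.absNorm c * (Nat.card A * (Nat.card U * Nat.card (J.map (Ideal.Quotient.mk q)))) := by
        ring
    _ ≤ _ := Nat.mul_le_mul_left _ hle

end TP
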