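import Vale.Agent.P007.NStm

noncomputable section
namespace TP
open Complex MeasureTheory NumberField Filter ART
open Vale.Agent.P007 (Datum X lattice act orbit diagA stab vol IsOrbitMeasure)
open scoped Classical Topology ArithmeticFunction.omega

open Matrix in
/-- Minkowski's theorem on linear forms. -/
theorem NMah_mink {n : ℕ} (M : Matrix (Fin n) (Fin n) ℝ) (hM : M.det = 1) (r : Fin n → ℝ)
    (hr : ∀ i, 0 < r i) (h : 1 < ∏ i, r i) :
    ∃ z : Fin n → ℤ, (fun k => (z k : ℝ)) ᵥ* M ≠ 0 ∧ ∀ i, |((fun k => (z k : ℝ)) ᵥ* M) i| < r i := by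
  let b := basisOfPiSpaceOfLinearIndependent
    (linearIndependent_rows_of_det_ne_zero (hM ▸ one_ne_zero : M.det ≠ 0))
  have hb : ⇑b = fun i => M i := coe_basisOfPiSpaceOfLinearIndependent _
  have : Countable (Submodule.span ℤ (Set.range b)).toAddSubgroup :=
    inferInstanceAs (Countable (Submodule.span ℤ (Set.range b)))
  obtain ⟨⟨x, hx⟩, h0, h1⟩ := exists_ne_zero_mem_lattice_of_measure_mul_two_pow_lt_measure
    (ZSpan.isAddFundamentalDomain' b volume) (s := Set.univ.pi fun i => Set.Ioo (-r i) (r i))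
    (fun x hx i hi => ⟨neg_lt_neg (hx i hi).2, neg_lt.1 (hx i hi).1⟩)
    (convex_pi fun i _ => convex_Ioo _ _) (by
      rw [ZSpan.volume_fundamentalDomain, hb, Real.volume_pi_Ioo,
        ← ENNReal.ofReal_prod_of_nonneg fun i _ => by linarith [hr i]]
      change ENNReal.ofReal |M.det| * _ < _
      simp only [hM, abs_one, ENNReal.ofReal_one, one_mul, Module.finrank_fin_fun, sub_neg_eq_add,
        ← two_mul, Finset.prod_mul_distrib, Finset.prod_const, Finset.card_univ, Fintype.card_fin]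
      rw [← ENNReal.ofReal_ofNat, ← ENNReal.ofReal_pow (by norm_num),
        ENNReal.ofReal_lt_ofReal_iff_of_nonneg (by positivity)]
      exact lt_mul_of_one_lt_right (by positivity) h)
  obtain ⟨z, rfl⟩ := (Submodule.mem_span_range_iff_exists_fun ℤ).1 hx
  have e : (fun k => (z k : ℝ)) ᵥ* M = ∑ i, z i • b i := by
    simp only [vecMul_eq_sum, hb, Int.cast_smul_eq_zsmul]
  exact ⟨z, fun h => h0 (Subtype.ext (e.symm.trans h)), fun i => e ▸ abs_lt.2 (h1 i trivial)⟩

open Matrix in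
/-- Bounded lattice vectors span the space. -/
theorem NMah_span (n : ℕ) {ε : ℝ} (hε : 0 < ε) : ∃ R : ℝ, 0 ≤ R ∧ ∀ g : Matrix (Fin n) (Fin n) ℝ,
    g.det = 1 → (∀ z : Fin n → ℤ, (fun k => (z k : ℝ)) ᵥ* g ≠ 0 → ε ≤ ‖(fun k => (z k : ℝ)) ᵥ* g‖) →
    Submodule.span ℝ {v | ‖v‖ ≤ R ∧ ∃ z : Fin n → ℤ, (fun k => (z k : ℝ)) ᵥ* g = v} = ⊤ := by
  obtain ⟨δ, hδ, hδε⟩ : ∃ δ : ℝ, 0 < δ ∧ (n + 1) * δ < ε :=
    ⟨ε / (n + 2), by positivity, by rw [mul_div_assoc', div_lt_iff₀ (by positivity)]; nlinarith⟩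
  refine ⟨2 / δ ^ (n - 1) + (n + 1) * δ, by positivity, fun g hg hε => by_contra fun h => ?_⟩
  obtain ⟨φ, h0, hφ⟩ := Submodule.exists_le_ker_of_lt_top _ (lt_top_iff_ne_top.2 h)
  obtain ⟨c, hc⟩ : ∃ c : Fin n → ℝ, ∀ v, φ v = v ⬝ᵥ c :=
    ⟨fun i => φ (Pi.single i 1), fun v => by
      rw [LinearMap.pi_apply_eq_sum_univ]
      simp only [dotProduct, smul_eq_mul]
      exact Finset.sum_congr rfl fun i _ => by
        rw [show (fun j => if i = j then (1 : ℝ) else 0) = Pi.single i 1 from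
          funext fun j => by simp [Pi.single_apply, eq_comm]]⟩
  obtain ⟨i0, hi0⟩ : ∃ i, c i ≠ 0 :=
    Function.ne_iff.1 fun h => h0 (LinearMap.ext fun v => by simp [hc, h])
  obtain ⟨j, -, hj⟩ := Finset.exists_max_image Finset.univ (fun i => |c i|) ⟨i0, Finset.mem_univ _⟩
  have hcj : 0 < |c j| := (abs_pos.2 hi0).trans_le (hj _ (Finset.mem_univ _))
  have hcj' := abs_pos.1 hcj
  obtain ⟨z, hz0, hz⟩ := NMah_mink (g * (1 : Matrix _ _ ℝ).updateCol j fun i => c i / c j)
    (by rw [det_mul, hg, ← cramer_apply, cramer_one]; simp [hcj'])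
    (Function.update (fun _ => δ) j (2 / δ ^ (n - 1)))
    (fun i => by rw [Function.update_apply]; split_ifs <;> positivity)
    (by
      rw [Finset.prod_update_of_mem (Finset.mem_univ _), Finset.prod_const,
        Finset.card_univ_diff, Fintype.card_fin, Finset.card_singleton,
        div_mul_cancel₀ _ (by positivity)]
      norm_num)
  rw [← vecMul_vecMul] at hz0 hz
  have hε' := hε z fun h => hz0 (by rw [h, zero_vecMul])
  have hv : (fun k => (z k : ℝ)) ᵥ* g ∈ _ → φ _ = 0 := fun h => hφ (Submodule.subset_span h)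
  generalize hw : (fun k => (z k : ℝ)) ᵥ* g = v at *
  have h1 : ∀ i, i ≠ j → |v i| < δ := fun i hi => by
    simpa [vecMul, dotProduct, updateCol_apply, hi, one_apply] using hz i
  have h2 : |∑ i, v i * (c i / c j)| < 2 / δ ^ (n - 1) := by
    simpa [vecMul, dotProduct] using hz j
  have h3 : |v j| ≤ |∑ i, v i * (c i / c j)| + n * δ := by
    have h4 : |∑ i ∈ Finset.univ.erase j, v i * (c i / c j)| ≤ n * δ := by
      refine (Finset.abs_sum_le_sum_abs _ _).trans ((Finset.sum_le_card_nsmul _ _ δ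
        fun i hi => ?_).trans ?_)
      · rw [abs_mul, abs_div]
        exact (mul_le_of_le_one_right (abs_nonneg _) ((div_le_one hcj).2
          (hj _ (Finset.mem_univ _)))).trans (h1 i (Finset.ne_of_mem_erase hi)).le
      · rw [nsmul_eq_mul]
        exact mul_le_mul_of_nonneg_right (Nat.cast_le.2 ((Finset.card_le_univ _).trans_eq
          (Fintype.card_fin n))) hδ.le
    rw [← Finset.add_sum_erase _ _ (Finset.mem_univ j), div_self hcj', mul_one]
    have := abs_sub (v j + ∑ i ∈ Finset.univ.erase j, v i * (c i / c j))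
      (∑ i ∈ Finset.univ.erase j, v i * (c i / c j))
    rw [add_sub_cancel_right] at this
    linarith
  have hn : 0 ≤ n * δ := by positivity
  have h5 : ∀ T, 0 ≤ T → |∑ i, v i * (c i / c j)| ≤ T → ‖v‖ ≤ T + (n + 1) * δ := fun T hT h =>
    (pi_norm_le_iff_of_nonneg (by positivity)).2 fun i => by
      rcases eq_or_ne i j with rfl | hi
      · rw [Real.norm_eq_abs]
        linarith
      · rw [Real.norm_eq_abs]
        linarith [h1 i hi]
  have h6 := hv ⟨h5 _ (by positivity) h2.le, z, hw⟩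
  rw [hc, dotProduct] at h6
  have h7 := h5 0 le_rfl (by simp [← mul_div_assoc, ← Finset.sum_div, h6])
  linarith

open Matrix in
/-- Integer matrices of bounded determinant fall in finitely many classes. -/
theorem NMah_fin (n : ℕ) (D : ℤ) : ∃ F : Set (Matrix (Fin n) (Fin n) ℝ), F.Finite ∧
    ∀ A : Matrix (Fin n) (Fin n) ℤ, A.det ≠ 0 → |A.det| ≤ D → ∃ B ∈ F,
      ∃ γ : SpecialLinearGroup (Fin n) ℤ,
        γ.1.map (Int.castRingHom ℝ) = B * A.map (Int.castRingHom ℝ) := by
  let S := {A : Matrix (Fin n) (Fin n) ℤ | A.det ≠ 0 ∧ |A.det| ≤ D}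
  let f : Matrix (Fin n) (Fin n) ℤ → ℤ × (Fin n → Fin n → ℤ) := fun A =>
    (A.det, fun i j => A.adjugate i j % A.det)
  have hS : (f '' S).Finite := ((Set.finite_Icc (-D) D).prod (Set.Finite.pi' fun _ =>
    Set.Finite.pi' fun _ => Set.finite_Icc 0 D)).subset (by
      rintro _ ⟨A, hA, rfl⟩
      exact ⟨abs_le.1 hA.2, fun i j => ⟨Int.emod_nonneg _ hA.1,
        (Int.emod_lt_abs _ hA.1).le.trans hA.2⟩⟩)
  obtain ⟨T, hT, hTf, hTS⟩ := Set.Finite.exists_subset_finite_image_eq hS le_rfl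
  refine ⟨(fun A => (A.map (Int.castRingHom ℝ))⁻¹) '' T, hTf.image _, fun A h0 h1 => ?_⟩
  obtain ⟨B, hB, e⟩ : f A ∈ f '' T := hTS ▸ Set.mem_image_of_mem f ⟨h0, h1⟩
  obtain ⟨e1, e2⟩ := Prod.ext_iff.1 e
  change B.det = A.det at e1
  choose Y hY using fun i j => Int.ModEq.dvd (n := A.det) (a := A.adjugate i j)
    (b := B.adjugate i j) (by simpa [f, e1, Int.ModEq] using (congrFun (congrFun e2 i) j).symm)
  have h2 : B.adjugate = A.adjugate + A.det • Matrix.of Y := by
    ext i j
    simp [← hY]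
  have h3 : B * (1 + Matrix.of Y * A) = A := by
    refine smul_right_injective _ h0 ?_
    have h4 : A.det • (1 + Matrix.of Y * A) = B.adjugate * A := by
      rw [h2, Matrix.add_mul, adjugate_mul, smul_add, Matrix.smul_mul]
    simp only
    rw [← Matrix.mul_smul, h4, ← Matrix.mul_assoc, mul_adjugate, e1, Matrix.smul_mul, Matrix.one_mul]
  refine ⟨_, Set.mem_image_of_mem _ hB, ⟨1 + Matrix.of Y * A, ?_⟩, ?_⟩
  · have := congrArg det h3
    rwa [det_mul, e1, mul_eq_left₀ h0] at this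
  · have hu : IsUnit (B.map (Int.castRingHom ℝ)).det := by
      rw [← RingHom.mapMatrix_apply, ← RingHom.map_det, e1]
      simpa using h0
    conv_rhs => rw [← h3, Matrix.map_mul, nonsing_inv_mul_cancel_left _ _ hu]

open Matrix Vale.Agent.P007 in
theorem s_Mahler (hLatA : LatA) : Mahler := by
  intro n ε hε
  obtain ⟨R, hR, hs⟩ := NMah_span n hε
  obtain ⟨F, hF, hf⟩ := NMah_fin n ⌈(Fintype.card (Fin n)).factorial • R ^ Fintype.card (Fin n)⌉
  have hK : IsCompact (⋃ B ∈ F, (fun V : Fin n → Fin n → ℝ => B * Matrix.of V) ''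
      Metric.closedBall 0 R) := hF.isCompact_biUnion fun B _ =>
    (isCompact_closedBall _ _).image (continuous_const.matrix_mul continuous_id)
  refine ((SpecialLinearGroup.isClosedEmbedding_val.isCompact_preimage hK).image
    (isOpenQuotientMap_proj n).continuous).of_isClosed_subset ?_ fun x hx => ?_
  · rw [← isOpen_compl_iff]
    refine Eq.subst (motive := IsOpen) (Set.ext fun x => ?_) ((hLatA n).2.2.2 ε 0 (ε ^ n + 1))
    simp only [thinSet, Set.mem_setOf_eq, Set.mem_compl_iff, not_forall, not_le, exists_prop]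
    refine exists_congr fun w => and_congr_right fun _ => and_congr_right fun _ =>
      and_iff_left_of_imp fun h => ?_
    rw [sub_zero, abs_abs, Finset.abs_prod]
    refine ((Finset.prod_le_prod (g := fun _ => ε) (fun _ _ => abs_nonneg _) fun i _ =>
      (norm_le_pi_norm w i).trans h.le).trans_eq ?_).trans_lt (lt_add_one _)
    rw [Finset.prod_const, Finset.card_univ, Fintype.card_fin]
  · obtain ⟨g, rfl⟩ := (isOpenQuotientMap_proj n).surjective x
    have h1 := hs g.1 g.2 fun z => hx _ (by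
      rw [lattice_proj]
      exact (Submodule.mem_span_range_iff_exists_fun ℤ).2 ⟨z, by simp [vecMul_eq_sum]; rfl⟩)
    have h2 := Submodule.exists_fun_fin_finrank_span_eq ℝ
      {v | ‖v‖ ≤ R ∧ ∃ z : Fin n → ℤ, (fun k => (z k : ℝ)) ᵥ* g.1 = v}
    rw [h1, finrank_top, Module.finrank_fin_fun] at h2
    obtain ⟨V, hV, -, hi⟩ := h2
    choose hV A hA using hV
    have h3 : (Matrix.of A).map (Int.castRingHom ℝ) * g.1 = Matrix.of V :=
      funext fun i => hA i
    have h4 : ((Matrix.of A).det : ℝ) = (Matrix.of V).det := by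
      rw [← h3, det_mul, g.2, mul_one, ← RingHom.mapMatrix_apply, ← RingHom.map_det, eq_intCast]
    obtain ⟨B, hB, γ, hγ⟩ := hf (Matrix.of A) (fun h => by
      rw [h, Int.cast_zero] at h4
      exact ((isUnit_iff_isUnit_det _).1 (linearIndependent_rows_iff_isUnit.1 hi)).ne_zero h4.symm)
      (by
        rw [← Int.cast_le (R := ℝ), Int.cast_abs, h4]
        exact (det_le (abv := AbsoluteValue.abs) fun i j =>
          (norm_le_pi_norm (V i) j).trans (hV i)).trans (Int.le_ceil _))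
    refine ⟨SpecialLinearGroup.map (Int.castRingHom ℝ) γ * g, Set.mem_biUnion hB
      ⟨V, mem_closedBall_zero_iff.2 ((pi_norm_le_iff_of_nonneg hR).2 hV), ?_⟩,
      (proj_eq_iff _ _).2 ⟨γ, (mul_inv_cancel_right _ _).symm⟩⟩
    change B * Matrix.of V = γ.1.map (Int.castRingHom ℝ) * g.1
    rw [← h3, ← Matrix.mul_assoc, ← hγ]

end TP
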