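import Vale.Agent.P007.NStm

noncomputable section
namespace TP
open Complex MeasureTheory NumberField Filter ART
open Vale.Agent.P007 (Datum X lattice act orbit diagA stab vol IsOrbitMeasure)
open scoped Classical Topology ArithmeticFunction.omega

/-- Coordinatewise multiplication. -/
def NOrb_mu {n : ℕ} (t : Fin n → ℝ) (v : Fin n → ℝ) : Fin n → ℝ := fun j => v j * t j

/-- The integer span of the rows. -/
def NOrb_rows {n : ℕ} (B : Matrix (Fin n) (Fin n) ℝ) : Submodule ℤ (Fin n → ℝ) :=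
  Submodule.span ℤ (Set.range fun i j => B i j)

lemma NOrb_mu_mu {n : ℕ} (s t : Fin n → ℝ) (L : Set (Fin n → ℝ)) :
    NOrb_mu t '' (NOrb_mu s '' L) = NOrb_mu (fun j => s j * t j) '' L := by
  rw [Set.image_image]
  congr 1
  ext v j
  simp [NOrb_mu, mul_assoc]

lemma NOrb_mu_one {n : ℕ} (L : Set (Fin n → ℝ)) : NOrb_mu (fun _ => 1) '' L = L := by
  have : NOrb_mu (fun _ : Fin n => (1 : ℝ)) = id := by
    ext v j
    simp [NOrb_mu]
  rw [this, Set.image_id]

lemma NOrb_mu_rows {n : ℕ} (t : Fin n → ℝ) (B : Matrix (Fin n) (Fin n) ℝ) :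
    NOrb_mu t '' (NOrb_rows B : Set (Fin n → ℝ)) = NOrb_rows (B * Matrix.diagonal t) := by
  let L : (Fin n → ℝ) →ₗ[ℤ] (Fin n → ℝ) :=
    LinearMap.pi fun j => ((t j) • LinearMap.proj (R := ℝ) (φ := fun _ => ℝ) j).restrictScalars ℤ
  have hL : NOrb_mu t = L := by
    ext v j
    simp [L, NOrb_mu, mul_comm]
  rw [hL, ← Submodule.map_coe, NOrb_rows, Submodule.map_span, ← Set.range_comp, NOrb_rows]
  congr 3
  ext i j
  simp [L, Matrix.mul_diagonal, mul_comm]

lemma NOrb_cov {n : ℕ} (B : Matrix (Fin n) (Fin n) ℝ) (hB : B.det ≠ 0) :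
    ZLattice.covolume (NOrb_rows B) = |B.det| := by
  have hli : LinearIndependent ℝ (fun i j => B i j) :=
    Matrix.linearIndependent_rows_of_det_ne_zero hB
  let bR : Module.Basis (Fin n) ℝ (Fin n → ℝ) := basisOfPiSpaceOfLinearIndependent hli
  have hbR : ⇑bR = fun i j => B i j := coe_basisOfPiSpaceOfLinearIndependent hli
  have hemb : NOrb_rows B = Submodule.span ℤ (Set.range bR) := by
    rw [hbR]; rfl
  rw [hemb, ZLattice.covolume_eq_measure_fundamentalDomain _ _
    (ZSpan.isAddFundamentalDomain bR volume), ZSpan.volume_real_fundamentalDomain, hbR]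
  rfl

lemma NOrb_lattice {n : ℕ} (x : X n) : lattice x = NOrb_rows (Quotient.out x).1 := rfl

lemma NOrb_sgn_prod {n : ℕ} {w : Fin n → ℝ} (hw : Sgn w) : |∏ j, w j| = 1 := by
  rw [Finset.abs_prod]
  refine Finset.prod_eq_one fun j _ => ?_
  rcases hw j with h | h <;> simp [h]

lemma NOrb_sgn_ne {n : ℕ} {w : Fin n → ℝ} (hw : Sgn w) (j : Fin n) : w j ≠ 0 := by
  rcases hw j with h | h <;> simp [h]

/-- The normalisation in the definition of an orbit is automatic. -/
lemma NOrb_mem_iff {n : ℕ} (hn : 0 < n) (B : Matrix (Fin n) (Fin n) ℝ) (hB : B.det ≠ 0)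
    {w : Fin n → ℝ} (hw : Sgn w) (x : X n) :
    x ∈ orbit (NOrb_rows B) w ↔ ∃ d : Fin n → ℝ, (∀ j, 0 < d j) ∧
      (lattice x : Set (Fin n → ℝ)) = NOrb_mu (fun j => w j * d j) '' NOrb_rows B := by
  have hpos : 0 < |B.det| := abs_pos.2 hB
  set c : ℝ := ZLattice.covolume (NOrb_rows B) ^ (-(1 : ℝ) / n) with hc
  have hc0 : 0 < c := by
    rw [hc, NOrb_cov B hB]
    exact Real.rpow_pos_of_pos hpos _
  have hcn : c ^ n = |B.det|⁻¹ := by
    rw [hc, NOrb_cov B hB, ← Real.rpow_natCast, ← Real.rpow_mul hpos.le,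
      div_mul_cancel₀ _ (by exact_mod_cast hn.ne'), Real.rpow_neg_one]
  constructor
  · rintro ⟨u, -, hx⟩
    refine ⟨fun j => c * Real.exp (u j), fun j => mul_pos hc0 (Real.exp_pos _), ?_⟩
    rw [hx]
    congr 1
    ext v j
    simp only [NOrb_mu, ← hc]
    ring
  · rintro ⟨d, hd, hx⟩
    have hp : 0 < ∏ j, d j := Finset.prod_pos fun j _ => hd j
    have h1 : |B.det| * ∏ j, d j = 1 := by
      have h2 := hx
      rw [NOrb_mu_rows, NOrb_lattice] at h2
      have h3 := congrArg (fun L : Submodule ℤ (Fin n → ℝ) => ZLattice.covolume L)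
        (SetLike.coe_injective h2)
      have h4 : (B * Matrix.diagonal fun j => w j * d j).det = B.det * ((∏ j, w j) * ∏ j, d j) := by
        rw [Matrix.det_mul, Matrix.det_diagonal, Finset.prod_mul_distrib]
      have h5 : |B.det * ((∏ j, w j) * ∏ j, d j)| = |B.det| * ∏ j, d j := by
        rw [abs_mul, abs_mul, NOrb_sgn_prod hw, one_mul, abs_of_pos hp]
      rw [NOrb_cov _ (by rw [(Quotient.out x).2]; exact one_ne_zero), (Quotient.out x).2,
        NOrb_cov _ (by rw [h4, ← abs_pos, h5]; positivity), h4, h5] at h3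
      rw [← h3, abs_one]
    refine ⟨fun j => Real.log (d j / c), ?_, ?_⟩
    · rw [← Real.log_prod (fun j _ => (div_pos (hd j) hc0).ne'), Finset.prod_div_distrib,
        Finset.prod_const, Finset.card_univ, Fintype.card_fin, hcn, div_inv_eq_mul, mul_comm, h1,
        Real.log_one]
    · rw [hx]
      congr 1
      ext v j
      simp only [NOrb_mu, ← hc]
      rw [Real.exp_log (div_pos (hd j) hc0)]
      field_simp

lemma NOrb_nonempty {n : ℕ} (hn : 0 < n) (B : Matrix (Fin n) (Fin n) ℝ) (hB : B.det ≠ 0)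
    {w : Fin n → ℝ} (hw : Sgn w) : (orbit (NOrb_rows B) w).Nonempty := by
  have hpos : 0 < |B.det| := abs_pos.2 hB
  let j₀ : Fin n := ⟨0, hn⟩
  let d : Fin n → ℝ := fun j => if j = j₀ then |B.det|⁻¹ else 1
  have hd : ∀ j, 0 < d j := by
    intro j
    simp only [d]
    split_ifs
    · exact inv_pos.2 hpos
    · exact one_pos
  have hdp : ∏ j, d j = |B.det|⁻¹ := by simp [d]
  set C : Matrix (Fin n) (Fin n) ℝ := B * Matrix.diagonal fun j => w j * d j with hC
  have hCd : |C.det| = 1 := by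
    rw [hC, Matrix.det_mul, Matrix.det_diagonal, Finset.prod_mul_distrib, abs_mul, abs_mul,
      NOrb_sgn_prod hw, hdp, abs_inv, abs_abs, one_mul, mul_inv_cancel₀ hpos.ne']
  let s : Fin n → ℝ := fun j => if j = j₀ then C.det else 1
  have hs : ∀ j, s j = 1 ∨ s j = -1 := by
    intro j
    simp only [s]
    split_ifs
    · exact (abs_eq zero_le_one).1 hCd
    · exact Or.inl rfl
  have hg : (Matrix.diagonal s * C).det = 1 := by
    have : ∏ j, s j = C.det := by simp [s]
    rw [Matrix.det_mul, Matrix.det_diagonal, this, ← abs_mul_abs_self, hCd, one_mul]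
  let g : Vale.Agent.P007.GG n := ⟨_, hg⟩
  refine ⟨Vale.Agent.P007.proj g, (NOrb_mem_iff hn B hB hw _).2 ⟨d, hd, ?_⟩⟩
  rw [NOrb_mu_rows, ← hC, Vale.Agent.P007.lattice_proj]
  change ((NOrb_rows (Matrix.diagonal s * C) : Submodule ℤ (Fin n → ℝ)) : Set (Fin n → ℝ)) = _
  congr 1
  rw [NOrb_rows]
  apply le_antisymm
  · rw [Submodule.span_le]
    rintro _ ⟨i, rfl⟩
    have hm : (fun j => C i j) ∈ NOrb_rows C := Submodule.subset_span ⟨i, rfl⟩
    change (fun j => (Matrix.diagonal s * C) i j) ∈ NOrb_rows C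
    rcases hs i with h | h
    · have e : (fun j => (Matrix.diagonal s * C) i j) = fun j => C i j := by
        ext j
        simp [Matrix.diagonal_mul, h]
      rwa [e]
    · have e : (fun j => (Matrix.diagonal s * C) i j) = -fun j => C i j := by
        ext j
        simp [Matrix.diagonal_mul, h]
      rw [e]
      exact (NOrb_rows C).neg_mem hm
  · rw [NOrb_rows, Submodule.span_le]
    rintro _ ⟨i, rfl⟩
    have hm : (fun j => (Matrix.diagonal s * C) i j) ∈ NOrb_rows (Matrix.diagonal s * C) :=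
      Submodule.subset_span ⟨i, rfl⟩
    change (fun j => C i j) ∈ NOrb_rows (Matrix.diagonal s * C)
    rcases hs i with h | h
    · have e : (fun j => C i j) = fun j => (Matrix.diagonal s * C) i j := by
        ext j
        simp [Matrix.diagonal_mul, h]
      rwa [e]
    · have e : (fun j => C i j) = -fun j => (Matrix.diagonal s * C) i j := by
        ext j
        simp [Matrix.diagonal_mul, h]
      rw [e]
      exact (NOrb_rows _).neg_mem hm

section
variable {n : ℕ} (D : Datum n)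

lemma NOrb_embed_coe (I : Submodule ℤ D.K) :
    (D.embed I : Set (Fin n → ℝ)) = (fun y j => D.σ j y) '' (I : Set D.K) := by
  let e : D.K →ₗ[ℤ] (Fin n → ℝ) :=
    LinearMap.pi fun j => (D.σ j).toAddMonoidHom.toIntLinearMap
  unfold Datum.embed
  change ((Submodule.span ℤ (e '' _) : Submodule ℤ (Fin n → ℝ)) : Set (Fin n → ℝ)) = e '' _
  rw [← Submodule.map_coe, Submodule.span_eq]

lemma NOrb_basis (I : Submodule ℤ D.K) (hfg : I.FG) (hI : Submodule.span ℚ (I : Set D.K) = ⊤) :
    ∃ B : Matrix (Fin n) (Fin n) ℝ, B.det ≠ 0 ∧ D.embed I = NOrb_rows B := by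
  have : Submodule.IsLattice ℚ I := ⟨hfg, hI⟩
  let b0 := Module.Free.chooseBasis ℤ I
  let b1 := b0.extendOfIsLattice ℚ
  have hcard : Fintype.card (Module.Free.ChooseBasisIndex ℤ I) = n := by
    rw [← Module.finrank_eq_card_basis b1, D.degree]
  let b : Module.Basis (Fin n) ℚ D.K := b1.reindex (Fintype.equivFinOfCardEq hcard)
  have hb : Submodule.span ℤ (Set.range b) = I := by
    rw [Module.Basis.range_reindex]
    have h1 : Set.range b1 = I.subtype '' Set.range b0 := by
      rw [← Set.range_comp]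
      congr 1
      ext i
      simp [b1]
    rw [h1, ← Submodule.map_span, b0.span_eq, Submodule.map_top, Submodule.range_subtype]
  let B : Matrix (Fin n) (Fin n) ℝ := Matrix.of fun i j => D.σ j (b i)
  have hdet : B.det ≠ 0 := by
    intro h
    obtain ⟨c, hc0, hc⟩ := Matrix.exists_mulVec_eq_zero_iff.2 h
    have hli := (linearIndependent_monoidHom D.K ℝ).comp
      (fun j : Fin n => ((D.σ j : D.K →+* ℝ) : D.K →* ℝ)) (by
        intro i j hij
        apply D.σ.injective
        ext x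
        exact DFunLike.congr_fun hij x)
    apply hc0
    ext j
    refine Fintype.linearIndependent_iff.1 hli c ?_ j
    have h1 : ∑ j, c j • (D.σ j).toRatAlgHom.toLinearMap = 0 := by
      refine b.ext fun i => ?_
      have := congrFun hc i
      simp only [Matrix.mulVec, dotProduct, B, Matrix.of_apply, Pi.zero_apply] at this
      simpa [mul_comm] using this
    ext x
    have := LinearMap.congr_fun h1 x
    simpa using this
  refine ⟨B, hdet, ?_⟩
  let e : D.K →ₗ[ℤ] (Fin n → ℝ) :=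
    LinearMap.pi fun j => (D.σ j).toAddMonoidHom.toIntLinearMap
  unfold Datum.embed
  change Submodule.span ℤ (e '' _) = _
  rw [← hb, ← Submodule.map_span, Submodule.span_eq, Submodule.map_span, ← Set.range_comp]
  rfl

lemma NOrb_mem_sm (a : D.K) (I : Submodule ℤ D.K) (z : D.K) :
    z ∈ sm D a I ↔ ∃ y ∈ I, a * y = z := by
  simp [sm]

lemma NOrb_embed_sm (a : D.K) (I : Submodule ℤ D.K) :
    (D.embed (sm D a I) : Set (Fin n → ℝ)) = NOrb_mu (fun j => D.σ j a) '' D.embed I := by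
  rw [NOrb_embed_coe, NOrb_embed_coe, Set.image_image]
  ext v
  constructor
  · rintro ⟨z, hz, rfl⟩
    obtain ⟨y, hy, rfl⟩ := (NOrb_mem_sm D a I z).1 hz
    refine ⟨y, hy, ?_⟩
    ext j
    simp [NOrb_mu, mul_comm]
  · rintro ⟨y, hy, rfl⟩
    refine ⟨a * y, (NOrb_mem_sm D a I _).2 ⟨y, hy, rfl⟩, ?_⟩
    ext j
    simp [NOrb_mu, mul_comm]

lemma NOrb_embed_inj (hn : 0 < n) {I I' : Submodule ℤ D.K}
    (h : (D.embed I : Set (Fin n → ℝ)) = D.embed I') : I = I' := by
  rw [NOrb_embed_coe, NOrb_embed_coe] at h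
  have hinj : Function.Injective (fun (y : D.K) (j : Fin n) => D.σ j y) := by
    intro y y' hy
    exact (D.σ ⟨0, hn⟩).injective (congrFun hy ⟨0, hn⟩)
  exact SetLike.coe_injective (hinj.image_injective h)

/-- A diagonal map between two embedded lattices comes from the field. -/
lemma NOrb_key (hn : 0 < n) {I I' : Submodule ℤ D.K} (hI : I ≠ ⊥) (t : Fin n → ℝ)
    (h : NOrb_mu t '' (D.embed I : Set (Fin n → ℝ)) = D.embed I') :
    ∃ a : D.K, (∀ j, D.σ j a = t j) ∧ I' = sm D a I := by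
  obtain ⟨v, hv, hv0⟩ := Submodule.exists_mem_ne_zero_of_ne_bot hI
  have h1 : NOrb_mu t (fun j => D.σ j v) ∈ (D.embed I' : Set (Fin n → ℝ)) := by
    rw [← h, NOrb_embed_coe]
    exact ⟨_, ⟨v, hv, rfl⟩, rfl⟩
  rw [NOrb_embed_coe] at h1
  obtain ⟨v', -, hv'⟩ := h1
  have ha : ∀ j, D.σ j (v' / v) = t j := by
    intro j
    have h2 : D.σ j v' = D.σ j v * t j := congrFun hv' j
    have h3 : D.σ j v ≠ 0 := (map_ne_zero _).2 hv0
    rw [map_div₀, h2]
    field_simp
  refine ⟨v' / v, ha, NOrb_embed_inj D hn ?_⟩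
  rw [NOrb_embed_sm, ← h]
  simp only [ha]

end

lemma NOrb_diag {m : ℕ} (u : Fin m → ℝ) :
    (fun v : Fin (m + 1) → ℝ => Matrix.vecMul v (diagA u).1) =
      NOrb_mu fun j => Real.exp ((Fin.snoc u (-∑ i, u i) : Fin (m + 1) → ℝ) j) := by
  ext v j
  simp [diagA, Matrix.vecMul_diagonal, NOrb_mu]

lemma NOrb_snoc {m : ℕ} (t : Fin (m + 1) → ℝ) (ht : ∀ j, 0 < t j) (hp : ∏ j, t j = 1)
    (j : Fin (m + 1)) :
    Real.exp ((Fin.snoc (fun i : Fin m => Real.log (t i.castSucc))
      (-∑ i : Fin m, Real.log (t i.castSucc)) : Fin (m + 1) → ℝ) j) = t j := by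
  refine Fin.lastCases ?_ (fun i => ?_) j
  · rw [Fin.snoc_last, Real.exp_neg, Real.exp_sum]
    simp only [Real.exp_log (ht _)]
    rw [Fin.prod_univ_castSucc] at hp
    exact (eq_inv_of_mul_eq_one_right hp).symm
  · rw [Fin.snoc_castSucc, Real.exp_log (ht _)]

/-- A positive diagonal map between unimodular multiples of a lattice has determinant one. -/
lemma NOrb_prod_one {n : ℕ} (B : Matrix (Fin n) (Fin n) ℝ) (hB : B.det ≠ 0) (t : Fin n → ℝ)
    (ht : ∀ j, 0 < t j) (B' : Matrix (Fin n) (Fin n) ℝ) (hB' : |B'.det| = |B.det|)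
    (h : NOrb_mu t '' (NOrb_rows B : Set (Fin n → ℝ)) = NOrb_rows B') : ∏ j, t j = 1 := by
  have hp : 0 < ∏ j, t j := Finset.prod_pos fun j _ => ht j
  have hpos : 0 < |B.det| := abs_pos.2 hB
  rw [NOrb_mu_rows] at h
  have h3 := congrArg (fun L : Submodule ℤ (Fin n → ℝ) => ZLattice.covolume L)
    (SetLike.coe_injective h)
  have h4 : (B * Matrix.diagonal t).det = B.det * ∏ j, t j := by
    rw [Matrix.det_mul, Matrix.det_diagonal]
  rw [NOrb_cov _ (by rw [h4]; exact mul_ne_zero hB hp.ne'),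
    NOrb_cov _ (by rw [← abs_pos, hB']; exact hpos), h4, hB', abs_mul, abs_of_pos hp] at h3
  exact mul_left_cancel₀ hpos.ne' (by rw [h3, mul_one])

theorem s_Orb1 (hLatA : LatA) (hOrdA : OrdA) (hCovI : CovI) : Orb1 := by
  intro m D
  have hn : 0 < m + 1 := Nat.succ_pos m
  obtain ⟨hL1, hL2, -, -⟩ := hLatA (m + 1)
  obtain ⟨-, -, -, -, -, -, -, hO8, -, -, hO11, -⟩ := hOrdA (m + 1) D
  have hbas : ∀ I, D.IsProperInv I → ∃ B : Matrix (Fin (m + 1)) (Fin (m + 1)) ℝ,
      B.det ≠ 0 ∧ D.embed I = NOrb_rows B :=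
    fun I hI => NOrb_basis D I hI.1.2.1 (hO8 I hI.1).2.1
  have hmem : ∀ I w, D.IsProperInv I → Sgn w → ∀ x, x ∈ orbit (D.embed I) w ↔
      ∃ d : Fin (m + 1) → ℝ, (∀ j, 0 < d j) ∧
        (lattice x : Set (Fin (m + 1) → ℝ)) = NOrb_mu (fun j => w j * d j) '' D.embed I := by
    intro I w hI hw x
    obtain ⟨B, hB, h⟩ := hbas I hI
    rw [h]
    exact NOrb_mem_iff hn B hB hw x
  have hact : ∀ (u : Fin m → ℝ) (x : X (m + 1)), (lattice (act (diagA u) x) :
      Set (Fin (m + 1) → ℝ)) = NOrb_mu (fun j =>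
        Real.exp ((Fin.snoc u (-∑ i, u i) : Fin (m + 1) → ℝ) j)) '' lattice x := by
    intro u x
    rw [hL2, NOrb_diag]
  have hne : ∀ I w, D.IsProperInv I → Sgn w → (orbit (D.embed I) w).Nonempty := by
    intro I w hI hw
    obtain ⟨B, hB, h⟩ := hbas I hI
    rw [h]
    exact NOrb_nonempty hn B hB hw
  refine ⟨fun I w hI hw => ⟨hne I w hI hw, fun x hx => ?_, fun x hx u => ?_⟩,
    fun I w a hI hw ha => ?_, fun I I' w w' hI hI' hw hw' h => ?_⟩
  · obtain ⟨d, hd, hxd⟩ := (hmem I w hI hw x).1 hx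
    ext y
    constructor
    · intro hy
      obtain ⟨d', hd', hyd⟩ := (hmem I w hI hw y).1 hy
      have ht : ∀ j, 0 < d' j / d j := fun j => div_pos (hd' j) (hd j)
      have h1 : NOrb_mu (fun j => d' j / d j) '' (lattice x : Set (Fin (m + 1) → ℝ)) =
          lattice y := by
        rw [hxd, hyd, NOrb_mu_mu]
        congr 2
        ext j
        have := (hd j).ne'
        field_simp
      have hp : ∏ j, d' j / d j = 1 :=
        NOrb_prod_one (Quotient.out x).1 (by rw [(Quotient.out x).2]; exact one_ne_zero) _ ht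
          (Quotient.out y).1 (by rw [(Quotient.out x).2, (Quotient.out y).2]) h1
      refine ⟨fun i => Real.log (d' i.castSucc / d i.castSucc), hL1 _ _ ?_⟩
      apply SetLike.coe_injective
      rw [hact, ← h1]
      congr 2
      ext j
      exact NOrb_snoc (fun j => d' j / d j) ht hp j
    · rintro ⟨u, rfl⟩
      refine (hmem I w hI hw _).2 ⟨fun j => d j *
        Real.exp ((Fin.snoc u (-∑ i, u i) : Fin (m + 1) → ℝ) j),
        fun j => mul_pos (hd j) (Real.exp_pos _), ?_⟩
      rw [hact, hxd, NOrb_mu_mu]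
      simp only [mul_assoc]
  · obtain ⟨d, hd, hxd⟩ := (hmem I w hI hw x).1 hx
    have hwd : ∀ j, w j * d j ≠ 0 := fun j => mul_ne_zero (NOrb_sgn_ne hw j) (hd j).ne'
    have hiff : ∀ t : Fin (m + 1) → ℝ, NOrb_mu t '' (lattice x : Set (Fin (m + 1) → ℝ)) = lattice x
        ↔ NOrb_mu t '' (D.embed I : Set (Fin (m + 1) → ℝ)) = D.embed I := by
      intro t
      rw [hxd]
      constructor
      · intro h
        have h2 := congrArg (Set.image (NOrb_mu fun j => (w j * d j)⁻¹)) h
        simp only [NOrb_mu_mu] at h2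
        have e1 : (fun j => w j * d j * t j * (w j * d j)⁻¹) = t := by
          ext j
          rw [mul_right_comm, mul_inv_cancel₀ (hwd j), one_mul]
        have e2 : (fun j => w j * d j * (w j * d j)⁻¹) = fun _ => 1 := by
          ext j
          exact mul_inv_cancel₀ (hwd j)
        rwa [e1, e2, NOrb_mu_one] at h2
      · intro h
        rw [NOrb_mu_mu]
        conv_rhs => rw [← h, NOrb_mu_mu]
        simp only [mul_comm]
    have hO : ∀ a : D.K, a ∈ D.O ↔ ∀ y ∈ I, a * y ∈ I := by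
      intro a
      rw [← SetLike.mem_coe, ← hI.2.1]
      rfl
    constructor
    · intro h
      have h1 := hact u x
      rw [h] at h1
      obtain ⟨a, ha, hIa⟩ := NOrb_key D hn hI.1.1 _ ((hiff _).1 h1.symm)
      have ha0 : a ≠ 0 := by
        rintro rfl
        have := ha 0
        rw [map_zero] at this
        exact (Real.exp_pos _).ne this
      have h2 : a ∈ D.O := (hO a).2 fun y hy => by
        rw [hIa]
        exact (NOrb_mem_sm D a I _).2 ⟨y, hy, rfl⟩
      have h3 : a⁻¹ ∈ D.O := (hO a⁻¹).2 fun y hy => by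
        rw [hIa] at hy
        obtain ⟨z, hz, rfl⟩ := (NOrb_mem_sm D a I _).1 hy
        rwa [inv_mul_cancel_left₀ ha0]
      let e : (𝓞 D.K)ˣ := ⟨⟨a, D.integral a h2⟩, ⟨a⁻¹, D.integral _ h3⟩,
        Subtype.ext (mul_inv_cancel₀ ha0), Subtype.ext (inv_mul_cancel₀ ha0)⟩
      refine ⟨e, ⟨h2, h3⟩, fun j => ?_, fun j => ?_⟩
      · change 0 < D.σ j a
        rw [ha]
        exact Real.exp_pos _
      · change u j = Real.log (D.σ j.castSucc a)
        rw [ha, Fin.snoc_castSucc, Real.log_exp]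
    · rintro ⟨e, ⟨he1, he2⟩, hpos, hu⟩
      have hsm : sm D ((e : 𝓞 D.K) : D.K) I = I := by
        ext z
        rw [NOrb_mem_sm]
        constructor
        · rintro ⟨y, hy, rfl⟩
          exact (hO _).1 he1 y hy
        · intro hz
          refine ⟨_, (hO _).1 he2 z hz, ?_⟩
          have h5 : ((e : 𝓞 D.K) : D.K) * (((e⁻¹ : (𝓞 D.K)ˣ) : 𝓞 D.K) : D.K) = 1 := by
            have := congrArg (algebraMap (𝓞 D.K) D.K) e.mul_inv
            rwa [map_mul, map_one] at this
          rw [← mul_assoc, h5, one_mul]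
      have h1 : NOrb_mu (fun j => D.σ j ((e : 𝓞 D.K) : D.K)) ''
          (D.embed I : Set (Fin (m + 1) → ℝ)) = D.embed I := by
        rw [← NOrb_embed_sm, hsm]
      have hp : ∏ j, D.σ j ((e : 𝓞 D.K) : D.K) = 1 := by
        obtain ⟨B, hB, h⟩ := hbas I hI
        rw [h] at h1
        exact NOrb_prod_one B hB _ hpos B rfl h1
      apply hL1
      apply SetLike.coe_injective
      rw [hact]
      have h2 : u = fun i : Fin m => Real.log (D.σ i.castSucc ((e : 𝓞 D.K) : D.K)) := funext hu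
      have h3 : (fun j => Real.exp ((Fin.snoc u (-∑ i, u i) : Fin (m + 1) → ℝ) j)) =
          fun j => D.σ j ((e : 𝓞 D.K) : D.K) := by
        ext j
        rw [h2]
        exact NOrb_snoc (fun j => D.σ j ((e : 𝓞 D.K) : D.K)) hpos hp j
      rw [h3]
      exact (hiff _).2 h1
  · have hσ : ∀ j, D.σ j a ≠ 0 := fun j => (map_ne_zero _).2 ha
    have hab : ∀ j, 0 < |D.σ j a| := fun j => abs_pos.2 (hσ j)
    have hw' : Sgn fun j => w j * (D.σ j a / |D.σ j a|) := by
      intro j
      have := hσ j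
      rcases hw j with h | h <;> rcases lt_or_gt_of_ne (hσ j) with h' | h'
      · right; simp only [h, abs_of_neg h']; field_simp
      · left; simp only [h, abs_of_pos h']; field_simp
      · left; simp only [h, abs_of_neg h']; field_simp
      · right; simp only [h, abs_of_pos h']; field_simp
    refine ⟨_, hw', ?_⟩
    ext x
    rw [hmem _ w (hO11 I a ha hI) hw, hmem I _ hI hw', NOrb_embed_sm]
    simp only [NOrb_mu_mu]
    constructor
    · rintro ⟨d, hd, h⟩
      refine ⟨fun j => |D.σ j a| * d j, fun j => mul_pos (hab j) (hd j), ?_⟩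
      rw [h]
      congr 2
      ext j
      have := (hab j).ne'
      field_simp
    · rintro ⟨d, hd, h⟩
      refine ⟨fun j => d j / |D.σ j a|, fun j => div_pos (hd j) (hab j), ?_⟩
      rw [h]
      congr 2
      ext j
      have := (hab j).ne'
      field_simp
  · obtain ⟨x, hx⟩ := hne I w hI hw
    obtain ⟨d, hd, hxd⟩ := (hmem I w hI hw x).1 hx
    obtain ⟨d', hd', hxd'⟩ := (hmem I' w' hI' hw' x).1 (h ▸ hx)
    have hwd : ∀ j, w j * d j ≠ 0 := fun j => mul_ne_zero (NOrb_sgn_ne hw j) (hd j).ne'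
    have hwd' : ∀ j, w' j * d' j ≠ 0 := fun j => mul_ne_zero (NOrb_sgn_ne hw' j) (hd' j).ne'
    have h2 := congrArg (Set.image (NOrb_mu fun j => (w j * d j)⁻¹)) (hxd'.symm.trans hxd)
    simp only [NOrb_mu_mu] at h2
    have e2 : (fun j => w j * d j * (w j * d j)⁻¹) = fun _ => 1 := by
      ext j
      exact mul_inv_cancel₀ (hwd j)
    rw [e2, NOrb_mu_one] at h2
    obtain ⟨a, ha, hIa⟩ := NOrb_key D hn hI'.1.1 _ h2
    refine ⟨a, ?_, hIa⟩
    rintro rfl
    have := ha 0
    rw [map_zero] at this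
    exact mul_ne_zero (hwd' 0) (inv_ne_zero (hwd 0)) this.symm

end TP
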