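import Vale.Agent.P007.NStm

noncomputable section
namespace TP
open Complex MeasureTheory NumberField Filter ART
open Vale.Agent.P007 (Datum X lattice act orbit diagA stab vol IsOrbitMeasure)
open scoped Classical Topology ArithmeticFunction.omega

theorem NOrbM_diag_add {m : ℕ} (u u' : Fin m → ℝ) : diagA (u + u') = diagA u * diagA u' := by
  refine Subtype.ext ?_
  change Matrix.diagonal _ = Matrix.diagonal _ * Matrix.diagonal _
  rw [Matrix.diagonal_mul_diagonal]
  congr 1
  funext j
  rw [← Real.exp_add]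
  congr 1
  refine Fin.lastCases ?_ (fun i => ?_) j
  · simp [Finset.sum_add_distrib, add_comm]
  · simp

theorem NOrbM_act_add {m : ℕ} (u u' : Fin m → ℝ) (y : X (m + 1)) :
    act (diagA (u + u')) y = act (diagA u) (act (diagA u') y) := by
  obtain ⟨h, rfl⟩ := (Vale.Agent.P007.isOpenQuotientMap_proj _).surjective y
  simp only [Vale.Agent.P007.act_proj]
  rw [add_comm u, NOrbM_diag_add, mul_assoc]

theorem NOrbM_cont_diag {m : ℕ} : Continuous (diagA (m := m)) := by
  refine Continuous.subtype_mk (Continuous.matrix_diagonal (continuous_pi fun j => ?_)) _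
  refine Real.continuous_exp.comp ?_
  refine Fin.lastCases ?_ (fun i => ?_) j
  · simp only [Fin.snoc_last]; fun_prop
  · simp only [Fin.snoc_castSucc]; fun_prop

theorem NOrbM_cont {m : ℕ} :
    Continuous fun p : X (m + 1) × (Fin m → ℝ) => act (diagA p.2) p.1 := by
  rw [← ((Vale.Agent.P007.isOpenQuotientMap_proj (m + 1)).prodMap
    (IsOpenQuotientMap.id (X := Fin m → ℝ))).continuous_comp_iff]
  have : ((fun p : X (m + 1) × (Fin m → ℝ) => act (diagA p.2) p.1) ∘
      Prod.map Vale.Agent.P007.proj id) = fun p => Vale.Agent.P007.proj (p.1 * diagA p.2) := by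
    funext p
    exact Vale.Agent.P007.act_proj _ _
  rw [this]
  exact (Vale.Agent.P007.isOpenQuotientMap_proj _).continuous.comp
    (continuous_fst.mul (NOrbM_cont_diag.comp continuous_snd))

theorem NOrbM_shift {m : ℕ} {L : Submodule ℤ (Fin m → ℝ)} [DiscreteTopology L] [IsZLattice ℝ L]
    {P : Set (Fin m → ℝ)} (hP : IsAddFundamentalDomain L P volume) {A : Set (Fin m → ℝ)}
    (hA : MeasurableSet A) (hA' : ∀ l ∈ L, ∀ u, l + u ∈ A ↔ u ∈ A) (t : Fin m → ℝ) :
    volume ((fun u => t + u) ⁻¹' A ∩ P) = volume (A ∩ P) := by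
  have : MeasurableVAdd L (Fin m → ℝ) := (inferInstance : MeasurableVAdd L.toAddSubgroup _)
  have : VAddInvariantMeasure L (Fin m → ℝ) volume :=
    (inferInstance : VAddInvariantMeasure L.toAddSubgroup _ _)
  have : VAddCommClass (Fin m → ℝ) L (Fin m → ℝ) := ⟨fun a b c => add_left_comm a b c⟩
  rw [hP.measure_set_eq (hP.vadd_of_comm t) hA fun g => Set.ext fun u => hA' g g.2 u,
    ← measure_preimage_add volume t (A ∩ _), Set.preimage_inter]
  congr 2
  ext u
  simp [Set.mem_vadd_set]

theorem s_OrbM : OrbM := by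
  intro m x L _ _ hL
  set φ : (Fin m → ℝ) → X (m + 1) := fun u => act (diagA u) x with hφ
  have cφ : Continuous φ := NOrbM_cont.comp (continuous_const.prodMk continuous_id)
  have ca : ∀ u : Fin m → ℝ, Continuous (act (diagA u)) := fun u =>
    NOrbM_cont.comp (continuous_id.prodMk continuous_const)
  have aφ : ∀ t u, act (diagA t) (φ u) = φ (t + u) := fun t u => (NOrbM_act_add t u x).symm
  have per : ∀ l ∈ L, ∀ u, φ (l + u) = φ u := fun l hl u => by
    rw [add_comm l]
    exact (NOrbM_act_add u l x).trans (by rw [(hL l).2 hl])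
  let b := (Module.Free.chooseBasis ℤ L).ofZLatticeBasis ℝ L
  have hb : Submodule.span ℤ (Set.range b) = L := Module.Basis.ofZLatticeBasis_span ℝ L _
  set P := ZSpan.fundamentalDomain b
  have hP : IsAddFundamentalDomain L P volume := ZLattice.isAddFundamentalDomain _ _
  have mP : MeasurableSet P := ZSpan.fundamentalDomain_measurableSet b
  have bP : Bornology.IsBounded P := ZSpan.fundamentalDomain_isBounded b
  have P0 : volume P ≠ 0 := ZSpan.measure_fundamentalDomain_ne_zero b
  have Pt : volume P ≠ ⊤ := bP.measure_lt_top.ne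
  have hcov : ENNReal.ofReal (ZLattice.covolume L) = volume P := by
    rw [ZLattice.covolume_eq_measure_fundamentalDomain L _ hP, ofReal_measureReal Pt]
  have hK : IsCompact (Set.range φ) := by
    have : Set.range φ = φ '' closure P := by
      refine (Set.image_subset_range _ _).antisymm' ?_
      rintro _ ⟨u, rfl⟩
      obtain ⟨v, hv, -⟩ := ZSpan.exist_unique_vadd_mem_fundamentalDomain b u
      exact ⟨_, subset_closure hv, per v (hb.le v.2) u⟩
    rw [this]
    exact bP.isCompact_closure.image cφ
  have shift : ∀ E, MeasurableSet E → ∀ t, volume ((fun u => φ (t + u)) ⁻¹' E ∩ P) =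
      volume (φ ⁻¹' E ∩ P) := fun E hE t =>
    NOrbM_shift hP (cφ.measurable hE) (fun l hl u => by simp only [Set.mem_preimage, per l hl]) t
  have form : ∀ ν, IsOrbitMeasure (Set.range φ) ν → ∀ E, MeasurableSet E →
      volume P * ν E = volume (φ ⁻¹' E ∩ P) := by
    rintro ν ⟨hν, h0, hinv⟩ E hE
    haveI : IsFiniteMeasure (volume.restrict P) := isFiniteMeasure_restrict.2 Pt
    have hW := (NOrbM_cont (m := m)).measurable hE
    have e1 := Measure.prod_apply (μ := ν) (ν := volume.restrict P) hW
    rw [Measure.prod_apply_symm hW] at e1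
    have e2 : ∀ u, ν ((fun y => (y, u)) ⁻¹' ((fun p : X (m + 1) × (Fin m → ℝ) =>
        act (diagA p.2) p.1) ⁻¹' E)) = ν E := fun u =>
      (hinv u).measure_preimage hE.nullMeasurableSet
    simp only [e2, lintegral_const, MeasurableSet.univ, Measure.restrict_apply,
      Set.univ_inter] at e1
    rw [mul_comm, e1, lintegral_congr_ae (g := fun _ => volume (φ ⁻¹' E ∩ P)), lintegral_const,
      measure_univ, mul_one]
    have : ∀ᵐ y ∂ν, y ∈ Set.range φ := h0
    filter_upwards [this]
    rintro _ ⟨t, rfl⟩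
    rw [Measure.restrict_apply (measurable_prodMk_left hW), ← shift E hE t]
    congr 2
    ext u
    simp only [Set.mem_preimage, aφ, add_comm]
  refine ⟨hK, ?_, ⟨(volume P)⁻¹ • Measure.map φ (volume.restrict P), ⟨⟨?_⟩, ?_, fun t => ?_⟩,
    fun ν hν => ?_⟩, P, mP, fun u hu u' hu' h => ?_, fun ν hν E hE => ?_⟩
  · have : stab (Set.range φ) = L := by
      rw [stab, ← Submodule.span_eq L]
      congr 1
      ext u
      refine ⟨fun h => (hL u).1 ?_, fun h => ?_⟩
      · have h0 : φ 0 = x := (hL 0).2 L.zero_mem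
        exact h0 ▸ h _ ⟨0, rfl⟩
      · rintro _ ⟨t, rfl⟩
        rw [aφ, per u h]
    rw [vol, this]
  · simp [Measure.map_apply cφ.measurable, ENNReal.inv_mul_cancel P0 Pt]
  · simp [Measure.map_apply cφ.measurable hK.measurableSet.compl]
  · refine ⟨(ca t).measurable, Measure.ext fun E hE => ?_⟩
    rw [Measure.map_apply (ca t).measurable hE]
    simp only [Measure.smul_apply, smul_eq_mul]
    rw [Measure.map_apply cφ.measurable ((ca t).measurable hE), Measure.map_apply cφ.measurable hE,
      Measure.restrict_apply (cφ.measurable hE),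
      Measure.restrict_apply (cφ.measurable ((ca t).measurable hE)), ← shift E hE t]
    congr 3
    ext u
    simp only [Set.mem_preimage, aφ]
  · refine Measure.ext fun E hE => ?_
    simp only [Measure.smul_apply, smul_eq_mul]
    rw [Measure.map_apply cφ.measurable hE, Measure.restrict_apply (cφ.measurable hE),
      ← form ν hν E hE, ← mul_assoc, ENNReal.inv_mul_cancel P0 Pt, one_mul]
  · obtain ⟨v, -, hv⟩ := ZSpan.exist_unique_vadd_mem_fundamentalDomain b u'
    have e1 := hv ⟨u - u', hb.ge h⟩ (show u - u' + u' ∈ P by rwa [sub_add_cancel])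
    have e2 := hv 0 (show (0 : Fin m → ℝ) + u' ∈ P by rwa [zero_add])
    exact sub_eq_zero.1 (congrArg Subtype.val (e1.trans e2.symm))
  · rw [hcov, form ν hν E hE, Set.inter_comm]
    rfl

end TP
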