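import Vale.Agent.P007.NStm

noncomputable section
namespace TP
open Complex MeasureTheory NumberField Filter ART
open Vale.Agent.P007 (Datum X lattice act orbit diagA stab vol IsOrbitMeasure)
open scoped Classical Topology ArithmeticFunction.omega

theorem s_PackA (hOrdA : OrdA) (hHLow : HLow) (hOrb1 : Orb1)
    (hLatU : LatU) (hOrbM : OrbM) :
    PackA := by
  intro m D
  have hfin : D.packet.Finite := by
    obtain ⟨T, ⟨hT, hT', -⟩, -⟩ := hHLow _ D
    have hS : {w : Fin (m + 1) → ℝ | Sgn w}.Finite :=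
      Set.Finite.pi' (t := fun _ => ({1, -1} : Set ℝ)) fun _ => Set.toFinite _
    refine ((T.finite_toSet.prod hS).image fun p => orbit (D.embed p.1) p.2).subset ?_
    rintro _ ⟨I, w, hI, hw, rfl⟩
    obtain ⟨I', h1, a, ha, rfl⟩ := hT' I hI
    obtain ⟨w', h2, e⟩ := (hOrb1 m D).2.1 I' w a (hT I' h1) hw ha
    exact ⟨(I', w'), ⟨h1, h2⟩, e.symm⟩
  have hne : D.packet.Nonempty :=
    ⟨_, oo D, fun _ => 1, (hOrdA _ D).2.2.2.2.2.1, fun _ => Or.inl rfl, rfl⟩
  have hS : ∀ S ∈ D.packet, 0 < vol S ∧ IsCompact S ∧ ∃! ν, IsOrbitMeasure S ν := by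
    rintro _ ⟨I, w, hI, hw, rfl⟩
    obtain ⟨⟨x, hx⟩, h1, h2⟩ := (hOrb1 m D).1 I w hI hw
    obtain ⟨L, i1, i2, hL, -⟩ := hLatU m D
    obtain ⟨a, b, c, -⟩ := hOrbM m x L fun u => by rw [h2 x hx u, ← hL]; rfl
    rw [h1 x hx]
    exact ⟨b ▸ ZLattice.covolume_pos L _, a, c⟩
  refine ⟨hfin, hne, hS, fun ν hν => ⟨⟨?_⟩, ?_, fun u => ?_⟩⟩
  · haveI := hfin.fintype
    obtain ⟨S, h⟩ := hne
    have h0 : ∑' S : D.packet, ENNReal.ofReal (vol S.1) ≠ 0 := fun e =>
      (ENNReal.ofReal_pos.2 (hS S h).1).ne' (ENNReal.tsum_eq_zero.1 e ⟨S, h⟩)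
    have ht : ∑' S : D.packet, ENNReal.ofReal (vol S.1) ≠ ⊤ := by
      rw [tsum_fintype]
      exact ENNReal.sum_ne_top.2 fun _ _ => ENNReal.ofReal_ne_top
    have : ∀ S : D.packet, ν S.1 Set.univ = 1 := fun S => (hν S.1 S.2).1.measure_univ
    simp only [Datum.measure, Measure.smul_apply, Measure.sum_apply _ MeasurableSet.univ,
      smul_eq_mul, this, mul_one]
    exact ENNReal.inv_mul_cancel h0 ht
  · haveI := hfin.to_subtype
    rw [Datum.measure, Measure.smul_apply, Measure.sum_apply_eq_zero.2 fun S => ?_, smul_zero]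
    rw [Measure.smul_apply, measure_mono_null
      (Set.compl_subset_compl.2 (Set.subset_sUnion_of_mem S.2)) (hν S.1 S.2).2.1, smul_zero]
  · obtain ⟨S, h⟩ := hne
    have hm := ((hν S h).2.2 u).measurable
    refine MeasurePreserving.smul_measure ⟨hm, ?_⟩ _
    rw [Measure.map_sum hm.aemeasurable]
    congr 1
    funext S
    rw [Measure.map_smul, ((hν S.1 S.2).2.2 u).map_eq]

end TP
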