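import Vale.Agent.P007.NStm
import Vale.Agent.P016.EP

noncomputable section
namespace TP
open Complex MeasureTheory NumberField Filter ART
open Vale.Agent.P007 (Datum X lattice act orbit diagA stab vol IsOrbitMeasure)
open scoped Classical Topology ArithmeticFunction.omega

theorem NPhiL_fib {G H : Type*} [AddGroup G] [AddGroup H] [Fintype G] [Fintype H] (φ : G →+ H)
    (hφ : Function.Surjective φ) (T : Finset H) :
    Nat.card {x // φ x ∈ T} * Fintype.card H = T.card * Fintype.card G := by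
  rw [Nat.card_eq_fintype_card, Fintype.card_subtype]
  have h1 : ∀ T : Finset H, (Finset.univ.filter fun x => φ x ∈ T).card =
      T.card * (Finset.univ.filter fun x => φ x = 0).card := fun T => by
    rw [Finset.card_eq_sum_card_fiberwise (f := φ) (t := T) (fun x hx => by simpa using hx),
      Finset.sum_congr rfl (g := fun _ => (Finset.univ.filter fun x => φ x = 0).card),
      Finset.sum_const, smul_eq_mul]
    intro y hy
    rw [← AddMonoidHom.card_fiber_eq_of_mem_range φ (hφ y) ⟨0, map_zero φ⟩]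
    congr 1
    ext x
    simp only [Finset.mem_filter, Finset.mem_univ, true_and, and_iff_right_iff_imp]
    rintro rfl
    exact hy
  have h2 := h1 Finset.univ
  simp only [Finset.mem_univ, Finset.filter_true, Finset.card_univ] at h2
  rw [h1, h2]
  ring

variable {K : Type} [Field K] [NumberField K]

theorem NPhiL_fin {f : ℕ} (hf : 0 < f) : (PF K f).Finite := by
  have h : Ideal.span {(f : 𝓞 K)} ≠ 0 := by
    rw [Ne, Ideal.zero_eq_bot, Ideal.span_singleton_eq_bot]
    exact_mod_cast hf.ne'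
  exact (Ideal.finite_factors h).subset fun v hv => Ideal.dvd_span_singleton.2 hv

theorem NPhiL_card {f : ℕ} (hf : 0 < f) : (NPhiL_fin (K := K) hf).toFinset.card ≤ dg K * ω f := by
  have h1 : ω f = f.primeFactors.card := by
    rw [ArithmeticFunction.cardDistinctFactors_apply, Nat.primeFactors, List.card_toFinset]
  rw [h1]
  refine Finset.card_le_mul_card_image_of_maps_to (f := fun v => (qv v).minFac) ?_ _ ?_
  · intro v hv
    have hv' : (f : 𝓞 K) ∈ v.asIdeal := (NPhiL_fin hf).mem_toFinset.1 hv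
    obtain ⟨hp, hpv⟩ := ep_minFac v
    refine Nat.mem_primeFactors.2 ⟨hp, ?_, hf.ne'⟩
    by_contra h
    obtain ⟨a, b, hab⟩ : IsCoprime (((qv v).minFac : ℕ) : 𝓞 K) (f : 𝓞 K) :=
      ((Nat.Prime.coprime_iff_not_dvd hp).2 h).cast
    exact v.isPrime.ne_top ((Ideal.eq_top_iff_one _).2
      (hab ▸ add_mem (Ideal.mul_mem_left _ a hpv) (Ideal.mul_mem_left _ b hv')))
  · intro p hp
    refine (ep_card _ (Nat.prime_of_mem_primeFactors hp) fun v hv =>
      (Finset.mem_filter.1 hv).2).trans_eq ?_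
    exact RingOfIntegers.rank K

theorem NPhiL_units {f : ℕ} (hf : 0 < f) :
    phiK K f * ∏ v ∈ (NPhiL_fin (K := K) hf).toFinset, qv v =
      (∏ v ∈ (NPhiL_fin (K := K) hf).toFinset, (qv v - 1)) * f ^ dg K := by
  set S := (NPhiL_fin (K := K) hf).toFinset with hS
  have hmem : ∀ v, v ∈ S ↔ (f : 𝓞 K) ∈ v.asIdeal := fun v => (NPhiL_fin hf).mem_toFinset
  have hI : Ideal.span {(f : 𝓞 K)} ≠ ⊥ := by
    rw [Ne, Ideal.span_singleton_eq_bot]
    exact_mod_cast hf.ne'
  have : Finite (𝓞 K ⧸ Ideal.span {(f : 𝓞 K)}) := Ideal.finiteQuotientOfFreeOfNeBot _ hI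
  have : ∀ v : S, Finite (𝓞 K ⧸ v.1.asIdeal) := fun v =>
    Ideal.finiteQuotientOfFreeOfNeBot _ v.1.ne_bot
  let _ : Fintype (𝓞 K ⧸ Ideal.span {(f : 𝓞 K)}) := Fintype.ofFinite _
  let _ : ∀ v : S, Fintype (𝓞 K ⧸ v.1.asIdeal) := fun v => Fintype.ofFinite _
  have hle : ∀ v : S, Ideal.span {(f : 𝓞 K)} ≤ v.1.asIdeal := fun v =>
    (Ideal.span_singleton_le_iff_mem _).2 ((hmem v.1).1 v.2)
  let φ : (𝓞 K ⧸ Ideal.span {(f : 𝓞 K)}) →+* ∀ v : S, 𝓞 K ⧸ v.1.asIdeal :=
    RingHom.pi fun v => Ideal.Quotient.factor (hle v)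
  have hφ : ∀ (r : 𝓞 K) (v : S), φ (Ideal.Quotient.mk _ r) v = Ideal.Quotient.mk _ r :=
    fun _ _ => rfl
  have hsurj : Function.Surjective φ.toAddMonoidHom := fun y => by
    obtain ⟨r, hr⟩ := Ideal.pi_quotient_surjective (I := fun v : S => v.1.asIdeal)
      (fun v w hvw => by
        have := v.1.isMaximal
        have := w.1.isMaximal
        exact Ideal.isCoprime_iff_sup_eq.2 (Ideal.IsMaximal.coprime_of_ne inferInstance
          inferInstance fun h => hvw (Subtype.ext (IsDedekindDomain.HeightOneSpectrum.ext h)))) y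
    exact ⟨Ideal.Quotient.mk _ r, funext hr⟩
  have h1 := NPhiL_fib φ.toAddMonoidHom hsurj
    (Fintype.piFinset fun v => Finset.univ.erase 0)
  have hq : ∀ v : S, Fintype.card (𝓞 K ⧸ v.1.asIdeal) = qv v.1 := fun v => by
    rw [← Nat.card_eq_fintype_card, NQ.qv, Ideal.absNorm_apply, Submodule.cardQuot_apply]
  have h2 : Fintype.card (𝓞 K ⧸ Ideal.span {(f : 𝓞 K)}) = f ^ dg K := by
    rw [← Nat.card_eq_fintype_card, ← Submodule.cardQuot_apply, ← Ideal.absNorm_apply,
      Ideal.absNorm_span_natCast, RingOfIntegers.rank]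
    rfl
  have h3 : Nat.card {x // φ.toAddMonoidHom x ∈
      Fintype.piFinset fun v => Finset.univ.erase 0} = phiK K f := by
    rw [phiK]
    refine Nat.card_congr ((Equiv.subtypeEquivRight fun x => ?_).trans
      (Submonoid.unitsTypeEquivIsUnitSubmonoid (M := 𝓞 K ⧸ Ideal.span {(f : 𝓞 K)})).symm.toEquiv)
    obtain ⟨r, rfl⟩ := Ideal.Quotient.mk_surjective x
    simp only [Fintype.mem_piFinset, Finset.mem_erase, Finset.mem_univ, and_true]
    change (∀ v : S, Ideal.Quotient.mk v.1.asIdeal r ≠ 0) ↔ IsUnit _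
    constructor
    · intro h
      by_contra hu
      obtain ⟨m, hm, hle'⟩ := Ideal.exists_le_maximal (Ideal.span {(f : 𝓞 K)} ⊔ Ideal.span {r})
        fun htop => hu (by
          obtain ⟨a, ha, b, hb, hab⟩ := Submodule.mem_sup.1 ((Ideal.eq_top_iff_one _).1 htop)
          obtain ⟨c, rfl⟩ := Ideal.mem_span_singleton'.1 hb
          refine IsUnit.of_mul_eq_one_right (Ideal.Quotient.mk _ c) ?_
          rw [← map_mul, ← map_one (Ideal.Quotient.mk _), ← hab, map_add,
            Ideal.Quotient.eq_zero_iff_mem.2 ha, zero_add])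
      have hm0 : m ≠ ⊥ := fun h0 => hI (le_bot_iff.1 (h0 ▸ le_sup_left.trans hle'))
      refine h ⟨⟨m, hm.isPrime, hm0⟩, (hmem _).2 ?_⟩ (Ideal.Quotient.eq_zero_iff_mem.2 ?_)
      · exact hle' (Ideal.mem_sup_left (Ideal.mem_span_singleton_self _))
      · exact hle' (Ideal.mem_sup_right (Ideal.mem_span_singleton_self _))
    · intro hu v
      have := v.1.isPrime
      exact (hu.map (Ideal.Quotient.factor (hle v))).ne_zero
  rw [h3, h2, Fintype.card_pi, Fintype.card_piFinset] at h1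
  simp only [Finset.card_erase_of_mem (Finset.mem_univ _), Finset.card_univ, hq] at h1
  rwa [Finset.prod_coe_sort S fun v => qv v, Finset.prod_coe_sort S fun v => qv v - 1] at h1

theorem s_PhiL : PhiL := by
  intro K _ _ f hf
  have he : eul K f = ∏ v ∈ (NPhiL_fin (K := K) hf).toFinset, (1 - (qv v : ℝ)⁻¹) :=
    finprod_mem_eq_finite_toFinset_prod _ _
  have h2 : ∀ v : HS K, (2 : ℝ) ≤ qv v := fun v => by exact_mod_cast ep_two_le v
  refine ⟨NPhiL_fin hf, ?_, ?_, ?_⟩
  · rw [Set.ncard_eq_toFinset_card _ (NPhiL_fin hf)]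
    exact NPhiL_card hf
  · rw [he]
    calc ((2 : ℝ) ^ (dg K * ω f))⁻¹ ≤ ((2 : ℝ) ^ (NPhiL_fin (K := K) hf).toFinset.card)⁻¹ :=
          inv_anti₀ (by positivity) (pow_le_pow_right₀ one_le_two (NPhiL_card hf))
      _ = ∏ _v ∈ (NPhiL_fin (K := K) hf).toFinset, (2 : ℝ)⁻¹ := by
          rw [Finset.prod_const, inv_pow]
      _ ≤ _ := Finset.prod_le_prod (fun _ _ => by norm_num) fun v _ => by
          have := inv_anti₀ two_pos (h2 v)
          linarith
  · have h1 := congrArg (Nat.cast : ℕ → ℝ) (NPhiL_units (K := K) hf)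
    push_cast at h1
    have hpos : (0 : ℝ) < ∏ v ∈ (NPhiL_fin (K := K) hf).toFinset, (qv v : ℝ) :=
      Finset.prod_pos fun v _ => two_pos.trans_le (h2 v)
    refine mul_right_cancel₀ hpos.ne' ?_
    rw [h1, he, mul_assoc, ← Finset.prod_mul_distrib, mul_comm]
    congr 1
    refine Finset.prod_congr rfl fun v _ => ?_
    have h3 : (qv v : ℝ) ≠ 0 := (two_pos.trans_le (h2 v)).ne'
    rw [Nat.cast_sub (by have := ep_two_le v; omega)]
    field_simp
    simp

end TP
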