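import Vale.Agent.P007.NStm
import Vale.Agent.P016.PoisK

noncomputable section
namespace TP
open Complex MeasureTheory NumberField Filter ART
open Vale.Agent.P007 (Datum X lattice act orbit diagA stab vol IsOrbitMeasure)
open scoped Classical Topology ArithmeticFunction.omega

section
variable {K : Type} [Field K] [NumberField K]

theorem NPoisK_zero (e : ℕ) (u : InfinitePlace K → ℝ) : ((GsR e (0 : K) u : ℝ) : ℂ) = ze e := by
  unfold GsR ze
  split_ifs with h
  · subst h
    have := Gs_zero u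
    unfold Gs at this
    simp only [pow_zero, one_mul]
    rw [this]
    simp
  · obtain ⟨w⟩ : Nonempty (InfinitePlace K) := inferInstance
    rw [Finset.prod_eq_zero (Finset.mem_univ w)]
    · simp
    · simp [rr, h]

theorem NPoisK_div (e : ℕ) (t : ℕ) (ht : 0 < t) (y : K) (u : InfinitePlace K → ℝ) :
    GsR e (y / t) u = GsR e y (fun w => u w - 2 * Real.log t) := by
  have ht' : (0 : ℝ) < t := by exact_mod_cast ht
  unfold GsR
  refine Finset.prod_congr rfl fun w _ => ?_
  have h1 : rr w (y / t) = rr w y / t := by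
    unfold rr
    rw [map_div₀, map_natCast, Complex.div_natCast_re]
  have h2 : Real.exp ((u w - 2 * Real.log t) / 2) = Real.exp (u w / 2) / t := by
    rw [show (u w - 2 * Real.log t) / 2 = u w / 2 - Real.log t by ring, Real.exp_sub,
      Real.exp_log ht']
  have h3 : Real.exp (u w - 2 * Real.log t) = Real.exp (u w) / t ^ 2 := by
    rw [Real.exp_sub, show 2 * Real.log t = Real.log ((t : ℝ) ^ 2) by
      rw [Real.log_pow]; norm_num, Real.exp_log (by positivity)]
  have h4 : w (y / t) = w y / t := by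
    rw [map_div₀, InfinitePlace.map_natCast]
  rw [h1, h2, h3, h4]
  have e1 : rr w y / t * Real.exp (u w / 2) = rr w y * (Real.exp (u w / 2) / t) := by ring
  have e2 : (w y / t) ^ 2 * Real.exp (u w) = w y ^ 2 * (Real.exp (u w) / t ^ 2) := by ring
  rw [e1, e2]

theorem NPoisK_Gs (e m : ℕ) (hm : 0 < m) (η : K) (u : InfinitePlace K → ℝ) :
    GsR e (η / dc K / m) (fun w => Real.log (3 / 4) - u w)
      = GsR e η (fun w => Real.log (3 / 4) - 2 * Real.log (m * dc K) - u w) := by
  have h1 : η / dc K / m = η / ((m * dc K : ℕ) : K) := by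
    push_cast
    rw [div_div, mul_comm]
  rw [h1, NPoisK_div e _ (Nat.mul_pos hm dc_pos)]
  refine congrArg _ (funext fun w => ?_)
  push_cast
  ring

theorem NPoisK_split {e : ℕ} {ρ : 𝓞 K → ℂ} (h : ∀ x, ‖ρ x‖ ≤ 1) (u : InfinitePlace K → ℝ)
    (hS : Summable fun x : 𝓞 K => |GsR e (x : K) u|) :
    Summable (fun x : 𝓞 K => ρ x * (GsR e (x : K) u : ℝ)) ∧
    ρ 0 * ze e + ThR e ρ u = ∑' x : 𝓞 K, ρ x * (GsR e (x : K) u : ℝ) := by
  have hs : Summable (fun x : 𝓞 K => ρ x * (GsR e (x : K) u : ℝ)) := by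
    refine Summable.of_norm_bounded hS fun x => ?_
    rw [norm_mul, Complex.norm_real, Real.norm_eq_abs]
    exact mul_le_of_le_one_left (abs_nonneg _) (h x)
  refine ⟨hs, ?_⟩
  rw [hs.tsum_eq_add_tsum_ite 0, ← NPoisK_zero e u]
  rfl

end

theorem s_PoisKR (hPoisLR : PoisLR) (hThB : ThB) : PoisKR := by
  intro K _ _ _
  obtain ⟨κ, h1, h2, hP0⟩ := hPoisLR K
  refine ⟨κ, h1, h2, fun e m ρ he hm hper hρ => ?_⟩
  obtain ⟨c, hc1, hc0, hP⟩ := hP0 e he
  have hS : ∀ u : InfinitePlace K → ℝ, Summable fun x : 𝓞 K => |GsR e (x : K) u| := fun u => by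
    have := (hThB K e he).1 1 0 u one_ne_zero
    simpa only [zero_add, one_mul] using this
  have hm' : (m : K) ≠ 0 := by exact_mod_cast hm.ne'
  have hd' : (dc K : K) ≠ 0 := by exact_mod_cast (dc_pos (K := K)).ne'
  have hmC : (m : ℂ) ≠ 0 := by exact_mod_cast hm.ne'
  have hcard := card_quot (K := K) hm
  have : Finite (𝓞 K ⧸ Ideal.span {(m : 𝓞 K)}) :=
    Nat.finite_of_card_ne_zero (by rw [hcard]; exact pow_ne_zero _ hm.ne')
  let _ : Fintype (𝓞 K ⧸ Ideal.span {(m : 𝓞 K)}) := Fintype.ofFinite _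
  rw [Nat.card_eq_fintype_card] at hcard
  set ρ' : 𝓞 K → ℂ := fun η => if Dl ((η : K) / dc K) then
      c * ((∑ q : 𝓞 K ⧸ Ideal.span {(m : 𝓞 K)}, ρ (Quotient.out q) *
        ch (((Quotient.out q : 𝓞 K) : K) * ((η : K) / dc K) / m)) / (m : ℂ) ^ dg K) else 0 with hρ'
  have hb : ∀ y, ‖ρ' y‖ ≤ 1 := by
    intro y
    simp only [hρ']
    split_ifs
    · rw [norm_mul, hc1, one_mul, norm_div, norm_pow, Complex.norm_natCast,
        div_le_one (by positivity)]
      refine (norm_sum_le _ _).trans ?_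
      refine (Finset.sum_le_card_nsmul _ _ 1 fun q _ => ?_).trans ?_
      · rw [norm_mul, poisK_norm_ch, mul_one]; exact hρ _
      · rw [Finset.card_univ, hcard]; simp
    · simp
  refine ⟨ρ', hb, fun he0 => ?_, fun u => ?_⟩
  · simp only [hρ', mean, finsum_eq_sum_of_fintype]
    simp [poisK_dl_zero, poisK_ch_zero, hc0 he0]
  obtain ⟨hs1, hsum⟩ := NPoisK_split hρ u (hS u)
  obtain ⟨-, hsum'⟩ := NPoisK_split hb
    (fun w => Real.log (3 / 4) - 2 * Real.log (m * dc K) - u w) (hS _)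
  rw [hsum, hsum']
  set E := Equiv.ofBijective _ (poisK_bij (K := K) m hm) with hE
  have hs2 := (E.summable_iff).2 hs1
  rw [← E.tsum_eq, show (fun c => ρ (E c) * ((GsR e ((E c : 𝓞 K) : K) u : ℝ) : ℂ))
    = (fun x : 𝓞 K => ρ x * ((GsR e (x : K) u : ℝ) : ℂ)) ∘ E from rfl, hs2.tsum_prod,
    tsum_fintype]
  have hinj : Function.Injective fun η : 𝓞 K => (η : K) / dc K := by
    intro a b hab
    simp only at hab
    rw [div_left_inj' hd'] at hab
    exact Subtype.ext hab
  set v : InfinitePlace K → ℝ := fun w => Real.log (3 / 4) - 2 * Real.log (m * dc K) - u w with hv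
  set G : (𝓞 K ⧸ Ideal.span {(m : 𝓞 K)}) → 𝓞 K → ℂ := fun q η => if Dl ((η : K) / dc K) then
      ch (((Quotient.out q : 𝓞 K) : K) * ((η : K) / dc K) / m) * (GsR e (η : K) v : ℝ) else 0
    with hG
  have hGs : ∀ q, Summable (G q) := by
    intro q
    refine Summable.of_norm_bounded (hS v) fun x => ?_
    simp only [hG]
    split_ifs
    · rw [norm_mul, poisK_norm_ch, Complex.norm_real, Real.norm_eq_abs, one_mul]
    · rw [norm_zero]; exact abs_nonneg _
  have hq : ∀ q : 𝓞 K ⧸ Ideal.span {(m : 𝓞 K)},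
      ∑' d : 𝓞 K, ((fun x : 𝓞 K => ρ x * ((GsR e (x : K) u : ℝ) : ℂ)) ∘ E) (q, d)
        = ((κ / (m : ℝ) ^ dg K * Real.exp (-hs u) : ℝ) : ℂ) * c *
          ∑' η, ρ (Quotient.out q) * G q η := by
    intro q
    have h3 : ∀ d : 𝓞 K, ((fun x : 𝓞 K => ρ x * ((GsR e (x : K) u : ℝ) : ℂ)) ∘ E) (q, d)
        = ρ (Quotient.out q) * ((GsR e ((Quotient.out q + m * d : 𝓞 K) : K) u : ℝ) : ℂ) := by
      intro d
      show ρ (Quotient.out q + m * d) * _ = _
      rw [hper]; rfl
    simp only [h3]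
    rw [tsum_mul_left, hP m _ u hm, tsum_mul_left, mul_left_comm]
    refine congrArg _ (congrArg _ ?_)
    rw [← hinj.tsum_eq]
    · refine tsum_congr fun η => ?_
      simp only [hG]
      rw [NPoisK_Gs e m hm]
    · intro ξ hξ
      have hD : Dl ξ := by
        by_contra hn
        exact hξ (if_neg hn)
      obtain ⟨y, hy⟩ := hD.integral
      refine ⟨y, ?_⟩
      simp only
      rw [hy]; field_simp
  simp only [hq]
  rw [← Finset.mul_sum, ← Summable.tsum_finsetSum fun q _ => (hGs q).mul_left _, ← tsum_mul_left,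
    ← tsum_mul_left]
  refine tsum_congr fun η => ?_
  simp only [hG, hρ']
  split_ifs
  · simp only [← mul_assoc]
    rw [← Finset.sum_mul]
    generalize (∑ q : 𝓞 K ⧸ Ideal.span {(m : 𝓞 K)}, ρ (Quotient.out q) *
        ch (((Quotient.out q : 𝓞 K) : K) * ((η : K) / dc K) / m)) = T
    push_cast
    field_simp
  · simp

end TP
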