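import Vale.Agent.P007.NStm
import Vale.Agent.P026.Pois
import Vale.Agent.P016.PoisL

noncomputable section
namespace TP
open Complex MeasureTheory NumberField Filter ART
open Vale.Agent.P007 (Datum X lattice act orbit diagA stab vol IsOrbitMeasure)
open scoped Classical Topology ArithmeticFunction.omega

/-- The Gaussian of parity `e` in one variable. -/
def NPoisLh (e : ℕ) (z : ℝ) : ℝ := z ^ e * Vg (z ^ 2)

theorem NPoisL_lin {b : ℂ} (hb : 0 < b.re) (k : ℝ) :
    ∫ t : ℝ, (t : ℂ) * cexp (-b * t ^ 2 + I * k * t + 0)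
      = I * k / (2 * b) * ∫ t : ℝ, cexp (-b * t ^ 2 + I * k * t + 0) := by
  have hb' : b ≠ 0 := by rintro rfl; simp at hb
  have h0 := integrable_cexp_quadratic hb (I * k) 0
  have h1 : Integrable fun t : ℝ => (t : ℂ) * cexp (-b * t ^ 2 + I * k * t + 0) := by
    refine (integrable_mul_cexp_neg_mul_sq hb).norm.mono' (by fun_prop)
      (Eventually.of_forall fun t => le_of_eq ?_)
    have e : I * k * t = I * ((k * t : ℝ) : ℂ) := by push_cast; ring
    rw [add_zero, Complex.exp_add, norm_mul, norm_mul, norm_mul, e, Complex.norm_exp_I_mul_ofReal,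
      mul_one]
  have h2 : ∀ t : ℝ, HasDerivAt (fun t : ℝ => cexp (-b * t ^ 2 + I * k * t + 0))
      (-(2 * b) * ((t : ℂ) * cexp (-b * t ^ 2 + I * k * t + 0))
        + I * k * cexp (-b * t ^ 2 + I * k * t + 0)) t := by
    intro t
    have h3 : HasDerivAt (fun z : ℂ => cexp (-b * z ^ 2 + I * k * z + 0))
        (cexp (-b * t ^ 2 + I * k * t + 0) * (-b * (2 * t) + I * k)) t := by
      refine HasDerivAt.cexp (HasDerivAt.add_const _ (HasDerivAt.add ?_ ?_))
      · simpa using (hasDerivAt_pow 2 (t : ℂ)).const_mul (-b)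
      · simpa using (hasDerivAt_id (t : ℂ)).const_mul (I * k)
    exact h3.comp_ofReal.congr_deriv (by ring)
  have h4 := integral_eq_zero_of_hasDerivAt_of_integrable h2
    ((h1.const_mul _).add (h0.const_mul _)) h0
  rw [integral_add (h1.const_mul _) (h0.const_mul _), integral_const_mul, integral_const_mul] at h4
  rw [div_mul_eq_mul_div, eq_div_iff (mul_ne_zero two_ne_zero hb')]
  linear_combination -h4

theorem NPoisL_ft {e : ℕ} (he : e ≤ 1) {p : ℝ} (hp : 0 < p) (ξ : ℝ) :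
    ∫ t : ℝ, (NPoisLh e (p * t) : ℝ) * cexp (-(2 * Real.pi * I * (t * ξ : ℝ)))
      = ((√(√3 / 2) / p : ℝ) : ℂ) * ((-I) ^ e * (NPoisLh e (ξ / p * (√3 / 2)) : ℝ)) := by
  have h3 : (0 : ℝ) < √3 := by positivity
  have h33 : √3 ^ 2 = (3 : ℝ) := Real.sq_sqrt (by norm_num)
  have hπ := Real.pi_pos
  have hb : 0 < (((2 * Real.pi / √3 * p ^ 2 : ℝ) : ℂ)).re := by
    rw [ofReal_re]
    positivity
  have h1 : ∀ t : ℝ, ((Vg ((p * t) ^ 2) : ℝ) : ℂ) * cexp (-(2 * Real.pi * I * (t * ξ : ℝ))) =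
      cexp (-((2 * Real.pi / √3 * p ^ 2 : ℝ) : ℂ) * t ^ 2
        + I * ((-(2 * Real.pi * ξ) : ℝ) : ℂ) * t + 0) := by
    intro t
    rw [QRH.Vg, Complex.ofReal_exp, ← Complex.exp_add]
    congr 1
    push_cast
    ring
  have h2 : ∫ t : ℝ, cexp (-((2 * Real.pi / √3 * p ^ 2 : ℝ) : ℂ) * t ^ 2
        + I * ((-(2 * Real.pi * ξ) : ℝ) : ℂ) * t + 0)
      = ((√(√3 / 2) / p : ℝ) : ℂ) * (Vg ((ξ / p * (√3 / 2)) ^ 2) : ℝ) := by
    rw [integral_cexp_quadratic (by rwa [neg_re, neg_lt_zero]), neg_neg, QRH.Vg,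
      Complex.ofReal_exp]
    congr 1
    · have e : Real.pi / (2 * Real.pi / √3 * p ^ 2) = (√(√3 / 2) / p) ^ 2 := by
        rw [div_pow, Real.sq_sqrt (by positivity)]
        field_simp
      rw [← Complex.ofReal_div, e, Complex.ofReal_pow, one_div]
      exact Complex.sq_cpow_two_inv (by rw [ofReal_re]; positivity)
    · congr 1
      have e : (-(2 * Real.pi / √3) * (ξ / p * (√3 / 2)) ^ 2 : ℝ) =
          -((2 * Real.pi * ξ) ^ 2 / (4 * (2 * Real.pi / √3 * p ^ 2))) := by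
        field_simp
        ring
      rw [e, mul_pow, I_sq]
      push_cast
      ring
  obtain rfl | rfl : e = 0 ∨ e = 1 := by omega
  · simp only [NPoisLh, pow_zero, one_mul, h1, h2]
  · simp only [NPoisLh, pow_one, Complex.ofReal_mul _ (Vg _), mul_assoc _ ((Vg _ : ℝ) : ℂ), h1]
    simp only [Complex.ofReal_mul p, mul_assoc (p : ℂ)]
    rw [integral_const_mul, NPoisL_lin hb, h2]
    have e : (p : ℂ) * (I * ((-(2 * Real.pi * ξ) : ℝ) : ℂ) /
        (2 * ((2 * Real.pi / √3 * p ^ 2 : ℝ) : ℂ))) = -I * ((ξ / p * (√3 / 2) : ℝ) : ℂ) := by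
      have e1 : (ξ / p * (√3 / 2) : ℝ) =
          p * ((2 * Real.pi * ξ) / (2 * (2 * Real.pi / √3 * p ^ 2))) := by
        field_simp
      rw [e1]
      push_cast
      ring
    rw [← mul_assoc, e]
    ring

theorem NPoisL_one {e : ℕ} (he : e ≤ 1) {m : ℝ} (hm : 0 < m) (u y ξ : ℝ) :
    ∫ t : ℝ, (NPoisLh e ((y + m * t) * Real.exp (u / 2)) : ℝ)
        * cexp (-(2 * Real.pi * I * (t * ξ : ℝ)))
      = ((√(√3 / 2) / (m * Real.exp (u / 2)) : ℝ) : ℂ) * ((-I) ^ e *
        (cexp (2 * Real.pi * I * (y * ξ / m : ℝ)) *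
          (NPoisLh e (ξ / m * Real.exp ((Real.log (3 / 4) - u) / 2)) : ℝ))) := by
  have hm' : (m : ℂ) ≠ 0 := Complex.ofReal_ne_zero.2 hm.ne'
  have hs := Real.exp_pos (u / 2)
  have h1 : ∀ t : ℝ, (NPoisLh e ((y + m * (t - y / m)) * Real.exp (u / 2)) : ℝ)
      * cexp (-(2 * Real.pi * I * ((t - y / m) * ξ : ℝ))) =
      cexp (2 * Real.pi * I * (y * ξ / m : ℝ)) * ((NPoisLh e (m * Real.exp (u / 2) * t) : ℝ)
        * cexp (-(2 * Real.pi * I * (t * ξ : ℝ)))) := by
    intro t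
    have e2 : (y + m * (t - y / m)) * Real.exp (u / 2) = m * Real.exp (u / 2) * t := by
      field_simp; ring
    rw [e2, mul_left_comm, ← Complex.exp_add]
    congr 2
    push_cast
    ring
  have h2 : Real.exp (Real.log (3 / 4) / 2) = √3 / 2 := by
    rw [Real.exp_half, Real.exp_log (by norm_num), Real.sqrt_div (by norm_num),
      show (4 : ℝ) = 2 ^ 2 by norm_num, Real.sqrt_sq (by norm_num)]
  have h3 : ξ / m * Real.exp ((Real.log (3 / 4) - u) / 2)
      = ξ / (m * Real.exp (u / 2)) * (√3 / 2) := by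
    rw [sub_div, Real.exp_sub, h2]
    field_simp
  rw [← integral_sub_right_eq_self _ (y / m)]
  simp only [h1]
  rw [integral_const_mul, NPoisL_ft he (mul_pos hm hs), h3]
  ring

theorem NPoisL_hb {e : ℕ} (he : e ≤ 1) (x u : ℝ) :
    |NPoisLh e (x * Real.exp (u / 2))| ≤ Vg (x ^ 2 * Real.exp (u - Real.log 2)) := by
  have e1 : x ^ 2 * Real.exp (u - Real.log 2) = (x * Real.exp (u / 2)) ^ 2 / 2 := by
    rw [Real.exp_sub, Real.exp_log two_pos, mul_pow, ← Real.exp_nat_mul]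
    rw [show ((2 : ℕ) : ℝ) * (u / 2) = u by push_cast; ring]
    ring
  rw [e1]
  generalize x * Real.exp (u / 2) = z
  have ha : (2 : ℝ) ≤ 2 * Real.pi / √3 := by
    have h4 : √3 ≤ 2 := Real.sqrt_le_iff.2 ⟨by norm_num, by norm_num⟩
    rw [le_div_iff₀ (by positivity)]
    linarith [Real.pi_gt_three]
  have h1 : |z| ^ e ≤ 1 + z ^ 2 := by
    obtain rfl | rfl : e = 0 ∨ e = 1 := by omega
    · simpa using sq_nonneg z
    · nlinarith [sq_nonneg (|z| - 1), sq_abs z, abs_nonneg z]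
  rw [NPoisLh, abs_mul, abs_pow, QRH.Vg, QRH.Vg, abs_of_pos (Real.exp_pos _)]
  generalize 2 * Real.pi / √3 = a at ha
  have h2 : Real.exp (-a * (z ^ 2 / 2)) = Real.exp (a * (z ^ 2 / 2)) * Real.exp (-a * z ^ 2) := by
    rw [← Real.exp_add]; congr 1; ring
  rw [h2]
  refine mul_le_mul_of_nonneg_right (h1.trans ?_) (Real.exp_pos _).le
  nlinarith [Real.add_one_le_exp (a * (z ^ 2 / 2)), sq_nonneg z]

section aux
variable {K : Type} [Field K] [NumberField K] [IsTotallyReal K]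

omit [NumberField K] in
theorem NPoisL_rr (w : InfinitePlace K) (x : K) :
    rr w x = InfinitePlace.embedding_of_isReal (IsTotallyReal.isReal w) x := by
  rw [rr, ← InfinitePlace.embedding_of_isReal_apply (IsTotallyReal.isReal w), ofReal_re]

omit [NumberField K] in
theorem NPoisL_coe (w : InfinitePlace K) (x : K) : (rr w x : ℂ) = w.embedding x := by
  rw [NPoisL_rr, InfinitePlace.embedding_of_isReal_apply]

theorem NPoisL_rk : rk K = dg K := by
  rw [dg, rk, InfinitePlace.card_eq_nrRealPlaces_add_nrComplexPlaces,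
    IsTotallyReal.nrComplexPlaces_eq_zero, add_zero, IsTotallyReal.finrank]

theorem NPoisL_GsR (e : ℕ) (x : K) (u : InfinitePlace K → ℝ) :
    GsR e x u = ∏ w : InfinitePlace K, NPoisLh e (rr w x * Real.exp (u w / 2)) := by
  refine Finset.prod_congr rfl fun w _ => ?_
  rw [NPoisLh, mul_pow _ _ 2, ← Real.exp_nat_mul,
    show ((2 : ℕ) : ℝ) * (u w / 2) = u w by push_cast; ring, ← InfinitePlace.norm_embedding_eq,
    ← NPoisL_coe, Complex.norm_real, Real.norm_eq_abs, sq_abs]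

theorem NPoisL_tr (x : K) :
    ((Algebra.trace ℚ K x : ℚ) : ℝ) = ∑ w : InfinitePlace K, rr w x := by
  have h := congrArg Complex.re (trace_eq_sum_embeddings ℂ (K := ℚ) (L := K) (x := x))
  rw [← (RingHom.equivRatAlgHom K ℂ).sum_comp, Complex.re_sum,
    ← Finset.univ.sum_fiberwise (fun φ => InfinitePlace.mk φ)] at h
  refine Eq.trans (by simp) (h.trans (Finset.sum_congr rfl fun w _ => ?_))
  have e : ∀ φ ∈ Finset.univ.filter (fun φ : K →+* ℂ => InfinitePlace.mk φ = w),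
      (RingHom.equivRatAlgHom K ℂ φ x).re = (w.embedding x).re := by
    intro φ hφ
    rw [← (Finset.mem_filter.1 hφ).2]
    rcases InfinitePlace.embedding_mk_eq φ with h1 | h1
    · rw [h1]; rfl
    · rw [h1, ComplexEmbedding.conjugate_coe_eq, Complex.conj_re]; rfl
  rw [Finset.sum_congr rfl e, Finset.sum_const, InfinitePlace.card_filter_mk_eq,
    IsTotallyReal.mult_eq, one_nsmul, rr]

/-- Real coordinates on the product of the real places. -/
def NPoisLP (x : PoisLI K → ℝ) (w : InfinitePlace K) : ℝ := ∑ i, x i * rr w (integralBasis K i)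

theorem NPoisL_P (x : PoisLI K → ℝ) (w : InfinitePlace K) : (NPoisLP x w : ℂ) = PoisLP x w := by
  simp only [NPoisLP, PoisLP, Complex.ofReal_sum, Complex.ofReal_mul, NPoisL_coe]

theorem NPoisL_vol : √(dc K) =
    (volume (ZSpan.fundamentalDomain (mixedEmbedding.latticeBasis K))).toReal := by
  rw [mixedEmbedding.volume_fundamentalDomain_latticeBasis, IsTotallyReal.nrComplexPlaces_eq_zero,
    pow_zero, one_mul, ENNReal.coe_toReal, Real.coe_sqrt, coe_nnnorm, Int.norm_eq_abs, dc,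
    Nat.cast_natAbs, Int.cast_abs]

theorem NPoisL_int (g : InfinitePlace K → ℝ → ℂ) :
    ∫ x, ∏ w, g w (NPoisLP x w) = (((√(dc K))⁻¹ : ℝ) : ℂ) * ∏ w, ∫ t, g w t := by
  let B := mixedEmbedding.latticeBasis K
  let e := Equiv.subtypeUnivEquiv (IsTotallyReal.isReal (K := K))
  have h := (PoisL_mp volume B NPoisL_vol).integral_comp
    B.equivFunL.symm.toHomeomorph.measurableEmbedding fun z => ∏ w, g w.1 (z.1 w)
  have hE : IsEmpty {w : InfinitePlace K // w.IsComplex} :=
    ⟨fun w => InfinitePlace.not_isReal_iff_isComplex.2 w.2 (IsTotallyReal.isReal w.1)⟩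
  have h1 := integral_prod_mul (μ := (volume : Measure ({w : InfinitePlace K // w.IsReal} → ℝ)))
    (ν := (volume : Measure ({w : InfinitePlace K // w.IsComplex} → ℂ)))
    (fun z => ∏ w, g w.1 (z w)) fun _ => (1 : ℂ)
  have h2 : ∫ _x : {w : InfinitePlace K // w.IsComplex} → ℂ, (1 : ℂ) = 1 := by
    rw [integral_const, Measure.real, volume_pi, Measure.pi_univ]
    simp
  simp only [mul_one] at h1
  rw [h2, mul_one, integral_fintype_prod_volume_eq_prod, ← Measure.volume_eq_prod] at h1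
  rw [integral_smul_measure, ENNReal.toReal_ofReal (by positivity), Complex.real_smul, h1] at h
  rw [← e.prod_comp fun w => ∫ t, g w t]
  refine Eq.trans (integral_congr_ae (Eventually.of_forall fun x => ?_)) h
  have h3 : B.equivFunL.symm x = ∑ i, x i • B i := B.equivFun_symm_apply x
  simp only [← e.prod_comp fun w => g w (NPoisLP x w)]
  refine Finset.prod_congr rfl fun w _ => congrArg (g w.1) ?_
  rw [h3, Prod.fst_sum, Finset.sum_apply]
  refine Finset.sum_congr rfl fun i _ => ?_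
  simp only [B, mixedEmbedding.latticeBasis_apply, Prod.smul_fst, Pi.smul_apply,
    mixedEmbedding.mixedEmbedding_apply_isReal, smul_eq_mul, NPoisL_rr]
  rfl

theorem NPoisL_char (k : PoisLI K → ℤ) (x : PoisLI K → ℝ) :
    QRH.poisE k x = ∏ w : InfinitePlace K,
      cexp (-(2 * Real.pi * I * (NPoisLP x w * rr w (PoisLD k) : ℝ))) := by
  have h1 : ∑ w : InfinitePlace K, NPoisLP x w * rr w (PoisLD k) = ∑ i, (k i : ℝ) * x i := by
    simp only [NPoisLP, Finset.sum_mul]
    rw [Finset.sum_comm]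
    refine Finset.sum_congr rfl fun i _ => ?_
    have h2 := NPoisL_tr (PoisLD k * integralBasis K i)
    rw [PoisL_trD, Rat.cast_intCast] at h2
    rw [h2, Finset.sum_mul]
    refine Finset.sum_congr rfl fun w _ => ?_
    simp only [NPoisL_rr, map_mul]
    ring
  rw [← Complex.exp_sum, Finset.sum_neg_distrib, ← Finset.mul_sum, ← Complex.ofReal_sum, h1,
    QRH.poisE]
  push_cast
  rfl

omit [IsTotallyReal K] in
theorem NPoisL_kap : ((4 : ℝ) ^ dg K * dc K)⁻¹ ≤ √(√3 / 2) ^ dg K / √(dc K) ∧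
    √(√3 / 2) ^ dg K / √(dc K) ≤ 4 ^ dg K := by
  have hd : (1 : ℝ) ≤ dc K := Nat.one_le_cast.2 dc_pos
  have h1 : (1 : ℝ) ≤ √(dc K) := Real.one_le_sqrt.2 hd
  have h2 : √(dc K) ≤ dc K := Real.sqrt_le_self_iff.2 (Or.inr hd)
  have h3 : (1 : ℝ) ≤ √3 := Real.one_le_sqrt.2 (by norm_num)
  have h4 : √3 ≤ 4 := Real.sqrt_le_iff.2 ⟨by norm_num, by norm_num⟩
  have h5 : 4⁻¹ ≤ √(√3 / 2) := Real.le_sqrt_of_sq_le (by linarith)
  have h6 : √(√3 / 2) ≤ 4 := Real.sqrt_le_iff.2 ⟨by norm_num, by linarith⟩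
  constructor
  · rw [mul_inv, ← inv_pow, ← div_eq_mul_inv]
    gcongr
  · exact (div_le_self (by positivity) h1).trans (pow_le_pow_left₀ (by positivity) h6 _)

theorem NPoisL_coef {e m : ℕ} (he : e ≤ 1) (hm : 0 < m) (y : K) (u : InfinitePlace K → ℝ)
    (k : PoisLI K → ℤ) :
    ∫ x, (∏ w : InfinitePlace K, ((NPoisLh e ((rr w y + (m : ℝ) * NPoisLP x w)
      * Real.exp (u w / 2)) : ℝ) : ℂ)) * QRH.poisE k x
      = ((√(√3 / 2) ^ dg K / √(dc K) / (m : ℝ) ^ dg K * Real.exp (-hs u) : ℝ) : ℂ)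
        * ((-I) ^ e) ^ dg K * (ch (y * PoisLD k / m) *
          (GsR e (PoisLD k / m) (fun w => Real.log (3 / 4) - u w) : ℝ)) := by
  have hm' : (0 : ℝ) < m := Nat.cast_pos.2 hm
  simp only [NPoisL_char, ← Finset.prod_mul_distrib]
  rw [NPoisL_int fun w t => ((NPoisLh e ((rr w y + (m : ℝ) * t) * Real.exp (u w / 2)) : ℝ) : ℂ)
    * cexp (-(2 * Real.pi * I * (t * rr w (PoisLD k) : ℝ)))]
  simp only [NPoisL_one he hm']
  rw [Finset.prod_mul_distrib, Finset.prod_mul_distrib, Finset.prod_mul_distrib, ← mul_assoc,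
    ← mul_assoc, ← Complex.ofReal_prod, ← Complex.ofReal_prod, ← Complex.ofReal_mul,
    ← Complex.exp_sum, ← Finset.mul_sum, ← Complex.ofReal_sum, NPoisL_GsR, ch,
    ← Complex.ofReal_ratCast, NPoisL_tr, Finset.prod_const, Finset.card_univ, ← rk, NPoisL_rk]
  simp only [NPoisL_rr, map_div₀, map_mul, map_natCast]
  congr 3
  have hd : (0 : ℝ) < √(dc K) := Real.sqrt_pos.2 (Nat.cast_pos.2 dc_pos)
  rw [Finset.prod_div_distrib, Finset.prod_mul_distrib, Finset.prod_const, Finset.prod_const,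
    ← Real.exp_sum, Real.exp_neg, hs, Finset.sum_div, Finset.card_univ, ← rk, NPoisL_rk]
  field_simp

end aux

theorem s_PoisLR (hThB : ThB) : PoisLR := by
  intro K _ _ _
  refine ⟨√(√3 / 2) ^ dg K / √(dc K), NPoisL_kap.1, NPoisL_kap.2, fun e he =>
    ⟨((-I) ^ e) ^ dg K, by simp, by rintro rfl; simp, fun m y u hm => ?_⟩⟩
  have hm' : (m : K) ≠ 0 := Nat.cast_ne_zero.2 hm.ne'
  have hd : (dc K : K) ≠ 0 := Nat.cast_ne_zero.2 dc_pos.ne'
  let N := (RingOfIntegers.basis K).equivFun.symm.toEquiv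
  have hs : Summable fun k : PoisLI K → ℤ =>
      ch (y * PoisLD k / m) * (GsR e (PoisLD k / m) (fun w => Real.log (3 / 4) - u w) : ℝ) := by
    choose z hz using fun k : PoisLI K → ℤ => ((PoisL_dual _).2 ⟨k, rfl⟩).integral
    have hi : Function.Injective z := fun k l h => PoisL_inj (mul_left_cancel₀ hd (by
      rw [← hz, ← hz, h]))
    refine Summable.of_norm ((((hThB K e he).1 _ 0 (fun w => Real.log (3 / 4) - u w)
      (inv_ne_zero (mul_ne_zero hd hm'))).comp_injective hi).congr fun k => ?_)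
    have e : 2 * Real.pi * I * ((Algebra.trace ℚ K (y * PoisLD k / m) : ℚ) : ℂ)
        = I * ((2 * Real.pi * (Algebra.trace ℚ K (y * PoisLD k / m) : ℚ) : ℝ) : ℂ) := by
      push_cast; ring
    rw [norm_mul, ch, e, Complex.norm_exp_I_mul_ofReal, one_mul, Complex.norm_real,
      Real.norm_eq_abs, Function.comp_apply, hz]
    congr 2
    field_simp
    ring
  have e0 : ∀ (k : PoisLI K → ℤ) (w : InfinitePlace K), w.embedding (y : K)
      + (m : ℝ) * PoisLP (fun i => (k i : ℝ)) w = w.embedding ((y : K) + m * (N k : K)) := by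
    intro k w
    rw [PoisL_lat, map_add, map_mul, map_natCast, Complex.ofReal_natCast]
    rfl
  have e1 : ∀ (x : PoisLI K → ℝ) (w : InfinitePlace K),
      ((rr w (y : K) + (m : ℝ) * NPoisLP x w : ℝ) : ℂ) = w.embedding (y : K) + (m : ℝ) * PoisLP x w :=
    fun x w => by rw [Complex.ofReal_add, Complex.ofReal_mul, NPoisL_coe, NPoisL_P]
  have e2 : ∀ (k : PoisLI K → ℤ) (w : InfinitePlace K), rr w (y : K)
      + (m : ℝ) * NPoisLP (fun i => (k i : ℝ)) w = rr w ((y : K) + m * (N k : K)) :=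
    fun k w => Complex.ofReal_injective (by rw [e1, e0, NPoisL_coe])
  have key := QRH.pois_gen (fun x => ∏ w : InfinitePlace K,
    ((NPoisLh e ((rr w (y : K) + (m : ℝ) * NPoisLP x w) * Real.exp (u w / 2)) : ℝ) : ℂ))
    (by unfold NPoisLP NPoisLh QRH.Vg; fun_prop) (fun R => ?_)
    (by rw [funext (NPoisL_coef he hm (y : K) u)]; exact hs.mul_left _)
  · rw [funext (NPoisL_coef he hm (y : K) u), tsum_mul_left] at key
    rw [← N.tsum_eq, ← PoisL_inj.tsum_eq (f := fun ξ : K => if Dl ξ then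
      ch (y * ξ / m) * (GsR e (ξ / m) (fun w => Real.log (3 / 4) - u w) : ℝ) else 0)
      (fun ξ hξ => (PoisL_dual ξ).1 (by by_contra h; exact hξ (if_neg h)))]
    simp only [if_pos ((PoisL_dual _).2 ⟨_, rfl⟩)]
    rw [← key]
    refine tsum_congr fun k => ?_
    simp only [e2]
    rw [← Complex.ofReal_prod, ← NPoisL_GsR]
    push_cast
    rfl
  · refine ⟨_, (N.summable_iff.2
      (summable_Gs hm' y fun w => u w - Real.log 2 - Real.log 2)).mul_left
      (∏ w : InfinitePlace K, Vg (-((m * ∑ i, R * ‖w.embedding (integralBasis K i)‖) ^ 2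
        * Real.exp (u w - Real.log 2)))), fun x hx k => ?_⟩
    rw [norm_prod, Function.comp_apply, PoisL_Gs, ← Finset.prod_mul_distrib]
    refine Finset.prod_le_prod (fun w _ => norm_nonneg _) fun w _ => ?_
    rw [Complex.norm_real, Real.norm_eq_abs]
    refine (NPoisL_hb he _ _).trans ?_
    rw [← sq_abs, ← Real.norm_eq_abs, ← Complex.norm_real, e1, PoisL_add, mul_add,
      add_comm ((m : ℝ) * PoisLP x w), ← add_assoc, e0]
    refine PoisL_loc ?_ _
    rw [norm_mul, Complex.norm_real, Real.norm_natCast]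
    exact mul_le_mul_of_nonneg_left (PoisL_bd hx w) m.cast_nonneg

end TP
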