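import Vale.Agent.P007.NStm
import Vale.Agent.P016.Tail

noncomputable section
namespace TP
open Complex MeasureTheory NumberField Filter ART
open Vale.Agent.P007 (Datum X lattice act orbit diagA stab vol IsOrbitMeasure)
open scoped Classical Topology ArithmeticFunction.omega

theorem NTail_GG {x : ℝ} (h1 : 1 ≤ x) (h3 : x ≤ 3) : ‖GG x‖ ≤ 1 := by
  have hc : (0 : ℝ) < 2 * Real.pi / √3 := lt_of_lt_of_le (by norm_num) tail_three_le
  have hG : Real.Gamma x ≤ 2 := by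
    have h := Real.convexOn_Gamma.le_max_of_mem_Icc (x := 1) (y := 3) (z := x)
      (by norm_num) (by norm_num) ⟨h1, h3⟩
    have e : Real.Gamma 3 = 2 := by
      have := Real.Gamma_nat_eq_factorial 2
      norm_num [Nat.factorial] at this ⊢
    rw [Real.Gamma_one, e] at h
    exact h.trans (by norm_num)
  rw [NQ.GG, norm_mul, Complex.Gamma_ofReal, Complex.norm_cpow_eq_rpow_re_of_pos hc,
    Complex.norm_real, Real.norm_of_nonneg (Real.Gamma_pos_of_pos (by linarith)).le, neg_re,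
    ofReal_re, Real.rpow_neg hc.le, inv_mul_le_iff₀ (by positivity), mul_one]
  have h4 : (2 * Real.pi / √3) ^ (1 : ℝ) ≤ (2 * Real.pi / √3) ^ x :=
    Real.rpow_le_rpow_of_exponent_le (by linarith [tail_three_le]) h1
  rw [Real.rpow_one] at h4
  linarith [tail_three_le]

theorem NTail_Zp (h1 : EP) (h2 : ZetaA) (K : Type) [Field K] [NumberField K] (ρ : 𝓞 K → ℂ) (k : ℕ)
    (hρ : ∀ x, ‖ρ x‖ ≤ 1) (hk2 : 2 ≤ k) : ‖Zp ρ k‖ ≤ Real.exp (2 * dg K) := by
  have hs := (h1 K).1 2 one_lt_two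
  have hz : (zeta K 2).re = ∑' J : {J : Ideal (𝓞 K) // J ≠ ⊥},
      (Ideal.absNorm J.1 : ℝ) ^ (-2 : ℝ) := by
    rw [← Complex.ofReal_re (∑' _, _), Complex.ofReal_tsum, NQ.zeta]
    congr 2
    funext J
    rw [Complex.ofReal_cpow (Nat.cast_nonneg _)]
    simp
  refine le_trans ?_ (h2 K).2.2.1
  rw [hz, Zp]
  refine tsum_of_norm_bounded hs.hasSum fun J => ?_
  have hJ : 0 < Ideal.absNorm J.1 :=
    Nat.pos_of_ne_zero fun h => J.2 (Ideal.absNorm_eq_zero_iff.1 h)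
  split_ifs with h
  · rw [norm_mul, Complex.norm_natCast_cpow_of_pos hJ]
    refine (mul_le_of_le_one_left (by positivity) (hρ _)).trans ?_
    refine Real.rpow_le_rpow_of_exponent_le (by exact_mod_cast hJ) ?_
    have : (2 : ℝ) ≤ k := by exact_mod_cast hk2
    simpa using this
  · rw [norm_zero]
    positivity

section
variable {K : Type} [Field K] [NumberField K]

theorem NTail_sg_le (x : K) : |sg x| ≤ 1 := by
  rw [sg, Finset.abs_prod]
  refine Finset.prod_le_one (fun _ _ => abs_nonneg _) fun w _ => ?_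
  rcases lt_trichotomy (rr w x) 0 with h | h | h <;> simp [h]

theorem NTail_tw_le (e : ℕ) {ρ : 𝓞 K → ℂ} (hρ : ∀ x, ‖ρ x‖ ≤ 1) (x : 𝓞 K) : ‖tw e ρ x‖ ≤ 1 := by
  rw [tw, norm_mul, Complex.norm_real, Real.norm_eq_abs, abs_pow]
  exact mul_le_one₀ (hρ x) (by positivity) (pow_le_one₀ (abs_nonneg _) (NTail_sg_le _))

theorem NTail_sg_sq [IsTotallyReal K] {x : K} (hx : x ≠ 0) : sg x * sg x = 1 := by
  rw [sg, ← Finset.prod_mul_distrib]
  refine Finset.prod_eq_one fun w _ => ?_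
  have h : rr w x ≠ 0 := by
    rw [rr, ← InfinitePlace.embedding_of_isReal_apply (IsTotallyReal.isReal w), ofReal_re]
    exact (map_ne_zero _).2 hx
  rcases lt_or_gt_of_ne h with h | h <;> simp [h]

theorem NTail_inv [IsTotallyReal K] (e : ℕ) : Inv (tw e (tw e fun _ : 𝓞 K => 1)) := by
  have key : ∀ x : 𝓞 K, x ≠ 0 → tw e (tw e fun _ : 𝓞 K => 1) x = 1 := fun x hx => by
    rw [tw, tw, one_mul, ← Complex.ofReal_mul, ← mul_pow,
      NTail_sg_sq (RingOfIntegers.coe_ne_zero_iff.2 hx), one_pow, Complex.ofReal_one]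
  intro u x
  by_cases hx : x = 0
  · rw [hx, mul_zero]
  · rw [key x hx, key _ (mul_ne_zero u.ne_zero hx)]

end

theorem s_TailR (hUnfR : UnfR) (hThB : ThB) (hEP : EP) (hZetaA : ZetaA) : TailR := by
  intro K _ _ _
  have hA : ∀ (e k : ℕ) (ρ : 𝓞 K → ℂ), e ≤ 1 → (∀ x, ‖ρ x‖ ≤ 1) → 2 ≤ k → k ≤ 4 →
      ‖GG (((k : ℂ) + e) / 2) ^ dg K * Zp ρ k‖ ≤ Real.exp (2 * dg K) := by
    intro e k ρ he hρ hk2 hk4
    have a1 : (2 : ℝ) ≤ k := by exact_mod_cast hk2
    have a2 : (k : ℝ) ≤ 4 := by exact_mod_cast hk4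
    have a3 : (e : ℝ) ≤ 1 := by exact_mod_cast he
    have a4 : (0 : ℝ) ≤ e := Nat.cast_nonneg e
    have h := NTail_GG (x := ((k : ℝ) + e) / 2) (by linarith) (by linarith)
    push_cast at h
    rw [norm_mul, norm_pow]
    exact (mul_le_of_le_one_left (norm_nonneg _) (pow_le_one₀ (norm_nonneg _) h)).trans
      (NTail_Zp hEP hZetaA K ρ k hρ hk2)
  refine ⟨hA, fun e φ ρ S a he1 hφ hρ hS ha => ?_⟩
  have hone : ∀ x : 𝓞 K, ‖(fun _ : 𝓞 K => (1 : ℂ)) x‖ ≤ 1 := fun _ => by simp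
  obtain ⟨hm0, hb⟩ := (hThB K e he1).2 ρ hρ
  set g : (InfinitePlace K → ℝ) → ℝ := fun u => φ u * (ThR e (tw e fun _ : 𝓞 K => 1) u).re with hg
  have hfg : ∀ u, ‖(φ u : ℂ) * ThR e ρ u‖ ≤ g u := fun u => by
    rw [norm_mul, Complex.norm_real, Real.norm_of_nonneg (hφ.2.1 u).1]
    exact mul_le_mul_of_nonneg_left (hb u).1 (hφ.2.1 u).1
  have he : ∀ (k : ℝ) u, (φ u : ℂ) * ThR e (tw e fun _ : 𝓞 K => 1) u *
      Complex.exp (k * (hs u : ℝ)) = ((g u * Real.exp (k * hs u) : ℝ) : ℂ) := by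
    intro k u
    rw [(hb u).2, hg]
    simp only [Complex.ofReal_mul, Complex.ofReal_exp]
  have hU := fun (k : ℝ) (hk : 1 < k) =>
    hUnfR K e φ (tw e fun _ => 1) k he1 hφ (NTail_inv e) (NTail_tw_le e hone) (by simpa using hk)
  have hi : ∀ k : ℝ, 1 < k → Integrable fun u => g u * Real.exp (k * hs u) := by
    intro k hk
    have := (hU k hk).1
    simp only [he] at this
    exact this.re
  have ha' : ∀ᵐ u ∂volume.restrict S, a ≤ hs u := (ae_restrict_mem hS).mono ha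
  have hm : Measurable fun u => (φ u : ℂ) * ThR e ρ u :=
    (Complex.measurable_ofReal.comp hφ.1).mul hm0
  obtain ⟨h3, h4⟩ := tail_gen (μ := volume.restrict S) hm
    (s := fun u => hs u) (by unfold hs; fun_prop) hfg ha' fun k hk => (hi k hk).restrict
  refine ⟨h3, h4, fun z k hk2 hk4 hz => ?_⟩
  have hk : (1 : ℝ) < k := by exact_mod_cast hk2
  refine (norm_integral_le_of_norm_le (((hi k hk).restrict).const_mul
    (Real.exp ((z.re - k) * a))) (ha'.mono fun u hu => tail_pt (hfg u) hu hz)).trans ?_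
  rw [integral_const_mul]
  refine mul_le_mul_of_nonneg_left ?_ (Real.exp_pos _).le
  refine (setIntegral_le_integral (hi k hk) (Eventually.of_forall fun u =>
    mul_nonneg ((norm_nonneg _).trans (hfg u)) (Real.exp_pos _).le)).trans ?_
  have h5 := (hU k hk).2
  simp only [he] at h5
  rw [integral_complex_ofReal] at h5
  have h6 := hA e k _ he1 (NTail_tw_le e (NTail_tw_le e hone)) hk2 hk4
  rw [Complex.ofReal_natCast] at h5
  rw [← h5, Complex.norm_real] at h6
  exact (le_abs_self _).trans h6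

end TP
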