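import Vale.Agent.P007.NStm

noncomputable section
namespace TP
open Complex MeasureTheory NumberField Filter ART
open Vale.Agent.P007 (Datum X lattice act orbit diagA stab vol IsOrbitMeasure)
open scoped Classical Topology ArithmeticFunction.omega

section
variable {K : Type} [Field K] [NumberField K]

lemma NThB_one {e : ℕ} (he : e ≤ 1) (r N t : ℝ) (hr : |r| ≤ N) :
    |(r * Real.exp (t / 2)) ^ e * Vg (N ^ 2 * Real.exp t)|
      ≤ Vg (N ^ 2 * Real.exp (t - Real.log 2)) := by
  have ha : 2 ≤ 2 * Real.pi / √3 := by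
    rw [le_div_iff₀ (by positivity)]
    have h1 : √3 ≤ 2 := Real.sqrt_le_iff.2 ⟨by norm_num, by norm_num⟩
    linarith [Real.pi_gt_three]
  have h1 : Real.exp t = Real.exp (t / 2) ^ 2 := by
    rw [← Real.exp_nat_mul]
    congr 1
    push_cast
    ring
  have h2 : Real.exp (t - Real.log 2) = Real.exp (t / 2) ^ 2 / 2 := by
    rw [Real.exp_sub, Real.exp_log (by norm_num), h1]
  rw [h2, h1]
  have hE := Real.exp_pos (t / 2)
  generalize Real.exp (t / 2) = E at *
  have hN : 0 ≤ N := (abs_nonneg r).trans hr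
  unfold Vg
  generalize 2 * Real.pi / √3 = a at *
  have h3 : |r * E| ^ e ≤ Real.exp (a * (N ^ 2 * E ^ 2) / 2) := by
    have h4 := Real.add_one_le_exp (a * (N ^ 2 * E ^ 2) / 2)
    have h5 : |r * E| ≤ N * E := by
      rw [abs_mul, abs_of_pos hE]
      exact mul_le_mul_of_nonneg_right hr hE.le
    have h6 : 2 * (N ^ 2 * E ^ 2) ≤ a * (N ^ 2 * E ^ 2) :=
      mul_le_mul_of_nonneg_right ha (by positivity)
    interval_cases e
    · rw [pow_zero]
      nlinarith [sq_nonneg (N * E)]
    · rw [pow_one]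
      nlinarith [sq_nonneg (N * E - 1), sq_nonneg (N * E)]
  rw [abs_mul, abs_pow, abs_of_pos (Real.exp_pos _)]
  refine (mul_le_mul_of_nonneg_right h3 (Real.exp_pos _).le).trans (le_of_eq ?_)
  rw [← Real.exp_add]
  congr 1
  ring

lemma NThB_le {e : ℕ} (he : e ≤ 1) (x : K) (u : InfinitePlace K → ℝ) :
    |GsR e x u| ≤ Gs x fun w => u w - Real.log 2 := by
  rw [GsR, Finset.abs_prod, Gs]
  refine Finset.prod_le_prod (fun _ _ => abs_nonneg _) fun w _ => NThB_one he _ _ _ ?_
  rw [rr, ← InfinitePlace.norm_embedding_eq]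
  exact Complex.abs_re_le_norm _

lemma NThB_sg (e : ℕ) (x : K) (u : InfinitePlace K → ℝ) :
    sg x ^ e * GsR e x u = |GsR e x u| := by
  rw [GsR, Finset.abs_prod, sg, ← Finset.prod_pow, ← Finset.prod_mul_distrib]
  refine Finset.prod_congr rfl fun w _ => ?_
  have h1 : 0 < Vg (w x ^ 2 * Real.exp (u w)) := Real.exp_pos _
  rw [abs_mul, abs_pow, abs_mul, abs_of_pos h1, abs_of_pos (Real.exp_pos _), ← mul_assoc,
    ← mul_pow, ← mul_assoc, sign_mul_self]

lemma NThB_sum {e : ℕ} (he : e ≤ 1) (a y : K) (u : InfinitePlace K → ℝ) (ha : a ≠ 0) :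
    Summable fun x : 𝓞 K => |GsR e (y + a * x) u| :=
  Summable.of_nonneg_of_le (fun _ => abs_nonneg _) (fun _ => NThB_le he _ _)
    (summable_Gs ha y _)

lemma NThB_cont (e : ℕ) (x : K) : Continuous (GsR e x) := by
  unfold GsR Vg
  fun_prop

lemma NThB_tw (e : ℕ) (u : InfinitePlace K → ℝ) :
    ThR e (tw e fun _ : 𝓞 K => 1) u
      = ((∑' x : 𝓞 K, if x = 0 then 0 else |GsR e (x : K) u| : ℝ) : ℂ) := by
  rw [ThR, Complex.ofReal_tsum]
  refine tsum_congr fun x => ?_
  split_ifs
  · simp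
  · rw [tw, one_mul, ← Complex.ofReal_mul, NThB_sg]

end

theorem s_ThB : ThB := by
  intro K _ _ _ e he
  refine ⟨fun a y u ha => NThB_sum he a y u ha, fun ρ h => ?_⟩
  have hs : ∀ u, Summable fun x : 𝓞 K => if x = 0 then 0 else |GsR e (x : K) u| := fun u => by
    refine Summable.of_nonneg_of_le (fun x => ?_) (fun x => ?_) (NThB_sum he 1 0 u one_ne_zero)
    · split_ifs
      · exact le_rfl
      · exact abs_nonneg _
    · rw [zero_add, one_mul]
      split_ifs
      · exact abs_nonneg _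
      · exact le_rfl
  have hb : ∀ u (x : 𝓞 K), ‖if x = 0 then 0 else ρ x * (GsR e (x : K) u : ℝ)‖
      ≤ if x = 0 then 0 else |GsR e (x : K) u| := fun u x => by
    split_ifs
    · simp
    · rw [norm_mul, Complex.norm_real, Real.norm_eq_abs]
      exact mul_le_of_le_one_left (abs_nonneg _) (h x)
  refine ⟨?_, fun u => ⟨?_, ?_⟩⟩
  · have := countable_int (K := K)
    have := Encodable.ofCountable (𝓞 K)
    refine measurable_of_tendsto_metrizable' (atTop : Filter (Finset (𝓞 K)))
      (f := fun s u => ∑ x ∈ s, if x = 0 then 0 else ρ x * (GsR e (x : K) u : ℝ)) (fun s => ?_) ?_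
    · refine Finset.measurable_sum _ fun x _ => ?_
      split_ifs
      · exact measurable_const
      · exact (continuous_const.mul
          (Complex.continuous_ofReal.comp (NThB_cont e _))).measurable
    · exact tendsto_pi_nhds.2 fun u => (Summable.of_norm_bounded (hs u) (hb u)).hasSum
  · rw [NThB_tw, Complex.ofReal_re]
    exact tsum_of_norm_bounded (hs u).hasSum (hb u)
  · rw [NThB_tw, Complex.ofReal_re]

end TP
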