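import Vale.Agent.P007.NStm
import Vale.Agent.P016.Unf

noncomputable section
namespace TP
open Complex MeasureTheory NumberField Filter ART
open Vale.Agent.P007 (Datum X lattice act orbit diagA stab vol IsOrbitMeasure)
open scoped Classical Topology ArithmeticFunction.omega

section aux
variable {K : Type} [Field K] [NumberField K]

/-- The integrand that belongs to the element one. -/
def NUnf_G (e : ℕ) (z : ℂ) (u : InfinitePlace K → ℝ) : ℂ :=
  ((∏ w : InfinitePlace K, Real.exp (u w / 2) ^ e * Vg (Real.exp (u w)) : ℝ) : ℂ) *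
    Complex.exp (z * (hs u : ℝ))

theorem NUnf_rk [IsTotallyReal K] : rk K = dg K := by
  rw [dg, rk, InfinitePlace.card_eq_nrRealPlaces_add_nrComplexPlaces,
    IsTotallyReal.nrComplexPlaces_eq_zero, add_zero, IsTotallyReal.finrank]

theorem NUnf_re (e : ℕ) {z : ℂ} (hz : 0 < z.re) : 0 < ((z + e) / 2).re := by
  have h : ((z + e) / 2).re = (z.re + e) / 2 := by simp
  rw [h]
  positivity

theorem NUnf_pi [IsTotallyReal K] (e : ℕ) {z : ℂ} (hz : 0 < z.re) :
    ∫ u : InfinitePlace K → ℝ, NUnf_G e z u = GG ((z + e) / 2) ^ dg K := by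
  have h1 := integral_fintype_prod_volume_eq_pow (ι := InfinitePlace K)
    fun t : ℝ => ((Vg (Real.exp t) : ℝ) : ℂ) * Complex.exp ((z + e) / 2 * t)
  rw [Unf_one (NUnf_re e hz)] at h1
  rw [← NUnf_rk, rk, ← h1]
  refine integral_congr_ae (Eventually.of_forall fun u => ?_)
  have e1 : z * ((hs u : ℝ) : ℂ) = ∑ w, z / 2 * (u w : ℂ) := by
    rw [hs, ← Finset.mul_sum]
    push_cast
    ring
  dsimp only
  rw [NUnf_G, e1, Complex.exp_sum, ofReal_prod, ← Finset.prod_mul_distrib]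
  refine Finset.prod_congr rfl fun w _ => ?_
  rw [ofReal_mul, ofReal_pow, ofReal_exp, ← Complex.exp_nat_mul, mul_comm (Complex.exp _),
    mul_assoc, ← Complex.exp_add]
  congr 2
  push_cast
  ring

theorem NUnf_int [IsTotallyReal K] (e : ℕ) {z : ℂ} (hz : 0 < z.re) :
    Integrable (NUnf_G (K := K) e z) :=
  Integrable.of_integral_ne_zero
    (by rw [NUnf_pi e hz]; exact pow_ne_zero _ (Unf_GG_ne (NUnf_re e hz)))

omit [NumberField K] in
theorem NUnf_abs [IsTotallyReal K] (w : InfinitePlace K) (x : K) : |rr w x| = w x := by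
  have h := (IsTotallyReal.complexEmbedding_isReal w.embedding).coe_embedding_apply x
  rw [rr, ← InfinitePlace.norm_embedding_eq, ← h, ofReal_re, norm_real, Real.norm_eq_abs]

omit [NumberField K] in
theorem NUnf_half {x : K} (hx : x ≠ 0) (w : InfinitePlace K) : Real.exp (lg x w / 2) = w x := by
  have h : 0 < w x := InfinitePlace.pos_iff.2 hx
  rw [lg, Real.log_pow]
  push_cast
  rw [mul_div_cancel_left₀ _ two_ne_zero, Real.exp_log h]

theorem NUnf_norm [IsTotallyReal K] {x : 𝓞 K} (hx : x ≠ 0) :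
    Real.exp (hs (lg (x : K))) = Ideal.absNorm (Ideal.span {x}) := by
  have hx' : (x : K) ≠ 0 := RingOfIntegers.coe_ne_zero_iff.2 hx
  have h := InfinitePlace.prod_eq_abs_norm (x : K)
  simp only [IsTotallyReal.mult_eq, pow_one] at h
  rw [hs, Finset.sum_div, Real.exp_sum, Finset.prod_congr rfl fun w _ => NUnf_half hx' w, h,
    Ideal.absNorm_span_singleton, ← Algebra.coe_norm_int, Nat.cast_natAbs]
  push_cast
  rfl

theorem NUnf_eq [IsTotallyReal K] (e : ℕ) (z : ℂ) {x : 𝓞 K} (hx : x ≠ 0)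
    (u : InfinitePlace K → ℝ) :
    ((GsR e (x : K) u : ℝ) : ℂ) * Complex.exp (z * (hs u : ℝ)) = ((sg (x : K) ^ e : ℝ) : ℂ) *
      (NUnf_G e z (u + lg (x : K)) * (Ideal.absNorm (Ideal.span {x}) : ℂ) ^ (-z)) := by
  have hx' : (x : K) ≠ 0 := RingOfIntegers.coe_ne_zero_iff.2 hx
  have h1 : GsR e (x : K) u = sg (x : K) ^ e * ∏ w : InfinitePlace K,
      Real.exp ((u + lg (x : K)) w / 2) ^ e * Vg (Real.exp ((u + lg (x : K)) w)) := by
    rw [GsR, sg, ← Finset.prod_pow, ← Finset.prod_mul_distrib]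
    refine Finset.prod_congr rfl fun w _ => ?_
    rw [Pi.add_apply, add_div, Real.exp_add, Real.exp_add, NUnf_half hx', exp_lg hx',
      ← mul_assoc, ← mul_pow, ← NUnf_abs w (x : K), mul_comm (Real.exp (u w / 2)), ← mul_assoc,
      sign_mul_abs, NUnf_abs, mul_comm (Real.exp (u w))]
  have h2 : hs (u + lg (x : K)) = hs u + hs (lg (x : K)) := by
    simp only [hs, Pi.add_apply, Finset.sum_add_distrib, add_div]
  rw [h1, NUnf_G, h2, ← ofReal_natCast, ← NUnf_norm hx,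
    cpow_def_of_ne_zero (ofReal_ne_zero.2 (Real.exp_pos _).ne'),
    ← ofReal_log (Real.exp_pos _).le, Real.log_exp, ofReal_mul, mul_assoc, mul_assoc,
    ← Complex.exp_add]
  congr 3
  push_cast
  ring

omit [NumberField K] in
theorem NUnf_tw (e : ℕ) {ρ : 𝓞 K → ℂ} [Fintype (InfinitePlace K)] (h : ∀ x, ‖ρ x‖ ≤ 1) (x : 𝓞 K)
    {s : ℝ} (hs : |s| ≤ 1) : ‖ρ x * ((s ^ e : ℝ) : ℂ)‖ ≤ 1 := by
  rw [norm_mul, norm_real, Real.norm_eq_abs, abs_pow]
  exact mul_le_one₀ (h x) (by positivity) (pow_le_one₀ (abs_nonneg _) hs)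

theorem NUnf_sg (x : K) : |sg x| ≤ 1 := by
  rw [sg, Finset.abs_prod]
  refine Finset.prod_le_one (fun _ _ => abs_nonneg _) fun w _ => ?_
  rcases SignType.sign (rr w x) with _ | _ | _ <;> simp

end aux

theorem s_UnfR (hThB : ThB) (hEP : EP) : UnfR := by
  intro K _ _ _ e φ ρ z he hφ hρ hρ1 hz
  have hρ2 : ∀ x, ‖tw e ρ x‖ ≤ 1 := fun x => NUnf_tw e hρ1 x (NUnf_sg _)
  have hz0 : 0 < z.re := by linarith
  have := countable_int (K := K)
  have : Countable (𝓞 K)ˣ := Units.val_injective.countable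
  have := countable_ideal (K := K)
  obtain ⟨g, hg⟩ : ∃ g : ART.UnfP K → 𝓞 K, ∀ J, J.2.choose = g J := ⟨_, fun _ => rfl⟩
  have hg0 : ∀ J, g J ≠ 0 := fun J => hg J ▸ Unf_gen_ne J
  have hgs : ∀ J, Ideal.span {g J} = J.1.1 := fun J => hg J ▸ J.2.choose_spec.symm
  obtain ⟨H, hH'⟩ : ∃ H : ART.UnfP K → (InfinitePlace K → ℝ) → ℂ,
      ∀ J, H J = fun u => NUnf_G e z (u + lg (g J : K)) *
      (tw e ρ (g J) * (Ideal.absNorm J.1.1 : ℂ) ^ (-z)) := ⟨_, fun _ => rfl⟩
  have hHi : ∀ J, Integrable (H J) := fun J => by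
    rw [hH']
    exact ((NUnf_int e hz0).comp_add_right _).mul_const _
  have hexp : (fun u => (φ u : ℂ) * ThR e ρ u * Complex.exp (z * (hs u : ℝ)))
      = fun u => ∑' p : ART.UnfP K × (𝓞 K)ˣ, φ u • H p.1 (u + lg ((p.2 : 𝓞 K) : K)) := by
    funext u
    rw [ThR, ← Unf_inj.tsum_eq fun x hx => Unf_surj fun h0 => hx (if_pos h0), ← tsum_mul_left,
      ← tsum_mul_right]
    refine tsum_congr fun p => ?_
    have h0 : (p.2 : 𝓞 K) * g p.1 ≠ 0 := mul_ne_zero p.2.ne_zero (hg0 _)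
    have e1 := NUnf_eq e z h0 u
    have e2 : (((p.2 : 𝓞 K) * g p.1 : 𝓞 K) : K) = ((p.2 : 𝓞 K) : K) * (g p.1 : K) :=
      map_mul (algebraMap (𝓞 K) K) _ _
    have e3 : lg (((p.2 : 𝓞 K) * g p.1 : 𝓞 K) : K) = lg ((p.2 : 𝓞 K) : K) + lg (g p.1 : K) := by
      rw [e2, lg_mul (Units.coe_ne_zero p.2) (RingOfIntegers.coe_ne_zero_iff.2 (hg0 _))]
    rw [e3, Ideal.span_singleton_mul_left_unit p.2.isUnit, hgs, ← add_assoc] at e1
    rw [hg, if_neg h0, hH', ← hρ p.2 (g p.1), tw, real_smul, mul_assoc, mul_assoc, e1]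
    ring
  have hFi : ∀ p : ART.UnfP K × (𝓞 K)ˣ,
      Integrable fun u => φ u • H p.1 (u + lg ((p.2 : 𝓞 K) : K)) := fun p => by
    have h1 := (hHi p.1).comp_add_right (lg ((p.2 : 𝓞 K) : K))
    refine h1.norm.mono' (hφ.1.aestronglyMeasurable.smul h1.1) (Eventually.of_forall fun u => ?_)
    rw [norm_smul, Real.norm_of_nonneg (hφ.2.1 u).1]
    exact mul_le_of_le_one_left (norm_nonneg _) (hφ.2.1 u).2
  have hFs : Summable fun p : ART.UnfP K × (𝓞 K)ˣ =>
      ∫ u, ‖φ u • H p.1 (u + lg ((p.2 : 𝓞 K) : K))‖ := by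
    have h1 : ∀ J, HasSum (fun ε : (𝓞 K)ˣ => ∫ u, ‖φ u • H J (u + lg ((ε : 𝓞 K) : K))‖)
        (∫ u, ‖H J u‖) := fun J => by
      simp only [norm_smul, fun u => Real.norm_of_nonneg (hφ.2.1 u).1]
      exact Unf_fold hφ (hHi J).norm
    refine (summable_prod_of_nonneg fun p => integral_nonneg fun u => norm_nonneg _).2
      ⟨fun J => (h1 J).summable, ?_⟩
    simp only [fun J => (h1 J).tsum_eq]
    refine Summable.of_nonneg_of_le (fun J => integral_nonneg fun u => norm_nonneg _)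
      (fun J => ?_) ((((hEP K).1 z.re hz).subtype _).mul_left (∫ u, ‖NUnf_G (K := K) e z u‖))
    rw [hH']
    simp only [norm_mul]
    rw [integral_mul_const, integral_add_right_eq_self (fun u => ‖NUnf_G (K := K) e z u‖),
      norm_natCast_cpow_of_pos (Nat.pos_of_ne_zero (mt Ideal.absNorm_eq_zero_iff.1 J.1.2)), neg_re]
    exact mul_le_mul_of_nonneg_left (mul_le_of_le_one_left (by positivity) (hρ2 _))
      (integral_nonneg fun u => norm_nonneg _)
  refine ⟨?_, ?_⟩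
  · have hm : Measurable fun u => (φ u : ℂ) * ThR e ρ u * Complex.exp (z * (hs u : ℝ)) :=
      ((measurable_ofReal.comp hφ.1).mul ((hThB K e he).2 ρ hρ1).1).mul
        (by unfold hs; fun_prop)
    rw [hexp] at hm ⊢
    exact Unf_tsum hFi hFs hm.aestronglyMeasurable
  · have h0 := hasSum_integral_of_summable_integral_norm hFi hFs
    have h2 : ∀ J, HasSum (fun ε : (𝓞 K)ˣ => ∫ u, φ u • H J (u + lg ((ε : 𝓞 K) : K)))
        (∫ u, H J u) := fun J => Unf_fold hφ (hHi J)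
    obtain ⟨I, hI⟩ : ∃ I : ART.UnfP K × (𝓞 K)ˣ → ℂ,
        ∀ J (ε : (𝓞 K)ˣ), ∫ u, φ u • H J (u + lg ((ε : 𝓞 K) : K)) = I (J, ε) :=
      ⟨fun p => ∫ u, φ u • H p.1 (u + lg ((p.2 : 𝓞 K) : K)), fun _ _ => rfl⟩
    simp only [hI] at h0 h2
    have h1 := h0.prod_fiberwise h2
    rw [hexp, ← h1.tsum_eq, Zp, ← (Subtype.val_injective (p := fun J : {J : Ideal (𝓞 K) // J ≠ ⊥}
      => ∃ x, J.1 = Ideal.span {x})).tsum_eq fun J hJ => ?_, ← tsum_mul_left]
    · refine tsum_congr fun J => ?_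
      rw [hH', integral_mul_const, integral_add_right_eq_self (NUnf_G (K := K) e z), NUnf_pi e hz0,
        dif_pos J.2, hg]
    · by_contra h0
      exact hJ (dif_neg fun h2 => h0 ⟨⟨J, h2⟩, rfl⟩)

end TP
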