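import Vale.Agent.P007.NStm

noncomputable section
namespace TP
open Complex MeasureTheory NumberField Filter ART
open Vale.Agent.P007 (Datum X lattice act orbit diagA stab vol IsOrbitMeasure)
open scoped Classical Topology ArithmeticFunction.omega

lemma NUnfP_fold {m : ℕ} (L : Submodule ℤ (Fin m → ℝ)) [Countable L] (P T : Set (Fin m → ℝ))
    (hP : MeasurableSet P) (hT : MeasurableSet T)
    (hinj : ∀ u ∈ P, ∀ u' ∈ P, u - u' ∈ L → u = u') :
    volume {u | u ∈ P ∧ ∃ l ∈ L, u + l ∈ T} ≤ volume T := by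
  have h1 : {u | u ∈ P ∧ ∃ l ∈ L, u + l ∈ T} ⊆
      ⋃ l : L, (fun u => u + l.1) ⁻¹' (((fun u => u - l.1) ⁻¹' P) ∩ T) := by
    rintro u ⟨hu, l, hl, hul⟩
    refine Set.mem_iUnion.2 ⟨⟨l, hl⟩, ?_⟩
    simp [hu, hul]
  have hm : ∀ l : L, MeasurableSet (((fun u => u - l.1) ⁻¹' P) ∩ T) := fun l =>
    (hP.preimage (measurable_id.sub_const _)).inter hT
  refine (measure_mono h1).trans ((measure_iUnion_le _).trans ?_)
  have h2 : ∀ l : L, volume ((fun u => u + l.1) ⁻¹' (((fun u => u - l.1) ⁻¹' P) ∩ T))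
      = volume (((fun u => u - l.1) ⁻¹' P) ∩ T) := fun l => measure_preimage_add_right _ _ _
  simp only [h2]
  refine (tsum_meas_le_meas_iUnion_of_disjoint volume hm ?_).trans (measure_mono ?_)
  · intro l l' hll
    refine Set.disjoint_left.2 ?_
    rintro u ⟨hu, -⟩ ⟨hu', -⟩
    apply hll
    have h3 := hinj _ hu _ hu' (by
      have : u - l.1 - (u - l'.1) = l'.1 - l.1 := by abel
      rw [this]
      exact L.sub_mem l'.2 l.2)
    exact Subtype.ext (sub_right_injective h3)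
  · exact Set.iUnion_subset fun l => Set.inter_subset_right

lemma NUnfP_vec {m : ℕ} (w : Fin (m + 1) → ℝ) (u : Fin m → ℝ) (j : Fin (m + 1)) :
    Matrix.vecMul w (diagA u).1 j
      = w j * Real.exp ((Fin.snoc u (-∑ i, u i) : Fin (m + 1) → ℝ) j) := by
  simp [diagA, Matrix.vecMul_diagonal]

lemma NUnfP_snoc_add {m : ℕ} (u l : Fin m → ℝ) (j : Fin (m + 1)) :
    (Fin.snoc (u + l) (-∑ i, (u + l) i) : Fin (m + 1) → ℝ) j
      = (Fin.snoc u (-∑ i, u i) : Fin (m + 1) → ℝ) j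
        + (Fin.snoc l (-∑ i, l i) : Fin (m + 1) → ℝ) j := by
  refine Fin.lastCases ?_ (fun i => ?_) j
  · simp [Finset.sum_add_distrib, add_comm]
  · simp

lemma NUnfP_prod {m : ℕ} (w : Fin (m + 1) → ℝ) (u : Fin m → ℝ) :
    ∏ j, Matrix.vecMul w (diagA u).1 j = ∏ j, w j := by
  simp only [NUnfP_vec]
  rw [Finset.prod_mul_distrib, ← Real.exp_sum, Fin.sum_univ_castSucc]
  simp

lemma NUnfP_open {m : ℕ} (w : Fin (m + 1) → ℝ) (B : ℝ) :
    IsOpen {u : Fin m → ℝ | ‖Matrix.vecMul w (diagA u).1‖ < B} := by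
  refine isOpen_lt (Continuous.norm (continuous_pi fun j => ?_)) continuous_const
  simp only [NUnfP_vec]
  refine Fin.lastCases ?_ (fun i => ?_) j
  · simp only [Fin.snoc_last]
    fun_prop
  · simp only [Fin.snoc_castSucc]
    fun_prop

lemma NUnfP_exp {m : ℕ} (t : Fin (m + 1) → ℝ) (ht : ∀ j, 0 < t j) (hp : ∏ j, t j = 1)
    (j : Fin (m + 1)) :
    Real.exp ((Fin.snoc (fun i : Fin m => Real.log (t i.castSucc))
      (-∑ i : Fin m, Real.log (t i.castSucc)) : Fin (m + 1) → ℝ) j) = t j := by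
  refine Fin.lastCases ?_ (fun i => ?_) j
  · simp only [Fin.snoc_last]
    rw [Real.exp_neg, Real.exp_sum]
    simp only [Real.exp_log (ht _)]
    rw [Fin.prod_univ_castSucc] at hp
    exact (eq_inv_of_mul_eq_one_right hp).symm
  · simp only [Fin.snoc_castSucc]
    exact Real.exp_log (ht _)

lemma NUnfP_embed {n : ℕ} (D : Datum n) (I : Submodule ℤ D.K) (v : Fin n → ℝ)
    (hv : v ∈ D.embed I) : ∃ y ∈ I, v = fun j => D.σ j y := by
  unfold Datum.embed at hv
  induction hv using Submodule.span_induction with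
  | mem x hx =>
    obtain ⟨y, hy, rfl⟩ := hx
    exact ⟨y, hy, rfl⟩
  | zero => exact ⟨0, I.zero_mem, by ext j; simp⟩
  | add x y _ _ hx hy =>
    obtain ⟨a, ha, rfl⟩ := hx
    obtain ⟨b, hb, rfl⟩ := hy
    exact ⟨a + b, I.add_mem ha hb, by ext j; simp⟩
  | smul a x _ hx =>
    obtain ⟨b, hb, rfl⟩ := hx
    exact ⟨a • b, I.smul_mem a hb, by ext j; simp⟩

lemma NUnfP_mem_sm {n : ℕ} (D : Datum n) (a : D.K) (I : Submodule ℤ D.K) (x : D.K) :
    x ∈ sm D a I ↔ ∃ y ∈ I, a * y = x := by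
  simp [sm]

/-- Two generators of the same multiple of an invertible ideal differ by an element of the order. -/
lemma NUnfP_quot (hOrdA : OrdA) {n : ℕ} (D : Datum n) (I J : Submodule ℤ D.K)
    (hIJ : I * J = oo D) (v v0 : D.K) (hv0 : v0 ≠ 0) (h : sm D v J = sm D v0 J) :
    v / v0 ∈ D.O := by
  obtain ⟨-, -, -, -, -, -, -, -, -, -, -, h12, -⟩ := hOrdA n D
  have h1 : sm D v (oo D) = sm D v0 (oo D) := by
    rw [← hIJ, mul_comm I J, ← h12, ← h12, h]
  have h2 : v ∈ sm D v (oo D) := (NUnfP_mem_sm D _ _ _).2 ⟨1, D.O.one_mem, mul_one v⟩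
  rw [h1, NUnfP_mem_sm] at h2
  obtain ⟨y, hy, rfl⟩ := h2
  rw [mul_div_cancel_left₀ _ hv0]
  exact hy

lemma NUnfP_unit {n : ℕ} (D : Datum n) (a : D.K) (ha : a ≠ 0) (h1 : a ∈ D.O) (h2 : a⁻¹ ∈ D.O) :
    ∃ e ∈ UO D, ((e : 𝓞 D.K) : D.K) = a := by
  let x : 𝓞 D.K := ⟨a, D.integral a h1⟩
  let y : 𝓞 D.K := ⟨a⁻¹, D.integral _ h2⟩
  have hxy : x * y = 1 := by
    apply RingOfIntegers.ext
    change a * a⁻¹ = 1
    exact mul_inv_cancel₀ ha
  refine ⟨⟨x, y, hxy, by rw [mul_comm, hxy]⟩, ⟨h1, h2⟩, rfl⟩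

theorem s_UnfP (hLatA : LatA) (hOrdA : OrdA) (hCovI : CovI) (hOrb1 : Orb1)
    (hLatU : LatU) (hOrbM : OrbM) (hVolB : VolB) :
    UnfP := by
  intro m B
  obtain ⟨C, hC, hV⟩ := hVolB m B
  refine ⟨2 ^ (m + 1) * C, by positivity, ?_⟩
  intro D I J w ν s ε hI hJ hIJ hw hν
  obtain ⟨⟨x0, hx0⟩, horb, hstab⟩ := (hOrb1 m D).1 I w hI hw
  obtain ⟨L, _, _, hL, -⟩ := hLatU m D
  have hfix : ∀ u, act (diagA u) x0 = x0 ↔ u ∈ L := fun u => by
    rw [hstab x0 hx0 u, ← hL]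
    rfl
  obtain ⟨-, hvol, -, P, hP, hinj, hmeas⟩ := hOrbM m x0 L hfix
  obtain ⟨-, hact, -, hopen⟩ := hLatA (m + 1)
  obtain ⟨hc, hcov⟩ := hCovI (m + 1) D I J hI hJ hIJ
  rw [horb x0 hx0] at hν ⊢
  rw [hvol, hmeas ν hν _ (hopen B s ε).measurableSet]
  obtain ⟨u0, hu0, hlat⟩ := hx0
  set c := ZLattice.covolume (D.embed I) with hcdef
  let W : D.K → Fin (m + 1) → ℝ := fun v j =>
    c ^ (-(1 : ℝ) / ((m + 1 : ℕ) : ℝ)) * D.σ j v * w j * Real.exp (u0 j)
  have hWne : ∀ v : D.K, v ≠ 0 → ∀ j, W v j ≠ 0 := by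
    intro v hv j
    have h1 : w j ≠ 0 := by rcases hw j with h | h <;> rw [h] <;> norm_num
    have h2 : D.σ j v ≠ 0 := (map_ne_zero _).2 hv
    have h3 : c ^ (-(1 : ℝ) / ((m + 1 : ℕ) : ℝ)) ≠ 0 := (Real.rpow_pos_of_pos hc _).ne'
    exact mul_ne_zero (mul_ne_zero (mul_ne_zero h3 h2) h1) (Real.exp_ne_zero _)
  have hWp : ∀ v : D.K, |∏ j, W v j| = |∏ j, D.σ j v| / c := by
    intro v
    have h1 : |∏ j, w j| = 1 := by
      rw [Finset.abs_prod]
      refine Finset.prod_eq_one fun j _ => ?_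
      rcases hw j with h | h <;> rw [h] <;> norm_num
    have h2 : (c ^ (-(1 : ℝ) / ((m + 1 : ℕ) : ℝ))) ^ (m + 1) = c⁻¹ := by
      rw [← Real.rpow_natCast, ← Real.rpow_mul hc.le, div_mul_cancel₀ _ (by positivity),
        Real.rpow_neg_one]
    simp only [W]
    rw [Finset.prod_mul_distrib, Finset.prod_mul_distrib, Finset.prod_mul_distrib, ← Real.exp_sum,
      hu0, Real.exp_zero, mul_one, Finset.prod_const, Finset.card_univ, Fintype.card_fin, h2,
      abs_mul, abs_mul, h1, mul_one, abs_of_pos (inv_pos.2 hc), div_eq_inv_mul]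
  let S := {b // b ∈ BB D ∧ ∃ v : D.K, v ≠ 0 ∧ b = sm D v J}
  have : Countable D.K := Finsupp.Countable.of_moduleFinite (R := ℚ)
  have : Countable S := by
    have : {b | b ∈ BB D ∧ ∃ v : D.K, v ≠ 0 ∧ b = sm D v J}.Countable :=
      (Set.countable_range fun v : D.K => sm D v J).mono fun b hb => by
        obtain ⟨-, v, -, rfl⟩ := hb
        exact ⟨v, rfl⟩
    exact this.to_subtype
  have : Countable L := Finsupp.Countable.of_moduleFinite (R := ℤ)
  let nv : S → ℝ := fun b => Ideal.absNorm (up D b.1) / yy D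
  let A : S → (Fin (m + 1) → Bool) → Set (Fin m → ℝ) := fun b g =>
    {u | u ∈ P ∧ |nv b - s| < ε ∧ ∃ v ∈ I, v ≠ 0 ∧ b.1 = sm D v J ∧
      (∀ j, (0 < D.σ j v ↔ g j = true)) ∧ ‖Matrix.vecMul (W v) (diagA u).1‖ < B}
  have hsub : {u ∈ P | act (diagA u) x0 ∈ thinSet (m + 1) B s ε} ⊆ ⋃ b, ⋃ g, A b g := by
    rintro u ⟨huP, w', hw', hw0, hwB, hws⟩
    have h1 : w' ∈ (lattice (act (diagA u) x0) : Set (Fin (m + 1) → ℝ)) := hw'
    rw [hact, hlat] at h1
    obtain ⟨_, ⟨y, hy, rfl⟩, rfl⟩ := h1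
    obtain ⟨v, hv, rfl⟩ := NUnfP_embed D I y hy
    have hv0 : v ≠ 0 := by
      rintro rfl
      apply hw0
      ext j
      simp [NUnfP_vec]
    obtain ⟨hb, hn⟩ := hcov v hv hv0
    refine Set.mem_iUnion.2 ⟨⟨sm D v J, hb, v, hv0, rfl⟩,
      Set.mem_iUnion.2 ⟨fun j => decide (0 < D.σ j v), huP, ?_, v, hv, hv0, rfl, by simp, hwB⟩⟩
    have h2 : |∏ j, Matrix.vecMul (W v) (diagA u).1 j| = Ideal.absNorm (up D (sm D v J)) / yy D := by
      rw [NUnfP_prod, hWp, hn]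
    simp only [nv]
    rw [← h2]
    exact hws
  have hA : ∀ b g, volume (A b g)
      ≤ ENNReal.ofReal C * ENNReal.ofReal (gW (B ^ (m + 1)) s ε (nv b)) := by
    intro b g
    rcases (A b g).eq_empty_or_nonempty with h | ⟨u1, -, hwin, v0, hv0, hv00, hb0, hg0, -⟩
    · rw [h]
      simp
    have hn0 : |∏ j, W v0 j| = nv b := by
      rw [hWp, (hcov v0 hv0 hv00).2, ← hb0]
    have h1 : A b g ⊆ {u | u ∈ P ∧ ∃ l ∈ L,
        u + l ∈ {u : Fin m → ℝ | ‖Matrix.vecMul (W v0) (diagA u).1‖ < B}} := by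
      rintro u ⟨huP, -, v, hv, hv1, hb, hg, hB⟩
      have hq1 : v / v0 ∈ D.O := NUnfP_quot hOrdA D I J hIJ v v0 hv00 (hb.symm.trans hb0)
      have hq2 : (v / v0)⁻¹ ∈ D.O := by
        rw [inv_div]
        exact NUnfP_quot hOrdA D I J hIJ v0 v hv1 (hb0.symm.trans hb)
      obtain ⟨e, he, hev⟩ := NUnfP_unit D (v / v0) (div_ne_zero hv1 hv00) hq1 hq2
      have hs0 : ∀ j, D.σ j v0 ≠ 0 := fun j => (map_ne_zero _).2 hv00
      have hpos : ∀ j, 0 < D.σ j (v / v0) := by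
        intro j
        rw [map_div₀]
        have h2 : D.σ j v ≠ 0 := (map_ne_zero _).2 hv1
        have h3 : 0 < D.σ j v ↔ 0 < D.σ j v0 := (hg j).trans (hg0 j).symm
        by_cases h4 : 0 < D.σ j v0
        · exact div_pos (h3.2 h4) h4
        · exact div_pos_of_neg_of_neg
            (lt_of_le_of_ne (not_lt.1 fun h => h4 (h3.1 h)) h2)
            (lt_of_le_of_ne (not_lt.1 h4) (hs0 j))
      have hprod : ∏ j, D.σ j (v / v0) = 1 := by
        have h2 : |∏ j, D.σ j v| = |∏ j, D.σ j v0| := by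
          have h3 := (hcov v hv hv1).2
          have h4 := (hcov v0 hv0 hv00).2
          rw [← hb] at h3
          rw [← hb0, ← h3] at h4
          exact ((div_left_inj' hc.ne').1 h4).symm
        rw [← abs_of_pos (Finset.prod_pos fun j _ => hpos j)]
        simp only [map_div₀]
        rw [Finset.prod_div_distrib, abs_div, h2, div_self]
        exact abs_ne_zero.2 (Finset.prod_ne_zero_iff.2 fun j _ => hs0 j)
      refine ⟨huP, fun i : Fin m => Real.log (D.σ i.castSucc (v / v0)), ?_, ?_⟩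
      · rw [← SetLike.mem_coe, hL]
        exact ⟨e, he, by rw [hev]; exact hpos, fun j => by rw [hev]⟩
      · have h2 : Matrix.vecMul (W v0) (diagA (u + fun i : Fin m =>
            Real.log (D.σ i.castSucc (v / v0)))).1 = Matrix.vecMul (W v) (diagA u).1 := by
          ext j
          rw [NUnfP_vec, NUnfP_vec, NUnfP_snoc_add, Real.exp_add,
            NUnfP_exp (fun j => D.σ j (v / v0)) hpos hprod j, map_div₀]
          have := hs0 j
          simp only [W]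
          field_simp
        change ‖_‖ < B
        rw [h2]
        exact hB
    refine (measure_mono h1).trans ((NUnfP_fold L P _ hP (NUnfP_open _ B).measurableSet hinj).trans
      ((hV _ (hWne v0 hv00)).trans ?_))
    rw [hn0, ← ENNReal.ofReal_mul hC.le]
    apply le_of_eq
    congr 1
    unfold gW
    by_cases h2 : nv b ≤ B ^ (m + 1)
    · rw [if_pos h2, if_pos ⟨hwin, h2⟩]
    · rw [if_neg h2, if_neg fun h => h2 h.2, mul_zero]
  refine (measure_mono hsub).trans ((measure_iUnion_le _).trans ?_)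
  rw [← ENNReal.tsum_mul_left]
  refine ENNReal.tsum_le_tsum fun b => (measure_iUnion_le _).trans ?_
  refine (ENNReal.tsum_le_tsum (hA b)).trans (le_of_eq ?_)
  rw [tsum_fintype, Finset.sum_const, Finset.card_univ, Fintype.card_fun, Fintype.card_bool,
    Fintype.card_fin, nsmul_eq_mul, ENNReal.ofReal_mul (by positivity), mul_assoc,
    ENNReal.ofReal_pow (by norm_num)]
  simp [nv]

end TP
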