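import Vale.Agent.P007.NStm

noncomputable section
namespace TP
open Complex MeasureTheory NumberField Filter ART
open Vale.Agent.P007 (Datum X lattice act orbit diagA stab vol IsOrbitMeasure)
open scoped Classical Topology ArithmeticFunction.omega

theorem NVol_coord {m : ℕ} {B : ℝ} {w : Fin (m + 1) → ℝ} (hw : ∀ j, w j ≠ 0) {u : Fin m → ℝ}
    (hu : ‖Matrix.vecMul w (diagA u).1‖ < B) : 0 < B ∧ ∀ j,
      (Fin.snoc u (-∑ i, u i) : Fin (m + 1) → ℝ) j < Real.log B - Real.log |w j| := by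
  have hB : 0 < B := (norm_nonneg _).trans_lt hu
  refine ⟨hB, fun j => ?_⟩
  have h1 := (norm_le_pi_norm _ j).trans_lt hu
  have h2 : Matrix.vecMul w (diagA u).1 j
      = w j * Real.exp ((Fin.snoc u (-∑ i, u i) : Fin (m + 1) → ℝ) j) := by
    simp [diagA, Matrix.vecMul_diagonal]
  rw [h2, Real.norm_eq_abs, abs_mul, abs_of_pos (Real.exp_pos _)] at h1
  have h3 : 0 < |w j| := abs_pos.2 (hw j)
  have h4 := Real.log_lt_log (mul_pos h3 (Real.exp_pos _)) h1
  rw [Real.log_mul h3.ne' (Real.exp_pos _).ne', Real.log_exp] at h4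
  linarith

theorem NVol_sum {m : ℕ} (u : Fin m → ℝ) :
    ∑ j, (Fin.snoc u (-∑ i, u i) : Fin (m + 1) → ℝ) j = 0 := by
  rw [Fin.sum_univ_castSucc]
  simp

theorem s_VolB : VolB := by
  intro m B
  refine ⟨2 ^ m * m.factorial * (|B| ^ (m + 1)) ^ (1 / 2 : ℝ) + 1, by positivity, fun w hw => ?_⟩
  rcases Set.eq_empty_or_nonempty {u : Fin m → ℝ | ‖Matrix.vecMul w (diagA u).1‖ < B} with h | h
  · rw [h]; simp
  obtain ⟨u0, hu0⟩ := h
  obtain ⟨hB, h0⟩ := NVol_coord hw hu0
  set b : Fin (m + 1) → ℝ := fun j => Real.log B - Real.log |w j| with hb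
  set L : ℝ := ∑ j, b j with hL
  have hP : 0 < |∏ j, w j| := abs_pos.2 (Finset.prod_ne_zero_iff.2 fun j _ => hw j)
  have hBm : 0 < B ^ (m + 1) := pow_pos hB _
  have hL1 : L = Real.log (B ^ (m + 1)) - Real.log |∏ j, w j| := by
    rw [hL, hb, Finset.sum_sub_distrib, Finset.abs_prod,
      Real.log_prod fun j _ => (abs_pos.2 (hw j)).ne']
    simp
  have hL0 : 0 ≤ L := by
    rw [← NVol_sum u0]
    exact Finset.sum_le_sum fun j _ => (h0 j).le
  have hle : |∏ j, w j| ≤ B ^ (m + 1) := by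
    rw [← Real.log_le_log_iff hP hBm]; linarith
  rw [if_pos hle]
  have hsub : {u : Fin m → ℝ | ‖Matrix.vecMul w (diagA u).1‖ < B}
      ⊆ Set.Icc (fun j => b j.castSucc - L) (fun j => b j.castSucc) := by
    intro u hu
    obtain ⟨-, h1⟩ := NVol_coord hw hu
    refine ⟨fun j => ?_, fun j => ?_⟩
    · have h2 : ∑ i, (b i - (Fin.snoc u (-∑ i, u i) : Fin (m + 1) → ℝ) i) = L := by
        rw [Finset.sum_sub_distrib, NVol_sum, sub_zero]
      have h3 := Finset.single_le_sum (f := fun i =>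
        b i - (Fin.snoc u (-∑ i, u i) : Fin (m + 1) → ℝ) i)
        (fun i _ => sub_nonneg.2 (h1 i).le) (Finset.mem_univ j.castSucc)
      rw [h2] at h3
      simp only [Fin.snoc_castSucc] at h3
      show b j.castSucc - L ≤ u j
      linarith
    · have := (h1 j.castSucc).le
      simpa only [Fin.snoc_castSucc] using this
  refine (measure_mono hsub).trans ?_
  rw [Real.volume_Icc_pi]
  simp only [sub_sub_cancel, Finset.prod_const, Finset.card_univ, Fintype.card_fin]
  rw [← ENNReal.ofReal_pow hL0]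
  refine ENNReal.ofReal_le_ofReal ?_
  have h1 := Real.pow_div_factorial_le_exp (L / 2) (by linarith) m
  have hf : (0 : ℝ) < m.factorial := by exact_mod_cast m.factorial_pos
  rw [div_le_iff₀ hf, div_pow, div_le_iff₀ (by positivity)] at h1
  have h2 : Real.exp (L / 2) = (B ^ (m + 1)) ^ (1 / 2 : ℝ) * |∏ j, w j| ^ (-(1 / 2) : ℝ) := by
    rw [Real.rpow_def_of_pos hBm, Real.rpow_def_of_pos hP, ← Real.exp_add, hL1]
    congr 1
    ring
  have h3 : 0 < |∏ j, w j| ^ (-(1 / 2) : ℝ) := Real.rpow_pos_of_pos hP _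
  rw [abs_of_pos hB]
  rw [h2] at h1
  nlinarith

end TP
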