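import Vale.Agent.P007.NStm

noncomputable section
namespace TP
open Complex MeasureTheory NumberField Filter ART
open Vale.Agent.P007 (Datum X lattice act orbit diagA stab vol IsOrbitMeasure)
open scoped Classical Topology ArithmeticFunction.omega

theorem NWin_kt {τ c x : ℝ} (hτ : 0 < τ) (h : Real.log x ^ 2 ≤ 4 * c * τ ^ 2) :
    1 ≤ Real.exp c * kt τ x := by
  rw [kt, ← Real.exp_add]
  refine Real.one_le_exp ?_
  have : Real.log x ^ 2 / (4 * τ ^ 2) ≤ c := by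
    rw [div_le_iff₀ (by positivity)]; linarith
  rw [neg_div]; linarith

theorem NWin_kt_pos (τ x : ℝ) : 0 < kt τ x := Real.exp_pos _

theorem NWin_rpow {v a : ℝ} (hv : 0 < v) (ha : 0 < a) (h : 1 ≤ a ^ 2 * v) :
    v ^ (-(1 / 2) : ℝ) ≤ a := by
  rw [Real.rpow_neg hv.le, ← Real.sqrt_eq_rpow, inv_le_comm₀ (Real.sqrt_pos.2 hv) ha]
  refine Real.le_sqrt_of_sq_le ?_
  rw [inv_pow, inv_le_iff_one_le_mul₀' (by positivity)]
  exact h

theorem NWin_A {b s r v : ℝ} (hr : 0 < r) (hr1 : r ≤ 1) (hs : 2 * r ^ 2 ≤ s) :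
    gW b s (r ^ 4) v ≤ Real.exp 1 * r⁻¹ * kt (r ^ 4 / s) (v / s) := by
  have hs0 : 0 < s := lt_of_lt_of_le (by positivity) hs
  have h4 : r ^ 4 ≤ r ^ 2 := pow_le_pow_of_le_one hr.le hr1 (by norm_num)
  have hk := NWin_kt_pos (r ^ 4 / s) (v / s)
  rw [gW]
  split_ifs with h
  · obtain ⟨h1, h2⟩ := abs_lt.1 h.1
    have hv : s / 2 ≤ v := by linarith
    have hv0 : 0 < v := by linarith
    have a1 : v ^ (-(1 / 2) : ℝ) ≤ r⁻¹ := by
      refine NWin_rpow hv0 (by positivity) ?_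
      rw [inv_pow, inv_mul_eq_div, le_div_iff₀ (by positivity)]
      linarith
    have l1 : Real.log (v / s) ≤ 2 * (r ^ 4 / s) := by
      refine (Real.log_le_sub_one_of_pos (by positivity)).trans ?_
      rw [div_sub_one hs0.ne', ← mul_div_assoc]
      exact div_le_div_of_nonneg_right (by nlinarith [pow_pos hr 4]) hs0.le
    have l2 : -(2 * (r ^ 4 / s)) ≤ Real.log (v / s) := by
      have e : Real.log (v / s) = -Real.log (s / v) := by
        rw [← Real.log_inv, inv_div]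
      rw [e, neg_le_neg_iff]
      refine (Real.log_le_sub_one_of_pos (by positivity)).trans ?_
      rw [div_sub_one hv0.ne', ← mul_div_assoc, div_le_div_iff₀ hv0 hs0]
      nlinarith [pow_pos hr 4]
    have a2 : 1 ≤ Real.exp 1 * kt (r ^ 4 / s) (v / s) :=
      NWin_kt (by positivity) (by nlinarith [sq_le_sq' l2 l1])
    calc v ^ (-(1 / 2) : ℝ) ≤ r⁻¹ * 1 := by rw [mul_one]; exact a1
      _ ≤ r⁻¹ * (Real.exp 1 * kt (r ^ 4 / s) (v / s)) := by gcongr
      _ = _ := by ring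
  · positivity

theorem NWin_B {r v : ℝ} (hr : 0 < r) (hv : 0 < v) (h : v < 4 * r ^ 2) : ∃ j : ℕ,
    v ^ (-(1 / 2) : ℝ) ≤ Real.exp 3 * (2 * 4 ^ j / r) * kt 1 (v / (4 * r ^ 2 / 16 ^ j)) := by
  obtain ⟨j, h1, h2⟩ := exists_nat_pow_near (x := 4 * r ^ 2 / v) (y := 16)
    (by rw [le_div_iff₀ hv]; linarith) (by norm_num)
  refine ⟨j, ?_⟩
  rw [le_div_iff₀ hv] at h1
  rw [div_lt_iff₀ hv, pow_succ (16 : ℝ)] at h2
  have e : (16 : ℝ) ^ j = (4 ^ j) ^ 2 := by rw [← pow_mul, mul_comm, pow_mul]; norm_num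
  have a1 : v ^ (-(1 / 2) : ℝ) ≤ 2 * 4 ^ j / r := by
    refine NWin_rpow hv (by positivity) ?_
    rw [div_pow, mul_pow, ← e, div_mul_eq_mul_div, le_div_iff₀ (by positivity)]
    linarith
  set x := v / (4 * r ^ 2 / 16 ^ j) with hx
  have hx0 : 0 < x := by positivity
  have x1 : x ≤ 1 := by
    rw [hx, div_le_one (by positivity), le_div_iff₀ (by positivity)]; linarith
  have x2 : x⁻¹ ≤ 16 := by
    rw [hx, inv_div, div_le_iff₀ hv, div_le_iff₀ (by positivity)]; linarith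
  have l1 : Real.log x ≤ 3 := (Real.log_nonpos hx0.le x1).trans (by norm_num)
  have l2 : -3 ≤ Real.log x := by
    have h3 : Real.log x⁻¹ ≤ Real.log (2 ^ 4) := Real.log_le_log (by positivity) (by linarith)
    rw [Real.log_inv, Real.log_pow] at h3
    have := Real.log_two_lt_d9
    push_cast at h3
    linarith
  have a2 : 1 ≤ Real.exp 3 * kt 1 x := NWin_kt one_pos (by nlinarith [sq_le_sq' l2 l1])
  calc v ^ (-(1 / 2) : ℝ) ≤ 2 * 4 ^ j / r * 1 := by rw [mul_one]; exact a1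
    _ ≤ 2 * 4 ^ j / r * (Real.exp 3 * kt 1 x) := by gcongr
    _ = _ := by ring

theorem NWin_ct_pos : 0 < ct 1 := by
  have := Real.pi_pos
  unfold ct; positivity

theorem NWin_ct {τ : ℝ} (h0 : 0 < τ) (h1 : τ ≤ 1) : ct τ ≤ ct 1 * τ := by
  have h : Real.exp (τ ^ 2) ≤ Real.exp (1 ^ 2) := Real.exp_le_exp.2 (by nlinarith)
  calc ct τ ≤ 2 * √Real.pi * τ * Real.exp (1 ^ 2) := by unfold ct; gcongr
    _ = ct 1 * τ := by unfold ct; ring

theorem NWin_pow {a σ : ℝ} (ha : 0 < a) (hσ : 3 / 4 ≤ σ) (j : ℕ) :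
    (a / 16 ^ j) ^ σ ≤ a ^ σ / 8 ^ j := by
  rw [Real.div_rpow ha.le (by positivity)]
  refine div_le_div_of_nonneg_left (by positivity) (by positivity) ?_
  have e : (8 : ℝ) ^ j = ((16 : ℝ) ^ j) ^ (3 / 4 : ℝ) := by
    rw [show (16 : ℝ) = 2 ^ 4 by norm_num, show (8 : ℝ) = 2 ^ 3 by norm_num, ← pow_mul, ← pow_mul,
      ← Real.rpow_natCast, ← Real.rpow_natCast, ← Real.rpow_mul (by norm_num)]
    congr 1
    push_cast
    ring
  rw [e]
  exact Real.rpow_le_rpow_of_exponent_le (one_le_pow₀ (by norm_num)) hσ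

theorem NWin_geo (J : ℕ) : ∑ j ∈ Finset.range J, (1 / 2 : ℝ) ^ j ≤ 2 :=
  sum_geometric_two_le J

theorem s_Win (hOrdA : OrdA) (hCnt2 : Cnt2) : Win := by
  intro n hn
  have hc := NWin_ct_pos
  refine ⟨16 * Real.exp 3 * ct 1, by positivity, fun b s ε η hs hε hε1 hη => ?_⟩
  obtain ⟨r, hr, hr1, e1, rfl⟩ : ∃ r : ℝ, 0 < r ∧ r ≤ 1 ∧ ε ^ (1 / 4 : ℝ) = r ∧ ε = r ^ 4 :=
    ⟨ε ^ (1 / 4 : ℝ), by positivity, Real.rpow_le_one hε.le hε1 (by norm_num), rfl, by
      rw [← Real.rpow_natCast, ← Real.rpow_mul hε.le]; norm_num⟩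
  rw [e1]
  set σ : ℝ := 1 - 1 / (200 * n) with hσ
  have hσ1 : 3 / 4 ≤ σ := by
    have h1 : (1 : ℝ) ≤ n := by exact_mod_cast hn
    have h2 : 1 / (200 * (n : ℝ)) ≤ 1 / 200 :=
      one_div_le_one_div_of_le (by norm_num) (by linarith)
    linarith
  have hR : ∀ D : Datum n,
      (0 : ℝ) ≤ phiK D.K (ix D) * (dedekindZeta_residue D.K * √(dc D.K : ℝ)) := fun D => by
    have := dedekindZeta_residue_pos D.K
    positivity
  have h4 : r ^ 4 ≤ r ^ 2 := pow_le_pow_of_le_one hr.le hr1 (by norm_num)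
  have he : Real.exp 1 ≤ Real.exp 3 := Real.exp_le_exp.2 (by norm_num)
  rcases le_or_gt (2 * r ^ 2) s with h | h
  · have hs0 : 0 < s := lt_of_lt_of_le (by positivity) h
    have hτ : r ^ 4 / s ≤ 1 := by rw [div_le_one hs0]; nlinarith [pow_pos hr 2]
    obtain ⟨D0, hD⟩ := hCnt2 n (r ^ 4 / s) hn (by positivity) hτ
      (η / (Real.exp 1 * r⁻¹ * s ^ σ)) (by positivity)
    refine ⟨D0, fun D hD0 F hF => ?_⟩
    have h1 := hD D hD0 s F hs0 hF
    have h2 : ∑ I ∈ F, gW b s (r ^ 4) (Ideal.absNorm (up D I) / yy D) ≤ Real.exp 1 * r⁻¹ *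
        ∑ I ∈ F, kt (r ^ 4 / s) (Ideal.absNorm (up D I) / yy D / s) := by
      rw [Finset.mul_sum]
      exact Finset.sum_le_sum fun I _ => NWin_A hr hr1 h
    have h3 : Real.exp 1 * r⁻¹ * (ct (r ^ 4 / s) * s + η / (Real.exp 1 * r⁻¹ * s ^ σ) * s ^ σ)
        ≤ 16 * Real.exp 3 * ct 1 * r + η := by
      have a1 : Real.exp 1 * r⁻¹ * (η / (Real.exp 1 * r⁻¹ * s ^ σ) * s ^ σ) = η := by
        field_simp
      have a2 : ct (r ^ 4 / s) * s ≤ ct 1 * r ^ 2 := by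
        calc ct (r ^ 4 / s) * s ≤ ct 1 * (r ^ 4 / s) * s := by
              gcongr; exact NWin_ct (by positivity) hτ
          _ = ct 1 * r ^ 4 := by field_simp
          _ ≤ ct 1 * r ^ 2 := by gcongr
      have a3 : Real.exp 1 * r⁻¹ * (ct (r ^ 4 / s) * s) ≤ 16 * Real.exp 3 * ct 1 * r := by
        calc Real.exp 1 * r⁻¹ * (ct (r ^ 4 / s) * s) ≤ Real.exp 1 * r⁻¹ * (ct 1 * r ^ 2) := by
              gcongr
          _ = 1 * Real.exp 1 * ct 1 * r := by field_simp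
          _ ≤ 16 * Real.exp 3 * ct 1 * r := by gcongr; norm_num
      rw [mul_add, a1]
      linarith
    calc _ ≤ (Real.exp 1 * r⁻¹ *
          ∑ I ∈ F, kt (r ^ 4 / s) (Ideal.absNorm (up D I) / yy D / s)) * phiO D := by gcongr
      _ ≤ Real.exp 1 * r⁻¹ * (phiK D.K (ix D) * (dedekindZeta_residue D.K * √(dc D.K : ℝ)) *
          (ct (r ^ 4 / s) * s + η / (Real.exp 1 * r⁻¹ * s ^ σ) * s ^ σ)) := by
          rw [mul_assoc]; gcongr
      _ = phiK D.K (ix D) * (dedekindZeta_residue D.K * √(dc D.K : ℝ)) * (Real.exp 1 * r⁻¹ *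
          (ct (r ^ 4 / s) * s + η / (Real.exp 1 * r⁻¹ * s ^ σ) * s ^ σ)) := by ring
      _ ≤ _ := mul_le_mul_of_nonneg_left h3 (hR D)
  · set η' := η / (4 * Real.exp 3 / r * (4 * r ^ 2) ^ σ) with hη'
    have hη0 : 0 < η' := by positivity
    obtain ⟨D0, hD⟩ := hCnt2 n 1 hn one_pos le_rfl η' hη0
    refine ⟨max D0 1, fun D hD0 F hF => ?_⟩
    have hy : 0 < yy D := by
      have : 0 < D.absDisc := lt_of_lt_of_le one_pos ((le_max_right _ _).trans hD0)
      exact Real.sqrt_pos.2 (by exact_mod_cast this)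
    have hv : ∀ I ∈ F, (0 : ℝ) < Ideal.absNorm (up D I) / yy D := fun I hI => by
      have h1 := (hOrdA n D).2.2.2.2.2.2.2.2.2.2.2.2.2.2.1 I (hF I hI)
      have h2 : 0 < Ideal.absNorm (up D I) :=
        Nat.pos_of_ne_zero fun h0 => h1 (Ideal.absNorm_eq_zero_iff.1 h0)
      exact div_pos (by exact_mod_cast h2) hy
    have hj : ∀ I ∈ F, ∃ j : ℕ, gW b s (r ^ 4) (Ideal.absNorm (up D I) / yy D) ≤
        Real.exp 3 * (2 * 4 ^ j / r) *
          kt 1 (Ideal.absNorm (up D I) / yy D / (4 * r ^ 2 / 16 ^ j)) := fun I hI => by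
      rw [gW]
      split_ifs with h1
      · exact NWin_B hr (hv I hI) (by nlinarith [(abs_lt.1 h1.1).2, pow_pos hr 2])
      · have := NWin_kt_pos 1 (Ideal.absNorm (up D I) / yy D / (4 * r ^ 2 / 16 ^ 0))
        exact ⟨0, by positivity⟩
    choose! j hj using hj
    have h2 : ∑ I ∈ F, gW b s (r ^ 4) (Ideal.absNorm (up D I) / yy D) ≤
        ∑ i ∈ Finset.range (F.sup j + 1), Real.exp 3 * (2 * 4 ^ i / r) *
          ∑ I ∈ F, kt 1 (Ideal.absNorm (up D I) / yy D / (4 * r ^ 2 / 16 ^ i)) := by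
      simp_rw [Finset.mul_sum]
      rw [Finset.sum_comm]
      refine Finset.sum_le_sum fun I hI => (hj I hI).trans ?_
      refine Finset.single_le_sum (f := fun i : ℕ => Real.exp 3 * (2 * 4 ^ i / r) *
        kt 1 (Ideal.absNorm (up D I) / yy D / (4 * r ^ 2 / 16 ^ i))) (fun i _ => ?_)
        (Finset.mem_range.2 (Nat.lt_succ_of_le (Finset.le_sup hI)))
      have := NWin_kt_pos 1 (Ideal.absNorm (up D I) / yy D / (4 * r ^ 2 / 16 ^ i))
      positivity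
    have h3 : ∀ i : ℕ, Real.exp 3 * (2 * 4 ^ i / r) *
        (ct 1 * (4 * r ^ 2 / 16 ^ i) + η' * (4 * r ^ 2 / 16 ^ i) ^ σ) ≤
        (8 * Real.exp 3 * ct 1 * r + η / 2) * (1 / 2) ^ i := fun i => by
      obtain ⟨p, hp, p1, p2, p3, p4⟩ : ∃ p : ℝ, 1 ≤ p ∧ (4 : ℝ) ^ i = p ^ 2 ∧
          (8 : ℝ) ^ i = p ^ 3 ∧ (16 : ℝ) ^ i = p ^ 4 ∧ (1 / 2 : ℝ) ^ i = p⁻¹ :=
        ⟨2 ^ i, one_le_pow₀ (by norm_num), by rw [← pow_mul, mul_comm, pow_mul]; norm_num,
          by rw [← pow_mul, mul_comm, pow_mul]; norm_num,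
          by rw [← pow_mul, mul_comm, pow_mul]; norm_num, by rw [one_div, inv_pow]⟩
      have a0 := NWin_pow (a := 4 * r ^ 2) (by positivity) hσ1 i
      have a1 : Real.exp 3 * (2 * 4 ^ i / r) * (η' * (4 * r ^ 2 / 16 ^ i) ^ σ) ≤
          η / 2 * (1 / 2) ^ i := by
        calc _ ≤ Real.exp 3 * (2 * 4 ^ i / r) * (η' * ((4 * r ^ 2) ^ σ / 8 ^ i)) := by gcongr
          _ = _ := by rw [hη', p1, p2, p4]; field_simp; norm_num
      have a2 : Real.exp 3 * (2 * 4 ^ i / r) * (ct 1 * (4 * r ^ 2 / 16 ^ i)) ≤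
          8 * Real.exp 3 * ct 1 * r * (1 / 2) ^ i := by
        calc _ = 8 * Real.exp 3 * ct 1 * r * (p ^ 2)⁻¹ := by rw [p1, p3]; field_simp; norm_num
          _ ≤ _ := by
            rw [p4]
            gcongr
            nlinarith
      rw [mul_add, add_mul]
      linarith
    calc _ ≤ (∑ i ∈ Finset.range (F.sup j + 1), Real.exp 3 * (2 * 4 ^ i / r) *
          ∑ I ∈ F, kt 1 (Ideal.absNorm (up D I) / yy D / (4 * r ^ 2 / 16 ^ i))) * phiO D := by
          gcongr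
      _ ≤ ∑ i ∈ Finset.range (F.sup j + 1),
          phiK D.K (ix D) * (dedekindZeta_residue D.K * √(dc D.K : ℝ)) *
            ((8 * Real.exp 3 * ct 1 * r + η / 2) * (1 / 2) ^ i) := by
          rw [Finset.sum_mul]
          refine Finset.sum_le_sum fun i _ => ?_
          have h1 := hD D ((le_max_left _ _).trans hD0) (4 * r ^ 2 / 16 ^ i) F (by positivity) hF
          refine le_trans ?_ (mul_le_mul_of_nonneg_left (h3 i) (hR D))
          rw [mul_assoc, mul_left_comm (_ * _ : ℝ) (Real.exp 3 * _)]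
          exact mul_le_mul_of_nonneg_left h1 (by positivity)
      _ ≤ _ := by
          rw [← Finset.mul_sum, ← Finset.mul_sum]
          refine mul_le_mul_of_nonneg_left ?_ (hR D)
          have := mul_le_mul_of_nonneg_left (NWin_geo (F.sup j + 1))
            (show 0 ≤ 8 * Real.exp 3 * ct 1 * r + η / 2 by positivity)
          linarith

end TP
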