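import Vale.Agent.P007.NPhi
import Vale.Agent.P007.NThB
import Vale.Agent.P007.NUnf
import Vale.Agent.P007.NPoisL
import Vale.Agent.P007.NPoisK
import Vale.Agent.P007.NTail
import Vale.Agent.P007.NHZ
import Vale.Agent.P007.NHK
import Vale.Agent.P007.NFZ
import Vale.Agent.P007.NEB
import Vale.Agent.P007.NBnd
import Vale.Agent.P007.NCont
import Vale.Agent.P007.NCnt0
import Vale.Agent.P007.NPhiL
import Vale.Agent.P007.NCnt1
import Vale.Agent.P007.NGA
import Vale.Agent.P007.NOrdA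
import Vale.Agent.P007.NLoc
import Vale.Agent.P007.NCov
import Vale.Agent.P007.NDesc
import Vale.Agent.P007.NM2a
import Vale.Agent.P007.NM2
import Vale.Agent.P007.NKer
import Vale.Agent.P007.NHLow
import Vale.Agent.P007.NCnt2
import Vale.Agent.P007.NWin
import Vale.Agent.P007.NLat
import Vale.Agent.P007.NOrb
import Vale.Agent.P007.NLatU
import Vale.Agent.P007.NOrbM
import Vale.Agent.P007.NVol
import Vale.Agent.P007.NUnfP
import Vale.Agent.P007.NPackA
import Vale.Agent.P007.NPackB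
import Vale.Agent.P007.NMah
import Vale.Agent.P016.EP
import Vale.Agent.P016.Dec
import Vale.Agent.P016.ClsZ
import Vale.Agent.P016.ZF
import Vale.Agent.NQ.Main
import Vale.Agent.NQ.BC

/-! Torus packets: assembly of the number theoretic half. -/

namespace TP
open ART

theorem zetaA : ZetaA := fun F _ _ => NQ.zetaF F
theorem t_PushR : PushR := s_PushR
theorem t_ExPhiR : ExPhiR := s_ExPhiR
theorem t_ThB : ThB := s_ThB
theorem t_UnfR : UnfR := s_UnfR t_ThB ART.eP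
theorem t_PoisLR : PoisLR := s_PoisLR t_ThB
theorem t_PoisKR : PoisKR := s_PoisKR t_PoisLR t_ThB
theorem t_TailR : TailR := s_TailR t_UnfR t_ThB ART.eP zetaA
theorem t_HZR : HZR := s_HZR t_ExPhiR t_PushR t_UnfR t_PoisKR t_TailR
theorem t_HKR : HKR := s_HKR t_HZR (ART.clsZ ART.eP zetaA)
theorem t_FZ : FZ := s_FZ t_HKR (ART.zFree NQ.heckeB NQ.zf) (ART.dec ART.eP) ART.rm3 ART.eP
theorem t_EB : EB := s_EB
theorem t_BND : BND := s_BND NQ.bC
theorem t_ContT : ContT := s_ContT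
theorem t_Cnt0 : Cnt0 := s_Cnt0 t_FZ t_EB t_BND t_ContT zetaA ART.eP
theorem t_PhiL : PhiL := s_PhiL
theorem t_Cnt1 : Cnt1 := s_Cnt1 t_PhiL
theorem t_GA : GA := s_GA
theorem t_OmB : OmB := s_OmB
theorem t_OrdA : OrdA := s_OrdA
theorem t_LocP : LocP := s_LocP t_OrdA
theorem t_Idx : Idx := s_Idx t_OrdA t_LocP
theorem t_CovI : CovI := s_CovI t_OrdA t_Idx
theorem t_Desc : Desc := s_Desc t_OrdA
theorem t_M1 : M1 := s_M1 t_OrdA t_Desc
theorem t_Mov : Mov := s_Mov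
theorem t_M2a : M2a := s_M2a t_OrdA t_LocP
theorem t_M2 : M2 := s_M2 t_OrdA t_M2a t_GA
theorem t_Ker : Ker := s_Ker t_OrdA t_LocP
theorem t_HLow : HLow := s_HLow t_OrdA t_Desc t_Ker t_Mov
theorem t_Cnt2 : Cnt2 := s_Cnt2 t_OrdA t_Cnt0 t_Cnt1 t_PhiL t_OmB t_M1 t_M2 t_Mov
theorem t_Win : Win := s_Win t_OrdA t_Cnt2
theorem t_LatA : LatA := s_LatA
theorem t_Orb1 : Orb1 := s_Orb1 t_LatA t_OrdA t_CovI
theorem t_LatU : LatU := s_LatU t_OrdA
theorem t_OrbM : OrbM := s_OrbM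
theorem t_VolB : VolB := s_VolB
theorem t_UnfP : UnfP := s_UnfP t_LatA t_OrdA t_CovI t_Orb1 t_LatU t_OrbM t_VolB
theorem t_PackA : PackA := s_PackA t_OrdA t_HLow t_Orb1 t_LatU t_OrbM
theorem t_PackB : PackB := s_PackB t_OrdA t_HLow t_Orb1 t_LatU t_OrbM t_PackA t_UnfP t_Win
theorem t_Mahler : Mahler := s_Mahler t_LatA

end TP
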