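import Vale.Agent.P007.NStm

noncomputable section
namespace TP
open Complex MeasureTheory NumberField Filter ART
open Vale.Agent.P007 (Datum X lattice act orbit diagA stab vol IsOrbitMeasure)
open scoped Classical Topology ArithmeticFunction.omega

section
variable {n : ℕ} (D : Datum n)

lemma NOrdA_mem_oo (x : D.K) : x ∈ oo D ↔ x ∈ D.O := Iff.rfl

lemma NOrdA_mem_oK (x : D.K) : x ∈ oK D ↔ IsIntegral ℤ x := Iff.rfl

lemma NOrdA_mem_sm (a x : D.K) (I : Submodule ℤ D.K) : x ∈ sm D a I ↔ ∃ y ∈ I, a * y = x := by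
  simp [sm]

lemma NOrdA_coe_oo : ((oo D : Submodule ℤ D.K) : Set D.K) = D.O := rfl

lemma NOrdA_den (x : D.K) : ∃ c : ℕ, 0 < c ∧ (c : D.K) * x ∈ D.O := by
  have hx : x ∈ Submodule.span ℚ (D.O : Set D.K) := by rw [D.fullRank]; trivial
  induction hx using Submodule.span_induction with
  | mem y hy => exact ⟨1, one_pos, by simpa using hy⟩
  | zero => exact ⟨1, one_pos, by simp⟩
  | add y z _ _ hy hz =>
    obtain ⟨c, hc, hy⟩ := hy
    obtain ⟨d, hd, hz⟩ := hz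
    refine ⟨c * d, Nat.mul_pos hc hd, ?_⟩
    have : ((c * d : ℕ) : D.K) * (y + z) = (d : D.K) * (c * y) + (c : D.K) * (d * z) := by
      push_cast; ring
    rw [this]
    exact D.O.add_mem (D.O.mul_mem (natCast_mem _ _) hy) (D.O.mul_mem (natCast_mem _ _) hz)
  | smul q y _ hy =>
    obtain ⟨c, hc, hy⟩ := hy
    refine ⟨q.den * c, Nat.mul_pos q.den_pos hc, ?_⟩
    have h1 : (q.den : D.K) * (q : D.K) = (q.num : D.K) := by
      exact_mod_cast Rat.den_mul_eq_num q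
    have : ((q.den * c : ℕ) : D.K) * (q • y) = (q.num : D.K) * (c * y) := by
      rw [← h1, Rat.smul_def]; push_cast; ring
    rw [this]
    exact D.O.mul_mem (intCast_mem _ _) hy

lemma NOrdA_fg_den (I : Submodule ℤ D.K) (hI : I.FG) :
    ∃ c : ℕ, 0 < c ∧ ∀ y ∈ I, (c : D.K) * y ∈ D.O := by
  induction I, hI using Submodule.fg_induction with
  | singleton x =>
    obtain ⟨c, hc, hx⟩ := NOrdA_den D x
    refine ⟨c, hc, fun y hy => ?_⟩
    obtain ⟨a, rfl⟩ := Submodule.mem_span_singleton.1 hy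
    have : (c : D.K) * (a • x) = (a : D.K) * (c * x) := by rw [zsmul_eq_mul]; ring
    rw [this]
    exact D.O.mul_mem (intCast_mem _ _) hx
  | sup M N _ _ hM hN =>
    obtain ⟨c, hc, hM⟩ := hM
    obtain ⟨d, hd, hN⟩ := hN
    refine ⟨c * d, Nat.mul_pos hc hd, fun x hx => ?_⟩
    obtain ⟨y, hy, z, hz, rfl⟩ := Submodule.mem_sup.1 hx
    have : ((c * d : ℕ) : D.K) * (y + z) = (d : D.K) * (c * y) + (c : D.K) * (d * z) := by
      push_cast; ring
    rw [this]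
    exact D.O.add_mem (D.O.mul_mem (natCast_mem _ _) (hM y hy))
      (D.O.mul_mem (natCast_mem _ _) (hN z hz))

lemma NOrdA_oK_fg : (oK D).FG := by
  have h : (⊤ : Submodule ℤ (𝓞 D.K)).FG := Module.Finite.fg_top
  have h2 := h.map ((algebraMap (𝓞 D.K) D.K).toAddMonoidHom.toIntLinearMap)
  suffices e : oK D = _ from e ▸ h2
  ext x
  simp only [NOrdA_mem_oK, Submodule.map_top, LinearMap.mem_range]
  constructor
  · intro hx
    exact ⟨⟨x, hx⟩, rfl⟩
  · rintro ⟨y, rfl⟩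
    exact y.isIntegral_coe

lemma NOrdA_le : oo D ≤ oK D := fun x hx => D.integral x hx

lemma NOrdA_oo_fg : (oo D).FG := by
  have : IsNoetherian ℤ (oK D) := isNoetherian_of_fg_of_noetherian _ (NOrdA_oK_fg D)
  exact (isNoetherian_submodule.1 this) _ (NOrdA_le D)

lemma NOrdA_ix_pos : 0 < ix D := by
  obtain ⟨c, hc, h⟩ := NOrdA_fg_den D _ (NOrdA_oK_fg D)
  set G := (integralClosure ℤ D.K).toSubring.toAddSubgroup with hG
  have hfg : AddGroup.FG G := by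
    have h1 := NOrdA_oK_fg D
    rw [Submodule.fg_iff_addSubgroup_fg] at h1
    exact (AddGroup.fg_iff_addSubgroup_fg _).2 h1
  have hfin : Finite (G ⧸ D.O.toAddSubgroup.addSubgroupOf G) := by
    apply AddCommGroup.finite_of_fg_torsion
    intro x
    obtain ⟨y, rfl⟩ := QuotientAddGroup.mk_surjective x
    refine isOfFinAddOrder_iff_nsmul_eq_zero.2 ⟨c, hc, ?_⟩
    rw [← QuotientAddGroup.mk_nsmul, QuotientAddGroup.eq_zero_iff, AddSubgroup.mem_addSubgroupOf]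
    have := h y.1 y.2
    simpa using this
  exact Nat.pos_of_ne_zero AddSubgroup.index_ne_zero_of_finite

lemma NOrdA_ix_mul (x : 𝓞 D.K) : (ix D : D.K) * x ∈ D.O := by
  have := AddSubgroup.nsmul_relIndex_mem D.O.toAddSubgroup
    (K := (integralClosure ℤ D.K).toSubring.toAddSubgroup) (g := (x : D.K)) x.isIntegral_coe
  simpa [ix] using this

lemma NOrdA_mul_oo (I : Submodule ℤ D.K) (hI : D.IsFracIdeal I) : I * oo D = I := by
  apply le_antisymm
  · exact Submodule.mul_le.2 fun y hy a ha => by rw [mul_comm]; exact hI.2.2 a ha y hy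
  · intro y hy
    simpa using Submodule.mul_mem_mul hy (show (1 : D.K) ∈ oo D from D.O.one_mem)

lemma NOrdA_frac_oo : D.IsFracIdeal (oo D) := by
  refine ⟨fun h => ?_, NOrdA_oo_fg D, fun a ha y hy => D.O.mul_mem ha hy⟩
  have : (1 : D.K) ∈ oo D := D.O.one_mem
  rw [h] at this
  simp at this

lemma NOrdA_iff (I : Submodule ℤ D.K) :
    D.IsProperInv I ↔ D.IsFracIdeal I ∧ ∃ J, D.IsFracIdeal J ∧ I * J = oo D := by
  constructor
  · rintro ⟨h1, -, J, hJ, h3⟩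
    exact ⟨h1, J, hJ, SetLike.coe_injective h3⟩
  · rintro ⟨h1, J, hJ, h3⟩
    refine ⟨h1, ?_, J, hJ, by rw [h3]; rfl⟩
    ext α
    constructor
    · intro hα
      have key : ∀ z ∈ I * J, α * z ∈ I * J := by
        intro z hz
        refine Submodule.mul_induction_on hz (fun y hy w hw => ?_) (fun y w hy hw => ?_)
        · rw [← mul_assoc]; exact Submodule.mul_mem_mul (hα y hy) hw
        · rw [mul_add]; exact add_mem hy hw
      rw [h3] at key
      have := key 1 D.O.one_mem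
      rwa [mul_one] at this
    · intro hα y hy
      exact h1.2.2 α hα y hy

lemma NOrdA_span (I : Submodule ℤ D.K) (hI : D.IsFracIdeal I) :
    Submodule.span ℚ (I : Set D.K) = ⊤ := by
  obtain ⟨x, hx, hx0⟩ := Submodule.exists_mem_ne_zero_of_ne_bot hI.1
  rw [eq_top_iff]
  intro z _
  obtain ⟨c, hc, hz⟩ := NOrdA_den D (z / x)
  have hc' : (c : D.K) ≠ 0 := by exact_mod_cast hc.ne'
  have h1 := hI.2.2 _ hz x hx
  have h2 : z = ((c : ℚ)⁻¹) • ((c : D.K) * (z / x) * x) := by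
    rw [Rat.smul_def]; push_cast; field_simp
  rw [h2]
  exact Submodule.smul_mem _ _ (Submodule.subset_span h1)

lemma NOrdA_frac_mul (I J : Submodule ℤ D.K) (hI : D.IsFracIdeal I) (hJ : D.IsFracIdeal J) :
    D.IsFracIdeal (I * J) := by
  refine ⟨?_, hI.2.1.mul hJ.2.1, fun a ha z hz => ?_⟩
  · obtain ⟨x, hx, hx0⟩ := Submodule.exists_mem_ne_zero_of_ne_bot hI.1
    obtain ⟨y, hy, hy0⟩ := Submodule.exists_mem_ne_zero_of_ne_bot hJ.1
    intro h
    have := Submodule.mul_mem_mul hx hy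
    rw [h, Submodule.mem_bot] at this
    exact mul_ne_zero hx0 hy0 this
  · refine Submodule.mul_induction_on hz (fun y hy w hw => ?_) (fun y w hy hw => ?_)
    · rw [← mul_assoc]; exact Submodule.mul_mem_mul (hI.2.2 a ha y hy) hw
    · rw [mul_add]; exact add_mem hy hw

lemma NOrdA_sm_eq (a : D.K) (I : Submodule ℤ D.K) :
    sm D a I = Submodule.span ℤ {a} * I := by
  ext x
  rw [NOrdA_mem_sm, Submodule.mem_span_singleton_mul]

lemma NOrdA_sm_mul (I J : Submodule ℤ D.K) (a : D.K) : sm D a I * J = sm D a (I * J) := by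
  rw [NOrdA_sm_eq, NOrdA_sm_eq, mul_assoc]

lemma NOrdA_frac_sm (I : Submodule ℤ D.K) (a : D.K) (ha : a ≠ 0) (hI : D.IsFracIdeal I) :
    D.IsFracIdeal (sm D a I) := by
  refine ⟨?_, hI.2.1.map _, fun b hb z hz => ?_⟩
  · obtain ⟨x, hx, hx0⟩ := Submodule.exists_mem_ne_zero_of_ne_bot hI.1
    intro h
    have : a * x ∈ sm D a I := (NOrdA_mem_sm D _ _ _).2 ⟨x, hx, rfl⟩
    rw [h, Submodule.mem_bot] at this
    exact mul_ne_zero ha hx0 this
  · obtain ⟨y, hy, rfl⟩ := (NOrdA_mem_sm D _ _ _).1 hz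
    exact (NOrdA_mem_sm D _ _ _).2 ⟨b * y, hI.2.2 b hb y hy, by ring⟩

lemma NOrdA_inv_mul (I J : Submodule ℤ D.K) (hI : D.IsProperInv I) (hJ : D.IsProperInv J) :
    D.IsProperInv (I * J) := by
  obtain ⟨h1, I', hI', e1⟩ := (NOrdA_iff D I).1 hI
  obtain ⟨h2, J', hJ', e2⟩ := (NOrdA_iff D J).1 hJ
  refine (NOrdA_iff D _).2 ⟨NOrdA_frac_mul D _ _ h1 h2, I' * J', NOrdA_frac_mul D _ _ hI' hJ', ?_⟩
  rw [mul_mul_mul_comm, e1, e2, NOrdA_mul_oo D _ (NOrdA_frac_oo D)]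

lemma NOrdA_inv_sm (I : Submodule ℤ D.K) (a : D.K) (ha : a ≠ 0) (hI : D.IsProperInv I) :
    D.IsProperInv (sm D a I) := by
  obtain ⟨h1, I', hI', e1⟩ := (NOrdA_iff D I).1 hI
  refine (NOrdA_iff D _).2 ⟨NOrdA_frac_sm D _ _ ha h1, sm D a⁻¹ I',
    NOrdA_frac_sm D _ _ (inv_ne_zero ha) hI', ?_⟩
  rw [NOrdA_sm_eq, NOrdA_sm_eq, mul_mul_mul_comm, e1, Submodule.span_mul_span,
    Set.singleton_mul_singleton, mul_inv_cancel₀ ha, ← Submodule.one_eq_span, one_mul]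

lemma NOrdA_up_mul (I J : Submodule ℤ D.K) (hI : I ≤ oK D) (hJ : J ≤ oK D) :
    up D (I * J) = up D I * up D J := by
  apply le_antisymm
  · refine Ideal.span_le.2 fun x hx => ?_
    have key : ∀ z ∈ I * J, ∃ y : 𝓞 D.K, (y : D.K) = z ∧ y ∈ up D I * up D J := by
      intro z hz
      refine Submodule.mul_induction_on hz (fun y hy w hw => ?_) (fun y w hy hw => ?_)
      · refine ⟨⟨y, hI hy⟩ * ⟨w, hJ hw⟩, rfl, Ideal.mul_mem_mul ?_ ?_⟩
        · exact Ideal.subset_span hy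
        · exact Ideal.subset_span hw
      · obtain ⟨y', rfl, hy'⟩ := hy
        obtain ⟨w', rfl, hw'⟩ := hw
        exact ⟨y' + w', rfl, add_mem hy' hw'⟩
    obtain ⟨y, hy, h⟩ := key _ hx
    have : y = x := RingOfIntegers.ext hy
    rwa [this] at h
  · rw [up, up, Ideal.span_mul_span]
    refine Ideal.span_le.2 fun z hz => ?_
    obtain ⟨x, hx, y, hy, rfl⟩ := hz
    exact Ideal.subset_span (Submodule.mul_mem_mul hx hy)

lemma NOrdA_up_sm (x : 𝓞 D.K) : up D (sm D x (oo D)) = Ideal.span {x} := by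
  apply le_antisymm
  · refine Ideal.span_le.2 fun z hz => ?_
    obtain ⟨y, hy, h⟩ := (NOrdA_mem_sm D _ _ _).1 hz
    refine Ideal.mem_span_singleton'.2 ⟨⟨y, D.integral y hy⟩, RingOfIntegers.ext ?_⟩
    rw [← h, mul_comm]; rfl
  · refine Ideal.span_le.2 fun z hz => ?_
    rw [Set.mem_singleton_iff.1 hz]
    exact Ideal.subset_span ((NOrdA_mem_sm D _ _ _).2 ⟨1, D.O.one_mem, mul_one _⟩)

lemma NOrdA_up_ne (I : Submodule ℤ D.K) (hI : I ∈ BB D) : up D I ≠ ⊥ := by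
  obtain ⟨x, hx, hx0⟩ := Submodule.exists_mem_ne_zero_of_ne_bot hI.1.1.1
  intro h
  obtain ⟨y, rfl⟩ : ∃ y : 𝓞 D.K, (y : D.K) = x := ⟨⟨x, D.integral x (hI.2 hx)⟩, rfl⟩
  have : y ∈ up D I := Ideal.subset_span hx
  rw [h, Ideal.mem_bot] at this
  exact hx0 (by rw [this]; rfl)

lemma NOrdA_quot_fin : Finite (𝓞 D.K ⧸ Ideal.span {(ix D : 𝓞 D.K)}) := by
  apply Ideal.finiteQuotientOfFreeOfNeBot
  rw [Ne, Ideal.span_singleton_eq_bot]
  exact_mod_cast (NOrdA_ix_pos D).ne'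

lemma NOrdA_one_mod (x : 𝓞 D.K)
    (hx : Ideal.Quotient.mk (Ideal.span {(ix D : 𝓞 D.K)}) x = 1) : (x : D.K) ∈ D.O := by
  rw [← map_one (Ideal.Quotient.mk (Ideal.span {(ix D : 𝓞 D.K)})), Ideal.Quotient.eq] at hx
  obtain ⟨w, hw⟩ := Ideal.mem_span_singleton'.1 hx
  have : x = 1 + (ix D : 𝓞 D.K) * w := by rw [mul_comm, hw]; ring
  rw [this]
  simpa using D.O.add_mem D.O.one_mem (NOrdA_ix_mul D w)

lemma NOrdA_UO : (UO D).FiniteIndex := by
  have := NOrdA_quot_fin D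
  set φ := Units.map (Ideal.Quotient.mk (Ideal.span {(ix D : 𝓞 D.K)})).toMonoidHom with hφ
  have h1 : φ.ker.FiniteIndex := Subgroup.finiteIndex_ker φ
  have h2 : φ.ker ≤ UO D := by
    intro e he
    have he' := inv_mem he
    rw [MonoidHom.mem_ker, Units.ext_iff] at he he'
    exact ⟨NOrdA_one_mod D _ he, NOrdA_one_mod D _ he'⟩
  exact Subgroup.finiteIndex_of_le h2

lemma NOrdA_phiO : 0 < phiO D := by
  have := NOrdA_quot_fin D
  have : Nonempty {x : (𝓞 D.K ⧸ Ideal.span {(ix D : 𝓞 D.K)})ˣ //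
      ∃ y : 𝓞 D.K, (y : D.K) ∈ D.O ∧ Ideal.Quotient.mk _ y = x.1} :=
    ⟨⟨1, 1, by simp, by simp⟩⟩
  exact Nat.card_pos

end

theorem s_OrdA : OrdA := by
  intro n D
  refine ⟨NOrdA_ix_pos D, D.degree, rfl, NOrdA_ix_mul D, NOrdA_le D, ?_, NOrdA_iff D, ?_,
    NOrdA_inv_mul D, ?_, fun I a => NOrdA_inv_sm D I a, NOrdA_sm_mul D, NOrdA_up_mul D,
    NOrdA_up_sm D, NOrdA_up_ne D, NOrdA_UO D, NOrdA_phiO D⟩
  · exact (NOrdA_iff D _).2 ⟨NOrdA_frac_oo D, oo D, NOrdA_frac_oo D,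
      NOrdA_mul_oo D _ (NOrdA_frac_oo D)⟩
  · intro I hI
    refine ⟨NOrdA_mul_oo D I hI, NOrdA_span D I hI, ?_⟩
    obtain ⟨c, hc, h⟩ := NOrdA_fg_den D I hI.2.1
    refine ⟨c, hc, fun z hz => ?_⟩
    obtain ⟨y, hy, rfl⟩ := (NOrdA_mem_sm D _ _ _).1 hz
    exact h y hy
  · intro I hI
    obtain ⟨h1, J, hJ, e⟩ := (NOrdA_iff D I).1 hI
    exact ⟨J, (NOrdA_iff D J).2 ⟨hJ, I, h1, by rw [mul_comm, e]⟩, e⟩

end TP
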