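import Vale.Agent.P007.NStm

noncomputable section
namespace TP
open Complex MeasureTheory NumberField Filter ART
open Vale.Agent.P007 (Datum X lattice act orbit diagA stab vol IsOrbitMeasure)
open scoped Classical Topology ArithmeticFunction.omega

theorem NPackB_sm_sm {n : ℕ} (D : Datum n) (a b : D.K) (I : Submodule ℤ D.K) :
    sm D a (sm D b I) = sm D (a * b) I := by
  unfold sm
  rw [← Submodule.map_comp]
  congr 1
  ext x
  simp

theorem NPackB_sm_one {n : ℕ} (D : Datum n) (I : Submodule ℤ D.K) : sm D 1 I = I := by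
  unfold sm
  simp

theorem NPackB_gW (b s ε : ℝ) {v : ℝ} (hv : 0 ≤ v) : 0 ≤ gW b s ε v := by
  unfold gW
  split_ifs
  · exact Real.rpow_nonneg hv _
  · exact le_rfl

/-- The class number formula as an upper bound. -/
theorem NPackB_res {n : ℕ} (D : Datum n) : dedekindZeta_residue D.K * √(dc D.K : ℝ) ≤
    2 ^ n * (classNumber D.K * Units.regulator D.K) := by
  have := D.totallyReal
  have h2 : InfinitePlace.nrComplexPlaces D.K = 0 := IsTotallyReal.nrComplexPlaces_eq_zero D.K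
  have h1 : InfinitePlace.nrRealPlaces D.K = n := by
    have := InfinitePlace.card_add_two_mul_card_eq_rank D.K
    rw [h2, D.degree] at this
    simpa using this
  have hd : (dc D.K : ℝ) = |(discr D.K : ℝ)| := by
    unfold dc
    rw [Nat.cast_natAbs, Int.cast_abs]
  have hd0 : 0 < √|(discr D.K : ℝ)| :=
    Real.sqrt_pos_of_pos <| abs_pos.mpr (Int.cast_ne_zero.mpr (discr_ne_zero D.K))
  have hw : (1 : ℝ) ≤ Units.torsionOrder D.K := by
    exact_mod_cast Units.torsionOrder_pos D.K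
  have hR := Units.regulator_pos D.K
  rw [dedekindZeta_residue_def, h1, h2, hd, pow_zero, mul_one, div_mul_eq_mul_div,
    mul_div_mul_right _ _ hd0.ne']
  refine (div_le_self (by positivity) hw).trans (le_of_eq (by ring))

/-- A bound for all finite sums is a bound for the series. -/
theorem NPackB_tsum {α : Type} (P : Set α) (G : α → ℝ) (hG : ∀ a, 0 ≤ G a) (W : ℝ)
    (h : ∀ F : Finset α, (∀ a ∈ F, a ∈ P) → ∑ a ∈ F, G a ≤ W) :
    ∑' a : P, ENNReal.ofReal (G a) ≤ ENNReal.ofReal W := by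
  rw [ENNReal.tsum_eq_iSup_sum]
  refine iSup_le fun F => ?_
  rw [← ENNReal.ofReal_sum_of_nonneg (f := fun a : P => G a) fun a _ => hG a]
  refine ENNReal.ofReal_le_ofReal ?_
  have := h (F.map (Function.Embedding.subtype _)) (by
    intro a ha
    obtain ⟨b, -, rfl⟩ := Finset.mem_map.1 ha
    exact b.2)
  rwa [Finset.sum_map] at this

/-- Sign vectors. -/
def NPackB_sg {n : ℕ} (β : Fin n → Bool) : Fin n → ℝ := fun j => if β j then 1 else -1

theorem NPackB_sg_sgn {n : ℕ} (β : Fin n → Bool) : Sgn (NPackB_sg β) := fun j => by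
  unfold NPackB_sg
  split_ifs <;> simp

theorem NPackB_sg_surj {n : ℕ} {w : Fin n → ℝ} (hw : Sgn w) : ∃ β, NPackB_sg β = w := by
  refine ⟨fun j => decide (w j = 1), funext fun j => ?_⟩
  unfold NPackB_sg
  rcases hw j with h | h
  · simp [h]
  · have h1 : w j ≠ 1 := by
      rw [h]
      norm_num
    rw [if_neg (by simpa using h1), h]

theorem s_PackB (hOrdA : OrdA) (hHLow : HLow) (hOrb1 : Orb1)
    (hLatU : LatU) (hOrbM : OrbM) (hPackA : PackA) (hUnfP : UnfP) (hWin : Win) :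
    PackB := by
  intro m B
  obtain ⟨Cw, hCw, hW⟩ := hWin (m + 1) (Nat.succ_pos m)
  obtain ⟨Cu, hCu, hU⟩ := hUnfP m B
  have hK0 : 0 < 2 ^ (m + 1) * Cu * 2 ^ (m + 1) := by positivity
  refine ⟨2 ^ (m + 1) * Cu * 2 ^ (m + 1) * Cw, by positivity, fun s ε η hs hε hε1 hη => ?_⟩
  obtain ⟨D0, hD0⟩ := hW (B ^ (m + 1)) s ε (η / (2 ^ (m + 1) * Cu * 2 ^ (m + 1))) hs hε hε1
    (div_pos hη hK0)
  refine ⟨D0, fun D hD ν hν => ?_⟩
  obtain ⟨-, -, -, -, -, hoo, -, hfr, -, hinv, -, hsmul, -, -, -, -, hphi⟩ := hOrdA (m + 1) D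
  obtain ⟨T, ⟨hT1, hT2, hT3⟩, hTc⟩ := hHLow (m + 1) D
  obtain ⟨hO1, hO2, hO3⟩ := hOrb1 m D
  obtain ⟨L, i1, i2, hL, hLR⟩ := hLatU m D
  obtain ⟨hfin, -, -, -⟩ := hPackA m D
  have hV : 0 < ZLattice.covolume L := ZLattice.covolume_pos L volume
  have hvol : ∀ I w, D.IsProperInv I → Sgn w →
      vol (orbit (D.embed I) w) = ZLattice.covolume L := by
    intro I w hI hw
    obtain ⟨⟨x, hx⟩, h1, h2⟩ := hO1 I w hI hw
    rw [h1 x hx]
    refine (hOrbM m x L fun u => ?_).2.1
    rw [h2 x hx, ← hL]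
    rfl
  have hmem : ∀ I w, D.IsProperInv I → Sgn w → orbit (D.embed I) w ∈ D.packet :=
    fun I w hI hw => ⟨I, w, hI, hw, rfl⟩
  have hTpos : 0 < T.card := by
    obtain ⟨I, hI, -⟩ := hT2 _ hoo
    exact Finset.card_pos.2 ⟨I, hI⟩
  choose! J hJ hIJ using hinv
  have : Finite D.packet := hfin
  set V := ZLattice.covolume L with hVdef
  set Z := Cw * ε ^ (1 / 4 : ℝ) + η / (2 ^ (m + 1) * Cu * 2 ^ (m + 1)) with hZ
  have hZ0 : 0 < Z := by positivity
  let G : Submodule ℤ D.K → ℝ := fun b =>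
    gW (B ^ (m + 1)) s ε (Ideal.absNorm (up D b) / yy D)
  have hG : ∀ b, 0 ≤ G b := fun b =>
    NPackB_gW _ _ _ (div_nonneg (Nat.cast_nonneg _) (Real.sqrt_nonneg _))
  -- the total volume
  have hden : ENNReal.ofReal (T.card * V) ≤ ∑' S : D.packet, ENNReal.ofReal (vol S.1) := by
    let φ : T → D.packet := fun I =>
      ⟨orbit (D.embed I.1) (NPackB_sg fun _ => true), hmem _ _ (hT1 _ I.2) (NPackB_sg_sgn _)⟩
    have hφ : Function.Injective φ := by
      intro I I' h
      obtain ⟨a, ha, h1⟩ := hO3 I.1 I'.1 _ _ (hT1 _ I.2) (hT1 _ I'.2) (NPackB_sg_sgn _)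
        (NPackB_sg_sgn _) (congrArg Subtype.val h)
      exact Subtype.ext (hT3 _ I.2 _ I'.2 a ha h1)
    refine le_trans (le_of_eq ?_)
      (ENNReal.tsum_comp_le_tsum_of_injective hφ fun S => ENNReal.ofReal (vol S.1))
    have h1 : ∀ I : T, ENNReal.ofReal (vol (φ I).1) = ENNReal.ofReal V := fun I => by
      rw [hvol _ _ (hT1 _ I.2) (NPackB_sg_sgn _)]
    simp only [h1]
    rw [tsum_fintype, Finset.sum_const, Finset.card_univ, Fintype.card_coe, nsmul_eq_mul,
      ENNReal.ofReal_mul (Nat.cast_nonneg _), ENNReal.ofReal_natCast]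
  -- the sum over all integral ideals
  have hall : ∑' b : BB D, ENNReal.ofReal (G b) ≤
      ENNReal.ofReal (2 ^ (m + 1) * (T.card * V) * Z) := by
    refine NPackB_tsum (BB D) G hG _ fun F hF => ?_
    have h1 := hD0 D hD F hF
    have hp : (0 : ℝ) < phiO D := by exact_mod_cast hphi
    refine le_of_mul_le_mul_right (h1.trans ?_) hp
    have h2 : (classNumber D.K : ℝ) * phiK D.K (ix D) ≤ T.card * (UO D).index * phiO D := by
      exact_mod_cast hTc
    have hR := Units.regulator_pos D.K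
    have h3 := mul_le_mul_of_nonneg_left (NPackB_res D) (Nat.cast_nonneg (phiK D.K (ix D)))
    have h4 := mul_le_mul_of_nonneg_right h2 hR.le
    have h5 := mul_le_mul_of_nonneg_left hLR
      (show (0 : ℝ) ≤ T.card * phiO D by positivity)
    have h6 : (phiK D.K (ix D) : ℝ) * (dedekindZeta_residue D.K * √(dc D.K : ℝ)) ≤
        2 ^ (m + 1) * (T.card * V) * phiO D := by
      refine h3.trans ?_
      have h7 : (phiK D.K (ix D) : ℝ) * (classNumber D.K * Units.regulator D.K) ≤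
          T.card * V * phiO D := by linarith
      have h8 := mul_le_mul_of_nonneg_left h7 (show (0 : ℝ) ≤ 2 ^ (m + 1) by positivity)
      linarith
    have h9 := mul_le_mul_of_nonneg_right h6 hZ0.le
    linarith
  -- different classes give different integral ideals
  have hcls : ∑' I : T, ∑' b : {b // b ∈ BB D ∧ ∃ v : D.K, v ≠ 0 ∧ b = sm D v (J I.1)},
      ENNReal.ofReal (G b.1) ≤ ∑' b : BB D, ENNReal.ofReal (G b) := by
    let φ : (Σ I : T, {b // b ∈ BB D ∧ ∃ v : D.K, v ≠ 0 ∧ b = sm D v (J I.1)}) → BB D :=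
      fun p => ⟨p.2.1, p.2.2.1⟩
    have hφ : Function.Injective φ := by
      rintro ⟨⟨I, hI⟩, b, hb, v, hv, h1⟩ ⟨⟨I', hI'⟩, b', hb', v', hv', h1'⟩ h
      obtain rfl : b = b' := congrArg Subtype.val h
      have e1 : b * (I * I') = sm D v I' := by
        rw [h1, hsmul, ← mul_assoc, mul_comm (J I), hIJ I (hT1 I hI), mul_comm,
          (hfr I' (hT1 I' hI').1).1]
      have e2 : b * (I * I') = sm D v' I := by
        rw [h1', hsmul, mul_comm I, ← mul_assoc, mul_comm (J I'), hIJ I' (hT1 I' hI'), mul_comm,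
          (hfr I (hT1 I hI).1).1]
      have e3 : I = sm D (v'⁻¹ * v) I' := by
        rw [← NPackB_sm_sm, ← e1, e2, NPackB_sm_sm, inv_mul_cancel₀ hv', NPackB_sm_one]
      obtain rfl : I = I' := hT3 I hI I' hI' _ (mul_ne_zero (inv_ne_zero hv') hv) e3
      rfl
    refine le_trans (le_of_eq ?_)
      (ENNReal.tsum_comp_le_tsum_of_injective hφ fun b => ENNReal.ofReal (G b.1))
    rw [ENNReal.tsum_sigma']
  -- the weighted sum over the packet
  have hnum : ∑' S : D.packet, ENNReal.ofReal (vol S.1) * ν S.1 (thinSet (m + 1) B s ε) ≤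
      ENNReal.ofReal (2 ^ (m + 1) * Cu) * ∑' b : BB D, ENNReal.ofReal (G b) := by
    let φ : (Fin (m + 1) → Bool) × T → D.packet := fun p =>
      ⟨orbit (D.embed p.2.1) (NPackB_sg p.1), hmem _ _ (hT1 _ p.2.2) (NPackB_sg_sgn _)⟩
    have hφ : Function.Surjective φ := by
      rintro ⟨S, I, w, hI, hw, rfl⟩
      obtain ⟨I', hI', a, ha, rfl⟩ := hT2 I hI
      obtain ⟨w', hw', h1⟩ := hO2 I' w a (hT1 I' hI') hw ha
      obtain ⟨β, rfl⟩ := NPackB_sg_surj hw'
      exact ⟨(β, ⟨I', hI'⟩), Subtype.ext h1.symm⟩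
    refine (ENNReal.tsum_le_tsum_comp_of_surjective hφ _).trans ?_
    rw [ENNReal.tsum_prod']
    have h1 : ∀ β : Fin (m + 1) → Bool, ∑' I : T, ENNReal.ofReal (vol (φ (β, I)).1) *
        ν (φ (β, I)).1 (thinSet (m + 1) B s ε) ≤
        ENNReal.ofReal Cu * ∑' b : BB D, ENNReal.ofReal (G b) := by
      intro β
      refine le_trans ?_ (mul_le_mul_right hcls _)
      rw [← ENNReal.tsum_mul_left]
      refine ENNReal.tsum_le_tsum fun I => ?_
      exact hU D I.1 (J I.1) (NPackB_sg β) _ s ε (hT1 _ I.2) (hJ _ (hT1 _ I.2))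
        (hIJ _ (hT1 _ I.2)) (NPackB_sg_sgn β) (hν _ (φ (β, I)).2)
    refine (ENNReal.tsum_le_tsum h1).trans (le_of_eq ?_)
    rw [tsum_fintype, Finset.sum_const, Finset.card_univ, Fintype.card_fun, Fintype.card_bool,
      Fintype.card_fin, nsmul_eq_mul, ENNReal.ofReal_mul (by positivity), ← mul_assoc]
    congr 2
    rw [← ENNReal.ofReal_natCast]
    simp
  have hTV : 0 < (T.card : ℝ) * V := by positivity
  unfold Datum.measure
  rw [Measure.smul_apply, Measure.sum_apply_of_countable, smul_eq_mul]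
  simp only [Measure.smul_apply, smul_eq_mul]
  refine (mul_le_mul' (ENNReal.inv_le_inv.2 hden)
    (hnum.trans (mul_le_mul_right hall _))).trans (le_of_eq ?_)
  rw [← ENNReal.ofReal_mul (by positivity), ← ENNReal.ofReal_inv_of_pos hTV,
    ← ENNReal.ofReal_mul (by positivity)]
  congr 1
  rw [hZ]
  field_simp


end TP
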