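import Vale.Agent.P007.NStm
import Vale.Agent.P016.Phi

noncomputable section
namespace TP
open Complex MeasureTheory NumberField Filter ART
open Vale.Agent.P007 (Datum X lattice act orbit diagA stab vol IsOrbitMeasure)
open scoped Classical Topology ArithmeticFunction.omega

section Aux
variable {K : Type} [Field K] [NumberField K]

theorem NPhi_sum [IsTotallyReal K] (e : (𝓞 K)ˣ) : ∑ w, lg ((e : 𝓞 K) : K) w = 0 := by
  have h := InfinitePlace.prod_eq_abs_norm ((e : 𝓞 K) : K)
  simp only [IsTotallyReal.mult_eq, pow_one] at h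
  simp only [lg]
  rw [← Real.log_prod fun w _ => (pow_pos (InfinitePlace.pos_iff.2 (Units.coe_ne_zero e)) 2).ne',
    Finset.prod_pow, h, Units.norm, Rat.cast_one, one_pow, Real.log_one]

open NumberField.Units NumberField.Units.dirichletUnitTheorem in
theorem NPhi_close [IsTotallyReal K] : ∃ R : ℝ, ∀ u : InfinitePlace K → ℝ,
    ∑ w, u w = 0 → ∃ e : (𝓞 K)ˣ, ∀ w, |u w + lg ((e : 𝓞 K) : K) w| ≤ R := by
  let b := (basisUnitLattice K).ofZLatticeBasis ℝ (unitLattice K)
  have hC : 0 ≤ 2 * ∑ i, ‖b i‖ := by positivity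
  refine ⟨(rk K + 1) * (2 * ∑ i, ‖b i‖), fun u hu => ?_⟩
  let m : logSpace K := fun v => -u v.1 / 2
  have h1 : (ZSpan.floor b m : logSpace K) ∈ unitLattice K :=
    (basisUnitLattice K).ofZLatticeBasis_span ℝ ▸ (ZSpan.floor b m).2
  obtain ⟨x, -, hx⟩ := h1
  have h2 : ∀ w : InfinitePlace K, w ≠ w₀ →
      |u w + lg ((x.toMul : 𝓞 K) : K) w| ≤ 2 * ∑ i, ‖b i‖ := fun w hw => by
    have h3 := (norm_le_pi_norm _ ⟨_, hw⟩).trans (ZSpan.norm_fract_le b m)
    have h5 : logEmbedding K x ⟨_, hw⟩ = w.mult * Real.log (w ((x.toMul : 𝓞 K) : K)) := rfl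
    have h6 : lg ((x.toMul : 𝓞 K) : K) w = 2 * logEmbedding K x ⟨_, hw⟩ := by
      rw [h5, lg, Real.log_pow, IsTotallyReal.mult_eq w]
      simp
    rw [ZSpan.fract_apply, ← hx, Pi.sub_apply, Real.norm_eq_abs] at h3
    have h7 : |-u w / 2 - logEmbedding K x ⟨_, hw⟩| ≤ ∑ i, ‖b i‖ := h3
    rw [h6]
    rw [abs_le] at h7 ⊢
    constructor <;> linarith [h7.1, h7.2]
  refine ⟨x.toMul, fun w => ?_⟩
  by_cases hw : w = w₀
  · have h3 : ∑ w, (u w + lg ((x.toMul : 𝓞 K) : K) w) = 0 := by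
      rw [Finset.sum_add_distrib, hu, NPhi_sum, add_zero]
    rw [← Finset.add_sum_erase _ _ (Finset.mem_univ w), add_eq_zero_iff_eq_neg] at h3
    rw [h3, abs_neg]
    refine (Finset.abs_sum_le_sum_abs _ _).trans ((Finset.sum_le_card_nsmul _ _ _ fun w' hw' =>
      h2 w' fun h => (Finset.mem_erase.1 hw').1 (h.trans hw.symm)).trans ?_)
    rw [nsmul_eq_mul]
    refine mul_le_mul_of_nonneg_right ?_ hC
    have : (Finset.univ.erase w).card ≤ rk K + 1 := (Finset.card_le_univ _).trans (Nat.le_succ _)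
    exact_mod_cast this
  · exact (h2 w hw).trans (le_mul_of_one_le_left hC (by simp))

theorem NPhi_finite [IsTotallyReal K] (T : ℝ) (u : InfinitePlace K → ℝ) : {e : (𝓞 K)ˣ | ∀ w w',
    |(u + lg ((e : 𝓞 K) : K)) w - (u + lg ((e : 𝓞 K) : K)) w'| ≤ T}.Finite := by
  refine ((finite_box (√(Real.exp (T + 2 * ‖u‖)))).preimage Units.val_injective.injOn).subset
    fun e he w => ?_
  have hr : (0 : ℝ) < rk K := Nat.cast_pos.2 rk_pos
  have h1 : ∀ w w', |lg ((e : 𝓞 K) : K) w - lg ((e : 𝓞 K) : K) w'| ≤ T + 2 * ‖u‖ := by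
    intro w w'
    have h2 := abs_le.1 (he w w')
    have h3 := abs_le.1 (norm_le_pi_norm u w)
    have h4 := abs_le.1 (norm_le_pi_norm u w')
    simp only [Pi.add_apply] at h2
    rw [abs_le]
    constructor <;> linarith [h2.1, h2.2, h3.1, h3.2, h4.1, h4.2]
  have h2 := (abs_le.1 (Phi_mean h1 w)).2
  rw [NPhi_sum, sub_zero] at h2
  have h3 : lg ((e : 𝓞 K) : K) w ≤ T + 2 * ‖u‖ := le_of_mul_le_mul_left h2 hr
  refine Real.le_sqrt_of_sq_le ?_
  rw [← exp_lg (Units.coe_ne_zero e)]
  exact Real.exp_le_exp.2 h3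

theorem NPhi_push (φ : (InfinitePlace K → ℝ) → ℝ) (hφ : IsPhi φ) :
    ∃ V : ℝ, 0 < V ∧ ∀ h : ℝ → ℂ, Integrable h →
    Integrable (fun u : InfinitePlace K → ℝ => (φ u : ℂ) * h (∑ w, u w)) ∧
    ∫ u : InfinitePlace K → ℝ, (φ u : ℂ) * h (∑ w, u w) = V * ∫ t, h t := by
  obtain ⟨h1, h2, h3, ⟨T, h4⟩, h5⟩ := hφ
  have := Phi_countable (K := K)
  have hr : (0 : ℝ) < rk K := Nat.cast_pos.2 rk_pos
  have hr1 : (1 : ℝ) ≤ rk K := Nat.one_le_cast.2 rk_pos
  have hsm : Measurable fun u : InfinitePlace K → ℝ => ∑ w, u w := by fun_prop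
  have hfm : Measurable fun u => ENNReal.ofReal (φ u) := h1.ennreal_ofReal
  obtain ⟨μ, hμ⟩ : ∃ μ : Measure ℝ, μ = (volume.withDensity fun u => ENNReal.ofReal (φ u)).map
      fun u : InfinitePlace K → ℝ => ∑ w, u w := ⟨_, rfl⟩
  have hap : ∀ s, MeasurableSet s → μ s =
      ∫⁻ u : InfinitePlace K → ℝ, s.indicator (fun _ => ENNReal.ofReal (φ u)) (∑ w, u w) := by
    intro s hs
    rw [hμ, Measure.map_apply hsm hs, withDensity_apply _ (hsm hs), ← lintegral_indicator (hsm hs)]
    rfl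
  have hinv : μ.IsAddLeftInvariant := by
    refine ⟨fun t => Measure.ext fun s hs => ?_⟩
    rw [Measure.map_apply (measurable_const_add t) hs, hap _ (measurable_const_add t hs), hap s hs,
      ← lintegral_add_right_eq_self (μ := volume) (fun u : InfinitePlace K → ℝ =>
        s.indicator (fun _ => ENNReal.ofReal (φ u)) (∑ w, u w)) fun _ => t / rk K]
    refine lintegral_congr fun u => ?_
    have e1 : φ (u + fun _ => t / rk K) = φ u := h3 u (t / rk K)
    have e2 : ∑ w, (u + fun _ => t / rk K : InfinitePlace K → ℝ) w = t + ∑ w, u w := by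
      simp only [Pi.add_apply]
      rw [Finset.sum_add_distrib, Finset.sum_const, Finset.card_univ, nsmul_eq_mul, ← rk,
        mul_div_cancel₀ _ hr.ne', add_comm]
    rw [e1, e2]
    rfl
  have hfin : IsFiniteMeasureOnCompacts μ := by
    refine ⟨fun s hs => ?_⟩
    obtain ⟨R, hR⟩ := hs.isBounded.exists_norm_le
    rw [hap s hs.measurableSet]
    refine lt_of_le_of_lt ?_ (measure_closedBall_lt_top (μ := volume) (x := (0 : InfinitePlace K → ℝ))
      (r := |R| + |T|))
    rw [← lintegral_indicator_one measurableSet_closedBall]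
    refine lintegral_mono fun u => ?_
    by_cases hu : ∑ w, u w ∈ s
    · by_cases h0 : φ u = 0
      · simp [hu, h0]
      · have hb : u ∈ Metric.closedBall (0 : InfinitePlace K → ℝ) (|R| + |T|) := by
          rw [mem_closedBall_zero_iff, pi_norm_le_iff_of_nonneg (by positivity)]
          intro w
          have a1 := abs_le.1 (Phi_mean (h4 u h0) w)
          have a2 := abs_le.1 (hR _ hu)
          have a3 : R ≤ rk K * |R| := (le_abs_self R).trans (le_mul_of_one_le_left (abs_nonneg R) hr1)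
          have a4 : rk K * T ≤ rk K * |T| := mul_le_mul_of_nonneg_left (le_abs_self T) hr.le
          rw [Real.norm_eq_abs, abs_le]
          constructor
          · refine le_of_mul_le_mul_left ?_ hr
            linarith [a1.1, a2.1]
          · refine le_of_mul_le_mul_left ?_ hr
            linarith [a1.2, a2.2]
        rw [Set.indicator_of_mem hu, Set.indicator_of_mem hb]
        exact ENNReal.ofReal_le_one.2 (h2 u).2
    · simp [hu]
  obtain ⟨V, hV⟩ : ∃ V : NNReal, μ = V • (volume : Measure ℝ) :=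
    ⟨_, Measure.isAddLeftInvariant_eq_smul μ volume⟩
  have hre : ∀ (u : InfinitePlace K → ℝ) (z : ℂ), (ENNReal.ofReal (φ u)).toReal • z = (φ u : ℂ) * z := by
    intro u z
    rw [ENNReal.toReal_ofReal (h2 u).1, real_smul]
  have hlt : ∀ᵐ u : InfinitePlace K → ℝ, ENNReal.ofReal (φ u) < ⊤ :=
    Eventually.of_forall fun _ => ENNReal.ofReal_lt_top
  refine ⟨V, ?_, fun h hh => ?_⟩
  · refine NNReal.coe_pos.2 (pos_iff_ne_zero.2 fun h0 => ?_)
    have a1 := hap _ MeasurableSet.univ
    rw [hV, h0, zero_smul] at a1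
    simp only [Set.indicator_univ, Measure.coe_zero, Pi.zero_apply] at a1
    have a2 : ∀ᵐ u : InfinitePlace K → ℝ, φ u = 0 := by
      filter_upwards [(lintegral_eq_zero_iff hfm).1 a1.symm] with u hu
      exact le_antisymm (ENNReal.ofReal_eq_zero.1 hu) (h2 u).1
    have a3 : ∀ᵐ u : InfinitePlace K → ℝ, ∀ e : (𝓞 K)ˣ, φ (u + lg ((e : 𝓞 K) : K)) = 0 :=
      ae_all_iff.2 fun e => (measurePreserving_add_right volume
        (lg ((e : 𝓞 K) : K))).quasiMeasurePreserving.ae a2
    obtain ⟨u, hu⟩ := a3.exists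
    have a4 := h5 u
    simp only [hu] at a4
    exact zero_ne_one (hasSum_zero.unique a4)
  · have a1 : Integrable h μ := by
      rw [hV]
      exact hh.smul_measure_nnreal
    have a2 : ∫ t, h t ∂μ = V * ∫ t, h t := by
      rw [hV, integral_smul_nnreal_measure]
      rfl
    have a3 := a1.aestronglyMeasurable
    rw [hμ] at a1 a2 a3
    rw [integrable_map_measure a3 hsm.aemeasurable,
      integrable_withDensity_iff_integrable_smul' hfm hlt] at a1
    rw [integral_map hsm.aemeasurable a3,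
      integral_withDensity_eq_integral_toReal_smul hfm hlt] at a2
    simp only [hre, Function.comp_apply] at a1 a2
    exact ⟨a1, a2⟩

end Aux

theorem s_PushR : PushR := by
  intro K _ _ _ φ hφ
  obtain ⟨V, hV, h⟩ := NPhi_push φ hφ
  refine ⟨V * 2, by positivity, fun g hg => ?_⟩
  obtain ⟨h1, h2⟩ := h (fun t => g (t / 2)) (hg.comp_div two_ne_zero)
  refine ⟨h1, ?_⟩
  refine h2.trans ?_
  rw [Measure.integral_comp_div g 2, abs_two, real_smul]
  push_cast
  ring

theorem s_ExPhiR : ExPhiR := by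
  intro K _ _ _
  obtain ⟨T, hK⟩ := NPhi_close (K := K)
  have := Phi_countable (K := K)
  have hr : (0 : ℝ) < rk K := Nat.cast_pos.2 rk_pos
  obtain ⟨g, hg⟩ : ∃ g : (InfinitePlace K → ℝ) → NNReal, ∀ u,
      g u = if ∀ w w', |u w - u w'| ≤ 2 * T then 1 else 0 := ⟨_, fun _ => rfl⟩
  have hgm : Measurable g := by
    rw [funext hg]
    refine Measurable.ite ?_ measurable_const measurable_const
    simp only [Set.ofPred_forall]
    exact MeasurableSet.iInter fun w => MeasurableSet.iInter fun w' =>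
      measurableSet_le (by fun_prop) measurable_const
  have hgt : ∀ u (t : ℝ), g (fun w => u w + t) = g u := by
    intro u t
    simp only [hg, add_sub_add_right_eq_sub]
  have hsu : ∀ u, Summable fun e : (𝓞 K)ˣ => g (u + lg ((e : 𝓞 K) : K)) := by
    intro u
    refine summable_of_hasFiniteSupport ((NPhi_finite (2 * T) u).subset fun e he => ?_)
    by_contra h
    exact he ((hg _).trans (if_neg h))
  obtain ⟨G, hG⟩ : ∃ G : (InfinitePlace K → ℝ) → NNReal, ∀ u,
      G u = ∑' e : (𝓞 K)ˣ, g (u + lg ((e : 𝓞 K) : K)) := ⟨_, fun _ => rfl⟩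
  have hGm : Measurable G := by
    rw [funext hG]
    exact Measurable.tsum fun e => hgm.comp (measurable_add_const _)
  have hle : ∀ u (e : (𝓞 K)ˣ), g (u + lg ((e : 𝓞 K) : K)) ≤ G u := by
    intro u e
    rw [hG]
    exact (hsu u).le_tsum e fun _ _ => zero_le
  have hG1 : ∀ u, 1 ≤ G u := by
    intro u
    obtain ⟨e, he⟩ := hK (fun w => u w - (∑ w', u w') / rk K) (by
      rw [Finset.sum_sub_distrib, Finset.sum_const, Finset.card_univ, nsmul_eq_mul, ← rk,
        mul_div_cancel₀ _ hr.ne', sub_self])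
    refine le_trans (le_of_eq ?_) (hle u e)
    rw [hg, if_pos]
    intro w w'
    have h1 := abs_le.1 (he w)
    have h2 := abs_le.1 (he w')
    simp only [Pi.add_apply]
    rw [abs_le]
    constructor <;> linarith [h1.1, h1.2, h2.1, h2.2]
  have hG0 : ∀ u, (0 : ℝ) < G u := fun u => NNReal.coe_pos.2 (one_pos.trans_le (hG1 u))
  have hGe : ∀ u (e : (𝓞 K)ˣ), G (u + lg ((e : 𝓞 K) : K)) = G u := by
    intro u e
    rw [hG u, ← (Equiv.mulLeft e).tsum_eq, hG]
    refine tsum_congr fun e' => ?_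
    rw [Equiv.coe_mulLeft, Phi_lg_mul, add_assoc]
  have hGt : ∀ u (t : ℝ), G (fun w => u w + t) = G u := by
    intro u t
    rw [hG, hG]
    refine tsum_congr fun e => ?_
    rw [← hgt (u + lg ((e : 𝓞 K) : K)) t]
    congr 1
    funext w
    simp only [Pi.add_apply]
    ring
  refine ⟨fun u => (g u : ℝ) / G u, hgm.coe_nnreal_real.div hGm.coe_nnreal_real,
    fun u => ⟨by positivity, ?_⟩, fun u t => by simp only [hgt, hGt], ⟨2 * T, fun u hu => ?_⟩,
    fun u => ?_⟩
  · rw [div_le_one (hG0 u)]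
    have := hle u 1
    rw [Phi_lg_one, add_zero] at this
    exact this
  · by_contra h
    apply hu
    simp only [hg, if_neg h, NNReal.coe_zero, zero_div]
  · simp only [hGe]
    have h1 := (NNReal.hasSum_coe.2 (hsu u).hasSum).div_const (G u : ℝ)
    rwa [← hG, div_self (hG0 u).ne'] at h1

end TP
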