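import Vale.Agent.P016.Base
import Vale.Agent.P007.TDefs
import Vale.Agent.P007.Space

/-! Torus packets in prime degree, number theoretic half: definitions and the statements of the
parts. Each statement is proved in its own file; files that use one take it as a hypothesis. -/

noncomputable section
namespace TP
open Complex MeasureTheory NumberField Filter ART
open Vale.Agent.P007 (Datum X lattice act orbit diagA stab vol IsOrbitMeasure)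
open scoped Classical Topology ArithmeticFunction.omega

section Theta
variable {K : Type} [Field K] [NumberField K]

/-- The real embedding that belongs to a real place. -/
def rr (w : InfinitePlace K) (x : K) : ℝ := (w.embedding x).re
/-- The sign of the norm. -/
def sg (x : K) : ℝ := ∏ w : InfinitePlace K, (SignType.sign (rr w x) : ℝ)
/-- Half the sum of the coordinates. -/
def hs (u : InfinitePlace K → ℝ) : ℝ := (∑ w, u w) / 2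
/-- The Gaussian weight of parity `e`. -/
def GsR (e : ℕ) (x : K) (u : InfinitePlace K → ℝ) : ℝ :=
  ∏ w : InfinitePlace K, (rr w x * Real.exp (u w / 2)) ^ e * Vg (w x ^ 2 * Real.exp (u w))
/-- The theta function of parity `e` without its constant term. -/
def ThR (e : ℕ) (ρ : 𝓞 K → ℂ) (u : InfinitePlace K → ℝ) : ℂ :=
  ∑' x : 𝓞 K, if x = 0 then 0 else ρ x * (GsR e (x : K) u : ℝ)
/-- Twist by the sign of the norm. -/
def tw (e : ℕ) (ρ : 𝓞 K → ℂ) (x : 𝓞 K) : ℂ := ρ x * ((sg (x : K) ^ e : ℝ) : ℂ)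
end Theta

/-- The value of the weight at zero. -/
def ze (e : ℕ) : ℂ := if e = 0 then 1 else 0

def PushR : Prop := ∀ (K : Type) [Field K] [NumberField K] [IsTotallyReal K]
  (φ : (InfinitePlace K → ℝ) → ℝ), IsPhi φ → ∃ V : ℝ, 0 < V ∧ ∀ h : ℝ → ℂ, Integrable h →
    Integrable (fun u : InfinitePlace K → ℝ => (φ u : ℂ) * h (hs u)) ∧
    ∫ u : InfinitePlace K → ℝ, (φ u : ℂ) * h (hs u) = V * ∫ t, h t
def ExPhiR : Prop := ∀ (K : Type) [Field K] [NumberField K] [IsTotallyReal K],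
  ∃ φ : (InfinitePlace K → ℝ) → ℝ, IsPhi φ
/-- Summability, measurability and the trivial bound of the theta function. -/
def ThB : Prop := ∀ (K : Type) [Field K] [NumberField K] [IsTotallyReal K] (e : ℕ), e ≤ 1 →
  (∀ (a y : K) (u : InfinitePlace K → ℝ), a ≠ 0 →
    Summable fun x : 𝓞 K => |GsR e (y + a * x) u|) ∧
  ∀ ρ : 𝓞 K → ℂ, (∀ x, ‖ρ x‖ ≤ 1) → Measurable (ThR e ρ) ∧
    ∀ u, ‖ThR e ρ u‖ ≤ (ThR e (tw e fun _ : 𝓞 K => 1) u).re ∧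
      ThR e (tw e fun _ : 𝓞 K => 1) u = ((ThR e (tw e fun _ : 𝓞 K => 1) u).re : ℂ)
/-- Unfolding. -/
def UnfR : Prop := ∀ (K : Type) [Field K] [NumberField K] [IsTotallyReal K] (e : ℕ)
  (φ : (InfinitePlace K → ℝ) → ℝ) (ρ : 𝓞 K → ℂ) (z : ℂ), e ≤ 1 → IsPhi φ → Inv (tw e ρ) →
  (∀ x, ‖ρ x‖ ≤ 1) → 1 < z.re →
  Integrable (fun u => (φ u : ℂ) * ThR e ρ u * Complex.exp (z * (hs u : ℝ))) ∧
  ∫ u, (φ u : ℂ) * ThR e ρ u * Complex.exp (z * (hs u : ℝ))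
    = GG ((z + e) / 2) ^ dg K * Zp (tw e ρ) z
/-- Poisson summation for a translate of a multiple of the lattice of integers. -/
def PoisLR : Prop := ∀ (K : Type) [Field K] [NumberField K] [IsTotallyReal K], ∃ κ : ℝ,
  ((4 : ℝ) ^ dg K * dc K)⁻¹ ≤ κ ∧ κ ≤ 4 ^ dg K ∧ ∀ e : ℕ, e ≤ 1 → ∃ c : ℂ, ‖c‖ = 1 ∧
    (e = 0 → c = 1) ∧ ∀ (m : ℕ) (y : 𝓞 K) (u : InfinitePlace K → ℝ),
    0 < m → ∑' x : 𝓞 K, ((GsR e ((y + m * x : 𝓞 K) : K) u : ℝ) : ℂ)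
      = ((κ / (m : ℝ) ^ dg K * Real.exp (-hs u) : ℝ) : ℂ) * c * ∑' ξ : K, if Dl ξ then
          ch (y * ξ / m) * (GsR e (ξ / m) (fun w => Real.log (3 / 4) - u w) : ℝ) else 0
/-- Poisson summation with periodic coefficients. -/
def PoisKR : Prop := ∀ (K : Type) [Field K] [NumberField K] [IsTotallyReal K], ∃ κ : ℝ,
  ((4 : ℝ) ^ dg K * dc K)⁻¹ ≤ κ ∧ κ ≤ 4 ^ dg K ∧ ∀ (e m : ℕ) (ρ : 𝓞 K → ℂ), e ≤ 1 → 0 < m →
    Per m ρ → (∀ x, ‖ρ x‖ ≤ 1) → ∃ ρ' : 𝓞 K → ℂ, (∀ y, ‖ρ' y‖ ≤ 1) ∧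
      (e = 0 → ρ' 0 = mean m ρ) ∧ ∀ u,
      ρ 0 * ze e + ThR e ρ u = ((κ * Real.exp (-hs u) : ℝ) : ℂ) *
        (ρ' 0 * ze e + ThR e ρ' fun w => Real.log (3 / 4) - 2 * Real.log (m * dc K) - u w)
/-- The tails of the unfolded integral are entire. -/
def TailR : Prop := ∀ (K : Type) [Field K] [NumberField K] [IsTotallyReal K],
  (∀ (e k : ℕ) (ρ : 𝓞 K → ℂ), e ≤ 1 → (∀ x, ‖ρ x‖ ≤ 1) → 2 ≤ k → k ≤ 4 →
    ‖GG (((k : ℂ) + e) / 2) ^ dg K * Zp ρ k‖ ≤ Real.exp (2 * dg K)) ∧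
  ∀ (e : ℕ) (φ : (InfinitePlace K → ℝ) → ℝ) (ρ : 𝓞 K → ℂ) (S : Set (InfinitePlace K → ℝ)) (a : ℝ),
  e ≤ 1 → IsPhi φ → (∀ x, ‖ρ x‖ ≤ 1) → MeasurableSet S → (∀ u ∈ S, a ≤ hs u) →
  (∀ z : ℂ, IntegrableOn (fun u => (φ u : ℂ) * ThR e ρ u * Complex.exp (z * (hs u : ℝ))) S) ∧
  Differentiable ℂ (fun z : ℂ => ∫ u in S, (φ u : ℂ) * ThR e ρ u * Complex.exp (z * (hs u : ℝ))) ∧
  ∀ (z : ℂ) (k : ℕ), 2 ≤ k → k ≤ 4 → z.re ≤ k →
    ‖∫ u in S, (φ u : ℂ) * ThR e ρ u * Complex.exp (z * (hs u : ℝ))‖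
      ≤ Real.exp ((z.re - k) * a) * Real.exp (2 * dg K)
/-- Continuation of the zeta function of the principal ideals. -/
def HZR : Prop := ∃ C : ℝ, 1 ≤ C ∧ ∀ (K : Type) [Field K] [NumberField K] [IsTotallyReal K]
  (e m : ℕ) (ρ : 𝓞 K → ℂ), e ≤ 1 → 0 < m → Per m ρ → Inv (tw e ρ) → (∀ x, ‖ρ x‖ ≤ 1) →
    ∃ Λ : ℂ → ℂ, Differentiable ℂ Λ ∧
      (∀ z : ℂ, 1 < z.re → Λ z = z * (z - 1) * GG ((z + e) / 2) ^ dg K * Zp (tw e ρ) z) ∧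
      ∀ z : ℂ, -2 ≤ z.re → z.re ≤ 4 → ‖Λ z‖ ≤ (1 + ‖z‖) ^ 2 * (C * m * dc K) ^ (12 * dg K)
/-- Continuation of the zeta function and of its twist. -/
def HKR : Prop := ∃ C : ℝ, 0 < C ∧ ∀ (K : Type) [Field K] [NumberField K] [IsTotallyReal K],
  (∃ Λ : ℂ → ℂ, Differentiable ℂ Λ ∧
    (∀ z : ℂ, 1 < z.re → Λ z = z * (z - 1) * GG (z / 2) ^ dg K * zeta K z) ∧
    ∀ z : ℂ, -2 ≤ z.re → z.re ≤ 4 →
      ‖Λ z‖ ≤ (1 + ‖z‖) ^ 2 * Real.exp (C * dg K * (dg K + Real.log (dc K)))) ∧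
  ∃ Λ : ℂ → ℂ, Differentiable ℂ Λ ∧
    ∀ z : ℂ, 1 < z.re → Λ z = z * (z - 1) * GG ((z + 1) / 2) ^ dg K * zg K x3 z
/-- The zeta function without its pole: zero free half plane and a crude bound. -/
def FZ : Prop := ∃ C : ℝ, 0 < C ∧ ∀ (K : Type) [Field K] [NumberField K] [IsTotallyReal K],
  ∃ f : ℂ → ℂ, DifferentiableOn ℂ f {z | 11 / 12 < z.re} ∧
    (∀ z : ℂ, 1 < z.re → f z = (z - 1) * zeta K z) ∧ f 1 = (dedekindZeta_residue K : ℝ) ∧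
    (∀ z : ℂ, 11 / 12 < z.re → f z ≠ 0) ∧ ∀ z : ℂ, 11 / 12 < z.re → z.re ≤ 4 →
      ‖f z‖ ≤ Real.exp (C * dg K * (dg K + Real.log (dc K)) * (1 + |z.im|))
/-- The logarithmic derivative to the right of the line one. -/
def EB : Prop := ∃ A : ℝ, 0 < A ∧ ∀ (K : Type) [Field K] [NumberField K],
  ∑' i : HS K × ℕ, Real.log (qv i.1) * ((qv i.1 : ℝ) ^ (i.2 + 1)) ^ (-(201 / 200 : ℝ)) ≤ A * dg K
/-- Three lines: a zero free function is small near the line one. -/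
def BND : Prop := ∀ A : ℝ, 1 ≤ A → ∃ C : ℝ, 0 < C ∧ ∀ (f : ℂ → ℂ) (L : ℝ), 1 ≤ L →
  DifferentiableOn ℂ f {z | 11 / 12 < z.re} → (∀ z : ℂ, 11 / 12 < z.re → f z ≠ 0) →
  (∀ z : ℂ, 11 / 12 < z.re → z.re ≤ 4 → ‖f z‖ ≤ Real.exp (L * (1 + |z.im|))) →
  (∀ t : ℝ, Real.exp (-A) ≤ ‖f (2 + t * I)‖ ∧ ‖f (2 + t * I)‖ ≤ Real.exp (A * (1 + |t|))) →
  (∀ z : ℂ, 201 / 200 ≤ z.re → z.re ≤ 2 → ‖deriv f z / f z‖ ≤ A) →
  Real.exp (-(C * L ^ (1 / 4 : ℝ))) ≤ ‖f 1‖ ∧ ∀ z : ℂ, 199 / 200 ≤ z.re → z.re ≤ 2 →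
    ‖f z‖ ≤ Real.exp (C * L ^ (1 / 4 : ℝ) * (1 + |z.im|))

/-- The Gaussian window of logarithmic width `τ`. -/
def kt (τ v : ℝ) : ℝ := Real.exp (-(Real.log v) ^ 2 / (4 * τ ^ 2))
/-- Its integral. -/
def ct (τ : ℝ) : ℝ := 2 * √Real.pi * τ * Real.exp (τ ^ 2)
/-- Contour shift. -/
def ContT : Prop := ∀ τ σ : ℝ, 0 < τ → τ ≤ 1 → 199 / 200 ≤ σ → σ < 1 → ∃ C : ℝ, 0 < C ∧
  ∀ (ι : Type) (_ : Countable ι) (N : ι → ℝ) (f : ℂ → ℂ) (ρ M : ℝ), 1 ≤ M → (∀ i, 0 < N i) →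
  Summable (fun i => N i ^ (-2 : ℝ)) → DifferentiableOn ℂ f {z | 11 / 12 < z.re} → f 1 = ρ →
  (∀ t : ℝ, f (2 + t * I) = (2 + t * I - 1) * ∑' i, (N i : ℂ) ^ (-(2 + t * I))) →
  (∀ z : ℂ, 199 / 200 ≤ z.re → z.re ≤ 2 → ‖f z‖ ≤ Real.exp (M * (1 + |z.im|))) →
  ∀ Y : ℝ, 0 < Y → Summable (fun i => kt τ (N i / Y)) ∧
    |∑' i, kt τ (N i / Y) - ρ * ct τ * Y| ≤ Real.exp (C * M ^ 2) * Y ^ σ
/-- The smooth count of ideals. -/
def Cnt0 : Prop := ∀ (n : ℕ) (τ σ η : ℝ), 0 < τ → τ ≤ 1 → 199 / 200 ≤ σ → σ < 1 → 0 < η →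
  ∃ C : ℝ, 0 < C ∧ ∀ (K : Type) [Field K] [NumberField K] [IsTotallyReal K], dg K = n →
    1 ≤ C * (dc K : ℝ) ^ η * dedekindZeta_residue K ∧ ∀ Y : ℝ, 0 < Y →
    Summable (fun J : {J : Ideal (𝓞 K) // J ≠ ⊥} => kt τ (Ideal.absNorm J.1 / Y)) ∧
    |∑' J : {J : Ideal (𝓞 K) // J ≠ ⊥}, kt τ (Ideal.absNorm J.1 / Y)
      - dedekindZeta_residue K * ct τ * Y| ≤ C * (dc K : ℝ) ^ η * Y ^ σ

section Ord
variable (K : Type) [Field K] [NumberField K]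
/-- The primes above `f`. -/
def PF (f : ℕ) : Set (HS K) := {v | (f : 𝓞 K) ∈ v.asIdeal}
/-- The Euler factor of the primes above `f`. -/
def eul (f : ℕ) : ℝ := ∏ᶠ v ∈ PF K f, (1 - (qv v : ℝ)⁻¹)
/-- The number of units modulo `f`. -/
def phiK (f : ℕ) : ℕ := Nat.card (𝓞 K ⧸ Ideal.span {(f : 𝓞 K)})ˣ
end Ord

/-- The primes above `f` and the units modulo `f`. -/
def PhiL : Prop := ∀ (K : Type) [Field K] [NumberField K] (f : ℕ), 0 < f →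
  (PF K f).Finite ∧ (PF K f).ncard ≤ dg K * ω f ∧ ((2 : ℝ) ^ (dg K * ω f))⁻¹ ≤ eul K f ∧
  (f : ℝ) ^ dg K * eul K f = phiK K f
/-- The smooth count of the ideals prime to `f`. -/
def Cnt1 : Prop := ∀ (K : Type) [Field K] [NumberField K] (f : ℕ) (τ σ ρ E : ℝ), 0 < f → 0 ≤ σ →
  0 ≤ E → (∀ Y : ℝ, 0 < Y →
    Summable (fun J : {J : Ideal (𝓞 K) // J ≠ ⊥} => kt τ (Ideal.absNorm J.1 / Y)) ∧
    |∑' J : {J : Ideal (𝓞 K) // J ≠ ⊥}, kt τ (Ideal.absNorm J.1 / Y) - ρ * Y| ≤ E * Y ^ σ) →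
  ∀ (Y : ℝ) (F : Finset (Ideal (𝓞 K))), 0 < Y →
    (∀ a ∈ F, a ≠ ⊥ ∧ a ⊔ Ideal.span {(f : 𝓞 K)} = ⊤) →
    ∑ a ∈ F, kt τ (Ideal.absNorm a / Y) ≤ ρ * eul K f * Y + 2 ^ (dg K * ω f) * E * Y ^ σ
/-- The mean of a small power of the greatest common divisor. -/
def GA : Prop := ∀ (n : ℕ) (δ : ℝ), 0 < n → 0 ≤ δ → δ ≤ 1 / (2 * n) → ∃ C : ℝ, 1 ≤ C ∧
  ∀ (P : Polynomial ℤ) (Q : ℕ), P.Monic → P.natDegree = n → 0 < Q →
    ∑ t ∈ Finset.range Q, ((Int.gcd (P.eval (t : ℤ)) Q : ℕ) : ℝ) ^ δ ≤ C ^ ω Q * Q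
/-- Powers of the number of prime factors. -/
def OmB : Prop := ∀ C η : ℝ, 1 ≤ C → 0 < η → ∃ C' : ℝ, 0 < C' ∧ ∀ f : ℕ, 0 < f →
  C ^ ω f ≤ C' * (f : ℝ) ^ η

section Dat
variable {n : ℕ} (D : Datum n)
/-- The index of the order. -/
def ix : ℕ := D.O.toAddSubgroup.relIndex (integralClosure ℤ D.K).toSubring.toAddSubgroup
/-- The order as a lattice. -/
def oo : Submodule ℤ D.K := AddSubgroup.toIntSubmodule D.O.toAddSubgroup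
/-- The ring of integers as a lattice. -/
def oK : Submodule ℤ D.K :=
  AddSubgroup.toIntSubmodule (integralClosure ℤ D.K).toSubring.toAddSubgroup
/-- A multiple of a lattice. -/
def sm (a : D.K) (I : Submodule ℤ D.K) : Submodule ℤ D.K := I.map (LinearMap.mulLeft ℤ a)
/-- The ideal of the maximal order generated by an integral lattice. -/
def up (I : Submodule ℤ D.K) : Ideal (𝓞 D.K) := Ideal.span {x | (x : D.K) ∈ I}
/-- The integral invertible ideals of the order. -/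
def BB : Set (Submodule ℤ D.K) := {I | D.IsProperInv I ∧ I ≤ oo D}
/-- The number of units modulo the index that come from the order. -/
def phiO : ℕ := Nat.card {x : (𝓞 D.K ⧸ Ideal.span {(ix D : 𝓞 D.K)})ˣ //
  ∃ y : 𝓞 D.K, (y : D.K) ∈ D.O ∧ Ideal.Quotient.mk _ y = x.1}
/-- The units of the order. -/
def UO : Subgroup (𝓞 D.K)ˣ where
  carrier := {e | ((e : 𝓞 D.K) : D.K) ∈ D.O ∧ (((e⁻¹ : (𝓞 D.K)ˣ) : 𝓞 D.K) : D.K) ∈ D.O}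
  mul_mem' := by
    rintro a b ⟨ha, ha'⟩ ⟨hb, hb'⟩
    refine ⟨by simpa using D.O.mul_mem ha hb, ?_⟩
    rw [mul_inv_rev]
    simpa using D.O.mul_mem hb' ha'
  one_mem' := ⟨by simp, by simp⟩
  inv_mem' := by
    rintro a ⟨ha, ha'⟩
    exact ⟨ha', by simpa using ha⟩
/-- The number of integral invertible ideals below an ideal of the maximal order. -/
def mlt (a : Ideal (𝓞 D.K)) : ℕ := {I ∈ BB D | up D I = a}.ncard
/-- A system of representatives of the classes. -/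
def Reps (T : Finset (Submodule ℤ D.K)) : Prop := (∀ I ∈ T, D.IsProperInv I) ∧
  (∀ I, D.IsProperInv I → ∃ I' ∈ T, ∃ a : D.K, a ≠ 0 ∧ I = sm D a I') ∧
  ∀ I ∈ T, ∀ I' ∈ T, ∀ a : D.K, a ≠ 0 → I = sm D a I' → I = I'
/-- The ideal attached to a residue class modulo the index. -/
def Ix (x : 𝓞 D.K) : Submodule ℤ D.K := sm D x (oo D) ⊔ sm D (ix D) (oK D)
/-- The square root of the discriminant. -/
def yy : ℝ := √(D.absDisc : ℝ)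
end Dat

/-- Elementary facts on orders and their invertible ideals. -/
def OrdA : Prop := ∀ (n : ℕ) (D : Datum n), 0 < ix D ∧ dg D.K = n ∧ D.absDisc = dc D.K * ix D ^ 2 ∧
  (∀ x : 𝓞 D.K, (ix D : D.K) * x ∈ D.O) ∧ oo D ≤ oK D ∧ D.IsProperInv (oo D) ∧
  (∀ I, D.IsProperInv I ↔ D.IsFracIdeal I ∧ ∃ J, D.IsFracIdeal J ∧ I * J = oo D) ∧
  (∀ I, D.IsFracIdeal I → I * oo D = I ∧ Submodule.span ℚ (I : Set D.K) = ⊤ ∧
    ∃ c : ℕ, 0 < c ∧ sm D c I ≤ oo D) ∧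
  (∀ I J, D.IsProperInv I → D.IsProperInv J → D.IsProperInv (I * J)) ∧
  (∀ I, D.IsProperInv I → ∃ J, D.IsProperInv J ∧ I * J = oo D) ∧
  (∀ I a, a ≠ 0 → D.IsProperInv I → D.IsProperInv (sm D a I)) ∧
  (∀ I J a, sm D a I * J = sm D a (I * J)) ∧
  (∀ I J, I ≤ oK D → J ≤ oK D → up D (I * J) = up D I * up D J) ∧
  (∀ x : 𝓞 D.K, up D (sm D x (oo D)) = Ideal.span {x}) ∧
  (∀ I ∈ BB D, up D I ≠ ⊥) ∧ (UO D).FiniteIndex ∧ 0 < phiO D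
/-- Invertible ideals are principal modulo the index. -/
def LocP : Prop := ∀ (n : ℕ) (D : Datum n) (I : Submodule ℤ D.K), D.IsProperInv I →
  ∃ x ∈ I, ∀ y ∈ I, ∃ a ∈ D.O, ∃ z ∈ I, y = a * x + ix D * z
/-- The index of an integral invertible ideal. -/
def Idx : Prop := ∀ (n : ℕ) (D : Datum n), ∀ I ∈ BB D,
  I.toAddSubgroup.relIndex (oK D).toAddSubgroup = ix D * Ideal.absNorm (up D I)
/-- The covolume of an invertible ideal. -/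
def CovI : Prop := ∀ (n : ℕ) (D : Datum n) (I J : Submodule ℤ D.K), D.IsProperInv I →
  D.IsProperInv J → I * J = oo D → 0 < ZLattice.covolume (D.embed I) ∧ ∀ v ∈ I, v ≠ 0 →
    sm D v J ∈ BB D ∧ |∏ j, D.σ j v| / ZLattice.covolume (D.embed I)
      = Ideal.absNorm (up D (sm D v J)) / yy D
/-- Ideals prime to the index descend to the order. -/
def Desc : Prop := ∀ (n : ℕ) (D : Datum n) (a : Ideal (𝓞 D.K)), a ≠ ⊥ →
  a ⊔ Ideal.span {(ix D : 𝓞 D.K)} = ⊤ → ∃ I ∈ BB D, up D I = a ∧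
    ∃ p ∈ I, ∃ w : 𝓞 D.K, p + ix D * w = 1
/-- The fibres of the extension map. -/
def M1 : Prop := ∀ (n : ℕ) (D : Datum n), (∀ a, {I ∈ BB D | up D I = a}.Finite) ∧
  ∀ c a : Ideal (𝓞 D.K), a ≠ ⊥ → a ⊔ Ideal.span {(ix D : 𝓞 D.K)} = ⊤ → mlt D (c * a) ≤ mlt D c
/-- The fibre over an ideal is counted by generators modulo the index. -/
def M2a : Prop := ∀ (n : ℕ) (D : Datum n) (k : ℕ) (c : Ideal (𝓞 D.K)),
  (ix D : 𝓞 D.K) ^ k ∈ c →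
  mlt D c * phiO D * ix D ^ (n * k) ≤ Ideal.absNorm c * Nat.card
    {x : 𝓞 D.K ⧸ Ideal.span {(ix D : 𝓞 D.K) ^ (k + 1)} // ∃ y : 𝓞 D.K, (y : D.K) ∈ D.O ∧
      Ideal.Quotient.mk _ y = x ∧ Ideal.span {y} ⊔ Ideal.span {(ix D : 𝓞 D.K) ^ (k + 1)} = c}
/-- The weighted sums over the ideals composed of primes above the index. -/
def M2 : Prop := ∀ (n : ℕ) (δ : ℝ), 0 ≤ δ → δ ≤ 1 / (2 * n) → ∃ C : ℝ, 1 ≤ C ∧ (δ = 0 → C = 1) ∧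
  ∀ (D : Datum n) (k : ℕ) (F : Finset (Ideal (𝓞 D.K))), (∀ c ∈ F, (ix D : 𝓞 D.K) ^ k ∈ c) →
    (∑ c ∈ F, (mlt D c : ℝ) * (Ideal.absNorm c : ℝ) ^ (δ - 1)) * phiO D * ix D
      ≤ C ^ ω (ix D) * (ix D : ℝ) ^ n
/-- The invertible ideals that generate the unit ideal of the maximal order. -/
def Ker : Prop := ∀ (n : ℕ) (D : Datum n),
  (∀ x : 𝓞 D.K, IsUnit (Ideal.Quotient.mk (Ideal.span {(ix D : 𝓞 D.K)}) x) →
    D.IsProperInv (Ix D x) ∧ Ix D x ≤ oK D ∧ up D (Ix D x) = ⊤) ∧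
  (∀ I, D.IsProperInv I → I ≤ oK D → up D I = ⊤ → ∃ x : 𝓞 D.K,
    IsUnit (Ideal.Quotient.mk (Ideal.span {(ix D : 𝓞 D.K)}) x) ∧ I = Ix D x) ∧
  ∀ (x x' : 𝓞 D.K) (e : (𝓞 D.K)ˣ), IsUnit (Ideal.Quotient.mk (Ideal.span {(ix D : 𝓞 D.K)}) x) →
    Ix D x = sm D ((e : 𝓞 D.K) : D.K) (Ix D x') → ∃ y : 𝓞 D.K, (y : D.K) ∈ D.O ∧
      Ideal.Quotient.mk (Ideal.span {(ix D : 𝓞 D.K)}) x = Ideal.Quotient.mk _ (e * x' * y)
/-- Moving an ideal away from `f`, and the part of an ideal that is prime to `f`. -/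
def Mov : Prop := ∀ (K : Type) [Field K] [NumberField K] (f : ℕ), 0 < f →
  (∀ c : ClassGroup (𝓞 K), ∃ a : nonZeroDivisors (Ideal (𝓞 K)), ClassGroup.mk0 a = c ∧
    a.1 ⊔ Ideal.span {(f : 𝓞 K)} = ⊤) ∧
  ∀ a : Ideal (𝓞 K), a ≠ ⊥ → ∃ (c a' : Ideal (𝓞 K)) (k : ℕ), a = c * a' ∧ (f : 𝓞 K) ^ k ∈ c ∧
    a' ≠ ⊥ ∧ a' ⊔ Ideal.span {(f : 𝓞 K)} = ⊤
/-- The class number of an order. -/
def HLow : Prop := ∀ (n : ℕ) (D : Datum n), ∃ T : Finset (Submodule ℤ D.K), Reps D T ∧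
  classNumber D.K * phiK D.K (ix D) ≤ T.card * (UO D).index * phiO D
/-- The smooth count of the invertible ideals of an order. -/
def Cnt2 : Prop := ∀ (n : ℕ) (τ : ℝ), 0 < n → 0 < τ → τ ≤ 1 → ∀ η : ℝ, 0 < η → ∃ D0 : ℕ,
  ∀ D : Datum n, D0 ≤ D.absDisc → ∀ (s : ℝ) (F : Finset (Submodule ℤ D.K)), 0 < s →
    (∀ I ∈ F, I ∈ BB D) →
    (∑ I ∈ F, kt τ (Ideal.absNorm (up D I) / yy D / s)) * phiO D
      ≤ phiK D.K (ix D) * (dedekindZeta_residue D.K * √(dc D.K : ℝ)) *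
        (ct τ * s + η * s ^ (1 - 1 / (200 * n) : ℝ))
/-- The weight of a window of norms. -/
def gW (b s ε v : ℝ) : ℝ := if |v - s| < ε ∧ v ≤ b then v ^ (-(1 / 2) : ℝ) else 0
/-- The count in a window. -/
def Win : Prop := ∀ (n : ℕ), 0 < n → ∃ C : ℝ, 0 < C ∧ ∀ b s ε η : ℝ, 0 ≤ s → 0 < ε → ε ≤ 1 →
  0 < η → ∃ D0 : ℕ, ∀ D : Datum n, D0 ≤ D.absDisc → ∀ F : Finset (Submodule ℤ D.K),
    (∀ I ∈ F, I ∈ BB D) →
    (∑ I ∈ F, gW b s ε (Ideal.absNorm (up D I) / yy D)) * phiO D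
      ≤ phiK D.K (ix D) * (dedekindZeta_residue D.K * √(dc D.K : ℝ)) * (C * ε ^ (1 / 4 : ℝ) + η)

/-- Lattices with a bounded vector whose norm lies in a window. -/
def thinSet (n : ℕ) (B s ε : ℝ) : Set (X n) :=
  {x | ∃ w ∈ lattice x, w ≠ 0 ∧ ‖w‖ < B ∧ |(|∏ j, w j|) - s| < ε}
/-- The logarithms of the totally positive units of the order. -/
def logU {m : ℕ} (D : Datum (m + 1)) : Set (Fin m → ℝ) :=
  {u | ∃ e ∈ UO D, (∀ j, 0 < D.σ j ((e : 𝓞 D.K) : D.K)) ∧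
    ∀ j : Fin m, u j = Real.log (D.σ j.castSucc ((e : 𝓞 D.K) : D.K))}
/-- Sign vectors. -/
def Sgn {n : ℕ} (w : Fin n → ℝ) : Prop := ∀ j, w j = 1 ∨ w j = -1

/-- The lattice determines the point, and the action on lattices. -/
def LatA : Prop := ∀ n : ℕ, (∀ x y : X n, lattice x = lattice y → x = y) ∧
  (∀ (g : Matrix.SpecialLinearGroup (Fin n) ℝ) (x : X n),
    (lattice (act g x) : Set (Fin n → ℝ)) = (fun v => Matrix.vecMul v g.1) '' lattice x) ∧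
  (∀ (x : X n) (B : ℝ), {w : Fin n → ℝ | w ∈ lattice x ∧ ‖w‖ ≤ B}.Finite) ∧
  ∀ B s ε : ℝ, IsOpen (thinSet n B s ε)
/-- The orbits of a packet. -/
def Orb1 : Prop := ∀ (m : ℕ) (D : Datum (m + 1)),
  (∀ I w, D.IsProperInv I → Sgn w → (orbit (D.embed I) w).Nonempty ∧
    (∀ x ∈ orbit (D.embed I) w, orbit (D.embed I) w = Set.range fun u => act (diagA u) x) ∧
    ∀ x ∈ orbit (D.embed I) w, ∀ u, act (diagA u) x = x ↔ u ∈ logU D) ∧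
  (∀ I w a, D.IsProperInv I → Sgn w → a ≠ 0 →
    ∃ w', Sgn w' ∧ orbit (D.embed (sm D a I)) w = orbit (D.embed I) w') ∧
  ∀ I I' w w', D.IsProperInv I → D.IsProperInv I' → Sgn w → Sgn w' →
    orbit (D.embed I) w = orbit (D.embed I') w' → ∃ a : D.K, a ≠ 0 ∧ I = sm D a I'
/-- The lattice of the logarithms of the units. -/
def LatU : Prop := ∀ (m : ℕ) (D : Datum (m + 1)), ∃ (L : Submodule ℤ (Fin m → ℝ))
  (_ : DiscreteTopology L) (_ : IsZLattice ℝ L), (L : Set (Fin m → ℝ)) = logU D ∧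
    (UO D).index * Units.regulator D.K ≤ ZLattice.covolume L
/-- Invariant probabilities on a compact orbit. -/
def OrbM : Prop := ∀ (m : ℕ) (x : X (m + 1)) (L : Submodule ℤ (Fin m → ℝ)) [DiscreteTopology L]
  [IsZLattice ℝ L], (∀ u, act (diagA u) x = x ↔ u ∈ L) →
  IsCompact (Set.range fun u => act (diagA u) x) ∧
  vol (Set.range fun u => act (diagA u) x) = ZLattice.covolume L ∧
  (∃! ν, IsOrbitMeasure (Set.range fun u => act (diagA u) x) ν) ∧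
  ∃ P : Set (Fin m → ℝ), MeasurableSet P ∧ (∀ u ∈ P, ∀ u' ∈ P, u - u' ∈ L → u = u') ∧
    ∀ ν, IsOrbitMeasure (Set.range fun u => act (diagA u) x) ν → ∀ E, MeasurableSet E →
      ENNReal.ofReal (ZLattice.covolume L) * ν E = volume {u ∈ P | act (diagA u) x ∈ E}
/-- The volume of the times at which a vector is in a box. -/
def VolB : Prop := ∀ (m : ℕ) (B : ℝ), ∃ C : ℝ, 0 < C ∧ ∀ w : Fin (m + 1) → ℝ, (∀ j, w j ≠ 0) →
  volume {u : Fin m → ℝ | ‖Matrix.vecMul w (diagA u).1‖ < B}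
    ≤ ENNReal.ofReal (if |∏ j, w j| ≤ B ^ (m + 1) then C * |∏ j, w j| ^ (-(1 / 2) : ℝ) else 0)
/-- Unfolding over one orbit. -/
def UnfP : Prop := ∀ (m : ℕ) (B : ℝ), ∃ C : ℝ, 0 < C ∧ ∀ (D : Datum (m + 1))
  (I J : Submodule ℤ D.K) (w : Fin (m + 1) → ℝ) (ν : Measure (X (m + 1))) (s ε : ℝ),
  D.IsProperInv I → D.IsProperInv J → I * J = oo D → Sgn w →
  IsOrbitMeasure (orbit (D.embed I) w) ν →
  ENNReal.ofReal (vol (orbit (D.embed I) w)) * ν (thinSet (m + 1) B s ε) ≤ ENNReal.ofReal C *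
    ∑' b : {b // b ∈ BB D ∧ ∃ v : D.K, v ≠ 0 ∧ b = sm D v J},
      ENNReal.ofReal (gW (B ^ (m + 1)) s ε (Ideal.absNorm (up D b.1) / yy D))
/-- The structure of a packet. -/
def PackA : Prop := ∀ (m : ℕ) (D : Datum (m + 1)), D.packet.Finite ∧ D.packet.Nonempty ∧
  (∀ S ∈ D.packet, 0 < vol S ∧ IsCompact S ∧ ∃! ν, IsOrbitMeasure S ν) ∧
  ∀ ν, (∀ S ∈ D.packet, IsOrbitMeasure S (ν S)) → IsProbabilityMeasure (D.measure ν) ∧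
    D.measure ν (⋃₀ D.packet)ᶜ = 0 ∧
    ∀ u, MeasurePreserving (act (diagA u)) (D.measure ν) (D.measure ν)
/-- The packet measure of a window. -/
def PackB : Prop := ∀ (m : ℕ) (B : ℝ), ∃ C : ℝ, 0 < C ∧ ∀ s ε η : ℝ, 0 ≤ s → 0 < ε → ε ≤ 1 →
  0 < η → ∃ D0 : ℕ, ∀ D : Datum (m + 1), D0 ≤ D.absDisc → ∀ ν,
    (∀ S ∈ D.packet, IsOrbitMeasure S (ν S)) →
    D.measure ν (thinSet (m + 1) B s ε) ≤ ENNReal.ofReal (C * ε ^ (1 / 4 : ℝ) + η)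
/-- Mahler's compactness criterion. -/
def Mahler : Prop := ∀ (n : ℕ) (ε : ℝ), 0 < ε →
  IsCompact {x : X n | ∀ w ∈ lattice x, w ≠ 0 → ε ≤ ‖w‖}

end TP
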