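import Vale.Agent.P007.RStm

noncomputable section
namespace TP
open MeasureTheory Filter Set ProbabilityTheory
open Vale.Agent.P007 (X lattice act Gam proj IsInvariantProb Equidistributes)
open scoped Classical Topology ENNReal

variable {n : ℕ}

theorem RALG_mul_inv (g : G n) : g.1 * (g⁻¹).1 = 1 := by
  rw [← Matrix.SpecialLinearGroup.coe_mul, mul_inv_cancel, Matrix.SpecialLinearGroup.coe_one]

theorem RALG_inv_mul (g : G n) : (g⁻¹).1 * g.1 = 1 := by
  rw [← Matrix.SpecialLinearGroup.coe_mul, inv_mul_cancel, Matrix.SpecialLinearGroup.coe_one]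

theorem RALG_ring1 {R : Type} [Ring R] {g g' a a' c c' z : R} (h1 : g' * g = 1) (h2 : a' * a = 1)
    (h3 : c' * c = 1) (h : z * (g * a * c' * g') = (g * a * c' * g') * z) :
    a' * (g' * z * g) * a = c' * (g' * z * g) * c := by
  calc a' * (g' * z * g) * a = a' * g' * (z * (g * a * (c' * (g' * g) * c))) := by
        rw [h1, mul_one, h3]; noncomm_ring
    _ = a' * g' * (z * (g * a * c' * g')) * g * c := by noncomm_ring
    _ = a' * ((g' * g) * a) * c' * g' * z * g * c := by rw [h]; noncomm_ring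
    _ = _ := by rw [h1, one_mul, h2]; noncomm_ring

theorem RALG_ring2 {R : Type} [Ring R] {g g' a c c' y : R} (h1 : g' * g = 1) (h2 : c * c' = 1)
    (h3 : c' * c = 1) (ha : y * a = a * y) (hc : y * c = c * y) :
    (g * y * g') * (g * a * c' * g') = (g * a * c' * g') * (g * y * g') := by
  have hc' : y * c' = c' * y := by
    calc y * c' = (c' * c) * y * c' := by rw [h3, one_mul]
      _ = c' * (y * c) * c' := by rw [hc]; noncomm_ring
      _ = c' * y * (c * c') := by noncomm_ring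
      _ = _ := by rw [h2, mul_one]
  calc (g * y * g') * (g * a * c' * g') = g * y * (g' * g) * a * c' * g' := by noncomm_ring
    _ = g * (y * a) * c' * g' := by rw [h1]; noncomm_ring
    _ = g * a * (y * c') * g' := by rw [ha]; noncomm_ring
    _ = g * a * c' * (g' * g) * y * g' := by rw [hc', h1]; noncomm_ring
    _ = _ := by noncomm_ring

theorem RALG_ret (hLatV : LatV) (g h : G n) (P : G n → Prop) (hr : Ret h P (proj g)) :
    ∃ (m : ℕ → ℕ) (γ : ℕ → Matrix (Fin n) (Fin n) ℤ), Tendsto m atTop atTop ∧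
      (∀ z : Matrix (Fin n) (Fin n) ℝ,
        (∀ k, z * (γ k).map (Int.cast : ℤ → ℝ) = (γ k).map (Int.cast : ℤ → ℝ) * z) →
        Tendsto (fun k => ((h ^ m k)⁻¹).1 * ((g⁻¹).1 * z * g.1) * (h ^ m k).1) atTop
          (𝓝 ((g⁻¹).1 * z * g.1))) ∧
      ∀ y : Matrix (Fin n) (Fin n) ℝ, y * h.1 = h.1 * y → (∀ c, P c → y * c.1 = c.1 * y) →
        ∀ k, (g.1 * y * (g⁻¹).1) * (γ k).map (Int.cast : ℤ → ℝ) =
          (γ k).map (Int.cast : ℤ → ℝ) * (g.1 * y * (g⁻¹).1) := by
  obtain ⟨m, c, hm, hc, hk⟩ := hr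
  choose γ hγ using fun k => (hLatV n).2.2 g (h ^ m k) (c k) (hk k).2
  have hγ' : ∀ k, (γ k).map (Int.cast : ℤ → ℝ) =
      g.1 * (h ^ m k).1 * ((c k)⁻¹).1 * (g⁻¹).1 := fun k => by
    rw [hγ k]; rfl
  refine ⟨m, γ, hm, fun z hz => ?_, fun y hy hP k => ?_⟩
  · have e : ∀ k, ((h ^ m k)⁻¹).1 * ((g⁻¹).1 * z * g.1) * (h ^ m k).1 =
        ((c k)⁻¹).1 * ((g⁻¹).1 * z * g.1) * (c k).1 := fun k =>
      RALG_ring1 (RALG_inv_mul g) (RALG_inv_mul _) (RALG_inv_mul _) (by rw [← hγ' k]; exact hz k)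
    simp only [e]
    have hv0 : Continuous fun c : G n => c.1 := continuous_subtype_val
    have hv1 : Continuous fun c : G n => (c⁻¹).1 := hv0.comp (continuous_inv (G := G n))
    have hv : Continuous fun c : G n => (c⁻¹).1 * ((g⁻¹).1 * z * g.1) * c.1 :=
      (hv1.mul continuous_const).mul hv0
    have := (hv.tendsto 1).comp hc
    simpa [Function.comp_def] using this
  · rw [hγ' k]
    refine RALG_ring2 (RALG_inv_mul g) (RALG_mul_inv _) (RALG_inv_mul _) ?_ (hP _ (hk k).1)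
    rw [Matrix.SpecialLinearGroup.coe_pow]
    exact (Commute.pow_right hy _).eq

theorem RALG_lin {m : ℕ → ℕ} (hm : Tendsto m atTop atTop) {δ : ℝ}
    (h : Tendsto (fun k => (m k : ℝ) * δ) atTop (𝓝 0)) : δ = 0 := by
  by_contra hδ
  have h1 : Tendsto (fun k => (m k : ℝ)) atTop (𝓝 0) := by
    have := h.mul_const δ⁻¹
    simpa [mul_assoc, mul_inv_cancel₀ hδ] using this
  exact not_tendsto_nhds_of_tendsto_atTop (tendsto_natCast_atTop_atTop.comp hm) 0 h1

theorem RALG_diag {m : ℕ → ℕ} (hm : Tendsto m atTop atTop) {t : Fin n → ℝ}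
    (ht : Function.Injective t) {y : Matrix (Fin n) (Fin n) ℝ}
    (h : Tendsto (fun k => ((dA t ^ m k)⁻¹).1 * y * (dA t ^ m k).1) atTop (𝓝 y)) (i j : Fin n)
    (hij : i ≠ j) : y i j = 0 := by
  by_contra hy
  have h1 := tendsto_pi_nhds.1 (tendsto_pi_nhds.1 h i) j
  have e : ∀ k, (((dA t ^ m k)⁻¹).1 * y * (dA t ^ m k).1) i j =
      y i j * Real.exp ((m k : ℝ) * (t j - t i)) := by
    intro k
    rw [← dA_nsmul, ← dA_neg, dA_coe, dA_coe, Matrix.mul_diagonal, Matrix.diagonal_mul,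
      mul_right_comm, ← Real.exp_add, mul_comm]
    simp only [Pi.neg_apply, Finset.sum_neg_distrib, Pi.smul_apply, smul_eq_mul]
    congr 2
    ring
  simp only [e] at h1
  have h2 : Tendsto (fun k => Real.exp ((m k : ℝ) * (t j - t i))) atTop (𝓝 1) := by
    have := h1.const_mul (y i j)⁻¹
    simpa [← mul_assoc, inv_mul_cancel₀ hy] using this
  have h3 := h2.log one_ne_zero
  simp only [Real.log_exp, Real.log_one] at h3
  exact hij (ht (by linarith [RALG_lin hm h3]))

theorem RALG_uni {m : ℕ → ℕ} (hm : Tendsto m atTop atTop) {a b : Fin n} (hab : a ≠ b)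
    {d : Fin n → ℝ}
    (h : Tendsto (fun k => ((uu a b 1 ^ m k)⁻¹).1 * Matrix.diagonal d * (uu a b 1 ^ m k).1) atTop
      (𝓝 (Matrix.diagonal d))) : d a = d b := by
  have h1 := tendsto_pi_nhds.1 (tendsto_pi_nhds.1 h a) b
  have e : ∀ k, (((uu a b 1 ^ m k)⁻¹).1 * Matrix.diagonal d * (uu a b 1 ^ m k).1) a b =
      (m k : ℝ) * (d a - d b) := by
    intro k
    rw [← uu_nat, ← uu_neg, uu_coe hab, uu_coe hab]
    have e1 : ∀ l, ((1 + Matrix.single a b (-(m k : ℝ))) * Matrix.diagonal d) a l =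
        (if l = a then d a else 0) + if l = b then -(m k : ℝ) * d b else 0 := by
      intro l
      rw [Matrix.mul_diagonal, Matrix.add_apply, Matrix.one_apply, Matrix.single_apply]
      by_cases h1 : l = a
      · subst h1; simp [hab, hab.symm]
      · by_cases h2 : l = b
        · subst h2; simp [hab, hab.symm]
        · simp [h1, h2, Ne.symm h1, Ne.symm h2]
    rw [Matrix.mul_add, mul_one, Matrix.add_apply, Matrix.mul_single_apply_same, e1, e1]
    simp only [hab, hab.symm, if_true, if_false]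
    ring
  simp only [e, Matrix.diagonal_apply_ne _ hab] at h1
  linarith [RALG_lin hm h1]

theorem RALG_phi {P : Matrix (Fin n) (Fin n) ℝ} {γ : Matrix (Fin n) (Fin n) ℤ}
    (h : P * γ.map (Int.cast : ℤ → ℝ) = γ.map (Int.cast : ℤ → ℝ) * P) (φ : ℝ →ₗ[ℚ] ℚ) :
    (P.map φ).map (Rat.cast : ℚ → ℝ) * γ.map (Int.cast : ℤ → ℝ) =
      γ.map (Int.cast : ℤ → ℝ) * (P.map φ).map (Rat.cast : ℚ → ℝ) := by
  ext i j
  have h1 := congrArg φ (congrFun (congrFun h i) j)
  have e : ∀ (r : ℝ) (k : ℤ), φ ((k : ℝ) * r) = (k : ℚ) * φ r := fun r k => by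
    rw [← zsmul_eq_mul, map_zsmul, zsmul_eq_mul]
  simp only [Matrix.mul_apply, Matrix.map_apply, map_sum, mul_comm (P i _), e] at h1 ⊢
  have h2 := congrArg (Rat.cast : ℚ → ℝ) h1
  push_cast at h2
  rw [← h2]
  exact Finset.sum_congr rfl fun l _ => mul_comm _ _

theorem RALG_nonscalar {P : Matrix (Fin n) (Fin n) ℝ} (a : Fin n)
    (h : ∀ φ : ℝ →ₗ[ℚ] ℚ, ∃ q : ℚ, P.map φ = q • (1 : Matrix (Fin n) (Fin n) ℚ)) :
    P = P a a • (1 : Matrix (Fin n) (Fin n) ℝ) := by
  ext i j
  rw [← sub_eq_zero, ← Module.forall_dual_apply_eq_zero_iff ℚ]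
  intro φ
  obtain ⟨q, hq⟩ := h φ
  have h1 := congrFun (congrFun hq i) j
  have h2 := congrFun (congrFun hq a) a
  simp only [Matrix.map_apply, Matrix.smul_apply, Matrix.one_apply, smul_eq_mul, if_true,
    mul_one] at h1 h2 ⊢
  rw [map_sub, h1]
  split_ifs
  · rw [mul_one, mul_one, h2, sub_self]
  · simp

open Polynomial in
theorem RALG_conj (g : G n) (z : Matrix (Fin n) (Fin n) ℚ) (d : Fin n → ℝ)
    (h : (g⁻¹).1 * z.map (Rat.cast : ℚ → ℝ) * g.1 = Matrix.diagonal d) (f : ℚ[X]) :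
    (g⁻¹).1 * (aeval z f).map (Rat.cast : ℚ → ℝ) * g.1 =
      Matrix.diagonal fun i => aeval (d i) f := by
  have hm : ∀ A B : Matrix (Fin n) (Fin n) ℚ, (A * B).map (Rat.cast : ℚ → ℝ) =
      A.map (Rat.cast : ℚ → ℝ) * B.map (Rat.cast : ℚ → ℝ) := fun A B =>
    Matrix.map_mul (f := Rat.castHom ℝ)
  induction f using Polynomial.induction_on with
  | C q =>
    have : (algebraMap ℚ (Matrix (Fin n) (Fin n) ℚ) q).map (Rat.cast : ℚ → ℝ) =
        (q : ℝ) • (1 : Matrix (Fin n) (Fin n) ℝ) := by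
      ext i j
      simp only [Matrix.map_apply, Matrix.algebraMap_matrix_apply, Matrix.smul_apply,
        Matrix.one_apply]
      split_ifs <;> simp
    rw [aeval_C, this, Matrix.mul_smul, Matrix.smul_mul, mul_one, RALG_inv_mul]
    ext i j
    simp only [Matrix.smul_apply, Matrix.one_apply, Matrix.diagonal_apply, aeval_C]
    split_ifs <;> simp
  | add p q hp hq =>
    have : (aeval z p + aeval z q).map (Rat.cast : ℚ → ℝ) =
        (aeval z p).map (Rat.cast : ℚ → ℝ) + (aeval z q).map (Rat.cast : ℚ → ℝ) := by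
      ext i j; simp
    rw [map_add, this, mul_add, add_mul, hp, hq, Matrix.diagonal_add]
    simp only [map_add]
  | monomial k q hq =>
    have e : C q * Polynomial.X ^ (k + 1) = C q * Polynomial.X ^ k * Polynomial.X := by ring
    rw [e, map_mul, hm, aeval_X]
    have : (g⁻¹).1 * ((aeval z (C q * Polynomial.X ^ k)).map (Rat.cast : ℚ → ℝ) *
        z.map (Rat.cast : ℚ → ℝ)) * g.1 =
        ((g⁻¹).1 * (aeval z (C q * Polynomial.X ^ k)).map (Rat.cast : ℚ → ℝ) * g.1) *
          ((g⁻¹).1 * z.map (Rat.cast : ℚ → ℝ) * g.1) := by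
      simp only [Matrix.mul_assoc]
      rw [← Matrix.mul_assoc g.1, RALG_mul_inv, Matrix.one_mul]
    rw [this, hq, h, Matrix.diagonal_mul_diagonal]
    simp only [map_mul, aeval_X]

open Polynomial in
theorem RALG_charpoly (g : G n) (z : Matrix (Fin n) (Fin n) ℚ) (d : Fin n → ℝ)
    (h : (g⁻¹).1 * z.map (Rat.cast : ℚ → ℝ) * g.1 = Matrix.diagonal d) :
    z.charpoly.map (algebraMap ℚ ℝ) = ∏ i, (Polynomial.X - C (d i)) := by
  rw [← Matrix.charpoly_map, ← Matrix.charpoly_diagonal, ← h, Matrix.charpoly_mul_comm,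
    ← Matrix.mul_assoc, RALG_mul_inv, Matrix.one_mul]
  rfl

open Polynomial in
theorem RALG_prime (hn : n.Prime) (p f : ℚ[X]) (d : Fin n → ℝ) (hp : p.Monic) (hf : f.Monic)
    (hi : Irreducible f) (h : p.map (algebraMap ℚ ℝ) = ∏ i, (Polynomial.X - C (d i)))
    (hd : ∀ i, aeval (d i) f = 0) : (∃ q : ℚ, ∀ i, d i = q) ∨ Function.Injective d := by
  have h1 : p ∣ f ^ n := by
    rw [← map_dvd_map' (algebraMap ℚ ℝ), h, Polynomial.map_pow]
    have : f.map (algebraMap ℚ ℝ) ^ n = ∏ _i : Fin n, f.map (algebraMap ℚ ℝ) := by simp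
    rw [this]
    refine Finset.prod_dvd_prod_of_dvd _ _ fun i _ => ?_
    rw [dvd_iff_isRoot, IsRoot, eval_map_algebraMap]
    exact hd i
  obtain ⟨k, -, hk⟩ := (dvd_prime_pow hi.prime n).1 h1
  have h2 : p = f ^ k := eq_of_monic_of_associated hp (hf.pow k) hk
  have h3 : p.natDegree = n := by
    rw [← natDegree_map_eq_of_injective (algebraMap ℚ ℝ).injective, h,
      natDegree_prod_of_monic _ _ fun i _ => monic_X_sub_C _]
    simp
  rw [h2, hf.natDegree_pow] at h3
  rcases hn.eq_one_or_self_of_dvd f.natDegree (Dvd.intro_left k h3) with h4 | h4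
  · left
    refine ⟨-f.coeff 0, fun i => ?_⟩
    have h5 := hd i
    rw [hf.eq_X_add_C h4] at h5
    simp only [map_add, aeval_X, aeval_C, eq_ratCast] at h5
    push_cast
    linarith
  · right
    have h5 : k = 1 := by
      rw [h4] at h3
      exact Nat.eq_of_mul_eq_mul_right hn.pos (by rw [h3, one_mul])
    rw [h5, pow_one] at h2
    have h6 := (hi.separable).map (f := algebraMap ℚ ℝ)
    rw [← h2, h] at h6
    exact separable_prod_X_sub_C_iff.1 h6

theorem s_ALG (hLatV : LatV) : ALG := by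
  intro n x C a b t hn ha hb hab hC ht h1 h2 h3
  obtain ⟨g, rfl⟩ := proj_surj x
  obtain ⟨m, γ, hm, hz, hy⟩ := RALG_ret hLatV g _ _ h1
  obtain ⟨m', γ', hm', hz', hy'⟩ := RALG_ret hLatV g _ _ h2
  set D : Matrix (Fin n) (Fin n) ℝ := Matrix.diagonal fun i => if i ∈ C then 1 else 0 with hD
  have hDM : ∀ M : Matrix (Fin n) (Fin n) ℝ, (∀ i j, ¬ (i ∈ C ↔ j ∈ C) → M i j = 0) →
      D * M = M * D := by
    intro M hM
    ext i j
    rw [hD, Matrix.diagonal_mul, Matrix.mul_diagonal]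
    by_cases hi : i ∈ C <;> by_cases hj : j ∈ C
    · simp [hi, hj]
    · simp [hM i j (by simp [hi, hj])]
    · simp [hM i j (by simp [hi, hj])]
    · simp [hi, hj]
  have c1 := hy D (hDM _ fun i j hij => by
    rw [dA_coe, Matrix.diagonal_apply_ne]
    rintro rfl
    exact hij Iff.rfl) fun c hc => hDM _ hc
  have c2 := hy' D (hDM _ fun i j hij => by
    rw [uu_coe hab, Matrix.add_apply, Matrix.one_apply_ne (by rintro rfl; exact hij Iff.rfl),
      Matrix.single_apply_of_ne, add_zero]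
    rintro ⟨rfl, rfl⟩
    exact hij (iff_of_true ha hb)) fun c hc => hDM _ hc
  set P := g.1 * D * (g⁻¹).1 with hP
  obtain ⟨φ, hφ⟩ : ∃ φ : ℝ →ₗ[ℚ] ℚ, ∀ q : ℚ, P.map φ ≠ q • (1 : Matrix (Fin n) (Fin n) ℚ) := by
    by_contra hcon
    push Not at hcon
    have e1 := RALG_nonscalar a hcon
    have e2 : D = P a a • (1 : Matrix (Fin n) (Fin n) ℝ) := by
      calc D = ((g⁻¹).1 * g.1) * D * ((g⁻¹).1 * g.1) := by rw [RALG_inv_mul, one_mul, mul_one]
        _ = (g⁻¹).1 * P * g.1 := by simp only [hP, Matrix.mul_assoc]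
        _ = (g⁻¹).1 * (P a a • (1 : Matrix (Fin n) (Fin n) ℝ)) * g.1 := by rw [← e1]
        _ = _ := by rw [Matrix.mul_smul, Matrix.smul_mul, mul_one, RALG_inv_mul]
    obtain ⟨k, hk⟩ := (ne_univ_iff_exists_notMem C).1 hC
    have e3 := congrFun (congrFun e2 a) a
    have e4 := congrFun (congrFun e2 k) k
    simp only [hD, Matrix.diagonal_apply_eq, ha, hk, if_true, if_false, Matrix.smul_apply,
      Matrix.one_apply_eq, smul_eq_mul, mul_one] at e3 e4
    linarith
  set z := P.map φ with hzd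
  have l1 := hz _ fun k => RALG_phi (c1 k) φ
  have l2 := hz' _ fun k => RALG_phi (c2 k) φ
  set y := (g⁻¹).1 * z.map (Rat.cast : ℚ → ℝ) * g.1 with hyd
  have hdiag : y = Matrix.diagonal fun i => y i i := by
    ext i j
    by_cases hij : i = j
    · subst hij; simp
    · rw [Matrix.diagonal_apply_ne _ hij]
      exact RALG_diag hm ht l1 i j hij
  obtain ⟨d, hd⟩ : ∃ d : Fin n → ℝ, y = Matrix.diagonal d := ⟨_, hdiag⟩
  rw [hd] at l2
  have hdab := RALG_uni hm' hab l2
  have hch := RALG_charpoly g z d hd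
  have hint : IsIntegral ℚ (d a) := by
    refine ⟨z.charpoly, z.charpoly_monic, ?_⟩
    rw [← Polynomial.eval_map, hch, Polynomial.eval_prod]
    exact Finset.prod_eq_zero (Finset.mem_univ a) (by simp)
  set f := minpoly ℚ (d a) with hf
  by_cases hS : ∀ i, Polynomial.aeval (d i) f = 0
  · rcases RALG_prime hn z.charpoly f d z.charpoly_monic (minpoly.monic hint)
      (minpoly.irreducible hint) hch hS with ⟨q, hq⟩ | hinj
    · refine hφ q ?_
      have e1 : z.map (Rat.cast : ℚ → ℝ) = (q : ℝ) • (1 : Matrix (Fin n) (Fin n) ℝ) := by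
        have e2 : y = (q : ℝ) • (1 : Matrix (Fin n) (Fin n) ℝ) := by
          rw [hd]
          ext i j
          simp only [Matrix.diagonal_apply, Matrix.smul_apply, Matrix.one_apply, hq]
          split_ifs <;> simp
        calc z.map (Rat.cast : ℚ → ℝ)
            = (g.1 * (g⁻¹).1) * z.map (Rat.cast : ℚ → ℝ) * (g.1 * (g⁻¹).1) := by
              rw [RALG_mul_inv, one_mul, mul_one]
          _ = g.1 * y * (g⁻¹).1 := by simp only [hyd, Matrix.mul_assoc]
          _ = _ := by rw [e2, Matrix.mul_smul, Matrix.smul_mul, mul_one, RALG_mul_inv]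
      ext i j
      have e3 := congrFun (congrFun e1 i) j
      simp only [Matrix.map_apply, Matrix.smul_apply, Matrix.one_apply, smul_eq_mul] at e3 ⊢
      apply Rat.cast_injective (α := ℝ)
      rw [e3]
      split_ifs <;> simp
    · exact hab (hinj hdab)
  · push Not at hS
    obtain ⟨i₀, hi₀⟩ := hS
    set S : Set (Fin n) := {i | Polynomial.aeval (d i) f ≠ 0} with hSd
    have haS : a ∉ S := fun h => h (minpoly.aeval ℚ (d a))
    have hc := RALG_conj g z d hd f
    obtain ⟨w, hw, hw0, hwS⟩ := (hLatV n).1 g (Polynomial.aeval z f) S (fun h0 => by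
      rw [h0] at hc
      have := congrFun (congrFun hc i₀) i₀
      simp only [Matrix.map_zero _ Rat.cast_zero, mul_zero, zero_mul, Matrix.zero_apply,
        Matrix.diagonal_apply_eq] at this
      exact hi₀ this.symm) (fun i j hj => by
      rw [hc, Matrix.diagonal_apply]
      split_ifs with h
      · subst h
        exact not_not.1 hj
      · rfl)
    refine (hLatV n).2.1 (proj g) w (tS S) hw hw0 (fun j hj => ?_)
      (h3 S ⟨i₀, hi₀⟩ fun h => haS (h ▸ mem_univ a))
    have hjS : j ∈ S := by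
      by_contra h
      exact hj (hwS j h)
    have hn0 : (0 : ℝ) < n := by exact_mod_cast hn.pos
    rw [lt_div_iff₀ hn0, tS, if_pos hjS]
    have : ∑ _i : Fin n, (-1 : ℝ) < ∑ i, tS S i := by
      refine Finset.sum_lt_sum (fun i _ => ?_) ⟨a, Finset.mem_univ a, ?_⟩
      · unfold tS; split_ifs <;> norm_num
      · rw [tS, if_neg haS]; norm_num
    simpa using this


end TP
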