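import Vale.Agent.P007.NStm

/-! Torus packets in prime degree, measure rigidity: basic definitions and elementary facts. -/

noncomputable section
namespace TP
open MeasureTheory Filter Set
open Vale.Agent.P007 (X lattice act Gam proj act_proj proj_out proj_eq_iff isOpenQuotientMap_proj)
open scoped Classical Topology ENNReal

/-- The group `SL_n(R)`. -/
abbrev G (n : ℕ) : Type := Matrix.SpecialLinearGroup (Fin n) ℝ

variable {n : ℕ}

instance instMeasG : MeasurableSpace (G n) := borel _
instance instBorelG : BorelSpace (G n) := ⟨rfl⟩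
instance instSCX : SecondCountableTopology (X n) :=
  (isOpenQuotientMap_proj n).isQuotientMap.secondCountableTopology
    (isOpenQuotientMap_proj n).isOpenMap
instance instCountGam : Countable (Gam n) := by
  have : Countable (Matrix.SpecialLinearGroup (Fin n) ℤ) :=
    (inferInstance : Countable {A : Fin n → Fin n → ℤ // Matrix.det A = 1})
  exact (Set.countable_range _).to_subtype

/-- The diagonal element `diag(exp (t j - mean))`. -/
def dA (t : Fin n → ℝ) : G n :=
  ⟨Matrix.diagonal fun j => Real.exp (t j - (∑ i, t i) / n), by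
    rw [Matrix.det_diagonal, ← Real.exp_sum, Finset.sum_sub_distrib, Finset.sum_const,
      Finset.card_univ, Fintype.card_fin, nsmul_eq_mul]
    rcases Nat.eq_zero_or_pos n with h | h
    · subst h
      simp
    · rw [mul_div_cancel₀ _ (by positivity), sub_self, Real.exp_zero]⟩

/-- The root subgroup `1 + r E_ij` (trivial if `i = j`). -/
def uu (i j : Fin n) (r : ℝ) : G n :=
  if h : i ≠ j then Matrix.SpecialLinearGroup.transvection h r else 1

theorem emb_G : Topology.IsClosedEmbedding fun g : G n => (g.1 : Fin n → Fin n → ℝ) :=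
  Matrix.SpecialLinearGroup.isClosedEmbedding_val

/-- Convergence in the group is convergence of the entries. -/
theorem tendsto_G {ι : Type*} {l : Filter ι} {g : ι → G n} {g₀ : G n} :
    Tendsto g l (𝓝 g₀) ↔ ∀ i j, Tendsto (fun a => (g a).1 i j) l (𝓝 (g₀.1 i j)) :=
  emb_G.isInducing.tendsto_nhds_iff.trans
    (tendsto_pi_nhds.trans (forall_congr' fun _ => tendsto_pi_nhds))

theorem continuous_G {Ω : Type*} [TopologicalSpace Ω] {g : Ω → G n} :
    Continuous g ↔ ∀ i j, Continuous fun a => (g a).1 i j :=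
  emb_G.isInducing.continuous_iff.trans
    (continuous_pi_iff.trans (forall_congr' fun _ => continuous_pi_iff))

theorem continuous_entry (i j : Fin n) : Continuous fun g : G n => g.1 i j :=
  continuous_G.1 continuous_id i j

theorem dA_coe (t : Fin n → ℝ) :
    (dA t).1 = Matrix.diagonal fun j => Real.exp (t j - (∑ i, t i) / n) := rfl

theorem dA_add (s t : Fin n → ℝ) : dA (s + t) = dA s * dA t := by
  refine Subtype.ext ?_
  change _ = (dA s).1 * (dA t).1
  rw [dA_coe, dA_coe, dA_coe, Matrix.diagonal_mul_diagonal]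
  congr 1
  funext j
  rw [← Real.exp_add]
  simp only [Pi.add_apply, Finset.sum_add_distrib]
  congr 1
  ring

theorem dA_zero : dA (0 : Fin n → ℝ) = 1 := Subtype.ext (by simp [dA_coe])

theorem dA_neg (t : Fin n → ℝ) : dA (-t) = (dA t)⁻¹ :=
  eq_inv_of_mul_eq_one_left (by rw [← dA_add, neg_add_cancel, dA_zero])

theorem dA_nsmul (k : ℕ) (t : Fin n → ℝ) : dA ((k : ℝ) • t) = dA t ^ k := by
  induction k with
  | zero => simp [dA_zero]
  | succ k ih => rw [Nat.cast_succ, add_smul, one_smul, dA_add, ih, pow_succ]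

theorem dA_conj (t : Fin n → ℝ) (h : G n) (i j : Fin n) :
    ((dA t)⁻¹ * h * dA t).1 i j = h.1 i j * Real.exp (t j - t i) := by
  rw [← dA_neg]
  change ((dA (-t)).1 * h.1 * (dA t).1) i j = _
  rw [dA_coe, dA_coe, Matrix.mul_diagonal, Matrix.diagonal_mul, mul_right_comm, ← Real.exp_add,
    mul_comm]
  simp only [Pi.neg_apply, Finset.sum_neg_distrib]
  congr 2
  ring

theorem dA_conj' (t : Fin n → ℝ) (h : G n) (i j : Fin n) :
    (dA t * h * (dA t)⁻¹).1 i j = h.1 i j * Real.exp (t i - t j) := by
  have := dA_conj (-t) h i j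
  rw [dA_neg, inv_inv] at this
  rw [this]
  simp only [Pi.neg_apply]
  congr 2
  ring

theorem continuous_dA : Continuous (dA : (Fin n → ℝ) → G n) := by
  refine Continuous.subtype_mk (Continuous.matrix_diagonal ?_) _
  fun_prop

theorem uu_coe {i j : Fin n} (h : i ≠ j) (r : ℝ) : (uu i j r).1 = 1 + Matrix.single i j r := by
  rw [uu, dif_pos h]
  rfl

theorem uu_add (i j : Fin n) (r s : ℝ) : uu i j (r + s) = uu i j r * uu i j s := by
  unfold uu
  split_ifs with h
  · exact Matrix.SpecialLinearGroup.transvection_add h r s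
  · simp

theorem uu_zero (i j : Fin n) : uu i j (0 : ℝ) = 1 := by
  unfold uu
  split_ifs with h
  · exact Matrix.SpecialLinearGroup.transvection_coeff_zero h
  · rfl

theorem uu_neg (i j : Fin n) (r : ℝ) : uu i j (-r) = (uu i j r)⁻¹ :=
  eq_inv_of_mul_eq_one_left (by rw [← uu_add, neg_add_cancel, uu_zero])

theorem uu_nat (i j : Fin n) (k : ℕ) : uu i j (k : ℝ) = uu i j 1 ^ k := by
  induction k with
  | zero => simp [uu_zero]
  | succ k ih => rw [Nat.cast_succ, uu_add, ih, pow_succ]

theorem continuous_uu (i j : Fin n) : Continuous (uu i j : ℝ → G n) := by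
  by_cases h : i ≠ j
  · refine continuous_G.2 fun a b => ?_
    simp only [uu_coe h, Matrix.add_apply]
    refine continuous_const.add ?_
    simp only [Matrix.single_apply]
    split_ifs
    · exact continuous_id
    · exact continuous_const
  · have : (uu i j : ℝ → G n) = fun _ => 1 := funext fun r => by rw [uu, dif_neg h]
    rw [this]
    exact continuous_const

theorem uu_conj (t : Fin n → ℝ) (i j : Fin n) (r : ℝ) :
    (dA t)⁻¹ * uu i j r * dA t = uu i j (Real.exp (t j - t i) * r) := by
  by_cases h : i ≠ j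
  · refine Subtype.ext (Matrix.ext fun a b => ?_)
    rw [dA_conj, uu_coe h, uu_coe h]
    simp only [Matrix.add_apply, Matrix.one_apply, Matrix.single_apply]
    by_cases h1 : a = b
    · subst h1
      have : ¬ (i = a ∧ j = a) := fun h2 => h (h2.1.trans h2.2.symm)
      simp [this]
    · by_cases h2 : i = a ∧ j = b
      · obtain ⟨rfl, rfl⟩ := h2
        simp [h1, mul_comm]
      · simp [h1, h2]
  · simp [uu, dif_neg h]

theorem uu_mul_dA (t : Fin n → ℝ) (i j : Fin n) (r : ℝ) :
    uu i j r * dA t = dA t * uu i j (Real.exp (t j - t i) * r) := by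
  rw [← uu_conj]
  group

theorem proj_surj (x : X n) : ∃ g : G n, proj g = x := ⟨_, proj_out x⟩

theorem act_act (g h : G n) (x : X n) : act h (act g x) = act (g * h) x := by
  obtain ⟨k, rfl⟩ := proj_surj x
  rw [act_proj, act_proj, act_proj, mul_assoc]

theorem act_one (x : X n) : act (1 : G n) x = x := by
  obtain ⟨k, rfl⟩ := proj_surj x
  rw [act_proj, mul_one]

theorem act_iter (g : G n) (k : ℕ) (x : X n) : (act g)^[k] x = act (g ^ k) x := by
  induction k with
  | zero => simp [act_one]
  | succ k ih => rw [Function.iterate_succ_apply', ih, act_act, pow_succ]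

theorem proj_gam (γ : Gam n) (g : G n) : proj (γ.1 * g) = proj g := by
  rw [proj_eq_iff, mul_inv_cancel_right]
  exact γ.2

theorem continuous_proj : Continuous (proj : G n → X n) := (isOpenQuotientMap_proj n).continuous

theorem continuous_act₂ : Continuous fun p : G n × X n => act p.1 p.2 := by
  have h : IsOpenQuotientMap (Prod.map (id : G n → G n) (proj : G n → X n)) :=
    IsOpenQuotientMap.id.prodMap (isOpenQuotientMap_proj n)
  rw [← h.continuous_comp_iff]
  have : ((fun p : G n × X n => act p.1 p.2) ∘ Prod.map id proj) = fun p : G n × G n =>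
      proj (p.2 * p.1) := funext fun p => act_proj _ _
  rw [this]
  exact continuous_proj.comp (by fun_prop)

theorem Continuous.tp_act {Ω : Type*} [TopologicalSpace Ω] {g : Ω → G n} {x : Ω → X n}
    (hg : Continuous g) (hx : Continuous x) : Continuous fun a => act (g a) (x a) :=
  continuous_act₂.comp (hg.prodMk hx)

theorem continuous_act (g : G n) : Continuous (act g : X n → X n) :=
  Continuous.tp_act continuous_const continuous_id

theorem measurable_act (g : G n) : Measurable (act g : X n → X n) := (continuous_act g).measurable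

theorem measurable_act₂ {Ω : Type*} [MeasurableSpace Ω] {g : Ω → G n} {x : Ω → X n}
    (hg : Measurable g) (hx : Measurable x) : Measurable fun a => act (g a) (x a) :=
  by
  have h1 : Measurable fun p : G n × X n => act p.1 p.2 := (continuous_act₂ (n := n)).measurable
  exact h1.comp (hg.prodMk hx)

theorem tendsto_act {ι : Type*} {l : Filter ι} {g : ι → G n} {x : ι → X n} {g₀ : G n} {x₀ : X n}
    (hg : Tendsto g l (𝓝 g₀)) (hx : Tendsto x l (𝓝 x₀)) :
    Tendsto (fun a => act (g a) (x a)) l (𝓝 (act g₀ x₀)) :=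
  by
  have h1 : Tendsto (fun p : G n × X n => act p.1 p.2) (𝓝 (g₀, x₀)) (𝓝 (act g₀ x₀)) :=
    (continuous_act₂ (n := n)).tendsto (g₀, x₀)
  have h2 : Tendsto (fun a => (g a, x a)) l (𝓝 (g₀, x₀)) := hg.prodMk_nhds hx
  exact Tendsto.comp (f := fun a => (g a, x a)) h1 h2

/-- Bounded entries give a compact set. -/
theorem isCompact_G (B : ℝ) : IsCompact {g : G n | ∀ i j, |g.1 i j| ≤ B} := by
  have h : IsCompact (Set.pi univ fun _ : Fin n => Set.pi univ fun _ : Fin n => Icc (-B) B) :=
    isCompact_univ_pi fun _ => isCompact_univ_pi fun _ => isCompact_Icc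
  have := (emb_G (n := n)).isCompact_preimage h
  refine (congrArg IsCompact (Set.ext fun g => ?_)).mp this
  simp only [mem_setOf_eq, abs_le]
  exact ⟨fun h i j => h i (mem_univ _) j (mem_univ _), fun h i _ j _ => h i j⟩

/-- A convergent sequence of points is a small translate of its limit. -/
theorem exists_lift {x : ℕ → X n} {x₀ : X n} (h : Tendsto x atTop (𝓝 x₀)) :
    ∃ g : ℕ → G n, Tendsto g atTop (𝓝 1) ∧ ∀ k, x k = act (g k) x₀ := by
  obtain ⟨g₀, rfl⟩ := proj_surj x₀
  have hF : ∀ y : X n, ∃ g : G n, y = act g (proj g₀) := fun y => by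
    obtain ⟨k, rfl⟩ := proj_surj y
    exact ⟨g₀⁻¹ * k, by rw [act_proj, mul_inv_cancel_left]⟩
  have ho : IsOpenMap fun g : G n => act g (proj g₀) := by
    have : (fun g : G n => act g (proj g₀)) = proj ∘ fun g => g₀ * g := funext fun g => act_proj _ _
    rw [this]
    exact (isOpenQuotientMap_proj n).isOpenMap.comp (isOpenMap_mul_left g₀)
  obtain ⟨U, hU⟩ := (𝓝 (1 : G n)).exists_antitone_basis
  have h1 : ∀ m, ∀ᶠ k in atTop, ∃ g ∈ U m, x k = act g (proj g₀) := fun m => by
    have := ho.image_mem_nhds (hU.mem m)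
    rw [act_one] at this
    exact (h.eventually this).mono fun k ⟨g, a, b⟩ => ⟨g, a, b.symm⟩
  have h2 : ∀ k, ∃ g : G n, x k = act g (proj g₀) ∧
      ∀ m ≤ k, (∃ g' ∈ U m, x k = act g' (proj g₀)) → g ∈ U m := fun k => by
    by_cases h3 : ∃ m ≤ k, ∃ g' ∈ U m, x k = act g' (proj g₀)
    · obtain ⟨g', a, b⟩ := Nat.findGreatest_spec (P := fun m => ∃ g' ∈ U m, x k = act g' (proj g₀))
        h3.choose_spec.1 h3.choose_spec.2
      exact ⟨g', b, fun m hm hm' => hU.antitone (Nat.le_findGreatest hm hm') a⟩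
    · obtain ⟨g, hg⟩ := hF (x k)
      exact ⟨g, hg, fun m hm hm' => absurd ⟨m, hm, hm'⟩ h3⟩
  choose g hg hg' using h2
  refine ⟨g, hU.toHasBasis.tendsto_right_iff.2 fun m _ => ?_, hg⟩
  filter_upwards [h1 m, eventually_ge_atTop m] with k a b using hg' k m b a

/-- Integrals against a measurable family of locally finite measures are measurable. -/
theorem meas_lint {Ω : Type*} [MeasurableSpace Ω] {κ : Ω → Measure ℝ} (hκ : Measurable κ)
    (hf : ∀ x, IsFiniteMeasureOnCompacts (κ x)) {k : Ω → ℝ → ℝ≥0∞}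
    (hk : Measurable (Function.uncurry k)) : Measurable fun x => ∫⁻ r, k x r ∂κ x := by
  have hI : ∀ m : ℤ, MeasurableSet (Ico (m : ℝ) (m + 1)) := fun m => measurableSet_Ico
  have hfin : ∀ x (m : ℤ), κ x (Ico (m : ℝ) (m + 1)) ≠ ∞ := fun x m =>
    ((measure_mono Ico_subset_Icc_self).trans_lt isCompact_Icc.measure_lt_top).ne
  have e : ∀ x, ∫⁻ r, k x r ∂κ x = ∑' m : ℤ, (κ x (Ico (m : ℝ) (m + 1)) + 1) *
      ∫⁻ r, k x r ∂((κ x (Ico (m : ℝ) (m + 1)) + 1)⁻¹ • (κ x).restrict (Ico (m : ℝ) (m + 1))) := by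
    intro x
    rw [← setLIntegral_univ, ← iUnion_Ico_intCast ℝ,
      lintegral_iUnion hI (pairwise_disjoint_Ico_intCast ℝ)]
    refine tsum_congr fun m => ?_
    rw [lintegral_smul_measure, smul_eq_mul, ← mul_assoc, ENNReal.mul_inv_cancel (by simp)
      (by simp [hfin x m]), one_mul]
  simp_rw [e]
  refine Measurable.ennreal_tsum fun m => ?_
  have h1 : Measurable fun x => κ x (Ico (m : ℝ) (m + 1)) :=
    (Measure.measurable_coe (hI m)).comp hκ
  refine (h1.add_const 1).mul ?_
  let η : ProbabilityTheory.Kernel Ω ℝ :=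
    ⟨fun x => (κ x (Ico (m : ℝ) (m + 1)) + 1)⁻¹ • (κ x).restrict (Ico (m : ℝ) (m + 1)), by
      refine Measure.measurable_of_measurable_coe _ fun s hs => ?_
      simp only [Measure.smul_apply, Measure.restrict_apply hs, smul_eq_mul]
      exact (h1.add_const 1).inv.mul ((Measure.measurable_coe (hs.inter (hI m))).comp hκ)⟩
  have : ProbabilityTheory.IsFiniteKernel η := ⟨⟨1, ENNReal.one_lt_top, fun x => by
    change ((κ x (Ico (m : ℝ) (m + 1)) + 1)⁻¹ • (κ x).restrict (Ico (m : ℝ) (m + 1))) univ ≤ 1
    rw [Measure.smul_apply, Measure.restrict_apply_univ, smul_eq_mul, ← ENNReal.div_eq_inv_mul]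
    exact ENNReal.div_le_of_le_mul (by simp)⟩⟩
  exact hk.lintegral_kernel_prod_right (κ := η)

end TP
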