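import Vale.Agent.P007.RStm

noncomputable section
namespace TP
open MeasureTheory Filter Set ProbabilityTheory
open Vale.Agent.P007 (X lattice act Gam proj IsInvariantProb Equidistributes)
open scoped Classical Topology ENNReal

section
variable {n : ℕ} {w : Fin n → Fin n → ℝ}

lemma RBox_mul (hw : Sbm w) {a b : ℝ} (ha : 0 ≤ a) (hb : 0 ≤ b) {A B : Matrix (Fin n) (Fin n) ℝ}
    (hA : ∀ i j, |A i j| ≤ a * w i j) (hB : ∀ i j, |B i j| ≤ b * w i j) (i j : Fin n) :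
    |(A * B) i j| ≤ n * a * b * w i j := by
  rw [Matrix.mul_apply]
  refine (Finset.abs_sum_le_sum_abs _ _).trans
    ((Finset.sum_le_card_nsmul _ _ (a * b * w i j) fun k _ => ?_).trans (le_of_eq ?_))
  · rw [abs_mul]
    refine (mul_le_mul (hA i k) (hB k j) (abs_nonneg _) (mul_nonneg ha (hw.2.1 _ _).le)).trans ?_
    rw [mul_mul_mul_comm]
    exact mul_le_mul_of_nonneg_left (hw.2.2 i k j) (mul_nonneg ha hb)
  · rw [Finset.card_univ, Fintype.card_fin, nsmul_eq_mul]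
    ring

lemma RBox_one (hw : Sbm w) {δ δ' : ℝ} {h h' : G n} (hδ : 0 ≤ δ) (hδ' : 0 ≤ δ') (hh : h ∈ Bx w δ)
    (hh' : h' ∈ Bx w δ') : h * h' ∈ Bx w (δ + δ' + n * δ * δ') := by
  intro i j
  have h1 : (h * h').1 - 1 = (h.1 - 1) + (h'.1 - 1) + (h.1 - 1) * (h'.1 - 1) := by
    change h.1 * h'.1 - 1 = _
    noncomm_ring
  have h2 := RBox_mul hw hδ hδ' (A := h.1 - 1) (B := h'.1 - 1) hh hh' i j
  change |((h * h').1 - 1) i j| ≤ _
  rw [h1, Matrix.add_apply, Matrix.add_apply, add_mul, add_mul]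
  exact (abs_add_three _ _ _).trans (add_le_add (add_le_add (hh i j) (hh' i j)) h2)

lemma RBox_inv (hw : Sbm w) {δ : ℝ} {h : G n} (hδ : 0 ≤ δ) (hn : 2 * n * δ ≤ 1) (hh : h ∈ Bx w δ) :
    h⁻¹ ∈ Bx w (2 * δ) := by
  intro i j
  have : Nonempty (Fin n × Fin n) := ⟨(i, j)⟩
  obtain ⟨p, hp⟩ := Finite.exists_max fun p : Fin n × Fin n => |((h⁻¹).1 - 1) p.1 p.2| / w p.1 p.2
  have hwp := hw.2.1 p.1 p.2
  have h0 : 0 ≤ |((h⁻¹).1 - 1) p.1 p.2| / w p.1 p.2 := by positivity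
  have h1 : ∀ i j, |((h⁻¹).1 - 1) i j| ≤ |((h⁻¹).1 - 1) p.1 p.2| / w p.1 p.2 * w i j :=
    fun i j => (div_le_iff₀ (hw.2.1 i j)).1 (hp (i, j))
  have h2 := RBox_mul hw h0 hδ (B := h.1 - 1) h1 hh p.1 p.2
  have h3 : (h⁻¹).1 * h.1 = 1 := congrArg Subtype.val (inv_mul_cancel h)
  have h4 : (h⁻¹).1 - 1 = -(h.1 - 1) - ((h⁻¹).1 - 1) * (h.1 - 1) := by
    rw [sub_mul, mul_sub, h3]
    noncomm_ring
  have h5 := (congrArg (fun A : Matrix (Fin n) (Fin n) ℝ => |A p.1 p.2|) h4).le.trans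
    ((abs_sub _ _).trans (add_le_add ((abs_neg _).le.trans (hh p.1 p.2)) h2))
  refine (h1 i j).trans (mul_le_mul_of_nonneg_right ?_ (hw.2.1 i j).le)
  rw [← add_mul, ← div_le_iff₀ hwp] at h5
  nlinarith [mul_le_mul_of_nonneg_right hn h0]

lemma RBox_cpt (w : Fin n → Fin n → ℝ) (δ : ℝ) : IsCompact (Bx w δ) := by
  have h : IsCompact (Set.pi univ fun i : Fin n => Set.pi univ fun j : Fin n =>
      Metric.closedBall ((1 : Matrix (Fin n) (Fin n) ℝ) i j) (δ * w i j)) :=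
    isCompact_univ_pi fun _ => isCompact_univ_pi fun _ => isCompact_closedBall _ _
  refine (congrArg IsCompact (Set.ext fun g => ?_)).mp ((emb_G (n := n)).isCompact_preimage h)
  exact ⟨fun h i j => h i (mem_univ _) j (mem_univ _), fun h i _ j _ => h i j⟩

lemma RBox_nhds (hw : ∀ i j, 0 < w i j) {δ : ℝ} (hδ : 0 < δ) : Bx w δ ∈ 𝓝 (1 : G n) := by
  refine eventually_all.2 fun i => eventually_all.2 fun j => ?_
  exact (continuous_entry i j).continuousAt.eventually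
    (Metric.closedBall_mem_nhds _ (mul_pos hδ (hw i j)))

lemma RBox_sbm (s t : Fin n → ℝ) : Sbm (wt s t) := by
  have h0 : ∀ i j, 0 < wt s t i j := fun i j => lt_min (Real.exp_pos _) (Real.exp_pos _)
  refine ⟨fun i => by simp [wt], h0, fun i j k => le_min ?_ ?_⟩
  · refine (mul_le_mul (min_le_left _ _) (min_le_left _ _) (h0 j k).le (Real.exp_pos _).le).trans ?_
    rw [← Real.exp_add, sub_add_sub_cancel]
  · refine (mul_le_mul (min_le_right _ _) (min_le_right _ _) (h0 j k).le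
      (Real.exp_pos _).le).trans ?_
    rw [← Real.exp_add, sub_add_sub_cancel]

lemma RBox_conj (s t r : Fin n → ℝ) (δ : ℝ) (h : G n) :
    h ∈ Bx (wt s t) δ ↔ dA r * h * (dA r)⁻¹ ∈ Bx (wt (s + r) (t + r)) δ := by
  refine forall_congr' fun i => forall_congr' fun j => ?_
  have h1 : wt (s + r) (t + r) i j = wt s t i j * Real.exp (r i - r j) := by
    rw [wt, wt, min_mul_of_nonneg _ _ (Real.exp_pos _).le, ← Real.exp_add, ← Real.exp_add]
    simp only [Pi.add_apply, add_sub_add_comm]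
  have h2 : h.1 i j * Real.exp (r i - r j) - (1 : Matrix (Fin n) (Fin n) ℝ) i j
      = (h.1 i j - (1 : Matrix (Fin n) (Fin n) ℝ) i j) * Real.exp (r i - r j) := by
    rw [sub_mul, Matrix.one_apply]
    split_ifs with h3
    · simp [h3]
    · simp
  rw [dA_conj', h1, h2, abs_mul, abs_of_pos (Real.exp_pos _), ← mul_assoc,
    mul_le_mul_iff_left₀ (Real.exp_pos _)]

lemma RBox_cells {w' : Fin n → Fin n → ℝ} {Λ δ δ' : ℝ} (hw : Sbm w) (hw' : Sbm w') (hΛ : 1 ≤ Λ)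
    (hle : ∀ i j, w i j ≤ Λ * w' i j) (hδ : 0 < δ) (hδ' : 0 < δ') (hn : 8 * n * δ ≤ 1) :
    ∃ E : Finset (Set (G n)),
      (E.card : ℝ) ≤ (10 * Λ ^ 2 * δ / δ' + 3) ^ (n * n) ∧ (∀ e ∈ E, MeasurableSet e) ∧
      (∀ h ∈ Bx w δ, ∃ e ∈ E, h⁻¹ ∈ e) ∧ ∀ e ∈ E, ∀ h ∈ e, ∀ h' ∈ e, h⁻¹ * h' ∈ Bx w' δ' := by
  have hΛ0 : 0 < Λ := by linarith
  have hn0 : 0 ≤ n * δ := by positivity
  obtain ⟨η, hη⟩ : ∃ η, η = δ' / (2 * Λ) := ⟨_, rfl⟩
  have hη0 : 0 < η := by rw [hη]; positivity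
  obtain ⟨y, hy⟩ : ∃ y, y = 4 * Λ ^ 2 * δ / δ' := ⟨_, rfl⟩
  have hy0 : 0 < y := by rw [hy]; positivity
  let c : G n → Fin n × Fin n → ℤ := fun h q =>
    ⌊(h.1 q.1 q.2 - (1 : Matrix (Fin n) (Fin n) ℝ) q.1 q.2) / (η * w' q.1 q.2)⌋
  let cell : (Fin n × Fin n → ℤ) → Set (G n) := fun p => Bx w (2 * δ) ∩ c ⁻¹' {p}
  refine ⟨(Fintype.piFinset fun _ => Finset.Icc (-(⌊y⌋₊ : ℤ) - 1) ⌊y⌋₊).image cell, ?_, ?_, ?_, ?_⟩
  · refine (Nat.cast_le.2 Finset.card_image_le).trans ?_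
    rw [Fintype.card_piFinset, Finset.prod_const, Finset.card_univ, Fintype.card_prod,
      Fintype.card_fin, Int.card_Icc, Nat.cast_pow,
      show ((⌊y⌋₊ : ℤ) + 1 - (-(⌊y⌋₊ : ℤ) - 1)).toNat = 2 * ⌊y⌋₊ + 2 by omega]
    refine pow_le_pow_left₀ (by positivity) ?_ _
    have h1 := Nat.floor_le hy0.le
    have h2 : 10 * Λ ^ 2 * δ / δ' = 5 / 2 * y := by rw [hy]; ring
    push_cast
    linarith
  · intro e he
    obtain ⟨p, -, rfl⟩ := Finset.mem_image.1 he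
    refine (RBox_cpt w _).measurableSet.inter ?_
    have h1 : Measurable c := measurable_pi_lambda _ fun q =>
      (((continuous_entry q.1 q.2).measurable.sub_const _).div_const _).floor
    exact h1 (measurableSet_singleton p)
  · intro h hh
    have h1 := RBox_inv hw hδ.le (by linarith) hh
    refine ⟨cell (c h⁻¹), Finset.mem_image_of_mem _ (Fintype.mem_piFinset.2 fun q => ?_), h1, rfl⟩
    have hq := hw'.2.1 q.1 q.2
    have h2 : |((h⁻¹).1 q.1 q.2 - (1 : Matrix (Fin n) (Fin n) ℝ) q.1 q.2) / (η * w' q.1 q.2)|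
        ≤ y := by
      rw [abs_div, abs_of_pos (mul_pos hη0 hq), div_le_iff₀ (mul_pos hη0 hq)]
      refine (h1 q.1 q.2).trans ((mul_le_mul_of_nonneg_left (hle _ _) (by positivity)).trans
        (le_of_eq ?_))
      rw [hy, hη]
      field_simp
      ring
    obtain ⟨h3, h4⟩ := abs_le.1 h2
    have h5 := Nat.lt_floor_add_one y
    refine Finset.mem_Icc.2 ⟨Int.le_floor.2 ?_, Int.lt_add_one_iff.1 (Int.floor_lt.2 ?_)⟩
    · push_cast
      linarith
    · push_cast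
      linarith
  · intro e he h hh h' hh' i j
    obtain ⟨p, -, rfl⟩ := Finset.mem_image.1 he
    have h1 := RBox_inv hw (by positivity) (by linarith) hh.1
    have h2 : ∀ i j, |((h⁻¹).1 - 1) i j| ≤ 4 * δ * Λ * w' i j := fun i j =>
      (h1 i j).trans ((mul_le_mul_of_nonneg_left (hle _ _) (by positivity)).trans
        (le_of_eq (by ring)))
    have h3 : ∀ i j, |(h'.1 - h.1) i j| ≤ η * w' i j := fun i j => by
      have hq := mul_pos hη0 (hw'.2.1 i j)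
      have h4 := Int.abs_sub_lt_one_of_floor_eq_floor
        (congrFun (hh'.2.trans hh.2.symm : c h' = c h) (i, j))
      rw [← sub_div, sub_sub_sub_cancel_right, abs_div, abs_of_pos hq, div_lt_one hq] at h4
      exact h4.le
    have h4 := RBox_mul hw' (by positivity) hη0.le h2 h3 i j
    have h5 : (h⁻¹).1 * h.1 = 1 := congrArg Subtype.val (inv_mul_cancel h)
    have h6 : (h⁻¹ * h').1 - 1 = (h'.1 - h.1) + ((h⁻¹).1 - 1) * (h'.1 - h.1) := by
      change (h⁻¹).1 * h'.1 - 1 = _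
      rw [sub_mul, mul_sub, h5]
      noncomm_ring
    change |((h⁻¹ * h').1 - 1) i j| ≤ _
    rw [h6, Matrix.add_apply]
    refine (abs_add_le _ _).trans ((add_le_add (h3 i j) h4).trans ?_)
    rw [← add_mul]
    refine mul_le_mul_of_nonneg_right ?_ (hw'.2.1 i j).le
    have h7 : δ' = 2 * (Λ * η) := by rw [hη]; field_simp
    have h8 := mul_le_mul_of_nonneg_right hΛ hη0.le
    have h9 := mul_le_mul_of_nonneg_right hn (mul_pos hΛ0 hη0).le
    nlinarith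

end

theorem s_BoxA : BoxA := fun _ =>
  ⟨fun _ _ _ _ _ hw hδ hδ' hh hh' => RBox_one hw hδ hδ' hh hh',
    fun _ _ _ hw hδ hn hh => RBox_inv hw hδ hn hh,
    fun w δ => ⟨RBox_cpt w δ, fun hw hδ => RBox_nhds hw hδ⟩, RBox_sbm, RBox_conj,
    fun _ _ _ _ _ hw hw' hΛ hle hδ hδ' hn => RBox_cells hw hw' hΛ hle hδ hδ' hn⟩

end TP
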