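import Vale.Agent.P007.RStm

noncomputable section
namespace TP
open MeasureTheory Filter Set ProbabilityTheory
open Vale.Agent.P007 (X lattice act Gam proj IsInvariantProb Equidistributes)
open scoped Classical Topology ENNReal

variable {n : ℕ}

theorem RDL_mset {Q : Set (G n)} (hQ : MeasurableSet Q) (g : G n) :
    MeasurableSet {y : G n | g⁻¹ * y ∈ Q} :=
  (continuous_const.mul continuous_id).measurable hQ

theorem RDL_mset₂ {Q : Set (G n)} (hQ : MeasurableSet Q) :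
    MeasurableSet {p : G n × G n | p.1⁻¹ * p.2 ∈ Q} := by
  have h : Continuous fun p : G n × G n => p.1⁻¹ * p.2 := continuous_fst.inv.mul continuous_snd
  exact h.measurable hQ

theorem RDL_meas (ν : Measure (G n)) [SFinite ν] {Q : Set (G n)} (hQ : MeasurableSet Q)
    {f : G n → ℝ≥0∞} (hf : Measurable f) :
    Measurable fun g : G n => ∫⁻ y in {y : G n | g⁻¹ * y ∈ Q}, f y ∂ν := by
  have h : Measurable fun p : G n × G n =>
      {p : G n × G n | p.1⁻¹ * p.2 ∈ Q}.indicator (fun p => f p.2) p :=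
    (hf.comp measurable_snd).indicator (RDL_mset₂ hQ)
  have h2 := h.lintegral_prod_right' (ν := ν)
  have e : (fun g : G n => ∫⁻ y in {y : G n | g⁻¹ * y ∈ Q}, f y ∂ν) = fun g : G n =>
      ∫⁻ y, {p : G n × G n | p.1⁻¹ * p.2 ∈ Q}.indicator (fun p => f p.2) (g, y) ∂ν := by
    funext g
    rw [← lintegral_indicator (RDL_mset hQ g)]
    rfl
  rw [e]
  exact h2

theorem RDL_meas' (ν : Measure (G n)) [SFinite ν] {Q : Set (G n)} (hQ : MeasurableSet Q) :
    Measurable fun g : G n => ν {y : G n | g⁻¹ * y ∈ Q} := by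
  have h := RDL_meas ν hQ (f := fun _ => 1) measurable_const
  simpa only [lintegral_const, Measure.restrict_apply_univ, one_mul] using h

/-- The incoming mass is bounded by the number of cells. -/
theorem RDL_in (ν : Measure (G n)) (Q Q' : Set (G n)) (E : Finset (Set (G n)))
    (hE : ∀ e ∈ E, MeasurableSet e) (h1 : ∀ h ∈ Q, ∃ e ∈ E, h⁻¹ ∈ e)
    (h2 : ∀ e ∈ E, ∀ h ∈ e, ∀ h' ∈ e, h⁻¹ * h' ∈ Q') (s : G n) :
    ∫⁻ g, {g : G n | g⁻¹ * s ∈ Q}.indicator (fun g => (ν {y : G n | g⁻¹ * y ∈ Q'})⁻¹) g ∂ν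
      ≤ E.card := by
  calc ∫⁻ g, {g : G n | g⁻¹ * s ∈ Q}.indicator (fun g => (ν {y : G n | g⁻¹ * y ∈ Q'})⁻¹) g ∂ν
      ≤ ∫⁻ g, ∑ e ∈ E, {y : G n | s⁻¹ * y ∈ e}.indicator
          (fun _ => (ν {y : G n | s⁻¹ * y ∈ e})⁻¹) g ∂ν := by
        refine lintegral_mono fun g => ?_
        by_cases hg : g ∈ {g : G n | g⁻¹ * s ∈ Q}
        · rw [indicator_of_mem hg]
          obtain ⟨e, he, hh⟩ := h1 _ hg
          rw [mul_inv_rev, inv_inv] at hh
          refine le_trans ?_ (Finset.single_le_sum (f := fun e => {y : G n | s⁻¹ * y ∈ e}.indicator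
            (fun _ => (ν {y : G n | s⁻¹ * y ∈ e})⁻¹) g) (fun _ _ => zero_le) he)
          have hg' : g ∈ {y : G n | s⁻¹ * y ∈ e} := hh
          simp only [indicator_of_mem hg']
          refine ENNReal.inv_le_inv.2 (measure_mono fun y hy => ?_)
          have := h2 e he _ hh _ hy
          rw [mul_inv_rev, inv_inv, mul_assoc, mul_inv_cancel_left] at this
          exact this
        · rw [indicator_of_notMem hg]
          exact zero_le
    _ = ∑ e ∈ E, ∫⁻ g, {y : G n | s⁻¹ * y ∈ e}.indicator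
          (fun _ => (ν {y : G n | s⁻¹ * y ∈ e})⁻¹) g ∂ν :=
        lintegral_finsetSum _ fun e he => measurable_const.indicator (RDL_mset (hE e he) s)
    _ ≤ ∑ _e ∈ E, (1 : ℝ≥0∞) := by
        refine Finset.sum_le_sum fun e he => ?_
        rw [lintegral_indicator_const (RDL_mset (hE e he) s)]
        exact ENNReal.inv_mul_le_one _
    _ = E.card := by simp

theorem s_DL (hExSec : ExSec) (hLiftA : LiftA) (hLiftB : LiftB) (hBoxA : BoxA) : DL := by
  intro n μ hμ
  obtain ⟨-, A2, -, -, A5, -⟩ := hLiftA n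
  obtain ⟨hfc, hsf⟩ := A5 μ hμ
  obtain ⟨⟨ms, ps, -⟩, -⟩ := hExSec n
  have mp : Measurable (proj : G n → X n) := continuous_proj.measurable
  refine ⟨fun Q f hQ hf => (RDL_meas (lift μ) hQ (hf.comp mp)).comp ms,
    fun Q hQ => (RDL_meas' (lift μ) hQ).comp ms, fun Q x hQ => ?_, ?_⟩
  · have : IsCompact (Nb x Q) := (Homeomorph.mulLeft (sec x)⁻¹).isCompact_preimage.2 hQ
    exact this.measure_lt_top.ne
  intro w w' Λ δ δ' f hw hw' hΛ hle hδ hδ' h8 hf
  obtain ⟨E, hc, hE, h1, h2⟩ := (hBoxA n).2.2.2.2.2 w w' Λ δ δ' hw hw' hΛ hle hδ hδ' h8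
  have mQ : MeasurableSet (Bx w δ : Set (G n)) := ((hBoxA n).2.2.1 w δ).1.measurableSet
  have mQ' : MeasurableSet (Bx w' δ' : Set (G n)) := ((hBoxA n).2.2.1 w' δ').1.measurableSet
  have mV : Measurable fun g : G n => (lift μ {y : G n | g⁻¹ * y ∈ Bx w' δ'})⁻¹ :=
    (RDL_meas' (lift μ) mQ').inv
  let k : G n → G n → ℝ≥0∞ := fun g g' =>
    {p : G n × G n | p.1⁻¹ * p.2 ∈ Bx w δ}.indicator
      (fun p => f (proj p.2) * (lift μ {y : G n | p.1⁻¹ * y ∈ Bx w' δ'})⁻¹) (g, g')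
  have mk : Measurable (Function.uncurry k) :=
    (((hf.comp mp).comp measurable_snd).mul (mV.comp measurable_fst)).indicator (RDL_mset₂ mQ)
  have ik : ∀ (γ : Gam n) g g', k (γ.1 * g) (γ.1 * g') = k g g' := by
    intro γ g g'
    have e1 : (γ.1 * g)⁻¹ * (γ.1 * g') = g⁻¹ * g' := by group
    have e2 : lift μ {y : G n | (γ.1 * g)⁻¹ * y ∈ Bx w' δ'}
        = lift μ {y : G n | g⁻¹ * y ∈ Bx w' δ'} := by
      rw [← (A2 μ γ).measure_preimage (RDL_mset mQ' _).nullMeasurableSet]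
      congr 1
      ext y
      have e3 : (γ.1 * g)⁻¹ * (γ.1 * y) = g⁻¹ * y := by group
      simp only [mem_preimage, mem_ofPred_eq, e3]
    simp only [k, indicator_apply, mem_ofPred_eq, e1, e2, proj_gam]
  have T := (hLiftB n μ hμ).1 k mk ik
  have L : ∀ x, (∫⁻ g in Nb x (Bx w δ), f (proj g) ∂lift μ) * (lift μ (Nb x (Bx w' δ')))⁻¹
      = ∫⁻ g, k (sec x) g ∂lift μ := fun x => by
    have mf : Measurable fun g : G n => f (proj g) := hf.comp mp
    rw [← lintegral_mul_const _ mf]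
    exact (lintegral_indicator (RDL_mset mQ (sec x)) _).symm
  have R : ∀ x, ∫⁻ g, k g (sec x) ∂lift μ ≤ E.card * f x := fun x => by
    have e : ∀ g, k g (sec x) = {g : G n | g⁻¹ * sec x ∈ Bx w δ}.indicator
        (fun g => (lift μ {y : G n | g⁻¹ * y ∈ Bx w' δ'})⁻¹) g * f x := fun g => by
      simp only [k, indicator_apply, mem_ofPred_eq, ps]
      split_ifs
      · rw [mul_comm]
      · rw [zero_mul]
    have ms' : MeasurableSet {g : G n | g⁻¹ * sec x ∈ Bx w δ} :=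
      (continuous_id.inv.mul continuous_const).measurable mQ
    simp_rw [e]
    rw [lintegral_mul_const _ (mV.indicator ms')]
    exact mul_le_mul_left (RDL_in _ _ _ E hE h1 h2 _) _
  simp_rw [L]
  rw [T]
  refine (lintegral_mono R).trans ?_
  rw [lintegral_const_mul _ hf]
  refine mul_le_mul_left ?_ _
  rw [← ENNReal.ofReal_natCast]
  exact ENNReal.ofReal_le_ofReal hc

end TP
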