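import Vale.Agent.P007.RStm

noncomputable section
namespace TP
open MeasureTheory Filter Set ProbabilityTheory
open Vale.Agent.P007 (X lattice act Gam proj IsInvariantProb Equidistributes)
open scoped Classical Topology ENNReal

/-- The product of the coordinates of `v h` is close to that of `v` for almost diagonal `h`. -/
theorem RELow1_prod (n : ℕ) (R : ℝ) : ∃ L : ℝ, 0 ≤ L ∧ ∀ (v : Fin n → ℝ) (h : G n) (ε : ℝ), 0 ≤ ε →
    (∀ i, |v i| ≤ R) → (∀ i j, |h.1 i j| ≤ R) → (∀ i j, i ≠ j → |h.1 i j| ≤ ε) →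
    |∏ j, (∑ i, v i * h.1 i j) - ∏ j, v j| ≤ L * ε := by
  let F : (Fin n → ℝ) × (Fin n → Fin n → ℝ) → ℝ := fun p =>
    ∏ j, (∑ i, p.1 i * p.2 i j) -
      (∏ j, p.1 j) * ∑ σ : Equiv.Perm (Fin n), ((Equiv.Perm.sign σ : ℤ) : ℝ) * ∏ i, p.2 (σ i) i
  have hF : ContDiff ℝ 1 F := by
    refine ContDiff.sub (contDiff_prod fun j _ => ContDiff.sum fun i _ => by fun_prop)
      (ContDiff.mul (contDiff_prod fun j _ => by fun_prop)
        (ContDiff.sum fun σ _ => contDiff_const.mul (contDiff_prod fun j _ => by fun_prop)))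
  obtain ⟨L, hL⟩ := hF.contDiffOn.exists_lipschitzOnWith one_ne_zero
    (convex_closedBall 0 (max R 0)) (isCompact_closedBall 0 (max R 0))
  refine ⟨L, L.2, fun v h ε hε hv hh hd => ?_⟩
  have hR : 0 ≤ max R 0 := le_max_right _ _
  have hv' : ‖v‖ ≤ max R 0 := (pi_norm_le_iff_of_nonneg hR).2 fun i => (hv i).trans (le_max_left _ _)
  let d : Fin n → Fin n → ℝ := Matrix.diagonal fun i => h.1 i i
  let h' : Fin n → Fin n → ℝ := h.1
  have hd1 : ∀ i, d i i = h.1 i i := fun i => Matrix.diagonal_apply_eq _ i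
  have hd2 : ∀ i j, i ≠ j → d i j = 0 := fun i j hij => Matrix.diagonal_apply_ne _ hij
  have m1 : (v, h') ∈ Metric.closedBall (0 : (Fin n → ℝ) × (Fin n → Fin n → ℝ)) (max R 0) := by
    rw [mem_closedBall_zero_iff, Prod.norm_def]
    refine max_le hv' ((pi_norm_le_iff_of_nonneg hR).2 fun i =>
      (pi_norm_le_iff_of_nonneg hR).2 fun j => (hh i j).trans (le_max_left _ _))
  have m2 : (v, d) ∈ Metric.closedBall (0 : (Fin n → ℝ) × (Fin n → Fin n → ℝ)) (max R 0) := by
    rw [mem_closedBall_zero_iff, Prod.norm_def]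
    refine max_le hv' ((pi_norm_le_iff_of_nonneg hR).2 fun i =>
      (pi_norm_le_iff_of_nonneg hR).2 fun j => ?_)
    by_cases hij : i = j
    · subst hij
      show ‖d i i‖ ≤ _
      rw [hd1]
      exact (hh i i).trans (le_max_left _ _)
    · show ‖d i j‖ ≤ _
      rw [hd2 i j hij, norm_zero]
      exact hR
  have e1 : F (v, h') = ∏ j, (∑ i, v i * h.1 i j) - ∏ j, v j := by
    have h1 := Matrix.det_apply' h.1
    rw [h.2] at h1
    show ∏ j, (∑ i, v i * h.1 i j) - (∏ j, v j) * ∑ σ : Equiv.Perm (Fin n),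
      ((Equiv.Perm.sign σ : ℤ) : ℝ) * ∏ i, h.1 (σ i) i = _
    rw [← h1, mul_one]
  have e2 : F (v, d) = 0 := by
    have h1 := Matrix.det_apply' (Matrix.diagonal fun i => h.1 i i)
    rw [Matrix.det_diagonal] at h1
    show ∏ j, (∑ i, v i * d i j) - (∏ j, v j) * ∑ σ : Equiv.Perm (Fin n),
      ((Equiv.Perm.sign σ : ℤ) : ℝ) * ∏ i, (Matrix.diagonal fun i => h.1 i i) (σ i) i = 0
    rw [← h1, ← Finset.prod_mul_distrib, sub_eq_zero]
    refine Finset.prod_congr rfl fun j _ => ?_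
    rw [Finset.sum_eq_single j, hd1]
    · intro i _ hij
      rw [hd2 i j hij, mul_zero]
    · intro hj
      exact absurd (Finset.mem_univ j) hj
  have e3 : dist (v, h') (v, d) ≤ ε := by
    rw [Prod.dist_eq, dist_self]
    refine max_le hε ((dist_pi_le_iff hε).2 fun i => (dist_pi_le_iff hε).2 fun j => ?_)
    by_cases hij : i = j
    · subst hij
      show dist (h.1 i i) (d i i) ≤ ε
      rw [hd1, dist_self]
      exact hε
    · show dist (h.1 i j) (d i j) ≤ ε
      rw [hd2 i j hij, Real.dist_eq, sub_zero]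
      exact hd i j hij
  have h4 := hL.dist_le_mul _ m1 _ m2
  rw [e1, e2, Real.dist_eq, sub_zero] at h4
  exact h4.trans (mul_le_mul_of_nonneg_left e3 L.2)

theorem RELow1_tail {Ω : Type} [MeasurableSpace Ω] (μ : Measure Ω) [IsFiniteMeasure μ] {f : Ω → ℝ}
    (hf : Measurable f) : ∃ D : ℝ, μ {x | D < f x} ≤ 1 / 4 := by
  have h1 := tendsto_measure_iInter_atTop (μ := μ) (s := fun k : ℕ => {x | (k : ℝ) < f x})
    (fun k => (measurableSet_lt measurable_const hf).nullMeasurableSet)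
    (fun k l hkl x (hx : (l : ℝ) < f x) => lt_of_le_of_lt (Nat.cast_le.2 hkl) hx)
    ⟨0, measure_ne_top _ _⟩
  have h2 : ⋂ k : ℕ, {x | (k : ℝ) < f x} = ∅ := by
    refine eq_empty_of_forall_notMem fun x hx => ?_
    obtain ⟨k, hk⟩ := exists_nat_ge (f x)
    exact absurd (mem_iInter.1 hx k) (not_lt.2 hk)
  rw [h2, measure_empty] at h1
  obtain ⟨k, hk⟩ := (h1.eventually_le_const (show (0 : ℝ≥0∞) < 1 / 4 by norm_num)).exists
  exact ⟨k, hk⟩

theorem RELow1_int {Ω : Type} [MeasurableSpace Ω] (μ : Measure Ω) [IsProbabilityMeasure μ]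
    {f : Ω → ℝ} (hf : Integrable f μ) (h0 : ∀ᵐ x ∂μ, 0 ≤ f x) {A B : Set Ω} (hA : MeasurableSet A)
    (hB : MeasurableSet B) (mA : μ Aᶜ ≤ 1 / 4) (mB : μ Bᶜ ≤ 1 / 4) {b : ℝ} (hb : 0 ≤ b)
    (h1 : ∀ᵐ x ∂μ, x ∈ A → x ∈ B → b ≤ f x) : b / 2 ≤ ∫ x, f x ∂μ := by
  have hE := hA.inter hB
  have h2 : μ.real (A ∩ B)ᶜ ≤ 1 / 2 := by
    have a1 : μ.real Aᶜ ≤ 1 / 4 := by
      have := ENNReal.toReal_mono (by norm_num) mA
      simpa [Measure.real] using this
    have a2 : μ.real Bᶜ ≤ 1 / 4 := by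
      have := ENNReal.toReal_mono (by norm_num) mB
      simpa [Measure.real] using this
    rw [compl_inter]
    linarith [measureReal_union_le (μ := μ) Aᶜ Bᶜ]
  have h3 : 1 / 2 ≤ μ.real (A ∩ B) := by
    have := measureReal_add_measureReal_compl (μ := μ) hE
    rw [probReal_univ] at this
    linarith
  have h4 : ∫ x, (A ∩ B).indicator (fun _ => b) x ∂μ ≤ ∫ x, f x ∂μ := by
    refine integral_mono_ae ((integrable_const b).indicator hE) hf ?_
    filter_upwards [h0, h1] with x a1 a2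
    by_cases hx : x ∈ A ∩ B
    · rw [indicator_of_mem hx]
      exact a2 hx.1 hx.2
    · rw [indicator_of_notMem hx]
      exact a1
  rw [integral_indicator_const _ hE, smul_eq_mul] at h4
  nlinarith only [h3, h4, hb]

theorem RELow1_gap {n : ℕ} (hn : 2 ≤ n) {t : Fin n → ℝ} (ht : Function.Injective t) :
    ∃ c : ℝ, 0 < c ∧ ∀ i j, i ≠ j → c ≤ |t i - t j| := by
  have : Nonempty (Fin n × Fin n) := ⟨(⟨0, by omega⟩, ⟨0, by omega⟩)⟩
  obtain ⟨p, hp⟩ := Finite.exists_min
    (fun p : Fin n × Fin n => if p.1 = p.2 then (1 : ℝ) else |t p.1 - t p.2|)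
  refine ⟨_, ?_, fun i j hij => (hp (i, j)).trans (le_of_eq (if_neg hij))⟩
  split_ifs with h
  · exact one_pos
  · exact abs_pos.2 (sub_ne_zero.2 fun h' => h (ht h'))

theorem RELow1_wt {n : ℕ} (t : Fin n → ℝ) {a c : ℝ} (ha : 0 ≤ a) {i j : Fin n}
    (hc : c ≤ |t i - t j|) : wt ((-(a / 2)) • t) ((a / 2) • t) i j ≤ Real.exp (-(c * a / 2)) := by
  unfold wt
  simp only [Pi.smul_apply, smul_eq_mul]
  rcases le_abs.1 hc with h | h
  · refine (min_le_left _ _).trans (Real.exp_le_exp.2 ?_)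
    nlinarith only [h, ha]
  · refine (min_le_right _ _).trans (Real.exp_le_exp.2 ?_)
    nlinarith only [h, ha]

theorem RELow1_wt0 {n : ℕ} (i j : Fin n) : wt (0 : Fin n → ℝ) 0 i j = 1 := by simp [wt]

theorem RELow1_bound {n : ℕ} {C : Set (G n)} (hC : IsCompact C) :
    ∃ R : ℝ, 2 ≤ R ∧ ∀ g ∈ C, ∀ i j, |g.1 i j| ≤ R := by
  have hf : Continuous fun (g : G n) (i j : Fin n) => g.1 i j :=
    continuous_pi fun i => continuous_pi fun j => continuous_entry i j
  obtain ⟨R, hR⟩ := hC.exists_bound_of_continuousOn hf.continuousOn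
  refine ⟨max R 2, le_max_right _ _, fun g hg i j => ?_⟩
  exact ((norm_le_pi_norm (fun j => g.1 i j) j).trans
    ((norm_le_pi_norm (fun i j => g.1 i j) i).trans (hR g hg))).trans (le_max_left _ _)

theorem s_ELow1 (hExSec : ExSec) (hLiftA : LiftA) (hLiftB : LiftB) (hBoxA : BoxA) (hDL : DL)
    (hLus : Lus) (hEnt0 : Ent0) (hEnt1 : Ent1) : ELow1 := by
  intro n μ t hn hμ hA hT ht
  obtain ⟨c, hc, hgap⟩ := RELow1_gap hn ht
  obtain ⟨hm, hint, -, hmono, -⟩ := hEnt0 n μ hμ hA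
  obtain ⟨-, -, hbx, hsb, -, -⟩ := hBoxA n
  have hδ : 0 < dl n := by unfold dl; positivity
  have hδ1 : dl n ≤ 1 := by
    unfold dl
    rw [div_le_one (by positivity)]
    have : (0 : ℝ) ≤ n := by positivity
    linarith
  have hδ8 : 8 * n * dl n ≤ 1 := by
    unfold dl
    rw [mul_one_div, div_le_one (by positivity)]
    have : (0 : ℝ) ≤ n := by positivity
    linarith
  obtain ⟨K, hK, -, mK, -⟩ := hLus n μ (fun _ _ => 0) univ (1 / 4) inferInstance measurable_const
    ⟨MeasurableSet.univ, by simp⟩ (by norm_num)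
  obtain ⟨D, hD⟩ := RELow1_tail μ (hm (wt 0 0) (dl n))
  obtain ⟨C₀, hC₀, hKC⟩ := (hExSec n).1.2.2 K hK
  obtain ⟨R, hR2, hR⟩ := RELow1_bound hC₀
  obtain ⟨L, hL0, hL⟩ := RELow1_prod n R
  obtain ⟨M, hM⟩ := (hLiftA n).2.2.2.1 _ (isCompact_G (n := n) (n * (R * R)))
  obtain ⟨C, hC, hthin⟩ := hT (n * (R * R) + 1)
  have hpos := (hLiftB n μ inferInstance).2
  have hfin := (hDL n μ inferInstance).2.2.1
  set D₁ : ℝ := Real.log ((M + 1) * C) + Real.log (L + 1) / 4 + D with hD₁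
  refine ⟨c / 32, by positivity, ?_⟩
  filter_upwards [eventually_ge_atTop 0, eventually_ge_atTop (16 * D₁ / c),
    eventually_ge_atTop (2 * Real.log (L + 1) / c)] with a ha ha1 ha2
  rw [div_le_iff₀ hc] at ha1 ha2
  have hac : 0 ≤ a * c := by positivity
  have e1 := (hEnt1 n μ t hμ hA).1 (-(a / 2)) (a / 2) 0
  rw [sub_neg_eq_add, add_halves] at e1
  rw [← e1]
  set w := wt ((-(a / 2)) • t) ((a / 2) • t) with hw
  have hw1 : ∀ i j, w i j ≤ 1 := fun i j => by
    have := RELow1_wt t ha (c := 0) (i := i) (j := j) (abs_nonneg _)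
    rwa [zero_mul, zero_div, neg_zero, Real.exp_zero] at this
  have hwpos : ∀ i j, 0 < w i j := (hsb _ _).2.1
  have hsub : Bx w (dl n) ⊆ Bx (wt 0 0) (dl n) := fun h hh i j =>
    (hh i j).trans (by rw [RELow1_wt0]; exact mul_le_mul_of_nonneg_left (hw1 i j) hδ.le)
  set ε := Real.exp (-(c * a / 2)) with hε
  have hε0 : 0 < ε := Real.exp_pos _
  have hlog : Real.log ((L + 1) * ε) = Real.log (L + 1) - c * a / 2 := by
    rw [Real.log_mul (by positivity) hε0.ne', hε, Real.log_exp]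
    ring
  have hε1 : (L + 1) * ε ≤ 1 := by
    rw [← Real.log_nonpos_iff (by positivity), hlog]
    linarith
  have hV : ∀ x ∈ K, lift μ (Nb x (Bx w (dl n))) ≤
      ENNReal.ofReal ((M + 1) * (C * ((L + 1) * ε) ^ (1 / 4 : ℝ))) := by
    intro x hx
    let i₀ : Fin n := ⟨0, by omega⟩
    have hg := hR _ (hKC x hx)
    have hent : ∀ y ∈ Nb x (Bx w (dl n)), ∃ h : G n, y = sec x * h ∧ (∀ i j, |h.1 i j| ≤ R) ∧
        ∀ i j, i ≠ j → |h.1 i j| ≤ ε := by
      intro y hy
      refine ⟨(sec x)⁻¹ * y, (mul_inv_cancel_left _ _).symm, fun i j => ?_, fun i j hij => ?_⟩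
      · have a1 := hy i j
        have a2 : |(1 : Matrix (Fin n) (Fin n) ℝ) i j| ≤ 1 := by
          rw [Matrix.one_apply]
          split_ifs <;> simp
        have a3 := abs_add_le (((sec x)⁻¹ * y).1 i j - (1 : Matrix (Fin n) (Fin n) ℝ) i j)
          ((1 : Matrix (Fin n) (Fin n) ℝ) i j)
        rw [sub_add_cancel] at a3
        have a4 : dl n * w i j ≤ 1 := mul_le_one₀ hδ1 (hwpos i j).le (hw1 i j)
        linarith
      · have a1 := hy i j
        rw [Matrix.one_apply_ne hij, sub_zero] at a1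
        have a2 : w i j ≤ ε := RELow1_wt t ha (hgap i j hij)
        have a3 : dl n * w i j ≤ 1 * w i j := mul_le_mul_of_nonneg_right hδ1 (hwpos i j).le
        linarith
    have hbd : ∀ y ∈ Nb x (Bx w (dl n)), ∀ i j, |y.1 i j| ≤ n * (R * R) := by
      intro y hy i j
      obtain ⟨h, rfl, h1, -⟩ := hent y hy
      rw [Matrix.SpecialLinearGroup.coe_mul, Matrix.mul_apply]
      refine (Finset.abs_sum_le_sum_abs _ _).trans ?_
      refine (Finset.sum_le_sum (g := fun _ => R * R) fun k _ => ?_).trans (by simp)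
      rw [abs_mul]
      exact mul_le_mul (hg i k) (h1 k j) (abs_nonneg _) (by linarith)
    have hmeas : MeasurableSet (Nb x (Bx w (dl n))) :=
      ((hbx w (dl n)).1.isClosed.preimage (continuous_const.mul continuous_id)).measurableSet
    have h1 := hM μ _ (thinSet n (n * (R * R) + 1) |∏ j, (sec x).1 i₀ j| ((L + 1) * ε)) hmeas hbd ?_
    · refine h1.trans ?_
      rw [ENNReal.ofReal_mul (by positivity)]
      refine mul_le_mul' ?_ (hthin _ _ (abs_nonneg _) (by positivity) hε1)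
      rw [← ENNReal.ofReal_natCast]
      exact ENNReal.ofReal_le_ofReal (by linarith)
    · intro y hy
      refine ⟨fun j => y.1 i₀ j, ?_, ?_, ?_, ?_⟩
      · rw [Vale.Agent.P007.lattice_proj]
        exact Submodule.subset_span ⟨i₀, rfl⟩
      · intro h0
        have a1 := Matrix.det_eq_zero_of_row_eq_zero (A := y.1) i₀ fun j => congrFun h0 j
        rw [y.2] at a1
        exact one_ne_zero a1
      · refine lt_of_le_of_lt ((pi_norm_le_iff_of_nonneg (by positivity)).2 fun j => hbd y hy i₀ j)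
          (lt_add_one _)
      · obtain ⟨h, rfl, h1, h2⟩ := hent y hy
        have a1 := hL (fun i => (sec x).1 i₀ i) h ε hε0.le (hg i₀) h1 h2
        refine lt_of_le_of_lt ((abs_abs_sub_abs_le_abs_sub _ _).trans a1) ?_
        linarith
  have hb : 0 ≤ c * a / 8 - D₁ := by linarith
  refine le_trans (by linarith) (RELow1_int μ (hint _ _ _ _ (hsb 0 0) (hsb _ _) hδ hδ hδ8 hδ8) ?_
    hK.measurableSet (B := {x | D < ell μ (wt 0 0) (dl n) x}ᶜ)
    (measurableSet_lt measurable_const (hm _ _)).compl mK (by rwa [compl_compl]) hb ?_)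
  · filter_upwards [hmono _ _ _ _ hwpos hδ hsub] with x hx
    exact sub_nonneg.2 hx
  · filter_upwards [hpos] with x hx hxK hxB
    have a1 : ell μ (wt 0 0) (dl n) x ≤ D := not_lt.1 hxB
    have a2 : 0 < (lift μ (Nb x (Bx w (dl n)))).toReal :=
      ENNReal.toReal_pos (hx _ ((hbx w (dl n)).2 hwpos hδ)) (hfin _ x (hbx w (dl n)).1)
    have a3 := ENNReal.toReal_le_of_le_ofReal (by positivity) (hV x hxK)
    have a4 := Real.log_le_log a2 a3
    rw [← mul_assoc, Real.log_mul (by positivity) (by positivity), Real.log_rpow (by positivity),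
      hlog] at a4
    have a5 : ell μ w (dl n) x = -Real.log (lift μ (Nb x (Bx w (dl n)))).toReal := rfl
    linarith

end TP
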