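import Vale.Agent.P007.RStm

noncomputable section
namespace TP
open MeasureTheory Filter Set ProbabilityTheory
open Vale.Agent.P007 (X lattice act Gam proj IsInvariantProb Equidistributes act_proj)
open scoped Classical Topology ENNReal

variable {n : ℕ}

theorem RELow2_Bx_mono {w w' : Fin n → Fin n → ℝ} {δ δ' : ℝ} (hw : ∀ i j, 0 < w i j)
    (hle : ∀ i j, w i j ≤ w' i j) (h0 : 0 ≤ δ) (hδ : δ ≤ δ') : Bx w δ ⊆ Bx w' δ' :=
  fun _ hh i j => (hh i j).trans (mul_le_mul hδ (hle i j) (hw i j).le (h0.trans hδ))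

theorem RELow2_Nb_meas (hBoxA : BoxA) (x : X n) (w : Fin n → Fin n → ℝ) (δ : ℝ) :
    MeasurableSet (Nb x (Bx w δ)) :=
  (((hBoxA n).2.2.1 w δ).1.isClosed.preimage (continuous_const.mul continuous_id)).measurableSet

theorem RELow2_uu_mem {a b : Fin n} (hab : a ≠ b) {w : Fin n → Fin n → ℝ} {δ r : ℝ}
    (hw : ∀ i j, 0 < w i j) (h1 : 1 ≤ w a b) (hδ : 0 ≤ δ) (hr : |r| ≤ δ) : uu a b r ∈ Bx w δ := by
  intro i j
  rw [uu_coe hab, Matrix.add_apply, add_sub_cancel_left, Matrix.single_apply]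
  split_ifs with h
  · obtain ⟨rfl, rfl⟩ := h
    nlinarith
  · rw [abs_zero]; exact mul_nonneg hδ (hw i j).le

theorem RELow2_A (hLiftA : LiftA) (hBoxA : BoxA) {μ : Measure (X n)} {a b : Fin n}
    {κ : X n → Measure ℝ} (hab : a ≠ b) (hκ : LW μ a b κ) {S : Set (X n)} (hS : Full μ S)
    (hSc : ∀ x ∈ S, ∀ r, act (uu a b r) x ∈ S →
      κ x (Icc (r - 1) (r + 1)) ≠ 0 ∧ κ (act (uu a b r) x) = sh r (κ x))
    {w1 w0 : Fin n → Fin n → ℝ} (hw1 : Sbm w1) (hw0 : Sbm w0) (hle : ∀ i j, w1 i j ≤ w0 i j)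
    (hab1 : 1 ≤ w0 a b) {δ s : ℝ} (hδ : 0 < δ) (hn : 2 * n * δ ≤ 1) (hs0 : 0 < s)
    (hs : 4 * δ * w1 a b ≤ s) (Λ : ℝ≥0∞) {Gd : Set (X n)} (mGd : MeasurableSet Gd)
    (hGd : ∀ y ∈ Gd, y ∈ S ∧ Λ * κ y (Icc (-s) s) ≤ κ y (Icc (-δ) δ)) (x : X n) :
    Λ * lift μ (Nb x (Bx w1 δ) ∩ proj ⁻¹' Gd) ≤ lift μ (Nb x (Bx w0 (3 * δ))) := by
  obtain ⟨bm, bi, -⟩ := hBoxA n
  have hfin : ∀ y (p q : ℝ), κ y (Icc p q) ≠ ∞ := fun y p q => by
    have := hκ.fin y
    exact isCompact_Icc.measure_lt_top.ne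
  set E := Nb x (Bx w1 δ) ∩ proj ⁻¹' Gd with hE
  have mE : MeasurableSet E :=
    (RELow2_Nb_meas hBoxA x w1 δ).inter (continuous_proj.measurable mGd)
  have mB := RELow2_Nb_meas hBoxA x w0 (3 * δ)
  set F : G n → ℝ≥0∞ := E.indicator fun g => (κ (proj g) (Icc (-s) s))⁻¹ with hF
  have mF : Measurable F := Measurable.indicator
    ((Measure.measurable_coe measurableSet_Icc).comp
      (hκ.meas.comp continuous_proj.measurable)).inv mE
  have mI : Measurable ((Icc (-δ) δ).indicator (1 : ℝ → ℝ≥0∞)) :=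
    measurable_one.indicator measurableSet_Icc
  have key := hκ.mtG (fun g r => F g * (Icc (-δ) δ).indicator 1 r)
    ((mF.comp measurable_fst).mul (mI.comp measurable_snd))
  calc Λ * lift μ E = ∫⁻ g, E.indicator (fun _ => Λ) g ∂lift μ := by
        rw [lintegral_indicator_const mE]
    _ ≤ ∫⁻ g, ∫⁻ r, F g * (Icc (-δ) δ).indicator 1 r ∂κ (proj g) ∂lift μ := by
        refine lintegral_mono fun g => ?_
        rw [lintegral_const_mul _ mI, lintegral_indicator_one measurableSet_Icc]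
        by_cases hg : g ∈ E
        · rw [hF, indicator_of_mem hg, indicator_of_mem hg, ← ENNReal.div_eq_inv_mul,
            ENNReal.le_div_iff_mul_le (Or.inl (hκ.pos _ s hs0)) (Or.inl (hfin _ _ _))]
          exact (hGd _ hg.2).2
        · rw [indicator_of_notMem hg]; exact zero_le
    _ = _ := key
    _ ≤ ∫⁻ g, (Nb x (Bx w0 (3 * δ))).indicator 1 g ∂lift μ := by
        refine lintegral_mono_ae ?_
        have hae : ∀ᵐ y ∂μ, y ∈ S := hS.2
        filter_upwards [(hLiftA n).2.2.2.2.2.2.1 μ _ hae] with g hg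
        set T : Set ℝ := {r | g * uu a b r ∈ E ∧ |r| ≤ δ} with hT
        have mT : MeasurableSet T :=
          ((continuous_const.mul (continuous_uu a b)).measurable mE).inter
            (measurableSet_le continuous_abs.measurable measurable_const)
        have hpt : ∀ r, F (g * uu a b r) * (Icc (-δ) δ).indicator 1 (-r) *
            (κ (proj g) (Icc (r - 1) (r + 1)))⁻¹ ≤ T.indicator (fun _ => (κ (proj g) T)⁻¹) r := by
          intro r
          by_cases h1 : g * uu a b r ∈ E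
          swap
          · rw [hF, indicator_of_notMem h1]; simp
          by_cases h2 : -r ∈ Icc (-δ) δ
          swap
          · rw [indicator_of_notMem h2]; simp
          have hr : r ∈ T := ⟨h1, abs_le.2 ⟨by linarith [h2.2], by linarith [h2.1]⟩⟩
          rw [hF, indicator_of_mem h1, indicator_of_mem h2, indicator_of_mem hr, Pi.one_apply,
            mul_one]
          have h3 : proj (g * uu a b r) ∈ S := (hGd _ h1.2).1
          rw [← act_proj] at h3 ⊢
          obtain ⟨c0, c1⟩ := hSc _ hg r h3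
          have m1 : ∀ p : ℝ, (κ (proj g)).map (· - r) (Icc (-p) p) =
              κ (proj g) (Icc (r - p) (r + p)) := fun p => by
            rw [Measure.map_apply (measurable_sub_const r) measurableSet_Icc]
            congr 1
            ext z
            simp only [mem_preimage, mem_Icc]
            constructor <;> rintro ⟨u, v⟩ <;> constructor <;> linarith
          rw [c1, sh, nrm, Measure.smul_apply, smul_eq_mul, m1, m1,
            ENNReal.mul_inv (Or.inl (ENNReal.inv_ne_zero.2 (hfin _ _ _)))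
              (Or.inl (ENNReal.inv_ne_top.2 c0)), inv_inv, mul_right_comm,
            ENNReal.mul_inv_cancel c0 (hfin _ _ _), one_mul]
          refine ENNReal.inv_le_inv.2 (measure_mono fun r' hr' => ?_)
          have e : uu a b (r' - r) =
              ((sec x)⁻¹ * (g * uu a b r))⁻¹ * ((sec x)⁻¹ * (g * uu a b r')) := by
            rw [sub_eq_neg_add, uu_add, uu_neg]; group
          have h4 := bm w1 _ _ _ _ hw1 (by linarith) hδ.le (bi w1 δ _ hw1 hδ.le hn h1.1) hr'.1.1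
          rw [← e] at h4
          have h5 := h4 a b
          rw [uu_coe hab, Matrix.add_apply, add_sub_cancel_left, Matrix.single_apply_same] at h5
          have h6 : (2 * δ + δ + n * (2 * δ) * δ) * w1 a b ≤ 4 * δ * w1 a b :=
            mul_le_mul_of_nonneg_right (by nlinarith) (hw1.2.1 a b).le
          have h7 := abs_le.1 (h5.trans (h6.trans hs))
          constructor <;> linarith [h7.1, h7.2]
        refine (lintegral_mono hpt).trans ?_
        rw [lintegral_indicator_const mT]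
        rcases T.eq_empty_or_nonempty with h0 | ⟨r, hr⟩
        · rw [h0]; simp
        · have hg' : g ∈ Nb x (Bx w0 (3 * δ)) := by
            have e : (sec x)⁻¹ * g = ((sec x)⁻¹ * (g * uu a b r)) * uu a b (-r) := by
              rw [uu_neg]; group
            have h4 := bm w0 _ _ _ _ hw0 hδ.le hδ.le
              (RELow2_Bx_mono hw1.2.1 hle hδ.le le_rfl hr.1.1)
              (RELow2_uu_mem hab hw0.2.1 hab1 hδ.le (r := -r) (by rw [abs_neg]; exact hr.2))
            rw [← e] at h4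
            exact RELow2_Bx_mono hw0.2.1 (fun _ _ => le_rfl) (by positivity) (by nlinarith) h4
          rw [indicator_of_mem hg', Pi.one_apply]
          exact ENNReal.inv_mul_le_one _
    _ = _ := lintegral_indicator_one mB

theorem RELow2_B {μ : Measure (X n)} [IsProbabilityMeasure μ] {a b : Fin n}
    {κ : X n → Measure ℝ} (hκ : LW μ a b κ) (h0 : ∀ᵐ x ∂μ, κ x {0} = 0) {δ : ℝ} (hδ : 0 < δ)
    {Λ ε : ℝ≥0∞} (hΛ : Λ ≠ ∞) (hε : 0 < ε) : ∃ m : ℕ,
      μ {y | Λ * κ y (Icc (-(1 / (m + 1 : ℝ))) (1 / (m + 1 : ℝ))) ≤ κ y (Icc (-δ) δ)}ᶜ ≤ ε := by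
  set B : ℕ → Set (X n) := fun m =>
    {y | Λ * κ y (Icc (-(1 / (m + 1 : ℝ))) (1 / (m + 1 : ℝ))) ≤ κ y (Icc (-δ) δ)}ᶜ with hB
  have mk : ∀ p q : ℝ, Measurable fun y => κ y (Icc p q) := fun p q =>
    (Measure.measurable_coe measurableSet_Icc).comp hκ.meas
  have mB : ∀ m, MeasurableSet (B m) := fun m =>
    (measurableSet_le ((mk _ _).const_mul _) (mk _ _)).compl
  have aI : Antitone fun m : ℕ => Icc (-(1 / (m + 1 : ℝ))) (1 / (m + 1 : ℝ)) := by
    intro m m' h
    have : (1 : ℝ) / (m' + 1) ≤ 1 / (m + 1) := Nat.one_div_le_one_div h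
    exact Icc_subset_Icc (by linarith) this
  have aB : Antitone B := fun m m' h y hy hy' =>
    hy (le_trans (mul_le_mul_right (measure_mono (aI h)) Λ) hy')
  have lim := tendsto_measure_iInter_atTop (μ := μ) (fun m => (mB m).nullMeasurableSet) aB
    ⟨0, measure_ne_top _ _⟩
  have z : μ (⋂ m, B m) = 0 := by
    refine measure_mono_null (t := {y | κ y {0} = 0}ᶜ) (fun y hy hy0 => ?_) h0
    have := hκ.fin y
    have l2 := tendsto_measure_iInter_atTop (μ := κ y)
      (fun m => measurableSet_Icc.nullMeasurableSet) aI ⟨0, isCompact_Icc.measure_lt_top.ne⟩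
    have e : ⋂ m : ℕ, Icc (-(1 / (m + 1 : ℝ))) (1 / (m + 1 : ℝ)) = {0} := by
      ext r
      simp only [mem_iInter, mem_Icc, mem_singleton_iff]
      constructor
      · intro h
        by_contra hr
        obtain ⟨m, hm⟩ := exists_nat_one_div_lt (abs_pos.2 hr)
        exact absurd (abs_le.2 (h m)) (not_le.2 hm)
      · rintro rfl m
        have : (0 : ℝ) ≤ 1 / (m + 1) := by positivity
        exact ⟨by linarith, this⟩
    have hy0' : κ y {0} = 0 := hy0
    rw [e, hy0'] at l2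
    have l3 := ENNReal.Tendsto.const_mul (a := Λ) l2 (Or.inr hΛ)
    rw [mul_zero] at l3
    obtain ⟨m, hm⟩ := (l3.eventually_le_const (pos_iff_ne_zero.2 (hκ.pos y δ hδ))).exists
    exact mem_iInter.1 hy m hm
  rw [z] at lim
  exact (lim.eventually_le_const hε).exists

theorem s_ELow2 (hExSec : ExSec) (hLiftA : LiftA) (hLiftB : LiftB) (hBoxA : BoxA) (hDL : DL)
    (hEnt0 : Ent0) (hEnt1 : Ent1) : ELow2 := by
  intro n μ a b κ hμ hA hab hκ h0
  obtain ⟨S, hS, hSc⟩ := hκ.coc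
  set δ := dl n with hδd
  have hδ : 0 < δ := by rw [hδd, dl]; positivity
  have hδn : 24 * (n + 1) * δ = 1 := by rw [hδd, dl]; field_simp
  have hn0 : (0 : ℝ) ≤ n := Nat.cast_nonneg n
  have hnδ : 0 ≤ n * δ := by positivity
  set c : ℝ := 2 * (1 + (n * n : ℕ) * Real.log 33) with hc
  have hc0 : 0 ≤ c := by
    have := Real.log_nonneg (show (1 : ℝ) ≤ 33 by norm_num)
    positivity
  set Λ : ℝ≥0∞ := ENNReal.ofReal (2 * Real.exp c) with hΛ
  set M : ℝ≥0∞ := ENNReal.ofReal ((10 * 1 ^ 2 * δ / δ + 3) ^ (n * n)) with hM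
  have hM0 : M ≠ 0 := by rw [hM]; exact (ENNReal.ofReal_pos.2 (by positivity)).ne'
  obtain ⟨m, hm⟩ := RELow2_B hκ h0 hδ (Λ := Λ) (ε := M⁻¹ * 4⁻¹) ENNReal.ofReal_ne_top
    (ENNReal.mul_pos (ENNReal.inv_ne_zero.2 ENNReal.ofReal_ne_top) (by simp))
  set s : ℝ := 1 / (m + 1 : ℝ) with hs
  have hs0 : 0 < s := by positivity
  set Gd := S ∩ {y | Λ * κ y (Icc (-s) s) ≤ κ y (Icc (-δ) δ)} with hGd
  have mk : ∀ p q : ℝ, Measurable fun y => κ y (Icc p q) := fun p q =>
    (Measure.measurable_coe measurableSet_Icc).comp hκ.meas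
  have mGd : MeasurableSet Gd := hS.1.inter (measurableSet_le ((mk _ _).const_mul _) (mk _ _))
  have hGc : μ Gdᶜ ≤ M⁻¹ * 4⁻¹ := by
    rw [hGd, compl_inter]
    refine (measure_union_le _ _).trans ?_
    rw [hS.2, zero_add]; exact hm
  refine ⟨2 * (m + 1), by positivity, fun t ht N hN => ?_⟩
  set L : ℝ := 2 * (m + 1) with hL
  have hL0 : 0 < L := by positivity
  set w1 := wt ((-N) • t) (L • t) with hw1d
  set w0 := wt ((-N) • t) ((0 : ℝ) • t) with hw0d
  have hw1 : Sbm w1 := (hBoxA n).2.2.2.1 _ _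
  have hw0 : Sbm w0 := (hBoxA n).2.2.2.1 _ _
  have hle : ∀ i j, w1 i j ≤ w0 i j := fun i j => by
    simp only [hw1d, hw0d, wt, Pi.smul_apply, smul_eq_mul]
    refine le_min (min_le_left _ _) ?_
    rcases le_total (t i) (t j) with h | h
    · exact min_le_of_right_le (Real.exp_le_exp.2 (by nlinarith))
    · exact min_le_of_left_le (Real.exp_le_exp.2 (by nlinarith))
  have hab1 : 1 ≤ w0 a b := by
    simp only [hw0d, wt, Pi.smul_apply, smul_eq_mul]
    exact le_min (Real.one_le_exp (by nlinarith)) (Real.one_le_exp (by simp))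
  have hws : 4 * δ * w1 a b ≤ s := by
    have h1 : w1 a b ≤ Real.exp (-(m + 1 : ℝ)) := by
      simp only [hw1d, wt, Pi.smul_apply, smul_eq_mul]
      refine min_le_of_right_le (Real.exp_le_exp.2 ?_)
      have : (0 : ℝ) ≤ m + 1 := by positivity
      nlinarith
    have h2 : Real.exp (-(m + 1 : ℝ)) ≤ s := by
      rw [Real.exp_neg, hs, one_div]
      exact inv_anti₀ (by positivity) (by linarith [Real.add_one_le_exp (m + 1 : ℝ)])
    have h3 := hw1.2.1 a b
    nlinarith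
  have hA' := RELow2_A hLiftA hBoxA hab hκ hS hSc hw1 hw0 hle hab1 hδ (by nlinarith) hs0 hws Λ
    mGd (fun y hy => hy)
  obtain ⟨d1, d2, d3, d4⟩ := hDL n μ inferInstance
  obtain ⟨-, e2, e3, e4, -⟩ := hEnt0 n μ hμ hA
  have mQ : MeasurableSet (Bx w1 δ) := ((hBoxA n).2.2.1 w1 δ).1.isClosed.measurableSet
  have mf : Measurable (Gdᶜ.indicator (1 : X n → ℝ≥0∞)) := measurable_one.indicator mGd.compl
  set ρ : X n → ℝ≥0∞ := fun x => (∫⁻ g in Nb x (Bx w1 δ), Gdᶜ.indicator 1 (proj g) ∂lift μ) *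
    (lift μ (Nb x (Bx w1 δ)))⁻¹ with hρ
  have mρ : Measurable ρ := (d1 _ _ mQ mf).mul (d2 _ mQ).inv
  have iρ : ∫⁻ x, ρ x ∂μ ≤ 4⁻¹ := by
    refine (d4 w1 w1 1 δ δ _ hw1 hw1 le_rfl (fun i j => by rw [one_mul]) hδ hδ (by nlinarith)
      mf).trans ?_
    rw [lintegral_indicator_one mGd.compl]
    calc M * μ Gdᶜ ≤ M * (M⁻¹ * 4⁻¹) := by gcongr
      _ = 4⁻¹ := by rw [← mul_assoc, ENNReal.mul_inv_cancel hM0 ENNReal.ofReal_ne_top, one_mul]
  have iρ' : ∫⁻ x, ρ x ∂μ ≠ ∞ := (iρ.trans_lt (by simp)).ne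
  have jρ : Integrable (fun x => (ρ x).toReal) μ :=
    integrable_toReal_of_lintegral_ne_top mρ.aemeasurable iρ'
  have kρ : ∫ x, (ρ x).toReal ∂μ ≤ 1 / 4 := by
    rw [integral_toReal mρ.aemeasurable (ae_lt_top mρ iρ')]
    refine (ENNReal.toReal_mono (by simp) iρ).trans (le_of_eq ?_)
    simp
  have i1 := e2 w0 w1 (3 * δ) δ hw0 hw1 (by positivity) hδ (by nlinarith) (by nlinarith)
  have i2 := e2 w0 w0 (3 * δ) δ hw0 hw0 (by positivity) hδ (by nlinarith) (by nlinarith)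
  have up := e3 w0 w0 1 (3 * δ) δ hw0 hw0 le_rfl (fun i j => by rw [one_mul]) (by positivity) hδ
    (by nlinarith) (by nlinarith)
  rw [show 10 * 1 ^ 2 * (3 * δ) / δ + 3 = (33 : ℝ) by field_simp; norm_num] at up
  have low : ∫ x, c * (1 - 2 * (ρ x).toReal) ∂μ ≤
      ∫ x, (ell μ w1 δ x - ell μ w0 (3 * δ) x) ∂μ := by
    refine integral_mono_ae (((integrable_const _).sub (jρ.const_mul 2)).const_mul c) i1 ?_
    filter_upwards [e4 w0 w1 (3 * δ) δ hw1.2.1 hδ
      (RELow2_Bx_mono hw1.2.1 hle hδ.le (by linarith)), (hLiftB n μ inferInstance).2] with x h1 h2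
    have r0 : 0 ≤ (ρ x).toReal := ENNReal.toReal_nonneg
    by_cases hr : 1 / 2 ≤ (ρ x).toReal
    · have : c * (1 - 2 * (ρ x).toReal) ≤ 0 := mul_nonpos_of_nonneg_of_nonpos hc0 (by linarith)
      linarith
    push Not at hr
    have mY := RELow2_Nb_meas hBoxA x w1 δ
    have v0 : lift μ (Nb x (Bx w1 δ)) ≠ 0 := h2 _ (((hBoxA n).2.2.1 w1 δ).2 hw1.2.1 hδ)
    have v1 : lift μ (Nb x (Bx w1 δ)) ≠ ∞ := d3 _ x ((hBoxA n).2.2.1 w1 δ).1
    have v2 : lift μ (Nb x (Bx w0 (3 * δ))) ≠ ∞ := d3 _ x ((hBoxA n).2.2.1 w0 _).1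
    have mP : MeasurableSet (proj ⁻¹' Gd : Set (G n)) := continuous_proj.measurable mGd
    have eρ : ρ x = lift μ (Nb x (Bx w1 δ) \ proj ⁻¹' Gd) * (lift μ (Nb x (Bx w1 δ)))⁻¹ := by
      simp only [hρ]
      congr 1
      have : (fun g : G n => Gdᶜ.indicator (1 : X n → ℝ≥0∞) (proj g)) =
          (proj ⁻¹' Gd)ᶜ.indicator 1 := by
        funext g
        by_cases hg : proj g ∈ Gd <;> simp [indicator, hg]
      rw [this, lintegral_indicator_one mP.compl, Measure.restrict_apply mP.compl, inter_comm,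
        sdiff_eq]
    have sp := measure_inter_add_sdiff (μ := lift μ) (Nb x (Bx w1 δ)) mP
    have f1 : lift μ (Nb x (Bx w1 δ) ∩ proj ⁻¹' Gd) ≠ ∞ :=
      ne_top_of_le_ne_top v1 (measure_mono inter_subset_left)
    have f2 : lift μ (Nb x (Bx w1 δ) \ proj ⁻¹' Gd) ≠ ∞ :=
      ne_top_of_le_ne_top v1 (measure_mono sdiff_subset)
    have sp' := congrArg ENNReal.toReal sp
    rw [ENNReal.toReal_add f1 f2] at sp'
    have V0 : 0 < (lift μ (Nb x (Bx w1 δ))).toReal := ENNReal.toReal_pos v0 v1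
    rw [eρ, ENNReal.toReal_mul, ENNReal.toReal_inv, ← div_eq_mul_inv, div_lt_iff₀ V0] at hr
    have k := ENNReal.toReal_mono v2 (hA' x)
    rw [ENNReal.toReal_mul, hΛ, ENNReal.toReal_ofReal (by positivity)] at k
    have k2 : Real.exp c * (lift μ (Nb x (Bx w1 δ))).toReal ≤
        (lift μ (Nb x (Bx w0 (3 * δ)))).toReal := by
      refine le_trans ?_ k
      rw [mul_comm 2, mul_assoc]
      exact mul_le_mul_of_nonneg_left (by linarith) (Real.exp_pos c).le
    have k3 := Real.log_le_log (by positivity) k2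
    rw [Real.log_mul (Real.exp_pos c).ne' V0.ne', Real.log_exp] at k3
    have : c * (1 - 2 * (ρ x).toReal) ≤ c := by nlinarith
    unfold ell
    linarith
  rw [integral_const_mul, integral_sub (integrable_const _) (jρ.const_mul 2), integral_const_mul,
    integral_const] at low
  have fin := (hEnt1 n μ t hμ hA).2 (-N) L (-N) 0
  rw [show L - -N = N + L by ring, show 0 - -N = N by ring] at fin
  rw [← fin]
  have e : ∫ x, (ell μ w1 δ x - ell μ w0 δ x) ∂μ = ∫ x, (ell μ w1 δ x - ell μ w0 (3 * δ) x) ∂μ -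
      ∫ x, (ell μ w0 δ x - ell μ w0 (3 * δ) x) ∂μ := by
    rw [← integral_sub i1 i2]
    congr 1
    funext x
    ring
  rw [e]
  simp only [probReal_univ, smul_eq_mul, mul_one] at low
  have : c * (1 / 2) ≤ c * (1 - 2 * ∫ x, (ρ x).toReal ∂μ) :=
    mul_le_mul_of_nonneg_left (by linarith) hc0
  linarith

end TP
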