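import Vale.Agent.P007.RStm

noncomputable section
namespace TP
open MeasureTheory Filter Set ProbabilityTheory
open Vale.Agent.P007 (X lattice act Gam proj IsInvariantProb Equidistributes)
open scoped Classical Topology ENNReal

section Aux
variable {n : ℕ}

theorem RER_map_mul (φ : ℝ →ₗ[ℚ] ℚ) (z : Matrix (Fin n) (Fin n) ℝ) (w : Matrix (Fin n) (Fin n) ℚ) :
    (z * w.map (Rat.cast : ℚ → ℝ)).map φ = z.map φ * w := by
  ext i j
  simp only [Matrix.map_apply, Matrix.mul_apply, map_sum]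
  refine Finset.sum_congr rfl fun l _ => ?_
  rw [mul_comm, ← Rat.smul_def, map_smul, smul_eq_mul, mul_comm]

theorem RER_mul_map (φ : ℝ →ₗ[ℚ] ℚ) (z : Matrix (Fin n) (Fin n) ℝ) (w : Matrix (Fin n) (Fin n) ℚ) :
    (w.map (Rat.cast : ℚ → ℝ) * z).map φ = w * z.map φ := by
  ext i j
  simp only [Matrix.map_apply, Matrix.mul_apply, map_sum]
  refine Finset.sum_congr rfl fun l _ => ?_
  rw [← Rat.smul_def, map_smul, smul_eq_mul]

theorem RER_cast_mul (w w' : Matrix (Fin n) (Fin n) ℚ) :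
    (w * w').map (Rat.cast : ℚ → ℝ) = w.map (Rat.cast : ℚ → ℝ) * w'.map (Rat.cast : ℚ → ℝ) :=
  Matrix.map_mul (f := Rat.castHom ℝ)

theorem RER_cast_sub (w w' : Matrix (Fin n) (Fin n) ℚ) :
    (w - w').map (Rat.cast : ℚ → ℝ) = w.map (Rat.cast : ℚ → ℝ) - w'.map (Rat.cast : ℚ → ℝ) := by
  ext i j
  simp

theorem RER_sep {z z' : Matrix (Fin n) (Fin n) ℝ} (h : ∀ φ : ℝ →ₗ[ℚ] ℚ, z.map φ = z'.map φ) :
    z = z' := by
  ext i j
  rw [← sub_eq_zero, ← Module.forall_dual_apply_eq_zero_iff ℚ]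
  intro φ
  have := congrFun (congrFun (h φ) i) j
  simp only [Matrix.map_apply] at this
  rw [map_sub, this, sub_self]

theorem RER_trace (φ : ℝ →ₗ[ℚ] ℚ) (z : Matrix (Fin n) (Fin n) ℝ) :
    (z.map φ).trace = φ z.trace := by
  simp only [Matrix.trace, Matrix.diag, Matrix.map_apply, map_sum]

theorem RER_trace_cast (w : Matrix (Fin n) (Fin n) ℚ) :
    (w.map (Rat.cast : ℚ → ℝ)).trace = (w.trace : ℝ) := by
  simp only [Matrix.trace, Matrix.diag, Matrix.map_apply, Rat.cast_sum]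

theorem RER_mul_inv (g : G n) : g.1 * (g⁻¹).1 = 1 := congrArg Subtype.val (mul_inv_cancel g)

theorem RER_inv_mul (g : G n) : (g⁻¹).1 * g.1 = 1 := congrArg Subtype.val (inv_mul_cancel g)

theorem RER_val_mul (g h : G n) : (g * h).1 = g.1 * h.1 := rfl

theorem RER_mic (g : G n) (y : Matrix (Fin n) (Fin n) ℝ) : g.1 * ((g⁻¹).1 * y) = y := by
  rw [← mul_assoc, RER_mul_inv, one_mul]

theorem RER_imc (g : G n) (y : Matrix (Fin n) (Fin n) ℝ) : (g⁻¹).1 * (g.1 * y) = y := by
  rw [← mul_assoc, RER_inv_mul, one_mul]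

theorem RER_conj (s : Fin n → ℝ) (y : Matrix (Fin n) (Fin n) ℝ) (i j : Fin n) :
    (((dA s)⁻¹).1 * y * (dA s).1) i j = y i j * Real.exp (s j - s i) := by
  rw [← dA_neg, dA_coe, dA_coe, Matrix.mul_diagonal, Matrix.diagonal_mul, mul_right_comm,
    ← Real.exp_add, mul_comm]
  simp only [Pi.neg_apply, Finset.sum_neg_distrib]
  congr 2
  ring

/-- A matrix that commutes with the returns is block diagonal. -/
theorem RER_decay {t : Fin n → ℝ} {m : ℕ → ℕ} {c : ℕ → G n} (hm : Tendsto m atTop atTop)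
    (hc : Tendsto c atTop (𝓝 1)) {y : Matrix (Fin n) (Fin n) ℝ}
    (hy : ∀ k, y * (dA t ^ m k * (c k)⁻¹).1 = (dA t ^ m k * (c k)⁻¹).1 * y) {i j : Fin n}
    (hij : t i ≠ t j) : y i j = 0 := by
  by_contra h0
  have h1 : ∀ k, y i j * Real.exp (m k * (t j - t i)) = (((c k)⁻¹).1 * y * (c k).1) i j := by
    intro k
    have e := congrArg (fun w => ((dA t ^ m k)⁻¹).1 * w * (c k).1) (hy k)
    simp only [RER_val_mul, mul_assoc, RER_inv_mul, RER_imc, mul_one] at e
    rw [mul_assoc, ← e, ← mul_assoc, ← dA_nsmul, RER_conj]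
    simp only [Pi.smul_apply, smul_eq_mul, mul_sub]
  have h2 : Continuous fun h : G n => ((h⁻¹).1 * y * h.1) i j := by
    have a1 : Continuous fun h : G n => h.1 := continuous_subtype_val
    have a2 : Continuous fun h : G n => (h⁻¹).1 := a1.comp continuous_inv
    exact ((a2.matrix_mul continuous_const).matrix_mul a1).matrix_elem i j
  have h3 : Tendsto (fun k => y i j * Real.exp (m k * (t j - t i))) atTop (𝓝 (y i j)) := by
    have := (h2.tendsto 1).comp hc
    simp only [inv_one, Matrix.SpecialLinearGroup.coe_one, one_mul, mul_one] at this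
    exact this.congr fun k => (h1 k).symm
  have h4 : Tendsto (fun k => Real.exp (m k * (t j - t i))) atTop (𝓝 1) := by
    have := h3.const_mul (y i j)⁻¹
    rw [inv_mul_cancel₀ h0] at this
    exact this.congr fun k => by rw [← mul_assoc, inv_mul_cancel₀ h0, one_mul]
  have h5 : Tendsto (fun k => (m k : ℝ) * (t j - t i)) atTop (𝓝 0) := by
    have := h4.log one_ne_zero
    simpa only [Real.log_exp, Real.log_one] using this
  have hd : t j - t i ≠ 0 := sub_ne_zero.2 hij.symm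
  have h6 : Tendsto (fun k => (m k : ℝ)) atTop (𝓝 0) := by
    have := h5.mul_const (t j - t i)⁻¹
    rw [zero_mul] at this
    exact this.congr fun k => mul_inv_cancel_right₀ hd _
  exact not_tendsto_nhds_of_tendsto_atTop (tendsto_natCast_atTop_atTop.comp hm) 0 h6

theorem RER_lm {a b : Fin n} {c : G n} (h : lm a b c 0 = 0) :
    c.1 * Matrix.single a b (1 : ℝ) = Matrix.single a b (1 : ℝ) * c.1 := by
  unfold lm at h
  rw [pow_zero, one_mul] at h
  have h1 : |c.1 a a - c.1 b b| ≤ 0 := (le_max_left _ _).trans h.le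
  have h2 : √|c.1 b a| ≤ 0 := ((le_max_left _ _).trans (le_max_right _ _)).trans h.le
  have h3 : ‖fun k => if k = a ∨ k = b then (0 : ℝ) else max |c.1 k a| |c.1 b k|‖ ≤ 0 :=
    ((le_max_right _ _).trans (le_max_right _ _)).trans h.le
  have e1 : c.1 a a = c.1 b b := sub_eq_zero.1 (abs_nonpos_iff.1 h1)
  have e2 : c.1 b a = 0 := abs_nonpos_iff.1 (Real.sqrt_eq_zero'.1 (le_antisymm h2 (Real.sqrt_nonneg _)))
  have e3 : ∀ k, k ≠ a → k ≠ b → c.1 k a = 0 ∧ c.1 b k = 0 := by
    intro k ha hb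
    have := congrFun (norm_le_zero_iff.1 h3) k
    simp only [ha, hb, or_self, if_false, Pi.zero_apply] at this
    exact ⟨abs_nonpos_iff.1 ((le_max_left _ _).trans this.le),
      abs_nonpos_iff.1 ((le_max_right _ _).trans this.le)⟩
  have c1 : ∀ i, i ≠ a → c.1 i a = 0 := fun i hi => by
    by_cases hb : i = b
    · rw [hb, e2]
    · exact (e3 i hi hb).1
  have c2 : ∀ j, j ≠ b → c.1 b j = 0 := fun j hj => by
    by_cases ha : j = a
    · rw [ha, e2]
    · exact (e3 j ha hj).2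
  ext i j
  by_cases hi : i = a <;> by_cases hj : j = b
  · rw [hi, hj, Matrix.mul_single_apply_same, Matrix.single_mul_apply_same, e1, mul_comm]
  · rw [hi, Matrix.mul_single_apply_of_ne _ _ _ _ _ hj, Matrix.single_mul_apply_same, c2 j hj,
      mul_zero]
  · rw [hj, Matrix.mul_single_apply_same, Matrix.single_mul_apply_of_ne _ _ _ _ _ hi, c1 i hi,
      zero_mul]
  · rw [Matrix.mul_single_apply_of_ne _ _ _ _ _ hj, Matrix.single_mul_apply_of_ne _ _ _ _ _ hi]

theorem RER_dA {a b : Fin n} {s : Fin n → ℝ} (h : s a = s b) :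
    (dA s).1 * Matrix.single a b (1 : ℝ) = Matrix.single a b (1 : ℝ) * (dA s).1 := by
  ext i j
  rw [dA_coe, Matrix.diagonal_mul, Matrix.mul_diagonal, Matrix.single_apply]
  split_ifs with hij
  · rw [← hij.1, ← hij.2, h, mul_comm]
  · simp

end Aux

theorem s_ER (hLatV : LatV) : ER := by
  intro n x a b t hab htab ht hlt hret
  obtain ⟨g, rfl⟩ := proj_surj x
  obtain ⟨L1, L2, L3⟩ := hLatV n
  obtain ⟨m, c, hm, hc, hk⟩ := hret
  -- it suffices to find a rational matrix supported in the two columns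
  suffices H : ∃ z : Matrix (Fin n) (Fin n) ℚ, z ≠ 0 ∧ ∀ i j, j ∉ ({a, b} : Set (Fin n)) →
      ((g⁻¹).1 * z.map (Rat.cast : ℚ → ℝ) * g.1) i j = 0 by
    obtain ⟨z, hz, hz'⟩ := H
    obtain ⟨w, hw, hw0, hw'⟩ := L1 g z {a, b} hz hz'
    refine L2 _ w t hw hw0 (fun j hj => ?_) ⟨m, c, hm, hc, fun k => ⟨trivial, (hk k).2⟩⟩
    have : j ∈ ({a, b} : Set (Fin n)) := by
      by_contra h
      exact hj (hw' j h)
    rcases this with rfl | rfl
    · exact hlt
    · rwa [← htab]
  choose γ hγ using fun k => L3 g _ _ (hk k).2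
  set Γ : ℕ → Matrix (Fin n) (Fin n) ℚ := fun k => (γ k).map (Int.cast : ℤ → ℚ) with hΓd
  have hΓ : ∀ k, (Γ k).map (Rat.cast : ℚ → ℝ) =
      g.1 * (dA t ^ m k * (c k)⁻¹).1 * (g⁻¹).1 := by
    intro k
    rw [← RER_val_mul, ← RER_val_mul, ← mul_assoc, ← hγ k]
    ext i j
    simp [hΓd]
  clear_value Γ
  -- the conjugation
  set hat : Matrix (Fin n) (Fin n) ℝ → Matrix (Fin n) (Fin n) ℝ :=
    fun z => (g⁻¹).1 * z * g.1 with hhat
  have hat_mul : ∀ z w, hat (z * w) = hat z * hat w := fun z w => by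
    simp only [hhat, mul_assoc, RER_mic]
  have hat_tr : ∀ z, (hat z).trace = z.trace := fun z => by
    simp only [hhat]
    rw [Matrix.trace_mul_comm, ← mul_assoc, RER_mul_inv, one_mul]
  have hat_Γ : ∀ k, hat ((Γ k).map (Rat.cast : ℚ → ℝ)) = (dA t ^ m k * (c k)⁻¹).1 := fun k => by
    simp only [hhat, hΓ, mul_assoc, RER_imc, RER_inv_mul, mul_one]
  have hblock : ∀ w : Matrix (Fin n) (Fin n) ℚ, (∀ k, w * Γ k = Γ k * w) →
      ∀ i j, i ≠ j → ¬ ((i = a ∨ i = b) ∧ (j = a ∨ j = b)) →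
        hat (w.map (Rat.cast : ℚ → ℝ)) i j = 0 := by
    intro w hw i j hij hS
    refine RER_decay (t := t) hm hc (fun k => ?_) fun h => (ht i j h).elim hij hS
    rw [← hat_Γ, ← hat_mul, ← hat_mul, ← RER_cast_mul, ← RER_cast_mul, hw k]
  -- the root element
  set e : Matrix (Fin n) (Fin n) ℝ := g.1 * Matrix.single a b (1 : ℝ) * (g⁻¹).1 with he
  have hat_e : hat e = Matrix.single a b (1 : ℝ) := by
    simp only [hhat, he, mul_assoc, RER_imc, RER_inv_mul, mul_one]
  have heΓ : ∀ k, e * (Γ k).map (Rat.cast : ℚ → ℝ) = (Γ k).map (Rat.cast : ℚ → ℝ) * e := by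
    intro k
    have h1 : Matrix.single a b (1 : ℝ) * ((c k)⁻¹).1 = ((c k)⁻¹).1 * Matrix.single a b (1 : ℝ) := by
      have := congrArg (fun w => ((c k)⁻¹).1 * w * ((c k)⁻¹).1) (RER_lm (hk k).1)
      simpa only [mul_assoc, RER_imc, RER_mul_inv, mul_one] using this
    have h2 : (dA t ^ m k).1 * Matrix.single a b (1 : ℝ) =
        Matrix.single a b (1 : ℝ) * (dA t ^ m k).1 := by
      rw [← dA_nsmul]
      exact RER_dA (by simp only [Pi.smul_apply, htab])
    have h3 : Matrix.single a b (1 : ℝ) * (dA t ^ m k * (c k)⁻¹).1 =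
        (dA t ^ m k * (c k)⁻¹).1 * Matrix.single a b (1 : ℝ) := by
      rw [RER_val_mul, ← mul_assoc, ← h2, mul_assoc, h1, mul_assoc]
    rw [hΓ, he]
    simp only [mul_assoc, RER_imc]
    rw [← mul_assoc (Matrix.single a b (1 : ℝ)), h3, mul_assoc]
  have hφe : ∀ φ : ℝ →ₗ[ℚ] ℚ, ∀ k, e.map φ * Γ k = Γ k * e.map φ := fun φ k => by
    rw [← RER_map_mul, ← RER_mul_map, heΓ k]
  by_cases hcomm : ∀ w w' : Matrix (Fin n) (Fin n) ℚ, (∀ k, w * Γ k = Γ k * w) →
      (∀ k, w' * Γ k = Γ k * w') → w * w' = w' * w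
  · have he0 : e ≠ 0 := by
      intro h
      have h1 := congrFun (congrFun hat_e a) b
      rw [h] at h1
      simp [hhat] at h1
    obtain ⟨φ, hφ⟩ : ∃ φ : ℝ →ₗ[ℚ] ℚ, e.map φ ≠ 0 := by
      by_contra h
      push Not at h
      refine he0 (RER_sep fun φ => ?_)
      rw [h φ]
      ext i j
      simp
    refine ⟨e.map φ, hφ, ?_⟩
    set z := e.map φ with hz
    have hzΓ : ∀ k, z * Γ k = Γ k * z := hφe φ
    have hez : e * z.map (Rat.cast : ℚ → ℝ) = z.map (Rat.cast : ℚ → ℝ) * e :=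
      RER_sep fun ψ => by rw [RER_map_mul, RER_mul_map, hcomm _ _ (hφe ψ) hzΓ]
    set y := hat (z.map (Rat.cast : ℚ → ℝ)) with hy
    have hey : Matrix.single a b (1 : ℝ) * y = y * Matrix.single a b (1 : ℝ) := by
      rw [← hat_e, hy, ← hat_mul, ← hat_mul, hez]
    have hba : y b a = 0 := by
      have := congrFun (congrFun hey a) a
      rwa [Matrix.single_mul_apply_same, Matrix.mul_single_apply_of_ne _ _ _ _ _ hab,
        one_mul] at this
    have htr : (e * z.map (Rat.cast : ℚ → ℝ)).trace = 0 := by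
      rw [← hat_tr, hat_mul, hat_e, ← hy, Matrix.trace_single_mul, hba, smul_zero]
    have htr2 : (y * y).trace = 0 := by
      rw [hy, ← hat_mul, hat_tr, ← RER_cast_mul, RER_trace_cast]
      have : z * z = (e * z.map (Rat.cast : ℚ → ℝ)).map φ := (RER_map_mul φ e z).symm
      rw [this, RER_trace, htr, map_zero, Rat.cast_zero]
    have hoff : ∀ i j, i ≠ j → y i j * y j i = 0 := by
      intro i j hij
      by_cases hS : (i = a ∨ i = b) ∧ (j = a ∨ j = b)
      · obtain ⟨hi | hi, hj | hj⟩ := hS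
        · exact absurd (hi.trans hj.symm) hij
        · rw [hi, hj, hba, mul_zero]
        · rw [hi, hj, hba, zero_mul]
        · exact absurd (hi.trans hj.symm) hij
      · rw [show y i j = 0 from hblock z hzΓ i j hij hS, zero_mul]
    have hsq : ∑ i, y i i * y i i = 0 := by
      rw [← htr2, Matrix.trace]
      refine Finset.sum_congr rfl fun i _ => ?_
      rw [Matrix.diag, Matrix.mul_apply, Finset.sum_eq_single i]
      · exact fun j _ hj => hoff i j hj.symm
      · simp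
    intro i j hj
    by_cases hij : i = j
    · rw [hij]
      exact mul_self_eq_zero.1 ((Finset.sum_eq_zero_iff_of_nonneg
        fun i _ => mul_self_nonneg (y i i)).1 hsq j (Finset.mem_univ j))
    · exact hblock z hzΓ i j hij fun h => hj h.2
  · push Not at hcomm
    obtain ⟨w, w', hw, hw', hne⟩ := hcomm
    refine ⟨w * w' - w' * w, sub_ne_zero.2 hne, fun i j hj => ?_⟩
    have key : ∀ u u' : Matrix (Fin n) (Fin n) ℚ, (∀ k, u' * Γ k = Γ k * u') →
        hat ((u * u').map (Rat.cast : ℚ → ℝ)) i j =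
          hat (u.map (Rat.cast : ℚ → ℝ)) i j * hat (u'.map (Rat.cast : ℚ → ℝ)) j j := by
      intro u u' hu'
      rw [RER_cast_mul, hat_mul, Matrix.mul_apply, Finset.sum_eq_single j]
      · intro l _ hl
        rw [hblock u' hu' l j hl fun h => hj h.2, mul_zero]
      · simp
    rw [RER_cast_sub, mul_sub, sub_mul, Matrix.sub_apply]
    refine sub_eq_zero.2 ((key w w' hw').trans (Eq.trans ?_ (key w' w hw).symm))
    by_cases hij : i = j
    · rw [hij, mul_comm]
    · rw [hblock w hw i j hij fun h => hj h.2, hblock w' hw' i j hij fun h => hj h.2, zero_mul,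
        zero_mul]

end TP
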