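import Vale.Agent.P007.RStm

noncomputable section
namespace TP
open MeasureTheory Filter Set ProbabilityTheory
open Vale.Agent.P007 (X lattice act Gam proj IsInvariantProb Equidistributes act_proj)
open scoped Classical Topology ENNReal

/-- The integral of a logarithm, bounded by two integrals. -/
theorem REUp_gen {Ω : Type} [MeasurableSpace Ω] (μ : Measure Ω) [IsProbabilityMeasure μ]
    (F : Ω → ℝ) (A C : Ω → ℝ≥0∞) (K : Set Ω) (M ML : ℝ) (hF : Integrable F μ)
    (hA : Measurable A) (hC : Measurable C) (hK : MeasurableSet K) (hM : 1 ≤ M) (hML : 1 ≤ ML)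
    (iA : ∫⁻ x, A x ∂μ ≤ ENNReal.ofReal M) (iC : ∫⁻ x, C x ∂μ ≤ ENNReal.ofReal ML)
    (mK : μ Kᶜ ≤ ENNReal.ofReal (1 / ML))
    (hFC : ∀ᵐ x ∂μ, 0 < (C x).toReal ∧ F x = Real.log (C x).toReal)
    (hCA : ∀ x ∈ K, C x ≤ A x) : ∫ x, F x ∂μ ≤ Real.log M + 2 := by
  have hM0 : 0 < M := by linarith
  have hML0 : 0 < ML := by linarith
  have fA : ∫⁻ x, A x ∂μ ≠ ∞ := (iA.trans_lt ENNReal.ofReal_lt_top).ne
  have fC : ∫⁻ x, C x ∂μ ≠ ∞ := (iC.trans_lt ENNReal.ofReal_lt_top).ne
  have aA : ∀ᵐ x ∂μ, A x < ∞ := ae_lt_top hA fA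
  have aC : ∀ᵐ x ∂μ, C x < ∞ := ae_lt_top hC fC
  have jA : Integrable (fun x => (A x).toReal) μ :=
    integrable_toReal_of_lintegral_ne_top hA.aemeasurable fA
  have jC : Integrable (fun x => (C x).toReal) μ :=
    integrable_toReal_of_lintegral_ne_top hC.aemeasurable fC
  have eA : ∫ x, (A x).toReal ∂μ ≤ M := by
    rw [integral_toReal hA.aemeasurable aA]
    exact ENNReal.toReal_le_of_le_ofReal hM0.le iA
  have eC : ∫ x, (C x).toReal ∂μ ≤ ML := by
    rw [integral_toReal hC.aemeasurable aC]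
    exact ENNReal.toReal_le_of_le_ofReal hML0.le iC
  have jK : Integrable (Kᶜ.indicator fun _ => Real.log ML) μ :=
    (integrable_const _).indicator hK.compl
  have l1 : 0 ≤ Real.log ML := Real.log_nonneg hML
  have l0 : 0 ≤ Real.log M := Real.log_nonneg hM
  have eK : ∫ x, Kᶜ.indicator (fun _ => Real.log ML) x ∂μ ≤ 1 := by
    rw [integral_indicator_const _ hK.compl, smul_eq_mul]
    have h1 : μ.real Kᶜ ≤ 1 / ML := ENNReal.toReal_le_of_le_ofReal (by positivity) mK
    have h2 : Real.log ML ≤ ML := (Real.log_le_sub_one_of_pos hML0).trans (by linarith)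
    calc μ.real Kᶜ * Real.log ML ≤ 1 / ML * ML := mul_le_mul h1 h2 l1 (by positivity)
      _ = 1 := by field_simp
  have key : ∀ y l : ℝ, 0 < y → 0 < l → Real.log y ≤ Real.log l + y / l - 1 := fun y l hy hl => by
    have := Real.log_le_sub_one_of_pos (div_pos hy hl)
    rw [Real.log_div hy.ne' hl.ne'] at this
    linarith
  have j1 : Integrable (fun x => (Real.log M - 1) + Kᶜ.indicator (fun _ => Real.log ML) x) μ :=
    (integrable_const _).add jK
  have j2 : Integrable (fun x => (Real.log M - 1) + Kᶜ.indicator (fun _ => Real.log ML) x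
      + (A x).toReal / M) μ := j1.add (jA.div_const M)
  have j3 : Integrable (fun x => (Real.log M - 1) + Kᶜ.indicator (fun _ => Real.log ML) x
      + (A x).toReal / M + (C x).toReal / ML) μ := j2.add (jC.div_const ML)
  have main : ∫ x, F x ∂μ ≤ ∫ x, ((Real.log M - 1) + Kᶜ.indicator (fun _ => Real.log ML) x
      + (A x).toReal / M + (C x).toReal / ML) ∂μ := by
    refine integral_mono_ae hF j3 ?_
    filter_upwards [hFC, aA] with x hx ha
    rw [hx.2]
    have p1 : 0 ≤ (A x).toReal / M := by positivity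
    have p2 : 0 ≤ (C x).toReal / ML := by positivity
    by_cases h : x ∈ K
    · rw [indicator_of_notMem (by simpa using h)]
      have h1 := key _ _ hx.1 hM0
      have h2 : (C x).toReal / M ≤ (A x).toReal / M :=
        div_le_div_of_nonneg_right (ENNReal.toReal_mono ha.ne (hCA x h)) hM0.le
      linarith
    · rw [indicator_of_mem (by simpa using h)]
      have h1 := key _ _ hx.1 hML0
      linarith
  rw [integral_add j2 (jC.div_const ML), integral_add j1 (jA.div_const M),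
    integral_add (integrable_const _) jK, integral_const, integral_div, integral_div] at main
  have b1 : (∫ x, (A x).toReal ∂μ) / M ≤ 1 := (div_le_one hM0).2 eA
  have b2 : (∫ x, (C x).toReal ∂μ) / ML ≤ 1 := (div_le_one hML0).2 eC
  simp only [probReal_univ, smul_eq_mul, one_mul] at main
  linarith

variable {n : ℕ}

theorem REUp_wt (s s' u : Fin n → ℝ) (Λ : ℝ) (hΛ : 1 ≤ Λ)
    (h : ∀ i j, Real.exp (s i - s j) ≤ Λ * Real.exp (s' i - s' j)) (i j : Fin n) :
    wt s u i j ≤ Λ * wt s' u i j := by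
  unfold wt
  rw [mul_min_of_nonneg _ _ (by linarith : (0 : ℝ) ≤ Λ)]
  refine le_min ((min_le_left _ _).trans (h i j)) ((min_le_right _ _).trans ?_)
  exact le_mul_of_one_le_left (Real.exp_pos _).le hΛ

theorem REUp_dl (n : ℕ) : 0 < dl n ∧ 8 * n * dl n ≤ 1 ∧ dl n < 1 := by
  unfold dl
  have h : (0 : ℝ) ≤ n := Nat.cast_nonneg n
  refine ⟨by positivity, ?_, ?_⟩
  · rw [mul_one_div, div_le_one (by positivity)]
    linarith
  · rw [div_lt_one (by positivity)]
    linarith

theorem REUp_mono (t : Fin n → ℝ) (L δ : ℝ) (hδ : 0 ≤ δ) {N N' : ℝ} (hN : 0 ≤ N) (h : N ≤ N') :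
    Bx (wt (L • t) ((N' + L) • t)) δ ⊆ Bx (wt (L • t) ((N + L) • t)) δ := by
  intro g hg i j
  refine (hg i j).trans (mul_le_mul_of_nonneg_left ?_ hδ)
  unfold wt
  simp only [Pi.smul_apply, smul_eq_mul]
  refine le_min (min_le_left _ _) ?_
  rcases le_total (t i) (t j) with h1 | h1
  · refine (min_le_right _ _).trans (Real.exp_le_exp.2 ?_)
    nlinarith
  · refine (min_le_left _ _).trans (Real.exp_le_exp.2 ?_)
    nlinarith

/-- The entries outside `Φ` are small for large `N`. -/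
theorem REUp_small (hBoxA : BoxA) (t : Fin n → ℝ) (L δ η : ℝ) (Φ : Fin n → Fin n → Prop)
    (K : Set (X n)) (hK : IsCompact K) (hδ : 0 < δ) (hδ1 : δ < 1) (hη : 0 < η)
    (hS : ∀ x ∈ K, ∀ h : G n, (∀ i j, t i < t j → h.1 i j = 0) → (∀ i, 0 < h.1 i i) →
      act h x ∈ K → ∀ i j, t j < t i → ¬ Φ i j → h.1 i j = 0)
    (i j : Fin n) (hij : t j < t i) (hΦ : ¬ Φ i j) :
    ∀ᶠ N in atTop, ∀ x ∈ K, ∀ h ∈ Bx (wt (L • t) ((N + L) • t)) δ, act h x ∈ K →
      |h.1 i j| ≤ η := by
  let A : ℕ → Set (X n × G n) := fun m =>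
    (K ×ˢ Bx (wt (L • t) (((m : ℝ) + L) • t)) δ) ∩
      ({p | act p.2 p.1 ∈ K} ∩ {p | η ≤ |p.2.1 i j|})
  have hc : ∀ m, IsCompact (A m) := fun m => by
    refine (hK.prod ((hBoxA n).2.2.1 _ δ).1).inter_right (IsClosed.inter ?_ ?_)
    · exact hK.isClosed.preimage (Continuous.tp_act continuous_snd continuous_fst)
    · exact isClosed_le continuous_const
        (((continuous_entry i j).comp continuous_snd).abs)
  have hex : ∃ m, A m = ∅ := by
    by_contra hne
    have hne' : ∀ m, (A m).Nonempty := fun m =>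
      nonempty_iff_ne_empty.2 fun h => hne ⟨m, h⟩
    obtain ⟨p, hp⟩ := IsCompact.nonempty_iInter_of_sequence_nonempty_isCompact_isClosed A
      (fun m p hp => ⟨⟨hp.1.1, REUp_mono t L δ hδ.le (Nat.cast_nonneg m)
        (by push_cast; linarith) hp.1.2⟩, hp.2⟩) hne' (hc 0) fun m => (hc m).isClosed
    rw [mem_iInter] at hp
    have h0 := hp 0
    have h1 : p.2.1 i j = 0 := by
      refine hS p.1 h0.1.1 p.2 (fun a b hab => ?_) (fun a => ?_) h0.2.1 i j hij hΦ
      · have hne : a ≠ b := fun h => by simp [h] at hab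
        have h2 : ∀ m : ℕ, |p.2.1 a b| ≤ δ * Real.exp (((m : ℝ) + L) * (t a - t b)) := fun m => by
          have := (hp m).1.2 a b
          rw [Matrix.one_apply_ne hne, sub_zero] at this
          refine this.trans (mul_le_mul_of_nonneg_left ((min_le_right _ _).trans (le_of_eq ?_))
            hδ.le)
          simp only [Pi.smul_apply, smul_eq_mul]
          ring_nf
        have h3 : Tendsto (fun m : ℕ => δ * Real.exp (((m : ℝ) + L) * (t a - t b))) atTop
            (𝓝 (δ * 0)) := by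
          refine Tendsto.const_mul _ (Real.tendsto_exp_atBot.comp ?_)
          exact (tendsto_atTop_add_const_right _ L tendsto_natCast_atTop_atTop).atTop_mul_const_of_neg
            (by linarith)
        rw [mul_zero] at h3
        exact abs_nonpos_iff.1 (ge_of_tendsto' h3 h2)
      · have := h0.1.2 a a
        rw [Matrix.one_apply_eq, ((hBoxA n).2.2.2.1 _ _).1 a, mul_one, abs_le] at this
        linarith [this.1]
    have h4 : η ≤ |p.2.1 i j| := h0.2.2
    rw [h1, abs_zero] at h4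
    linarith
  obtain ⟨m, hm⟩ := hex
  filter_upwards [eventually_ge_atTop (m : ℝ)] with N hN x hx h hh hxh
  by_contra hlt
  have : (x, h) ∈ A m :=
    ⟨⟨hx, REUp_mono t L δ hδ.le (Nat.cast_nonneg m) hN hh⟩, hxh, (not_le.1 hlt).le⟩
  rw [hm] at this
  exact this

/-- Returns to the compact set lie in the smaller box. -/
theorem REUp_claim (hBoxA : BoxA) (t t' : Fin n → ℝ) (β L δ : ℝ) (Φ : Fin n → Fin n → Prop)
    (K : Set (X n)) (hK : IsCompact K) (hδ : 0 < δ) (hδ1 : δ < 1) (ht : Function.Injective t)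
    (hL : 0 ≤ L) (hβ : ∀ i j, |t' i - t' j| ≤ β) (hΦ : ∀ i j, Φ i j → t i - t j ≤ t' i - t' j)
    (hS : ∀ x ∈ K, ∀ h : G n, (∀ i j, t i < t j → h.1 i j = 0) → (∀ i, 0 < h.1 i i) →
      act h x ∈ K → ∀ i j, t j < t i → ¬ Φ i j → h.1 i j = 0) :
    ∀ᶠ N in atTop, ∀ x ∈ K, ∀ h ∈ Bx (wt (L • t) ((N + L) • t)) δ, act h x ∈ K →
      h ∈ Bx (wt (L • t') ((N + L) • t)) δ := by
  have key : ∀ i j : Fin n, ∀ᶠ N in atTop, ∀ x ∈ K, ∀ h ∈ Bx (wt (L • t) ((N + L) • t)) δ,
      act h x ∈ K → |h.1 i j - (1 : Matrix (Fin n) (Fin n) ℝ) i j|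
        ≤ δ * Real.exp (L * t' i - L * t' j) := by
    intro i j
    have hb : Real.exp (-(L * β)) ≤ Real.exp (L * t' i - L * t' j) := by
      refine Real.exp_le_exp.2 ?_
      have := mul_le_mul_of_nonneg_left (abs_le.1 (hβ i j)).1 hL
      linarith
    rcases lt_trichotomy (t i) (t j) with h1 | h1 | h1
    · have h3 : Tendsto (fun N : ℝ => Real.exp ((N + L) * (t i - t j))) atTop (𝓝 0) := by
        refine Real.tendsto_exp_atBot.comp ?_
        exact (tendsto_atTop_add_const_right _ L tendsto_id).atTop_mul_const_of_neg (by linarith)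
      filter_upwards [h3.eventually (ge_mem_nhds (Real.exp_pos (-(L * β))))] with N hN x _ h hh _
      refine (hh i j).trans (mul_le_mul_of_nonneg_left ((min_le_right _ _).trans ?_) hδ.le)
      refine le_trans (le_of_eq ?_) (hN.trans hb)
      simp only [Pi.smul_apply, smul_eq_mul]
      ring_nf
    · obtain rfl := ht h1
      refine Eventually.of_forall fun N x _ h hh _ => ?_
      refine (hh i i).trans (mul_le_mul_of_nonneg_left ((min_le_left _ _).trans ?_) hδ.le)
      simp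
    · by_cases h2 : Φ i j
      · refine Eventually.of_forall fun N x _ h hh _ => ?_
        refine (hh i j).trans (mul_le_mul_of_nonneg_left ((min_le_left _ _).trans ?_) hδ.le)
        refine Real.exp_le_exp.2 ?_
        have := mul_le_mul_of_nonneg_left (hΦ i j h2) hL
        simp only [Pi.smul_apply, smul_eq_mul]
        linarith
      · have hne : i ≠ j := fun h => by simp [h] at h1
        filter_upwards [REUp_small hBoxA t L δ (δ * Real.exp (-(L * β))) Φ K hK hδ hδ1
          (by positivity) hS i j h1 h2] with N hN x hx h hh hxh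
        rw [Matrix.one_apply_ne hne, sub_zero]
        exact (hN x hx h hh hxh).trans (mul_le_mul_of_nonneg_left hb hδ.le)
  filter_upwards [eventually_all.2 fun i => eventually_all.2 (key i)] with N hN x hx h hh hxh i j
  unfold wt
  rw [mul_min_of_nonneg _ _ hδ.le]
  exact le_min (hN i j x hx h hh hxh)
    ((hh i j).trans (mul_le_mul_of_nonneg_left (min_le_right _ _) hδ.le))

theorem REUp_num (m : ℕ) (a : ℝ) (ha : 0 ≤ a) :
    Real.log ((10 * Real.exp a ^ 2 + 3) ^ m + 1) ≤ m * (3 + 2 * a) + 1 := by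
  have e1 : 1 ≤ Real.exp a := Real.one_le_exp ha
  have e2 : 1 ≤ Real.exp a ^ 2 := one_le_pow₀ e1
  have e3 : (13 : ℝ) ≤ Real.exp 3 := by
    have h7 := Real.exp_one_gt_d9
    have h8 : Real.exp 3 = Real.exp 1 ^ 3 := by
      rw [← Real.exp_nat_mul]
      norm_num
    rw [h8]
    calc (13 : ℝ) ≤ 2.7 ^ 3 := by norm_num
      _ ≤ Real.exp 1 ^ 3 := pow_le_pow_left₀ (by norm_num) (by linarith) 3
  have e4 : 10 * Real.exp a ^ 2 + 3 ≤ Real.exp (3 + 2 * a) := by
    have : Real.exp (2 * a) = Real.exp a ^ 2 := by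
      rw [← Real.exp_nat_mul]
      norm_num
    rw [Real.exp_add, this]
    nlinarith
  have e5 : (10 * Real.exp a ^ 2 + 3) ^ m ≤ Real.exp (m * (3 + 2 * a)) := by
    rw [Real.exp_nat_mul]
    exact pow_le_pow_left₀ (by positivity) e4 m
  have e6 : 1 ≤ Real.exp (m * (3 + 2 * a)) := Real.one_le_exp (by positivity)
  rw [Real.log_le_iff_le_exp (by positivity), Real.exp_add]
  have e7 := Real.add_one_le_exp (1 : ℝ)
  nlinarith

theorem s_EUp (hExSec : ExSec) (hLiftA : LiftA) (hLiftB : LiftB) (hBoxA : BoxA) (hDL : DL)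
    (hLus : Lus) (hEnt0 : Ent0) (hEnt1 : Ent1) : EUp := by
  intro n μ t t' β L Φ S hμ hA ht hβ0 hL hβ hΦ hS hS'
  obtain ⟨d0, d1, d2⟩ := REUp_dl n
  set δ := dl n with hδ
  have hfin : IsFiniteMeasure μ := inferInstance
  have e1 : 1 ≤ Real.exp (L * β) := Real.one_le_exp (by positivity)
  have e2 : 1 ≤ Real.exp (L * (2 * ‖t‖)) := Real.one_le_exp (by positivity)
  set M1 : ℝ := (10 * Real.exp (L * β) ^ 2 * δ / δ + 3) ^ (n * n) with hM1
  set ML : ℝ := (10 * Real.exp (L * (2 * ‖t‖)) ^ 2 * δ / δ + 3) ^ (n * n) with hML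
  have m1 : 0 ≤ M1 := by positivity
  have mL : 1 ≤ ML := one_le_pow₀ (by
    have : 0 ≤ 10 * Real.exp (L * (2 * ‖t‖)) ^ 2 * δ / δ := by positivity
    linarith)
  obtain ⟨K, hK, hKS, hKm, -⟩ := hLus n μ (fun _ _ => 0) S (ENNReal.ofReal (1 / ML)) hfin
    measurable_const hS (by
      rw [ne_eq, ENNReal.ofReal_eq_zero, not_le]
      positivity)
  have mK : MeasurableSet K := hK.measurableSet
  filter_upwards [REUp_claim hBoxA t t' β L δ Φ K hK d0 d2 ht hL hβ hΦ
    fun x hx h h1 h2 h3 => hS' x (hKS hx) h h1 h2 (hKS h3)] with N hN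
  have hsb := (hBoxA n).2.2.2.1
  have hcp := (hBoxA n).2.2.1
  obtain ⟨D1, D2, D3, D4⟩ := hDL n μ hfin
  set w0 := wt ((0 : ℝ) • t) ((N + L) • t) with hw0
  set wQ := wt (L • t) ((N + L) • t) with hwQ
  set wb := wt (L • t') ((N + L) • t) with hwb
  have E := (hEnt1 n μ t hμ hA).2 0 (N + L) L (N + L)
  rw [sub_zero, add_sub_cancel_right] at E
  rw [← E]
  have b1 : ∀ i j, wb i j ≤ Real.exp (L * β) * w0 i j := by
    refine REUp_wt _ _ _ _ e1 fun i j => ?_
    rw [← Real.exp_add]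
    refine Real.exp_le_exp.2 ?_
    have := mul_le_mul_of_nonneg_left (abs_le.1 (hβ i j)).2 hL
    simp only [Pi.smul_apply, smul_eq_mul]
    linarith
  have b2 : ∀ i j, wQ i j ≤ Real.exp (L * (2 * ‖t‖)) * w0 i j := by
    refine REUp_wt _ _ _ _ e2 fun i j => ?_
    rw [← Real.exp_add]
    refine Real.exp_le_exp.2 ?_
    have h1 := abs_le.1 ((Real.norm_eq_abs _).symm.trans_le (norm_le_pi_norm t i))
    have h2 := abs_le.1 ((Real.norm_eq_abs _).symm.trans_le (norm_le_pi_norm t j))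
    have := mul_le_mul_of_nonneg_left (show t i - t j ≤ 2 * ‖t‖ by linarith [h1.2, h2.1]) hL
    simp only [Pi.smul_apply, smul_eq_mul]
    linarith
  have mB : ∀ w : Fin n → Fin n → ℝ, MeasurableSet (Bx w δ : Set (G n)) := fun w =>
    (hcp w δ).1.measurableSet
  have mI : Measurable (Kᶜ.indicator (1 : X n → ℝ≥0∞)) := measurable_one.indicator mK.compl
  have I1 := D4 wb w0 _ δ δ (fun _ => 1) (hsb _ _) (hsb _ _) e1 b1 d0 d0 d1 measurable_const
  have I2 := D4 wQ w0 _ δ δ _ (hsb _ _) (hsb _ _) e2 b2 d0 d0 d1 mI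
  have I3 := D4 wQ w0 _ δ δ (fun _ => 1) (hsb _ _) (hsb _ _) e2 b2 d0 d0 d1 measurable_const
  simp only [lintegral_const, Measure.restrict_apply_univ, one_mul, measure_univ, mul_one] at I1 I3
  rw [lintegral_indicator_one mK.compl] at I2
  have mV : Measurable fun x => (lift μ (Nb x (Bx w0 δ)))⁻¹ := (D2 _ (mB _)).inv
  have m1' : Measurable fun x => lift μ (Nb x (Bx wb δ)) * (lift μ (Nb x (Bx w0 δ)))⁻¹ :=
    (D2 _ (mB _)).mul mV
  have fin := REUp_gen μ (fun x => ell μ w0 δ x - ell μ wQ δ x)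
    (fun x => lift μ (Nb x (Bx wb δ)) * (lift μ (Nb x (Bx w0 δ)))⁻¹ +
      (∫⁻ g in Nb x (Bx wQ δ), Kᶜ.indicator (1 : X n → ℝ≥0∞) (proj g) ∂lift μ) *
        (lift μ (Nb x (Bx w0 δ)))⁻¹)
    (fun x => lift μ (Nb x (Bx wQ δ)) * (lift μ (Nb x (Bx w0 δ)))⁻¹) K (M1 + 1) ML
    ((hEnt0 n μ hμ hA).2.1 wQ w0 δ δ (hsb _ _) (hsb _ _) d0 d0 d1 d1)
    (m1'.add ((D1 _ _ (mB _) mI).mul mV)) ((D2 _ (mB _)).mul mV) mK (by linarith) mL ?_ I3 hKm ?_ ?_
  · refine fin.trans ?_
    have := REUp_num (n * n) (L * β) (by positivity)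
    rw [hM1, mul_div_cancel_right₀ _ d0.ne']
    have e : 2 * L * β = 2 * (L * β) := by ring
    rw [e]
    linarith
  · rw [lintegral_add_left m1', ENNReal.ofReal_add m1 zero_le_one]
    refine add_le_add I1 (I2.trans ?_)
    refine (mul_le_mul_right hKm _).trans (le_of_eq ?_)
    rw [← hML, ← ENNReal.ofReal_mul (by linarith), mul_one_div_cancel (by linarith)]
  · filter_upwards [(hLiftB n μ hfin).2] with x hx
    have p0 := hx _ ((hcp w0 δ).2 (hsb _ _).2.1 d0)
    have pQ := hx _ ((hcp wQ δ).2 (hsb _ _).2.1 d0)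
    have q0 := ENNReal.toReal_pos p0 (D3 _ x (hcp w0 δ).1)
    have qQ := ENNReal.toReal_pos pQ (D3 _ x (hcp wQ δ).1)
    rw [ENNReal.toReal_mul, ENNReal.toReal_inv]
    refine ⟨by positivity, ?_⟩
    rw [Real.log_mul qQ.ne' (inv_pos.2 q0).ne', Real.log_inv]
    unfold ell
    ring
  · intro x hx
    rw [← add_mul]
    refine mul_le_mul_left ?_ _
    have mP : MeasurableSet (proj ⁻¹' Kᶜ : Set (G n)) := continuous_proj.measurable mK.compl
    have e : ∫⁻ g in Nb x (Bx wQ δ), Kᶜ.indicator (1 : X n → ℝ≥0∞) (proj g) ∂lift μ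
        = lift μ (proj ⁻¹' Kᶜ ∩ Nb x (Bx wQ δ)) := by
      rw [← Measure.restrict_apply mP, ← lintegral_indicator_one mP]
      rfl
    rw [e]
    refine (measure_mono fun g hg => ?_).trans (measure_union_le _ _)
    by_cases h : proj g ∈ K
    · refine Or.inl (hN x hx _ hg ?_)
      have h1 : act ((sec x)⁻¹ * g) (proj (sec x)) = proj g := by
        rw [act_proj, mul_inv_cancel_left]
      rw [(hExSec n).1.2.1 x] at h1
      rw [h1]
      exact h
    · exact Or.inr ⟨h, hg⟩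

end TP
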