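import Vale.Agent.P007.RStm

noncomputable section
namespace TP
open MeasureTheory Filter Set ProbabilityTheory
open Vale.Agent.P007 (X lattice act Gam proj IsInvariantProb Equidistributes)
open scoped Classical Topology ENNReal

section Aux
variable {n : ℕ}

theorem REnt0_sbm_min {w w' : Fin n → Fin n → ℝ} (h : Sbm w) (h' : Sbm w') :
    Sbm fun i j => min (w i j) (w' i j) := by
  refine ⟨fun i => by simp only [h.1 i, h'.1 i, min_self],
    fun i j => lt_min (h.2.1 i j) (h'.2.1 i j), fun i j k => le_min ?_ ?_⟩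
  · exact (mul_le_mul (min_le_left _ _) (min_le_left _ _)
      (lt_min (h.2.1 j k) (h'.2.1 j k)).le (h.2.1 i j).le).trans (h.2.2 i j k)
  · exact (mul_le_mul (min_le_right _ _) (min_le_right _ _)
      (lt_min (h.2.1 j k) (h'.2.1 j k)).le (h'.2.1 i j).le).trans (h'.2.2 i j k)

theorem REnt0_lam (w : Fin n → Fin n → ℝ) {w' : Fin n → Fin n → ℝ} (h' : ∀ i j, 0 < w' i j) :
    ∃ Λ : ℝ, 1 ≤ Λ ∧ ∀ i j, w i j ≤ Λ * w' i j := by
  obtain ⟨B, hB⟩ := (Set.finite_range fun p : Fin n × Fin n => w p.1 p.2 / w' p.1 p.2).bddAbove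
  refine ⟨max 1 B, le_max_left _ _, fun i j => ?_⟩
  rw [← div_le_iff₀ (h' i j)]
  exact (hB ⟨(i, j), rfl⟩).trans (le_max_right _ _)

theorem REnt0_sub {w w' : Fin n → Fin n → ℝ} {δ δ' : ℝ} (h' : ∀ i j, 0 < w' i j) (hδ : 0 < δ')
    (hw : ∀ i j, w' i j ≤ w i j) (hd : δ' ≤ δ) : Bx w' δ' ⊆ Bx w δ := fun _ hh i j =>
  (hh i j).trans (mul_le_mul hd (hw i j) (h' i j).le (hδ.le.trans hd))

theorem REnt0_cob {Ω : Type*} [MeasurableSpace Ω] {μ : Measure Ω} [IsFiniteMeasure μ]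
    {T : Ω → Ω} (hT : MeasurePreserving T μ μ) {φ : Ω → ℝ} (hφ : Measurable φ)
    (hi : Integrable (fun x => φ (T x) - φ x) μ) : ∫ x, (φ (T x) - φ x) ∂μ = 0 := by
  let c : ℕ → ℝ → ℝ := fun M y => max (-M) (min M y)
  have hc : ∀ M, Measurable fun x => c M (φ x) := fun M =>
    measurable_const.max (measurable_const.min hφ)
  have hb : ∀ (M : ℕ) y, ‖c M y‖ ≤ M := fun M y => by
    have : (0 : ℝ) ≤ M := Nat.cast_nonneg M
    rw [Real.norm_eq_abs, abs_le]
    exact ⟨le_max_left _ _, max_le (by linarith) (min_le_left _ _)⟩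
  have hint : ∀ M, Integrable (fun x => c M (φ x)) μ := fun M =>
    Integrable.of_bound (hc M).aestronglyMeasurable M (ae_of_all _ fun x => hb M _)
  have hint' : ∀ M, Integrable (fun x => c M (φ (T x))) μ := fun M =>
    Integrable.of_bound ((hc M).comp hT.measurable).aestronglyMeasurable M
      (ae_of_all _ fun x => hb M _)
  have h0 : ∀ M, ∫ x, (c M (φ (T x)) - c M (φ x)) ∂μ = 0 := fun M => by
    rw [integral_sub (hint' M) (hint M), sub_eq_zero]
    have := integral_map (μ := μ) hT.measurable.aemeasurable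
      (f := fun x => c M (φ x)) (hc M).aestronglyMeasurable
    rw [hT.map_eq] at this
    exact this.symm
  have hlim : Tendsto (fun M => ∫ x, (c M (φ (T x)) - c M (φ x)) ∂μ) atTop
      (𝓝 (∫ x, (φ (T x) - φ x) ∂μ)) := by
    refine tendsto_integral_of_dominated_convergence (fun x => ‖φ (T x) - φ x‖)
      (fun M => ((hint' M).sub (hint M)).aestronglyMeasurable) hi.norm
      (fun M => ae_of_all _ fun x => ?_) (ae_of_all _ fun x => ?_)
    · simp only [c, Real.norm_eq_abs]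
      rw [max_comm, max_comm (-(M : ℝ))]
      refine (abs_max_sub_max_le_abs _ _ _).trans ?_
      refine (abs_min_sub_min_le_max _ _ _ _).trans ?_
      simp
    · refine tendsto_const_nhds.congr' ?_
      have key : ∀ y : ℝ, ∀ᶠ M : ℕ in atTop, c M y = y := fun y => by
        filter_upwards [tendsto_natCast_atTop_atTop.eventually_ge_atTop |y|] with M hM
        rw [abs_le] at hM
        simp only [c]
        rw [min_eq_right hM.2, max_eq_right hM.1]
      filter_upwards [key (φ (T x)), key (φ x)] with M h1 h2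
      rw [h1, h2]
  simp only [h0] at hlim
  exact tendsto_nhds_unique hlim tendsto_const_nhds

theorem REnt0_dl : 0 < dl n ∧ 8 * n * dl n ≤ 1 := by
  have h : (0 : ℝ) ≤ n := Nat.cast_nonneg n
  unfold dl
  refine ⟨by positivity, ?_⟩
  rw [mul_one_div, div_le_one (by positivity)]
  linarith

end Aux

theorem s_Ent0 (hExSec : ExSec) (hLiftA : LiftA) (hLiftB : LiftB) (hBoxA : BoxA) (hDL : DL) :
    Ent0 := by
  intro n μ hμ hA
  obtain ⟨-, -, B3, -, B5, -⟩ := hBoxA n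
  obtain ⟨-, D2, D3, D4⟩ := hDL n μ inferInstance
  obtain ⟨-, L2, L3, -⟩ := hLiftA n
  have hpos := (hLiftB n μ inferInstance).2
  have hBm : ∀ (w : Fin n → Fin n → ℝ) (δ : ℝ), MeasurableSet (Bx w δ) := fun w δ =>
    (B3 w δ).1.isClosed.measurableSet
  have hVm : ∀ (w : Fin n → Fin n → ℝ) (δ : ℝ), Measurable fun x => lift μ (Nb x (Bx w δ)) :=
    fun w δ => D2 _ (hBm w δ)
  have hVf : ∀ (w : Fin n → Fin n → ℝ) (δ : ℝ) x, lift μ (Nb x (Bx w δ)) ≠ ∞ :=
    fun w δ x => D3 _ x (B3 w δ).1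
  have hVp : ∀ (w : Fin n → Fin n → ℝ) (δ : ℝ), (∀ i j, 0 < w i j) → 0 < δ →
      ∀ᵐ x ∂μ, 0 < (lift μ (Nb x (Bx w δ))).toReal := fun w δ hw hδ =>
    hpos.mono fun x hx => ENNReal.toReal_pos (hx _ ((B3 w δ).2 hw hδ)) (hVf w δ x)
  have P1 : ∀ w δ, Measurable (ell μ w δ) := fun w δ => (hVm w δ).ennreal_toReal.log.neg
  have P4 : ∀ (w w' : Fin n → Fin n → ℝ) (δ δ' : ℝ), (∀ i j, 0 < w' i j) → 0 < δ' →
      Bx w' δ' ⊆ Bx w δ → ∀ᵐ x ∂μ, ell μ w δ x ≤ ell μ w' δ' x := by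
    intro w w' δ δ' hw hδ hsub
    filter_upwards [hVp w' δ' hw hδ] with x hx
    exact neg_le_neg (Real.log_le_log hx
      (ENNReal.toReal_mono (hVf w δ x) (measure_mono fun g hg => hsub hg)))
  -- the ratio of the volumes
  have hR : ∀ (w w' : Fin n → Fin n → ℝ) (Λ δ δ' : ℝ), Sbm w → Sbm w' → 1 ≤ Λ →
      (∀ i j, w i j ≤ Λ * w' i j) → 0 < δ → 0 < δ' → 8 * n * δ ≤ 1 →
      Integrable (fun x => (lift μ (Nb x (Bx w δ))).toReal / (lift μ (Nb x (Bx w' δ'))).toReal) μ ∧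
      ∫ x, (lift μ (Nb x (Bx w δ))).toReal / (lift μ (Nb x (Bx w' δ'))).toReal ∂μ
        ≤ (10 * Λ ^ 2 * δ / δ' + 3) ^ (n * n) := by
    intro w w' Λ δ δ' hw hw' hΛ hle hδ hδ' h8
    have h := D4 w w' Λ δ δ' (fun _ => 1) hw hw' hΛ hle hδ hδ' h8 measurable_const
    simp only [lintegral_one, Measure.restrict_apply_univ, measure_univ, mul_one] at h
    have hm : Measurable fun x => lift μ (Nb x (Bx w δ)) * (lift μ (Nb x (Bx w' δ')))⁻¹ :=
      (hVm w δ).mul (hVm w' δ').inv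
    have hne := (h.trans_lt ENNReal.ofReal_lt_top).ne
    have e : (fun x => (lift μ (Nb x (Bx w δ))).toReal / (lift μ (Nb x (Bx w' δ'))).toReal) =
        fun x => (lift μ (Nb x (Bx w δ)) * (lift μ (Nb x (Bx w' δ')))⁻¹).toReal := by
      funext x
      rw [ENNReal.toReal_mul, ENNReal.toReal_inv, div_eq_mul_inv]
    rw [e]
    refine ⟨integrable_toReal_of_lintegral_ne_top hm.aemeasurable hne, ?_⟩
    rw [integral_toReal hm.aemeasurable (ae_lt_top hm hne)]
    exact ENNReal.toReal_le_of_le_ofReal (by positivity) h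
  have hlog : ∀ (w w' : Fin n → Fin n → ℝ) (δ δ' : ℝ), Sbm w → Sbm w' → 0 < δ → 0 < δ' →
      ∀ᵐ x ∂μ, 0 < (lift μ (Nb x (Bx w δ))).toReal / (lift μ (Nb x (Bx w' δ'))).toReal ∧
        ell μ w' δ' x - ell μ w δ x =
        Real.log ((lift μ (Nb x (Bx w δ))).toReal / (lift μ (Nb x (Bx w' δ'))).toReal) := by
    intro w w' δ δ' hw hw' hδ hδ'
    filter_upwards [hVp w δ hw.2.1 hδ, hVp w' δ' hw'.2.1 hδ'] with x h1 h2
    refine ⟨div_pos h1 h2, ?_⟩
    rw [Real.log_div h1.ne' h2.ne']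
    unfold ell
    ring
  have hsub : ∀ (w w' : Fin n → Fin n → ℝ) (δ δ' : ℝ), Sbm w → Sbm w' → 0 < δ → 0 < δ' →
      8 * n * δ ≤ 1 → Bx w' δ' ⊆ Bx w δ →
      Integrable (fun x => ell μ w' δ' x - ell μ w δ x) μ := by
    intro w w' δ δ' hw hw' hδ hδ' h8 hs
    obtain ⟨Λ, hΛ, hle⟩ := REnt0_lam w hw'.2.1
    refine (hR w w' Λ δ δ' hw hw' hΛ hle hδ hδ' h8).1.mono'
      ((P1 w' δ').sub (P1 w δ)).aestronglyMeasurable ?_
    filter_upwards [hlog w w' δ δ' hw hw' hδ hδ', P4 w w' δ δ' hw'.2.1 hδ' hs] with x h1 h2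
    rw [Real.norm_eq_abs, abs_of_nonneg (sub_nonneg.2 h2), h1.2]
    exact (Real.log_le_sub_one_of_pos h1.1).trans (by linarith)
  have P2 : ∀ (w w' : Fin n → Fin n → ℝ) (δ δ' : ℝ), Sbm w → Sbm w' → 0 < δ → 0 < δ' →
      8 * n * δ ≤ 1 → 8 * n * δ' ≤ 1 → Integrable (fun x => ell μ w' δ' x - ell μ w δ x) μ := by
    intro w w' δ δ' hw hw' hδ hδ' h8 h8'
    have hm := REnt0_sbm_min hw hw'
    have hd := lt_min hδ hδ'
    have h1 := hsub w _ δ _ hw hm hδ hd h8
      (REnt0_sub hm.2.1 hd (fun i j => min_le_left _ _) (min_le_left _ _))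
    have h2 := hsub w' _ δ' _ hw' hm hδ' hd h8'
      (REnt0_sub hm.2.1 hd (fun i j => min_le_right _ _) (min_le_right _ _))
    refine (h1.sub h2).congr (ae_of_all _ fun x => ?_)
    simp only [Pi.sub_apply]
    ring
  refine ⟨P1, P2, ?_, P4, ?_⟩
  · intro w w' Λ δ δ' hw hw' hΛ hle hδ hδ' h8 h8'
    obtain ⟨hi, hb⟩ := hR w w' Λ δ δ' hw hw' hΛ hle hδ hδ' h8
    rw [← Real.log_pow]
    set M := (10 * Λ ^ 2 * δ / δ' + 3) ^ (n * n) with hM
    have hM0 : 0 < M := by positivity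
    have h1 : ∫ x, (ell μ w' δ' x - ell μ w δ x) ∂μ ≤ ∫ x, (Real.log M - 1 + M⁻¹ *
        ((lift μ (Nb x (Bx w δ))).toReal / (lift μ (Nb x (Bx w' δ'))).toReal)) ∂μ := by
      refine integral_mono_ae (P2 w w' δ δ' hw hw' hδ hδ' h8 h8')
        ((integrable_const _).add (hi.const_mul _)) ?_
      filter_upwards [hlog w w' δ δ' hw hw' hδ hδ'] with x hx
      rw [hx.2]
      have := Real.log_le_sub_one_of_pos (mul_pos (inv_pos.2 hM0) hx.1)
      rw [Real.log_mul (inv_pos.2 hM0).ne' hx.1.ne', Real.log_inv] at this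
      linarith
    rw [integral_add (integrable_const _) (hi.const_mul _), integral_const_mul, integral_const,
      probReal_univ, one_smul] at h1
    have h2 := mul_le_mul_of_nonneg_left hb (inv_pos.2 hM0).le
    rw [inv_mul_cancel₀ hM0.ne'] at h2
    linarith
  · intro s t r δ x
    have hs := (hExSec n).1.2.1
    have hγ : sec (act (dA r) x) * (sec x * dA r)⁻¹ ∈ Gam n := by
      rw [← Vale.Agent.P007.proj_eq_iff, hs, ← Vale.Agent.P007.act_proj, hs]
    have m1 := L2 μ ⟨_, inv_mem hγ⟩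
    have m2 := L3 μ (dA (-r)) (hA (-r))
    have hN : MeasurableSet (Nb x (Bx (wt (s + r) (t + r)) δ)) :=
      (measurable_const_mul (sec x)⁻¹) (hBm _ δ)
    have e := (m2.comp m1).measure_preimage hN.nullMeasurableSet
    unfold ell
    rw [← e]
    refine congrArg (fun S => -Real.log (lift μ S).toReal) (Set.ext fun g => ?_)
    simp only [Nb, mem_ofPred_eq, mem_preimage, Function.comp_apply]
    rw [B5 s t r δ, dA_neg]
    refine Iff.of_eq (congrArg (· ∈ Bx (wt (s + r) (t + r)) δ) ?_)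
    group

theorem s_Ent1 (hBoxA : BoxA) (hEnt0 : Ent0) : Ent1 := by
  intro n μ t hμ hA
  obtain ⟨P1, P2, -, -, P5⟩ := hEnt0 n μ hμ hA
  obtain ⟨-, -, -, B4, -⟩ := hBoxA n
  obtain ⟨hd, h8⟩ := REnt0_dl (n := n)
  have hI : ∀ s s' u u' : Fin n → ℝ,
      Integrable (fun x => ell μ (wt s s') (dl n) x - ell μ (wt u u') (dl n) x) μ :=
    fun s s' u u' => P2 _ _ _ _ (B4 u u') (B4 s s') hd hd h8 h8
  have hadd : ∀ s s' u u' v v' : Fin n → ℝ,
      ∫ x, (ell μ (wt s s') (dl n) x - ell μ (wt u u') (dl n) x) ∂μ =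
        ∫ x, (ell μ (wt s s') (dl n) x - ell μ (wt v v') (dl n) x) ∂μ -
        ∫ x, (ell μ (wt u u') (dl n) x - ell μ (wt v v') (dl n) x) ∂μ := by
    intro s s' u u' v v'
    rw [← integral_sub (hI s s' v v') (hI u u' v v')]
    refine integral_congr_ae (ae_of_all _ fun x => ?_)
    ring
  have hcob : ∀ r : Fin n → ℝ,
      ∫ x, (ell μ (wt r r) (dl n) x - ell μ (wt 0 0) (dl n) x) ∂μ = 0 := by
    intro r
    have e : ∀ x, ell μ (wt r r) (dl n) x = ell μ (wt 0 0) (dl n) (act (dA r) x) := fun x => by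
      rw [P5, zero_add]
    have hi := hI r r 0 0
    simp only [e] at hi ⊢
    exact REnt0_cob (hA r) (P1 _ _) hi
  have hshift : ∀ p q : ℝ, ∫ x, (ell μ (wt (p • t) (q • t)) (dl n) x -
      ell μ (wt (p • t) (p • t)) (dl n) x) ∂μ = Hh μ t (q - p) := by
    intro p q
    have hT := hA (p • t)
    have := integral_map (μ := μ) hT.measurable.aemeasurable
      (f := fun x => ell μ (wt 0 ((q - p) • t)) (dl n) x - ell μ (wt 0 0) (dl n) x)
      ((P1 _ _).sub (P1 _ _)).aestronglyMeasurable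
    rw [hT.map_eq] at this
    unfold Hh
    rw [this]
    refine integral_congr_ae (ae_of_all _ fun x => ?_)
    simp only [P5, zero_add, sub_smul, sub_add_cancel]
  have h0 : ∀ p q : ℝ, ∫ x, (ell μ (wt (p • t) (q • t)) (dl n) x -
      ell μ (wt 0 0) (dl n) x) ∂μ = Hh μ t (q - p) := by
    intro p q
    rw [← hshift, hadd _ _ (p • t) (p • t) 0 0, hcob, sub_zero]
  refine ⟨fun p q r => ?_, fun p q p' q' => ?_⟩
  · rw [hadd _ _ r r 0 0, hcob, sub_zero, h0]
  · rw [hadd _ _ _ _ 0 0, h0, h0]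

end TP
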