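import Vale.Agent.P007.RStm

noncomputable section
namespace TP
open MeasureTheory Filter Set ProbabilityTheory
open Vale.Agent.P007 (X lattice act Gam proj IsInvariantProb Equidistributes)
open scoped Classical Topology ENNReal

variable {n : ℕ}

/-- The time coordinate. -/
def RExLW_rho (i j : Fin n) (g : G n) : ℝ := (∑ k, g.1 k j * g.1 k i) / ∑ k, g.1 k i ^ 2

theorem RExLW_flw {i j : Fin n} (hij : i ≠ j) :
    Flw (fun r (g : G n) => g * uu i j r) (RExLW_rho i j) := by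
  refine ⟨?_, fun g => by rw [uu_zero, mul_one], fun r s g => by rw [mul_assoc, ← uu_add], ?_,
    fun r g => ?_⟩
  · have : Continuous fun p : ℝ × G n => p.2 * uu i j p.1 :=
      continuous_snd.mul ((continuous_uu i j).comp continuous_fst)
    exact this.measurable
  · refine Measurable.div (Continuous.measurable ?_) (Continuous.measurable ?_)
    · exact continuous_finsetSum _ fun k _ => (continuous_entry k j).mul (continuous_entry k i)
    · exact continuous_finsetSum _ fun k _ => (continuous_entry k i).pow 2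
  · have e : (g * uu i j r).1 = g.1 + g.1 * Matrix.single i j r := by
      change g.1 * (uu i j r).1 = _
      rw [uu_coe hij, mul_add, mul_one]
    have e1 : ∀ k, (g * uu i j r).1 k i = g.1 k i := fun k => by
      rw [e, Matrix.add_apply, Matrix.mul_single_apply_of_ne _ _ _ _ _ hij, add_zero]
    have e2 : ∀ k, (g * uu i j r).1 k j = g.1 k j + g.1 k i * r := fun k => by
      rw [e, Matrix.add_apply, Matrix.mul_single_apply_same]
    have h0 : ∑ k, g.1 k i ^ 2 ≠ 0 := by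
      intro h
      rw [Finset.sum_eq_zero_iff_of_nonneg fun _ _ => sq_nonneg _] at h
      have h1 : g.1.det = 0 := Matrix.det_eq_zero_of_column_eq_zero i fun k => by
        simpa using h k (Finset.mem_univ k)
      rw [g.2] at h1
      exact one_ne_zero h1
    simp only [RExLW_rho, e1, e2]
    have e3 : ∑ k, (g.1 k j + g.1 k i * r) * g.1 k i =
        ∑ k, g.1 k j * g.1 k i + r * ∑ k, g.1 k i ^ 2 := by
      rw [Finset.mul_sum, ← Finset.sum_add_distrib]
      exact Finset.sum_congr rfl fun k _ => by ring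
    rw [e3]
    field_simp

theorem RExLW_wgt (i j : Fin n) (ν : Measure (G n)) [IsFiniteMeasureOnCompacts ν] :
    ∃ φ, Wgt ν (fun r (g : G n) => g * uu i j r) φ := by
  set C : ℕ → Set (G n) := fun k => {g | ∀ a b, |g.1 a b| ≤ k} with hC
  have hCc : ∀ k, IsCompact (C k) := fun k => isCompact_G k
  set w : ℕ → ℝ≥0∞ := fun k => 2⁻¹ ^ k * (1 + ν (C k))⁻¹ with hw
  set S : G n → ℝ := fun g => ∑ a, ∑ b, |g.1 a b| with hS
  have hSc : Continuous S := continuous_finsetSum _ fun a _ => continuous_finsetSum _ fun b _ =>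
    (continuous_entry a b).abs
  have hmem : ∀ g, g ∈ C ⌈S g⌉₊ := fun g a b => by
    refine le_trans ?_ (Nat.le_ceil _)
    refine le_trans ?_ (Finset.single_le_sum (f := fun a => ∑ b, |g.1 a b|)
      (fun _ _ => by positivity) (Finset.mem_univ a))
    exact Finset.single_le_sum (f := fun b => |g.1 a b|) (fun _ _ => abs_nonneg _)
      (Finset.mem_univ b)
  have hanti : Antitone w := by
    intro k l hkl
    refine mul_le_mul' (pow_le_pow_right_of_le_one' (by simp) hkl) (ENNReal.inv_le_inv.2 ?_)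
    refine add_le_add le_rfl (measure_mono fun g hg a b => (hg a b).trans ?_)
    exact_mod_cast hkl
  refine ⟨fun g => w ⌈S g⌉₊, ?_, fun g => ?_, fun g R => ?_, ?_⟩
  · exact (measurable_from_nat (f := w)).comp (Nat.measurable_ceil.comp hSc.measurable)
  · exact ENNReal.mul_ne_top (ENNReal.pow_ne_top (by simp)) (by simp)
  · have hc : Continuous fun r : ℝ => S (g * uu i j r) :=
      hSc.comp (continuous_const.mul (continuous_uu i j))
    obtain ⟨B, hB⟩ := (isCompact_Icc (a := -R) (b := R)).bddAbove_image hc.continuousOn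
    refine ⟨w ⌈B⌉₊, mul_ne_zero (pow_ne_zero _ (by simp)) ?_, fun r hr =>
      hanti (Nat.ceil_mono (hB ⟨r, abs_le.1 hr, rfl⟩))⟩
    simpa using (hCc _).measure_lt_top.ne
  · have h1 : ∀ g, w ⌈S g⌉₊ ≤ ∑' k, (C k).indicator (fun _ => w k) g := fun g => by
      refine le_trans (le_of_eq ?_) (ENNReal.le_tsum ⌈S g⌉₊)
      rw [indicator_of_mem (hmem g)]
    refine ne_top_of_le_ne_top ?_ (lintegral_mono h1)
    rw [lintegral_tsum fun k =>
      (measurable_const.indicator (hCc k).measurableSet).aemeasurable]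
    refine ne_top_of_le_ne_top (b := ∑' k : ℕ, (2⁻¹ : ℝ≥0∞) ^ k) ?_ (ENNReal.tsum_le_tsum fun k => ?_)
    · rw [ENNReal.tsum_geometric]; simp
    · rw [lintegral_indicator_const (hCc k).measurableSet, hw, mul_assoc]
      refine mul_le_of_le_one_right' ?_
      rw [← ENNReal.div_eq_inv_mul]
      exact ENNReal.div_le_of_le_mul (by simp)

theorem RExLW_nrm_smul (κ : Measure ℝ) {a : ℝ≥0∞} (h0 : a ≠ 0) (h1 : a ≠ ∞) :
    nrm (a • κ) = nrm κ := by
  rw [nrm, nrm, smul_smul, Measure.smul_apply, smul_eq_mul, ENNReal.mul_inv (Or.inl h0) (Or.inl h1),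
    mul_right_comm, ENNReal.inv_mul_cancel h0 h1, one_mul]

theorem RExLW_shift (κ : Measure ℝ) (r : ℝ) :
    κ.map (· - r) (Icc (-1) 1) = κ (Icc (r - 1) (r + 1)) := by
  rw [Measure.map_apply (measurable_sub_const r) measurableSet_Icc]
  congr 1
  ext s
  simp only [mem_preimage, mem_Icc]
  constructor <;> rintro ⟨h1, h2⟩ <;> constructor <;> linarith

theorem s_ExLW (hExSec : ExSec) (hLiftA : LiftA) (hLW0a : LW0a) (hLW0b : LW0b) (hLW0c : LW0c) :
    ExLW := by
  intro n μ i j hμ hA hij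
  obtain ⟨⟨hsm, hsp, -⟩, -⟩ := hExSec n
  obtain ⟨-, L2, L3, -, L5, L6, L7, -⟩ := hLiftA n
  obtain ⟨hfc, -⟩ := L5 μ inferInstance
  have hF := RExLW_flw hij
  obtain ⟨φ, hW⟩ := RExLW_wgt i j (lift μ)
  obtain ⟨lam, hD⟩ := hLW0a _ (lift μ) _ _ φ hF hW
  obtain ⟨b1, b2⟩ := hLW0b _ (lift μ) _ _ φ lam hF hW hD
  have hc := hLW0c _ (lift μ) _ _ φ lam hF hW hD
  have c1 : ∀ γ : Gam n, ∀ᵐ g ∂lift μ, ∃ a : ℝ≥0∞, a ≠ 0 ∧ a ≠ ∞ ∧ lam (γ.1 * g) = a • lam g := by
    intro γ
    have := hc (MeasurableEquiv.mulLeft γ.1) 1 one_pos (L2 μ γ) fun r g => by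
      simp [mul_assoc]
    filter_upwards [this] with g ⟨a, h0, h1, h2⟩
    refine ⟨a, h0, h1, ?_⟩
    simpa using h2
  have c2 : ∀ t, ∀ᵐ g ∂lift μ, ∃ a : ℝ≥0∞, a ≠ 0 ∧ a ≠ ∞ ∧
      lam (g * dA t) = a • (lam g).map (Real.exp (t j - t i) * ·) := fun t =>
    hc (MeasurableEquiv.mulRight (dA t)) _ (Real.exp_pos _) (L3 μ _ (hA t)) fun r g => by
      simp only [MeasurableEquiv.coe_mulRight, mul_assoc, uu_mul_dA]
  have hgood := L6 μ _ ((ae_all_iff.2 c1).and b1)
  set X0 : Set (X n) := (toMeasurable μ {x | ¬ ∀ γ : Gam n,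
    (∀ γ' : Gam n, ∃ a : ℝ≥0∞, a ≠ 0 ∧ a ≠ ∞ ∧ lam (γ'.1 * (γ.1 * sec x)) = a • lam (γ.1 * sec x)) ∧
      ∀ ε : ℝ, 0 < ε → lam (γ.1 * sec x) (Icc (-ε) ε) ≠ 0})ᶜ with hX0
  have hXm : MeasurableSet X0 := (measurableSet_toMeasurable _ _).compl
  have hXn : μ X0ᶜ = 0 := by
    rw [hX0, compl_compl, measure_toMeasurable]
    exact hgood
  have hXa : ∀ᵐ x ∂μ, x ∈ X0 := hXn
  have hX : ∀ x ∈ X0, ∀ γ : Gam n,
      (∃ a : ℝ≥0∞, a ≠ 0 ∧ a ≠ ∞ ∧ lam (γ.1 * sec x) = a • lam (sec x)) ∧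
      ∀ ε : ℝ, 0 < ε → lam (γ.1 * sec x) (Icc (-ε) ε) ≠ 0 := by
    intro x hx γ
    have h : ∀ γ : Gam n, (∀ γ' : Gam n, ∃ a : ℝ≥0∞, a ≠ 0 ∧ a ≠ ∞ ∧
        lam (γ'.1 * (γ.1 * sec x)) = a • lam (γ.1 * sec x)) ∧
        ∀ ε : ℝ, 0 < ε → lam (γ.1 * sec x) (Icc (-ε) ε) ≠ 0 := by
      by_contra h
      exact hx (subset_toMeasurable _ _ h)
    refine ⟨?_, (h γ).2⟩
    simpa using (h 1).1 γ
  set κ : X n → Measure ℝ := fun x => if x ∈ X0 then nrm (lam (sec x)) else Measure.dirac 0 with hκ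
  have key : ∀ g : G n, proj g ∈ X0 → κ (proj g) = nrm (lam g) ∧
      ∀ ε : ℝ, 0 < ε → lam g (Icc (-ε) ε) ≠ 0 := by
    intro g hg
    have h1 : g * (sec (proj g))⁻¹ ∈ Gam n :=
      (Vale.Agent.P007.proj_eq_iff _ _).1 (hsp _).symm
    obtain ⟨⟨a, a0, a1, a2⟩, h3⟩ := hX _ hg ⟨_, h1⟩
    simp only [inv_mul_cancel_right] at a2 h3
    refine ⟨?_, h3⟩
    simp only [hκ, if_pos hg]
    rw [a2, RExLW_nrm_smul _ a0 a1]
  have hJ : ∀ g : G n, lam g (Icc (-1) 1) ≠ ∞ := fun g =>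
    haveI := hD.fin g
    isCompact_Icc.measure_lt_top.ne
  have hb : ∀ g : G n, proj g ∈ X0 → (lam g (Icc (-1) 1))⁻¹ ≠ 0 ∧ (lam g (Icc (-1) 1))⁻¹ ≠ ∞ :=
    fun g hg => ⟨ENNReal.inv_ne_zero.2 (hJ g), ENNReal.inv_ne_top.2 ((key g hg).2 1 one_pos)⟩
  have hmJ : Measurable fun g => (lam g (Icc (-1) 1))⁻¹ :=
    ((Measure.measurable_coe measurableSet_Icc).comp hD.meas).inv
  refine ⟨κ, ?_, fun x => ?_, fun x => ?_, fun x ε hε => ?_, ⟨X0, ⟨hXm, hXn⟩, fun x hx r hr => ?_⟩,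
    fun t => ?_, fun k hk => ?_⟩
  · refine Measurable.ite hXm ?_ measurable_const
    refine Measure.measurable_of_measurable_coe _ fun s hs => ?_
    simp only [nrm, Measure.smul_apply, smul_eq_mul]
    exact (hmJ.comp hsm).mul ((Measure.measurable_coe hs).comp (hD.meas.comp hsm))
  · simp only [hκ]
    split_ifs with hx
    · have := hD.fin (sec x)
      exact IsFiniteMeasureOnCompacts.smul _ (hb _ (by rwa [hsp])).2
    · infer_instance
  · simp only [hκ]
    split_ifs with hx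
    · rw [nrm, Measure.smul_apply, smul_eq_mul]
      exact ENNReal.inv_mul_cancel ((key _ (by rwa [hsp])).2 1 one_pos) (hJ _)
    · exact Measure.dirac_apply_of_mem (by simp)
  · simp only [hκ]
    split_ifs with hx
    · rw [nrm, Measure.smul_apply, smul_eq_mul]
      exact mul_ne_zero (hb _ (by rwa [hsp])).1 ((key _ (by rwa [hsp])).2 ε hε)
    · rw [Measure.dirac_apply_of_mem (by simp [hε.le])]
      exact one_ne_zero
  · obtain ⟨g, rfl⟩ := proj_surj x
    rw [Vale.Agent.P007.act_proj] at hr ⊢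
    have e : lam (g * uu i j r) = (lam g).map (· - r) := hD.coc g r
    obtain ⟨k1, k2⟩ := key _ hr
    rw [k1, (key g hx).1, e]
    constructor
    · rw [nrm, Measure.smul_apply, smul_eq_mul, ← RExLW_shift, ← e]
      exact mul_ne_zero (hb g hx).1 (k2 1 one_pos)
    · rw [sh, nrm.eq_1 (lam g), Measure.map_smul, RExLW_nrm_smul _ (hb g hx).1 (hb g hx).2]
  · filter_upwards [L6 μ _ (c2 t), hXa, (hA t).quasiMeasurePreserving.ae hXa] with x h1 h2 h3
    obtain ⟨a, a0, a1, a2⟩ := h1 1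
    simp only [OneMemClass.coe_one, one_mul] at a2
    rw [← hsp x] at h2 h3 ⊢
    rw [Vale.Agent.P007.act_proj] at h3 ⊢
    rw [(key _ h3).1, (key _ h2).1, a2, RExLW_nrm_smul _ a0 a1, sc, nrm.eq_1 (lam _),
      Measure.map_smul, RExLW_nrm_smul _ (hb _ h2).1 (hb _ h2).2]
  · have h1 := b2 (fun g r => k g r * (lam g (Icc (-1) 1))⁻¹) (hk.mul (hmJ.comp measurable_fst))
    have h2 := L7 μ _ hXa
    refine Eq.trans (lintegral_congr_ae ?_) (h1.trans (lintegral_congr_ae ?_))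
    · filter_upwards [h2] with g hg
      rw [(key g hg).1, nrm, lintegral_smul_measure, smul_eq_mul,
        lintegral_mul_const' _ _ (hb g hg).2, mul_comm]
    · filter_upwards [h2] with g hg
      rw [(key g hg).1, nrm, lintegral_smul_measure, smul_eq_mul,
        ← lintegral_const_mul' _ _ (hb g hg).2]
      refine lintegral_congr fun r => ?_
      have e : lam (g * uu i j r) = (lam g).map (· - r) := hD.coc g r
      rw [e, RExLW_shift, Measure.smul_apply, smul_eq_mul,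
        ENNReal.mul_inv (Or.inl (hb g hg).1) (Or.inl (hb g hg).2), mul_left_comm, ← mul_assoc
        (lam g (Icc (-1) 1))⁻¹, ENNReal.mul_inv_cancel (hb g hg).1 (hb g hg).2, one_mul]


end TP
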