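import Vale.Agent.P007.RStm

noncomputable section
namespace TP
open MeasureTheory Filter Set ProbabilityTheory
open Vale.Agent.P007 (X lattice act Gam proj IsInvariantProb Equidistributes)
open scoped Classical Topology ENNReal

variable {n : ℕ}

theorem RFSa_le_lm (a b k : Fin n) (g : G n) (ha : k ≠ a) (hb : k ≠ b) :
    max |g.1 k a| |g.1 b k| ≤ lm a b g 0 := by
  unfold lm
  refine le_trans ?_ (le_max_right _ _)
  rw [pow_zero, one_mul]
  refine le_trans ?_ (le_max_right _ _)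
  refine le_trans ?_ (norm_le_pi_norm _ k)
  rw [if_neg (by tauto)]
  exact le_abs_self _

theorem RFSa_lm_pos {C : Set (Fin n)} (hC : ∃ a ∈ C, ∃ b ∈ C, a ≠ b) {g : G n} (hg : ¬ InM C g) :
    ∃ p : Fin n × Fin n, p.1 ∈ C ∧ p.2 ∈ C ∧ p.1 ≠ p.2 ∧ 0 < lm p.1 p.2 g 0 := by
  have ho : ∀ i, ∃ j ∈ C, j ≠ i := fun i => by
    obtain ⟨a, ha, b, hb, hab⟩ := hC
    by_cases h : a = i
    · exact ⟨b, hb, fun h' => hab (h.trans h'.symm)⟩
    · exact ⟨a, ha, h⟩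
  unfold InM at hg
  push Not at hg
  obtain ⟨i, j, hij, h0⟩ := hg
  have h1 : 0 < |g.1 i j| := abs_pos.2 h0
  rcases hij with ⟨hi, hj⟩ | ⟨hi, hj⟩
  · obtain ⟨a, ha, hai⟩ := ho i
    refine ⟨(a, i), ha, hi, hai, h1.trans_le ((le_max_right _ _).trans
      (RFSa_le_lm a i j g ?_ ?_))⟩
    · rintro rfl
      exact hj ha
    · rintro rfl
      exact hj hi
  · obtain ⟨b, hb, hbj⟩ := ho j
    refine ⟨(j, b), hj, hb, hbj.symm, h1.trans_le ((le_max_left _ _).trans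
      (RFSa_le_lm j b i g ?_ ?_))⟩
    · rintro rfl
      exact hi hj
    · rintro rfl
      exact hi hb

theorem RFSa_lm_cont (a b : Fin n) : Continuous fun g : G n => lm a b g 0 := by
  unfold lm
  refine ((continuous_entry a a).sub (continuous_entry b b)).abs.max (continuous_const.mul
    ((continuous_entry b a).abs.sqrt.max (Continuous.norm (continuous_pi fun k => ?_))))
  split_ifs
  · exact continuous_const
  · exact (continuous_entry k a).abs.max (continuous_entry b k).abs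

theorem RFSa_lm_one {a b : Fin n} (hab : a ≠ b) : lm a b (1 : G n) 0 = 0 := by
  have h : (fun k => if k = a ∨ k = b then (0 : ℝ) else
      max |(1 : G n).1 k a| |(1 : G n).1 b k|) = 0 := by
    funext k
    split_ifs with h
    · rfl
    · push Not at h
      simp [Matrix.one_apply_ne h.1, Matrix.one_apply_ne h.2.symm]
  unfold lm
  rw [h]
  simp [Matrix.one_apply_ne hab.symm]

theorem RFSa_count {Ω : Type} (T : Ω → Ω) (B : Set Ω) (z w : Ω) (hz : z ∉ Fq T B (1 / 10))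
    (hw : w ∉ Fq T B (1 / 10)) (N : ℕ) (hN : 2 ≤ N) :
    ∃ r : ℕ, r < N ∧ N ≤ 2 * r ∧ T^[r] z ∉ B ∧ T^[r] w ∉ B := by
  by_contra h
  push Not at h
  have h1 : ¬ (1 / 10 : ℝ) * N < _ := fun h' => hz ⟨N, h'⟩
  have h2 : ¬ (1 / 10 : ℝ) * N < _ := fun h' => hw ⟨N, h'⟩
  have h3 : Finset.range N ⊆ ((Finset.range N).filter fun m => T^[m] z ∈ B) ∪
      ((Finset.range N).filter fun m => T^[m] w ∈ B) ∪ Finset.range ((N + 1) / 2) := by
    intro m hm
    simp only [Finset.mem_union, Finset.mem_filter, Finset.mem_range] at hm ⊢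
    by_cases h4 : N ≤ 2 * m
    · by_cases h5 : T^[m] z ∈ B
      · exact Or.inl (Or.inl ⟨hm, h5⟩)
      · exact Or.inl (Or.inr ⟨hm, h m hm h4 h5⟩)
    · exact Or.inr (by omega)
  have h4 := (Finset.card_le_card h3).trans ((Finset.card_union_le _ _).trans
    (Nat.add_le_add_right (Finset.card_union_le _ _) _))
  rw [Finset.card_range, Finset.card_range] at h4
  have h5 : 10 * ((Finset.range N).filter fun m => T^[m] z ∈ B).card ≤ N := by
    have : (10 : ℝ) * ((Finset.range N).filter fun m => T^[m] z ∈ B).card ≤ N := by linarith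
    exact_mod_cast this
  have h6 : 10 * ((Finset.range N).filter fun m => T^[m] w ∈ B).card ≤ N := by
    have : (10 : ℝ) * ((Finset.range N).filter fun m => T^[m] w ∈ B).card ≤ N := by linarith
    exact_mod_cast this
  omega

theorem RFSa_conj {C : Set (Fin n)} {a b i j : Fin n} (ha : a ∈ C) (hb : b ∈ C) (hab : a ≠ b)
    (hi : i ∈ C) (hj : j ∈ C) (hij : i ≠ j) {g : G n}
    (hg : ∃ c : ℝ, ∀ i ∈ C, ∀ j ∈ C, g.1 i j = if i = j then c else 0) (r : ℝ) :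
    ((uu a b r)⁻¹ * g * uu a b r).1 i j = 0 := by
  obtain ⟨c, hc⟩ := hg
  rw [← uu_neg]
  change ((uu a b (-r)).1 * g.1 * (uu a b r).1) i j = 0
  rw [uu_coe hab, uu_coe hab, mul_add, mul_one, add_mul, one_mul]
  have e1 : ∀ k ∈ C, ∀ l ∈ C, (g.1 + Matrix.single a b (-r) * g.1) k l =
      (if k = l then c else 0) + if k = a then -r * (if b = l then c else 0) else 0 := by
    intro k hk l hl
    rw [Matrix.add_apply, hc k hk l hl]
    by_cases h : k = a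
    · rw [if_pos h, h, Matrix.single_mul_apply_same, hc b hb l hl]
    · rw [if_neg h, Matrix.single_mul_apply_of_ne _ _ _ _ _ h]
  rw [Matrix.add_apply, e1 i hi j hj, if_neg hij]
  by_cases h : j = b
  · subst h
    rw [Matrix.mul_single_apply_same, e1 i hi a ha, if_neg hab.symm, if_pos rfl]
    split_ifs <;> ring
  · rw [Matrix.mul_single_apply_of_ne _ _ _ _ _ h, if_neg (Ne.symm h)]
    simp

theorem RFSa_dv {a b : Fin n} {g : G n} (hd : g.1 a a = g.1 b b) (h0 : 0 < lm a b g 0)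
    (h1 : lm a b g 0 ≤ 1 / 2) {r : ℕ} (hr : r < ⌊(lm a b g 0)⁻¹⌋₊)
    (hr' : ⌊(lm a b g 0)⁻¹⌋₊ ≤ 2 * r) : Dv a b (1 / 4) g 0 (lm a b g 0)⁻¹ r := by
  have e : (lm a b g 0)⁻¹ * lm a b g 0 = 1 := inv_mul_cancel₀ h0.ne'
  have h2 : 2 ≤ (lm a b g 0)⁻¹ := by
    rw [le_inv_comm₀ two_pos h0]
    linarith
  have h3 : (⌊(lm a b g 0)⁻¹⌋₊ : ℝ) ≤ (lm a b g 0)⁻¹ := Nat.floor_le (by linarith)
  have h4 : (lm a b g 0)⁻¹ < ⌊(lm a b g 0)⁻¹⌋₊ + 1 := Nat.lt_floor_add_one _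
  have h5 : (r : ℝ) ≤ ⌊(lm a b g 0)⁻¹⌋₊ := by exact_mod_cast hr.le
  have h6 : (⌊(lm a b g 0)⁻¹⌋₊ : ℝ) ≤ 2 * r := by exact_mod_cast hr'
  have h7 : |(r : ℝ)| = r := abs_of_nonneg (Nat.cast_nonneg r)
  refine ⟨h0, by linarith, by linarith, e.le, by linarith, by linarith, ?_⟩
  rw [hd, sub_self, zero_div, sub_zero]
  linarith

theorem RFSa_step (hLEa : LEa) {C : Set (Fin n)} {R : Fin n → Fin n → Prop} {a b : Fin n}
    (ha : a ∈ C) (hb : b ∈ C) (hab : a ≠ b) (hR : ∀ i ∈ C, ∀ k, k ∉ C → ¬ R i k ∧ ¬ R k i)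
    {K : Set (X n)} (hK : IsCompact K)
    (hS : ∀ x ∈ K, ∀ h : G n, InN (PhiAB a b) h → act h x ∈ K →
      ∀ i j, i ≠ j → ¬ R i j → h.1 i j = 0)
    (z : ℕ → X n) (g : ℕ → G n) (hg : Tendsto g atTop (𝓝 1))
    (hz : ∀ l, z l ∉ Fq (act (uu a b 1)) Kᶜ (1 / 10))
    (hz' : ∀ l, act (g l) (z l) ∉ Fq (act (uu a b 1)) Kᶜ (1 / 10))
    (hc : ∀ l, ∃ c : ℝ, ∀ i ∈ C, ∀ j ∈ C, (g l).1 i j = if i = j then c else 0)
    (h0 : ∀ l, 0 < lm a b (g l) 0) (h1 : ∀ l, lm a b (g l) 0 ≤ 1 / 2) : False := by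
  have hr : ∀ l, ∃ r : ℕ, Dv a b (1 / 4) (g l) 0 (lm a b (g l) 0)⁻¹ r ∧
      act (uu a b r) (z l) ∈ K ∧ act (uu a b r) (act (g l) (z l)) ∈ K := fun l => by
    have h2 : 2 ≤ ⌊(lm a b (g l) 0)⁻¹⌋₊ := by
      refine Nat.le_floor ?_
      rw [Nat.cast_ofNat, le_inv_comm₀ two_pos (h0 l)]
      linarith [h1 l]
    obtain ⟨r, r1, r2, r3, r4⟩ := RFSa_count _ _ _ _ (hz l) (hz' l) _ h2
    rw [act_iter, ← uu_nat, notMem_compl_iff] at r3 r4
    obtain ⟨c, hc⟩ := hc l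
    refine ⟨r, RFSa_dv ?_ (h0 l) (h1 l) r1 r2, r3, r4⟩
    rw [hc a ha a ha, hc b hb b hb, if_pos rfl, if_pos rfl]
  choose r hr1 hr2 hr3 using hr
  obtain ⟨φ, v, -, hv, hv1, hlim⟩ := hLEa n a b (1 / 4) g (fun _ => 0)
    (fun l => (lm a b (g l) 0)⁻¹) (fun l => r l) hab (by norm_num) (by norm_num) hg hr1
  simp only [pow_zero, inv_one, one_mul, mul_one] at hlim
  obtain ⟨x, hx, ψ, hψ, hxl⟩ := hK.tendsto_subseq fun l => hr2 (φ l)
  have hx' : act v x ∈ K := by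
    refine hK.isClosed.mem_of_tendsto (tendsto_act (hlim.comp hψ.tendsto_atTop) hxl)
      (Eventually.of_forall fun l => ?_)
    have := hr3 (φ (ψ l))
    simp only [Function.comp_apply, act_act] at this ⊢
    rwa [← mul_assoc, ← mul_assoc, mul_inv_cancel, one_mul]
  have hv2 := hS x hx v hv hx'
  refine hv1 (Subtype.ext (Matrix.ext fun i j => ?_))
  change v.1 i j = (1 : Matrix (Fin n) (Fin n) ℝ) i j
  by_cases hij : i = j
  · rw [hij, hv.1, Matrix.one_apply_eq]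
  rw [Matrix.one_apply_ne hij]
  by_cases hi : i ∈ C
  · by_cases hj : j ∈ C
    · refine tendsto_nhds_unique (tendsto_G.1 hlim i j) ?_
      simp only [RFSa_conj ha hb hab hi hj hij (hc _)]
      exact tendsto_const_nhds
    · exact hv2 i j hij (hR i hi j hj).1
  · by_cases hj : j ∈ C
    · exact hv2 i j hij (hR j hj i hi).2
    · refine hv.2 i j hij ?_
      rintro (⟨rfl, -⟩ | ⟨rfl, -⟩)
      · exact hi ha
      · exact hj hb

theorem RFSa_phi {a b : Fin n} (hab : a ≠ b) : (∀ i, ¬ PhiAB a b i i) ∧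
    ∀ i j k, PhiAB a b i j → PhiAB a b j k → PhiAB a b i k := by
  constructor
  · rintro i (⟨h, h'⟩ | ⟨h, h'⟩) <;> exact h' h
  · rintro i j k (⟨h1, h2⟩ | ⟨h1, h2⟩) (⟨h3, h4⟩ | ⟨h3, h4⟩)
    · exact absurd h3 h2
    · exact Or.inl ⟨h1, h3 ▸ hab.symm⟩
    · exact absurd (h3.symm.trans h1) hab
    · exact absurd h1 h4

theorem s_FSa (hLus : Lus) (hFreq : Freq) (hSL : SL) (hLEa : LEa) : FSa := by
  intro n μ R C ε hμ hA hAdm hC hinv hR hε
  have hS : ∀ p : Fin n × Fin n, ∃ S, Full μ S ∧ (p.1 ≠ p.2 → ∀ x ∈ S, ∀ h : G n,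
      InN (PhiAB p.1 p.2) h → act h x ∈ S → ∀ i j, i ≠ j → ¬ R i j → h.1 i j = 0) := fun p => by
    by_cases h : p.1 = p.2
    · exact ⟨univ, ⟨MeasurableSet.univ, by simp⟩, fun h' => absurd h h'⟩
    · obtain ⟨S, h1, h2⟩ := hSL n μ R (PhiAB p.1 p.2) hμ hA hAdm (RFSa_phi h).1 (RFSa_phi h).2
      exact ⟨S, h1, fun _ => h2⟩
  choose S hS1 hS2 using hS
  have hfull : Full μ (⋂ p, S p) := ⟨MeasurableSet.iInter fun p => (hS1 p).1, by
    rw [compl_iInter]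
    exact measure_iUnion_null fun p => (hS1 p).2⟩
  set M : ℝ≥0∞ := 1 + (Fintype.card (Fin n × Fin n) : ℝ≥0∞) * 10 with hM
  have hM' : M ≠ ∞ := ENNReal.add_ne_top.2 ⟨ENNReal.one_ne_top,
    ENNReal.mul_ne_top (ENNReal.natCast_ne_top _) (by norm_num)⟩
  obtain ⟨K, hK, hKS, hKμ, -⟩ := hLus n μ (fun _ _ => 0) _ (ε / M) inferInstance measurable_const
    hfull fun h => (ENNReal.div_eq_zero_iff.1 h).elim hε hM'
  have hKm : MeasurableSet K := hK.isClosed.measurableSet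
  have hF : ∀ p : Fin n × Fin n, ∃ F, MeasurableSet F ∧ μ F ≤ 10 * (ε / M) ∧
      (p.1 ∈ C → p.2 ∈ C → Fq (act (uu p.1 p.2 1)) Kᶜ (1 / 10) ⊆ F) := fun p => by
    by_cases h : p.1 ∈ C ∧ p.2 ∈ C
    · obtain ⟨h1, h2⟩ := hFreq _ μ _ Kᶜ (1 / 10) inferInstance (hinv _ h.1 _ h.2) hKm.compl
        (by norm_num)
      refine ⟨_, h1, ?_, fun _ _ => subset_rfl⟩
      have e : (10 : ℝ≥0∞) * ENNReal.ofReal (1 / 10) = 1 := by
        rw [← ENNReal.ofReal_ofNat 10, ← ENNReal.ofReal_mul (by norm_num)]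
        norm_num
      have h3 := mul_le_mul_right (h2.trans hKμ) 10
      rwa [← mul_assoc, e, one_mul] at h3
    · exact ⟨∅, MeasurableSet.empty, by simp, fun h1 h2 => absurd ⟨h1, h2⟩ h⟩
  choose F hF1 hF2 hF3 using hF
  refine ⟨K ∩ (⋃ p, F p)ᶜ, hKm.inter (MeasurableSet.iUnion hF1).compl, ?_, ?_⟩
  · rw [compl_inter, compl_compl]
    refine (measure_union_le _ _).trans ((add_le_add hKμ ((measure_iUnion_fintype_le _ _).trans
      (Finset.sum_le_card_nsmul _ _ _ fun p _ => hF2 p))).trans ?_)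
    rw [Finset.card_univ, nsmul_eq_mul, ← mul_assoc, ← one_add_mul, ← hM]
    exact ENNReal.mul_div_le
  by_contra hcon
  push Not at hcon
  obtain ⟨U, hU⟩ := (𝓝 (1 : G n)).exists_antitone_basis
  choose z hz g hgU hz' hc hM using fun l => hcon (U l) (hU.mem l)
  have hg : Tendsto g atTop (𝓝 1) := hU.tendsto hgU
  have hp : ∃ p : Fin n × Fin n, ∃ᶠ l in atTop,
      p.1 ∈ C ∧ p.2 ∈ C ∧ p.1 ≠ p.2 ∧ 0 < lm p.1 p.2 (g l) 0 := by
    by_contra h
    simp only [not_exists, not_frequently] at h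
    obtain ⟨l, hl⟩ := (eventually_all.2 h).exists
    obtain ⟨p, hp⟩ := RFSa_lm_pos hC (hM l)
    exact hl p hp
  obtain ⟨⟨a, b⟩, hp⟩ := hp
  obtain ⟨_, ha, hb, hab, -⟩ := hp.exists
  have h1 : ∀ᶠ l in atTop, lm a b (g l) 0 ≤ 1 / 2 := by
    have := ((RFSa_lm_cont a b).tendsto 1).comp hg
    rw [RFSa_lm_one hab] at this
    exact this.eventually (eventually_le_nhds (by norm_num))
  obtain ⟨φ, hφ, hφ'⟩ := extraction_of_frequently_atTop (hp.and_eventually h1)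
  refine RFSa_step hLEa ha hb hab hR hK (fun x hx h hh hx' => hS2 (a, b) hab x
    (mem_iInter.1 (hKS hx) _) h hh (mem_iInter.1 (hKS hx') _)) (fun l => z (φ l)) (fun l => g (φ l))
    (hg.comp hφ.tendsto_atTop) (fun l h => ?_) (fun l h => ?_) (fun l => hc _)
    (fun l => (hφ' l).1.2.2.2) fun l => (hφ' l).2
  · exact (hz (φ l)).2 (mem_iUnion.2 ⟨(a, b), hF3 (a, b) ha hb h⟩)
  · exact (hz' (φ l)).2 (mem_iUnion.2 ⟨(a, b), hF3 (a, b) ha hb h⟩)

end TP
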