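import Vale.Agent.P007.RStm

noncomputable section
namespace TP
open MeasureTheory Filter Set ProbabilityTheory
open Vale.Agent.P007 (X lattice act Gam proj IsInvariantProb Equidistributes)
open scoped Classical Topology ENNReal Pointwise

/-- Most points have most of their local orbit in a set of large measure. -/
theorem RFSb_markov {L Y : Type*} [MeasurableSpace L] [MeasurableSpace Y] (η : Measure L)
    [SFinite η] (μ : Measure Y) [IsProbabilityMeasure μ] (a : L → Y → Y)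
    (ha : Measurable fun p : Y × L => a p.2 p.1) (hp : ∀ l, MeasurePreserving (a l) μ μ)
    {K : Set Y} (hK : MeasurableSet K) (hμ : μ Kᶜ ≤ 1 / 20) {B : Set L} (hB : MeasurableSet B)
    (h0 : η B ≠ 0) (h1 : η B ≠ ∞) :
    ∃ K', MeasurableSet K' ∧ μ K' ≠ 0 ∧ ∀ x ∈ K', 10 * η {l | l ∈ B ∧ a l x ∉ K} ≤ η B := by
  have hS : MeasurableSet {p : Y × L | p.2 ∈ B ∧ a p.2 p.1 ∉ K} :=
    (measurable_snd hB).inter (ha hK.compl)
  have hf : Measurable fun x => η {l | l ∈ B ∧ a l x ∉ K} := measurable_measure_prodMk_left hS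
  have hf10 : Measurable fun x => 10 * η {l | l ∈ B ∧ a l x ∉ K} := hf.const_mul _
  have hint : ∫⁻ x, η {l | l ∈ B ∧ a l x ∉ K} ∂μ ≤ η B * (1 / 20) := by
    have e1 : ∫⁻ x, η {l | l ∈ B ∧ a l x ∉ K} ∂μ =
        (μ.prod η) {p : Y × L | p.2 ∈ B ∧ a p.2 p.1 ∉ K} := (Measure.prod_apply hS).symm
    rw [e1, Measure.prod_apply_symm hS]
    calc ∫⁻ l, μ ((fun x => (x, l)) ⁻¹' {p : Y × L | p.2 ∈ B ∧ a p.2 p.1 ∉ K}) ∂η
        ≤ ∫⁻ l, B.indicator (fun _ => (1 / 20 : ℝ≥0∞)) l ∂η := by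
          refine lintegral_mono fun l => ?_
          by_cases hl : l ∈ B
          · rw [indicator_of_mem hl]
            refine le_trans (measure_mono ?_)
              (((hp l).measure_preimage hK.compl.nullMeasurableSet).le.trans hμ)
            exact fun x hx => hx.2
          · rw [indicator_of_notMem hl]
            have : (fun x => (x, l)) ⁻¹' {p : Y × L | p.2 ∈ B ∧ a p.2 p.1 ∉ K} = ∅ :=
              eq_empty_of_forall_notMem fun x hx => hl hx.1
            rw [this, measure_empty]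
      _ = η B * (1 / 20) := by rw [lintegral_indicator_const hB, mul_comm]
  refine ⟨{x | 10 * η {l | l ∈ B ∧ a l x ∉ K} ≤ η B}, measurableSet_le hf10 measurable_const,
    fun hz => ?_, fun x hx => hx⟩
  have h2 := mul_meas_ge_le_lintegral (μ := μ) hf10 (η B)
  rw [lintegral_const_mul _ hf] at h2
  have h3 : (1 : ℝ≥0∞) ≤ μ {x | η B ≤ 10 * η {l | l ∈ B ∧ a l x ∉ K}} := by
    have h4 : (univ : Set Y) ⊆ {x | 10 * η {l | l ∈ B ∧ a l x ∉ K} ≤ η B} ∪
        {x | η B ≤ 10 * η {l | l ∈ B ∧ a l x ∉ K}} := fun x _ =>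
      le_total (10 * η {l | l ∈ B ∧ a l x ∉ K}) (η B)
    have h5 := (measure_mono (μ := μ) h4).trans (measure_union_le _ _)
    rwa [hz, zero_add, measure_univ] at h5
  have h6 : η B * 1 ≤ η B * (10 * (1 / 20)) := by
    calc η B * 1 ≤ _ := mul_le_mul_right h3 _
      _ ≤ _ := h2
      _ ≤ 10 * (η B * (1 / 20)) := mul_le_mul_right hint _
      _ = η B * (10 * (1 / 20)) := by ring
  rw [ENNReal.mul_le_mul_iff_right h0 h1] at h6
  have h7 : (10 * (1 / 20) : ℝ≥0∞) < 1 := by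
    rw [mul_one_div, ENNReal.div_lt_iff (by simp) (by simp)]
    norm_num
  exact absurd h6 (not_le.2 h7)

/-- Two generic points have a common good translate. -/
theorem RFSb_abs {L Y : Type*} [Group L] [TopologicalSpace L] [IsTopologicalGroup L]
    [LocallyCompactSpace L] [T2Space L] [SecondCountableTopology L] [MeasurableSpace L]
    [BorelSpace L] [MeasurableSpace Y] (μ : Measure Y) [IsProbabilityMeasure μ] (a : L → Y → Y)
    (ha : Measurable fun p : Y × L => a p.2 p.1) (hp : ∀ l, MeasurePreserving (a l) μ μ)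
    {K : Set Y} (hK : MeasurableSet K) (hμ : μ Kᶜ ≤ 1 / 20) :
    ∃ B : Set L, IsCompact B ∧ ∃ K', MeasurableSet K' ∧ μ K' ≠ 0 ∧ ∃ V ∈ 𝓝 (1 : L),
      ∀ z ∈ K', ∀ z' ∈ K', ∀ l₀ ∈ V, ∃ l ∈ B, a (l₀ * l) z ∈ K ∧ a l z' ∈ K := by
  obtain ⟨B, hB, hB1⟩ := exists_compact_mem_nhds (1 : L)
  set η : Measure L := Measure.haar with hη
  have h0 : η B ≠ 0 := (Measure.measure_pos_of_mem_nhds η hB1).ne'
  have h1 : η B ≠ ∞ := hB.measure_lt_top.ne
  obtain ⟨K', hK', hμ', hg⟩ := RFSb_markov η μ a ha hp hK hμ hB.measurableSet h0 h1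
  have hε : η B / 10 ≠ 0 := by simp [h0]
  have hV := eventually_nhds_one_measure_smul_sdiff_lt (μ := η) hB hB.isClosed hε
  refine ⟨B, hB, K', hK', hμ', _, hV, fun z hz z' hz' l₀ hl₀ => ?_⟩
  by_contra hc
  push Not at hc
  have hsub : B ⊆ ((fun l => l₀ * l) ⁻¹' (l₀ • B \ B) ∪
      (fun l => l₀ * l) ⁻¹' {l | l ∈ B ∧ a l z ∉ K}) ∪ {l | l ∈ B ∧ a l z' ∉ K} := by
    intro l hl
    by_cases h2 : l₀ * l ∈ B
    · by_cases h3 : a (l₀ * l) z ∈ K
      · exact Or.inr ⟨hl, hc l hl h3⟩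
      · exact Or.inl (Or.inr ⟨h2, h3⟩)
    · exact Or.inl (Or.inl ⟨⟨l, hl, rfl⟩, h2⟩)
  have h2 : η B ≤ η (l₀ • B \ B) + η {l | l ∈ B ∧ a l z ∉ K} + η {l | l ∈ B ∧ a l z' ∉ K} := by
    refine (measure_mono hsub).trans ((measure_union_le _ _).trans (add_le_add_left ?_ _))
    refine (measure_union_le _ _).trans ?_
    rw [measure_preimage_mul, measure_preimage_mul]
  have h3 : 10 * η (l₀ • B \ B) ≤ η B := by
    have h4 : η (l₀ • B \ B) < η B / 10 := hl₀
    rw [mul_comm]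
    exact (ENNReal.le_div_iff_mul_le (by simp) (by simp)).1 h4.le
  have h4 : η B * 10 ≤ η B * 3 := by
    calc η B * 10 ≤ (η (l₀ • B \ B) + η {l | l ∈ B ∧ a l z ∉ K} + η {l | l ∈ B ∧ a l z' ∉ K})
          * 10 := mul_le_mul_left h2 _
      _ = 10 * η (l₀ • B \ B) + 10 * η {l | l ∈ B ∧ a l z ∉ K}
          + 10 * η {l | l ∈ B ∧ a l z' ∉ K} := by ring
      _ ≤ η B + η B + η B := add_le_add (add_le_add h3 (hg z hz)) (hg z' hz')
      _ = η B * 3 := by ring
  rw [ENNReal.mul_le_mul_iff_right h0 h1] at h4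
  norm_num at h4

/-- The block subgroup. -/
def RFSb_L {n : ℕ} (C : Set (Fin n)) : Subgroup (G n) where
  carrier := {h | InL C h}
  one_mem' := fun _ _ _ => rfl
  mul_mem' := by
    intro h h' hh hh' i j hij
    change (h.1 * h'.1) i j = _
    rw [Matrix.mul_apply]
    rcases hij with hi | hj
    · rw [Finset.sum_congr rfl fun k _ => by rw [hh i k (Or.inl hi)], ← Matrix.mul_apply,
        Matrix.one_mul]
      exact hh' i j (Or.inl hi)
    · rw [Finset.sum_congr rfl fun k _ => by rw [hh' k j (Or.inr hj)], ← Matrix.mul_apply,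
        Matrix.mul_one]
      exact hh i j (Or.inr hj)
  inv_mem' := by
    intro h hh i j hij
    rcases hij with hi | hj
    · have e : (h.1 * (h⁻¹).1) i j = (1 : Matrix (Fin n) (Fin n) ℝ) i j := by
        rw [← Matrix.SpecialLinearGroup.coe_mul, mul_inv_cancel]
        rfl
      rwa [Matrix.mul_apply, Finset.sum_congr rfl fun k _ => by rw [hh i k (Or.inl hi)],
        ← Matrix.mul_apply, Matrix.one_mul] at e
    · have e : ((h⁻¹).1 * h.1) i j = (1 : Matrix (Fin n) (Fin n) ℝ) i j := by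
        rw [← Matrix.SpecialLinearGroup.coe_mul, inv_mul_cancel]
        rfl
      rwa [Matrix.mul_apply, Finset.sum_congr rfl fun k _ => by rw [hh k j (Or.inr hj)],
        ← Matrix.mul_apply, Matrix.mul_one] at e

theorem RFSb_closed {n : ℕ} (C : Set (Fin n)) : IsClosed (RFSb_L C : Set (G n)) := by
  have : (RFSb_L C : Set (G n)) = ⋂ i, ⋂ j, ⋂ _ : i ∉ C ∨ j ∉ C,
      {h : G n | h.1 i j = (1 : Matrix (Fin n) (Fin n) ℝ) i j} := by
    ext h
    simp only [mem_iInter]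
    exact Iff.rfl
  rw [this]
  exact isClosed_iInter fun i => isClosed_iInter fun j => isClosed_iInter fun _ =>
    isClosed_eq (continuous_entry i j) continuous_const

theorem s_FSb (hFSd : FSd) : FSb := by
  intro n μ C hμ hL hK
  obtain ⟨K, hKm, hKμ, U, hU, hKU⟩ := hK (1 / 20) (by simp)
  have : LocallyCompactSpace (RFSb_L C) := (RFSb_closed C).locallyCompactSpace
  have : BorelSpace (RFSb_L C) := Subtype.borelSpace (RFSb_L C : Set (G n))
  have : SecondCountableTopology (RFSb_L C) :=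
    TopologicalSpace.Subtype.secondCountableTopology (RFSb_L C : Set (G n))
  obtain ⟨B, hB, K', hK', hμ', V, hV, hg⟩ := RFSb_abs (L := RFSb_L C) μ (fun l x => act l.1 x)
    (measurable_act₂ (measurable_subtype_coe.comp measurable_snd) measurable_fst)
    (fun l => hL l.1 l.2) hKm hKμ
  obtain ⟨V', hV', hVV⟩ := (mem_nhds_subtype (RFSb_L C : Set (G n)) ⟨1, (RFSb_L C).one_mem⟩ V).1 hV
  obtain ⟨U', hU', hU'g⟩ := hFSd n C (Subtype.val '' B) (hB.image continuous_subtype_val)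
    (by rintro _ ⟨l, -, rfl⟩; exact l.2) U hU V' hV'
  refine ⟨K', hK', hμ', U', hU', fun z hz g hgU hgz => ?_⟩
  obtain ⟨l₀, hl₀V, hl₀, hall⟩ := hU'g g hgU
  obtain ⟨l, hl, h1, h2⟩ := hg z hz _ hgz ⟨l₀, hl₀⟩ (hVV hl₀V)
  obtain ⟨h3, h4, h5⟩ := hall l.1 ⟨l, hl, rfl⟩
  refine h5 (hKU _ h1 _ h3 ?_ h4)
  rw [act_act] at h2 ⊢
  have e : ((⟨l₀, hl₀⟩ * l : RFSb_L C) : G n) * (l.1⁻¹ * (l₀⁻¹ * g) * l.1) = g * l.1 := by
    rw [Subgroup.coe_mul]
    group
  rw [e]
  exact h2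

end TP
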