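import Vale.Agent.P007.RStm

noncomputable section
namespace TP
open MeasureTheory Filter Set ProbabilityTheory
open Vale.Agent.P007 (X lattice act Gam proj IsInvariantProb Equidistributes)
open scoped Classical Topology ENNReal

variable {n : ℕ}

/-- The projection onto the coordinates in `C`. -/
def RFSd_P (C : Set (Fin n)) : Matrix (Fin n) (Fin n) ℝ :=
  Matrix.diagonal fun i => if i ∈ C then 1 else 0

theorem RFSd_iff {C : Set (Fin n)} {h : G n} : InM C h ↔ RFSd_P C * h.1 = h.1 * RFSd_P C := by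
  unfold RFSd_P
  constructor
  · intro H
    ext i j
    rw [Matrix.diagonal_mul, Matrix.mul_diagonal]
    by_cases hi : i ∈ C <;> by_cases hj : j ∈ C
    · simp [hi, hj]
    · simp [H i j (by simp [hi, hj])]
    · simp [H i j (by simp [hi, hj])]
    · simp [hi, hj]
  · intro H i j hij
    have := congrFun (congrFun H i) j
    rw [Matrix.diagonal_mul, Matrix.mul_diagonal] at this
    by_cases hi : i ∈ C <;> by_cases hj : j ∈ C
    · simp [hi, hj] at hij
    · simpa [hi, hj] using this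
    · simpa [hi, hj] using this.symm
    · simp [hi, hj] at hij

/-- The group of block diagonal matrices. -/
def RFSd_M (C : Set (Fin n)) : Subgroup (G n) where
  carrier := {h | InM C h}
  mul_mem' {a b} ha hb := by
    have h1 := RFSd_iff.1 ha
    have h2 := RFSd_iff.1 hb
    refine RFSd_iff.2 ?_
    change _ * (a.1 * b.1) = a.1 * b.1 * _
    rw [← mul_assoc, h1, mul_assoc, h2, mul_assoc]
  one_mem' := RFSd_iff.2 (by
    change _ * (1 : Matrix (Fin n) (Fin n) ℝ) = 1 * _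
    rw [mul_one, one_mul])
  inv_mem' {a} ha := by
    have h1 := RFSd_iff.1 ha
    have h2 : (a⁻¹).1 * a.1 = 1 := congrArg Subtype.val (inv_mul_cancel a)
    have h3 : a.1 * (a⁻¹).1 = 1 := congrArg Subtype.val (mul_inv_cancel a)
    refine RFSd_iff.2 ?_
    calc RFSd_P C * (a⁻¹).1 = (a⁻¹).1 * (a.1 * RFSd_P C) * (a⁻¹).1 := by
          rw [← mul_assoc, h2, one_mul]
      _ = _ := by rw [← h1, mul_assoc, mul_assoc, h3, mul_one]

theorem RFSd_LM {C : Set (Fin n)} {h : G n} (H : InL C h) : h ∈ RFSd_M C := by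
  intro i j hij
  rw [H i j (by tauto), Matrix.one_apply_ne]
  rintro rfl
  exact hij Iff.rfl

/-- The block of a matrix, divided by `c`. -/
def RFSd_B (C : Set (Fin n)) (c : ℝ) (g : G n) : Matrix (Fin n) (Fin n) ℝ :=
  Matrix.of fun i j => if i ∈ C ∧ j ∈ C then c⁻¹ * g.1 i j else (1 : Matrix (Fin n) (Fin n) ℝ) i j

theorem RFSd_det (C : Set (Fin n)) (c : ℝ) (g : G n) :
    (RFSd_B C c g).det =
      (RFSd_B C 1 g).det * c⁻¹ ^ (Finset.univ.filter fun i => i ∈ C).card := by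
  have h : RFSd_B C c g = RFSd_B C 1 g * Matrix.diagonal fun i => if i ∈ C then c⁻¹ else 1 := by
    ext i j
    rw [Matrix.mul_diagonal]
    by_cases hi : i ∈ C <;> by_cases hj : j ∈ C
    · simp [RFSd_B, hi, hj, mul_comm]
    · simp [RFSd_B, hj]
    · have : i ≠ j := fun h => hi (h ▸ hj)
      simp [RFSd_B, hi, this]
    · simp [RFSd_B, hj]
  rw [h, Matrix.det_mul, Matrix.det_diagonal, Finset.prod_ite, Finset.prod_const,
    Finset.prod_const_one, mul_one]

theorem RFSd_tend (C : Set (Fin n)) {c : G n → ℝ} (hc : Tendsto c (𝓝 1) (𝓝 1)) (i j : Fin n) :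
    Tendsto (fun g => RFSd_B C (c g) g i j) (𝓝 1) (𝓝 ((1 : Matrix (Fin n) (Fin n) ℝ) i j)) := by
  by_cases h : i ∈ C ∧ j ∈ C
  · have h1 := (hc.inv₀ one_ne_zero).mul ((continuous_entry i j).tendsto (1 : G n))
    rw [inv_one, one_mul] at h1
    simp only [RFSd_B, Matrix.of_apply, if_pos h]
    exact h1
  · simp only [RFSd_B, Matrix.of_apply, if_neg h]
    exact tendsto_const_nhds

theorem RFSd_split (C : Set (Fin n)) : ∃ f : G n → G n, Tendsto f (𝓝 1) (𝓝 1) ∧
    ∀ᶠ g in 𝓝 (1 : G n), InL C (f g) ∧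
      ∃ c : ℝ, RFSd_P C * g.1 * RFSd_P C = c • ((f g).1 * RFSd_P C) := by
  obtain ⟨k, hk⟩ : ∃ k, k = (Finset.univ.filter fun i => i ∈ C).card := ⟨_, rfl⟩
  have hd : Tendsto (fun g : G n => (RFSd_B C 1 g).det) (𝓝 1) (𝓝 1) := by
    have h1 : Tendsto (fun g : G n => RFSd_B C 1 g) (𝓝 1) (𝓝 1) :=
      tendsto_pi_nhds.2 fun i => tendsto_pi_nhds.2 fun j => RFSd_tend C tendsto_const_nhds i j
    have h2 := ((continuous_id.matrix_det).tendsto (1 : Matrix (Fin n) (Fin n) ℝ)).comp h1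
    rw [id, Matrix.det_one] at h2
    exact h2
  obtain ⟨c, hc⟩ : ∃ c : G n → ℝ, c = fun g => (RFSd_B C 1 g).det ^ ((k : ℝ)⁻¹) := ⟨_, rfl⟩
  have h1 : Tendsto c (𝓝 1) (𝓝 1) := by
    have := hd.rpow_const (p := (k : ℝ)⁻¹) (Or.inl one_ne_zero)
    rwa [Real.one_rpow, ← hc] at this
  have h2 : ∀ᶠ g in 𝓝 (1 : G n), c g ≠ 0 ∧ (RFSd_B C (c g) g).det = 1 := by
    filter_upwards [hd.eventually (lt_mem_nhds one_pos)] with g hg
    have h3 : c g ≠ 0 := by rw [hc]; exact (Real.rpow_pos_of_pos hg _).ne'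
    refine ⟨h3, ?_⟩
    rw [RFSd_det, ← hk, inv_pow]
    rcases eq_or_ne k 0 with h0 | h0
    · have h4 : RFSd_B C 1 g = 1 := by
        ext i j
        have : i ∉ C := fun hi => by
          rw [h0, eq_comm, Finset.card_eq_zero, Finset.filter_eq_empty_iff] at hk
          exact hk (Finset.mem_univ i) hi
        simp [RFSd_B, this]
      rw [h4, h0, Matrix.det_one, pow_zero, inv_one, mul_one]
    · rw [hc, Real.rpow_inv_natCast_pow hg.le h0, mul_inv_cancel₀ hg.ne']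
  obtain ⟨f, hf⟩ : ∃ f : G n → G n, ∀ g, (RFSd_B C (c g) g).det = 1 →
      (f g).1 = RFSd_B C (c g) g :=
    ⟨fun g => if h : (RFSd_B C (c g) g).det = 1 then ⟨_, h⟩ else 1, fun g h =>
      congrArg Subtype.val (dif_pos h)⟩
  refine ⟨f, tendsto_G.2 fun i j => (RFSd_tend C h1 i j).congr' ?_, ?_⟩
  · filter_upwards [h2] with g hg
    rw [hf g hg.2]
  · filter_upwards [h2] with g hg
    refine ⟨fun i j hij => ?_, c g, ?_⟩
    · rw [hf g hg.2, RFSd_B, Matrix.of_apply, if_neg (by tauto)]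
    · ext i j
      rw [hf g hg.2, RFSd_P, Matrix.smul_apply, Matrix.mul_diagonal, Matrix.mul_diagonal,
        Matrix.diagonal_mul]
      by_cases hi : i ∈ C <;> by_cases hj : j ∈ C
      · simp [RFSd_B, hi, hj, hg.1]
      · simp [hj]
      · have : i ≠ j := fun h => hi (h ▸ hj)
        simp [RFSd_B, hi, this]
      · simp [hj]

theorem s_FSd : FSd := by
  intro n C B hB hL U hU V hV
  obtain ⟨f, hf, h1⟩ := RFSd_split C
  have h2 : ∀ᶠ m in 𝓝 (1 : G n), ∀ l ∈ B, l⁻¹ * m * l ∈ U := by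
    refine hB.eventually_forall_of_forall_eventually fun l _ => ?_
    have h3 : Continuous fun z : G n × G n => z.2⁻¹ * z.1 * z.2 := by fun_prop
    have h4 := h3.tendsto (1, l)
    rw [mul_one, inv_mul_cancel] at h4
    exact h4.eventually hU
  have h3 : Tendsto (fun g => (f g)⁻¹ * g) (𝓝 1) (𝓝 1) := by
    have := hf.inv.mul (tendsto_id (x := 𝓝 (1 : G n)))
    rwa [inv_one, one_mul] at this
  refine ⟨_, (h1.and (h3.eventually h2)).and (hf.eventually hV), fun g hg => ?_⟩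
  obtain ⟨⟨⟨h4, c, hc⟩, h5⟩, h6⟩ := hg
  refine ⟨f g, h6, h4, fun l hl => ⟨h5 l hl, ⟨c, fun i hi j hj => ?_⟩, fun h7 => ?_⟩⟩
  · have a1 := RFSd_iff.1 (RFSd_LM (hL l hl))
    have a2 := RFSd_iff.1 (inv_mem (RFSd_LM (hL l hl)))
    have a3 := RFSd_iff.1 (inv_mem (RFSd_LM h4))
    have a4 : (l⁻¹).1 * l.1 = 1 := congrArg Subtype.val (inv_mul_cancel l)
    have a5 : ((f g)⁻¹).1 * (f g).1 = 1 := congrArg Subtype.val (inv_mul_cancel (f g))
    have a6 : RFSd_P C * (l⁻¹ * ((f g)⁻¹ * g) * l).1 * RFSd_P C = c • RFSd_P C := by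
      calc _ = RFSd_P C * (l⁻¹).1 * ((f g)⁻¹).1 * g.1 * (l.1 * RFSd_P C) := by
            change _ * ((l⁻¹).1 * (((f g)⁻¹).1 * g.1) * l.1) * _ = _
            simp only [mul_assoc]
        _ = (l⁻¹).1 * (((f g)⁻¹).1 * (RFSd_P C * g.1 * RFSd_P C)) * l.1 := by
            rw [a2, mul_assoc (l⁻¹).1, a3, ← a1]
            simp only [mul_assoc]
        _ = _ := by
            rw [hc, Matrix.mul_smul, ← mul_assoc, a5, one_mul, Matrix.mul_smul, Matrix.smul_mul,
              mul_assoc, a1, ← mul_assoc, a4, one_mul]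
    have a7 := congrFun (congrFun a6 i) j
    rw [RFSd_P, Matrix.mul_diagonal, Matrix.diagonal_mul, if_pos hi, if_pos hj, one_mul, mul_one,
      Matrix.smul_apply, Matrix.diagonal_apply, if_pos hi] at a7
    rw [a7]
    split_ifs <;> simp
  · have a1 := RFSd_LM (hL l hl)
    have a2 : f g * (l * (l⁻¹ * ((f g)⁻¹ * g) * l) * l⁻¹) ∈ RFSd_M C :=
      mul_mem (RFSd_LM h4) (mul_mem (mul_mem a1 h7) (inv_mem a1))
    have a3 : f g * (l * (l⁻¹ * ((f g)⁻¹ * g) * l) * l⁻¹) = g := by group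
    rw [a3] at a2
    exact a2

end TP
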