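import Vale.Agent.P007.RStm

noncomputable section
namespace TP
open MeasureTheory Filter Set ProbabilityTheory
open Vale.Agent.P007 (X lattice act Gam proj IsInvariantProb Equidistributes)
open scoped Classical Topology ENNReal

theorem RFV_full {n : ℕ} {μ : Measure (X n)} {p : X n → Prop} (h : ∀ᵐ x ∂μ, p x) :
    ∃ S, Full μ S ∧ ∀ x ∈ S, p x := by
  obtain ⟨N, h1, h2, h3⟩ := exists_measurable_superset_of_null (ae_iff.1 h)
  refine ⟨Nᶜ, ⟨h2.compl, by rw [compl_compl]; exact h3⟩, fun x hx => ?_⟩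
  by_contra hc
  exact hx (h1 hc)

theorem RFV_freq0 {Ω : Type} {T : Ω → Ω} {B : Set Ω} {x y : Ω} (hx : x ∉ Fq T B (1 / 4))
    (hy : y ∉ Fq T B (1 / 4)) : ∃ᶠ m in atTop, T^[m] x ∉ B ∧ T^[m] y ∉ B := by
  rw [frequently_atTop]
  intro M
  by_contra hc
  simp only [Fq, mem_ofPred_eq, not_exists, not_lt] at hx hy
  have h1 := hx (2 * M + 1)
  have h2 := hy (2 * M + 1)
  have h3 : Finset.Ico M (2 * M + 1) ⊆
      ((Finset.range (2 * M + 1)).filter fun m => T^[m] x ∈ B) ∪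
        ((Finset.range (2 * M + 1)).filter fun m => T^[m] y ∈ B) := by
    intro m hm
    rw [Finset.mem_Ico] at hm
    simp only [Finset.mem_union, Finset.mem_filter, Finset.mem_range]
    by_cases h4 : T^[m] x ∈ B
    · exact Or.inl ⟨hm.2, h4⟩
    · refine Or.inr ⟨hm.2, ?_⟩
      by_contra h5
      exact hc ⟨m, hm.1, h4, h5⟩
  have h4 := (Finset.card_le_card h3).trans (Finset.card_union_le _ _)
  rw [Nat.card_Ico, show 2 * M + 1 - M = M + 1 by omega] at h4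
  have h5 : ((M + 1 : ℕ) : ℝ) ≤
      (((Finset.range (2 * M + 1)).filter fun m => T^[m] x ∈ B).card : ℝ) +
        (((Finset.range (2 * M + 1)).filter fun m => T^[m] y ∈ B).card : ℝ) := by
    exact_mod_cast h4
  push_cast at h1 h2 h5
  linarith

theorem RFV_freq {Ω : Type} {T : Ω → Ω} {K : Set Ω} {x y : Ω} (hx : x ∉ Fq T Kᶜ (1 / 4))
    (hy : y ∉ Fq T Kᶜ (1 / 4)) : ∃ᶠ m in atTop, T^[m] x ∈ K ∧ T^[m] y ∈ K :=
  (RFV_freq0 hx hy).mono fun _ h => ⟨not_not.1 h.1, not_not.1 h.2⟩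

theorem RFV_iter {n : ℕ} {μ : Measure (X n)} {g : G n} {F : X n → ℚ × ℚ → ℝ}
    (hg : MeasurePreserving (act g) μ μ) (h : ∀ᵐ x ∂μ, F (act g x) = F x) :
    ∀ᵐ x ∂μ, ∀ m : ℕ, F (act (g ^ m) x) = F x := by
  rw [ae_all_iff]
  intro m
  induction m with
  | zero => exact Eventually.of_forall fun x => by rw [pow_zero, act_one]
  | succ m ih =>
    filter_upwards [hg.quasiMeasurePreserving.ae ih, h] with x h1 h2
    rw [pow_succ', ← act_act, h1, h2]

theorem s_FV (hLus : Lus) (hFreq : Freq) : FV := by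
  intro n μ g S F hμ hg hS hF hinv
  have hK : ∀ j : ℕ, ∃ K, IsCompact K ∧ K ⊆ S ∧ μ Kᶜ ≤ 2⁻¹ ^ j ∧ ContinuousOn F K := fun j =>
    hLus n μ F S (2⁻¹ ^ j) inferInstance hF hS (pow_ne_zero _ (by simp))
  choose K hK1 hK2 hK3 hK4 using hK
  have hB : ∀ j, μ (Fq (act g) (K j)ᶜ (1 / 4)) ≤ 4 * 2⁻¹ ^ j := fun j => by
    have h1 := (hFreq (X n) μ (act g) (K j)ᶜ (1 / 4) inferInstance hg
      (hK1 j).isClosed.measurableSet.compl (by norm_num)).2
    have h2 : (4 : ℝ≥0∞) * ENNReal.ofReal (1 / 4) = 1 := by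
      rw [← ENNReal.ofReal_ofNat 4, ← ENNReal.ofReal_mul (by norm_num)]
      norm_num
    calc μ (Fq (act g) (K j)ᶜ (1 / 4))
        = 4 * (ENNReal.ofReal (1 / 4) * μ (Fq (act g) (K j)ᶜ (1 / 4))) := by
          rw [← mul_assoc, h2, one_mul]
      _ ≤ 4 * 2⁻¹ ^ j := by gcongr; exact h1.trans (hK3 j)
  have hsum : ∑' j, μ (Fq (act g) (K j)ᶜ (1 / 4)) ≠ ∞ := by
    refine ne_top_of_le_ne_top ?_ (ENNReal.tsum_le_tsum hB)
    rw [ENNReal.tsum_mul_left, ENNReal.tsum_geometric_two]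
    exact ENNReal.mul_ne_top (by simp) (by simp)
  obtain ⟨S', hS', hp⟩ := RFV_full ((ae_eventually_notMem hsum).and (RFV_iter hg hinv))
  refine ⟨S', hS', fun x hx h h₀ hy hlim => ?_⟩
  obtain ⟨j, hj1, hj2⟩ := ((hp x hx).1.and (hp _ hy).1).exists
  obtain ⟨φ, hφ, hφK⟩ := extraction_of_frequently_atTop (RFV_freq hj1 hj2)
  simp only [act_iter] at hφK
  obtain ⟨z, hz, ψ, hψ, hlz⟩ := (hK1 j).tendsto_subseq (x := fun k => act (g ^ φ k) x)
    (fun k => (hφK k).1)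
  have hm : Tendsto (fun k => φ (ψ k)) atTop atTop := (hφ.comp hψ).tendsto_atTop
  have hlz' : Tendsto (fun k => act (g ^ φ (ψ k)) x) atTop (𝓝 z) := hlz
  have hly : Tendsto (fun k => act (g ^ φ (ψ k)) (act h x)) atTop (𝓝 (act h₀ z)) := by
    refine (tendsto_act (hlim.comp hm) hlz').congr fun k => ?_
    simp only [Function.comp_apply]
    rw [act_act, act_act]
    congr 1
    group
  have hz' : act h₀ z ∈ K j :=
    (hK1 j).isClosed.mem_of_tendsto hly (Eventually.of_forall fun k => (hφK (ψ k)).2)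
  refine ⟨z, hK2 j hz, hK2 j hz', ?_, ?_⟩
  · have h1 : Tendsto (fun k => F (act (g ^ φ (ψ k)) x)) atTop (𝓝 (F z)) :=
      (hK4 j z hz).tendsto.comp (tendsto_nhdsWithin_iff.2
        ⟨hlz', Eventually.of_forall fun k => (hφK (ψ k)).1⟩)
    simp only [(hp x hx).2] at h1
    exact tendsto_nhds_unique h1 tendsto_const_nhds
  · have h1 : Tendsto (fun k => F (act (g ^ φ (ψ k)) (act h x))) atTop (𝓝 (F (act h₀ z))) :=
      (hK4 j _ hz').tendsto.comp (tendsto_nhdsWithin_iff.2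
        ⟨hly, Eventually.of_forall fun k => (hφK (ψ k)).2⟩)
    simp only [(hp _ hy).2] at h1
    exact tendsto_nhds_unique h1 tendsto_const_nhds

theorem RFV_dir {n : ℕ} {i j k l : Fin n} (hij : i ≠ j) (h1 : ¬ (i = k ∧ j = l))
    (h2 : ¬ (i = l ∧ j = k)) : ∃ t : Fin n → ℝ, t k = t l ∧ t j - t i = -1 := by
  by_cases h : i = k ∨ i = l
  · have hk : k ≠ j := by
      rintro rfl
      rcases h with h | h
      · exact hij h
      · exact h2 ⟨h, rfl⟩
    have hl : l ≠ j := by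
      rintro rfl
      rcases h with h | h
      · exact h1 ⟨h, rfl⟩
      · exact hij h
    refine ⟨fun a => if a = j then -1 else 0, ?_, ?_⟩
    · simp [hk, hl]
    · simp [hij]
  · have hk : k ≠ i := fun e => h (Or.inl e.symm)
    have hl : l ≠ i := fun e => h (Or.inr e.symm)
    refine ⟨fun a => if a = i then 1 else 0, ?_, ?_⟩
    · simp [hk, hl]
    · simp [hij.symm]

theorem RFV_contract {n : ℕ} {i j : Fin n} {t : Fin n → ℝ} (ht : t j - t i = -1) (s : ℝ) :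
    Tendsto (fun m : ℕ => (dA t ^ m)⁻¹ * uu i j s * dA t ^ m) atTop (𝓝 1) := by
  have h1 : Tendsto (fun m : ℕ => Real.exp (-(m : ℝ)) * s) atTop (𝓝 (0 * s)) :=
    (Real.tendsto_exp_neg_atTop_nhds_zero.comp tendsto_natCast_atTop_atTop).mul_const s
  rw [zero_mul] at h1
  have h2 := ((continuous_uu i j).tendsto 0).comp h1
  rw [uu_zero] at h2
  refine h2.congr fun m => ?_
  rw [← dA_nsmul, uu_conj]
  simp only [Function.comp_apply, Pi.smul_apply, smul_eq_mul]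
  rw [← mul_sub, ht, mul_neg_one]

theorem s_PL (hFV : FV) (hStbQ : StbQ) : PL := by
  intro n μ i j k l κ hμ hA hij _ h1 h2 hκ
  obtain ⟨t, ht1, ht2⟩ := RFV_dir hij h1 h2
  have hinv : ∀ᵐ x ∂μ, code (κ (act (dA t) x)) = code (κ x) := by
    filter_upwards [hκ.scale t] with x hx
    rw [hx, ht1, sub_self, Real.exp_zero, sc]
    have e : (fun r : ℝ => 1 * r) = id := funext fun r => one_mul r
    rw [e, Measure.map_id, nrm, hκ.one x, inv_one, one_smul]
  obtain ⟨S', hS', hp⟩ := hFV n μ (dA t) univ (fun x => code (κ x)) hμ (hA t)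
    ⟨MeasurableSet.univ, by simp⟩ (hStbQ.2.2.2.2 _ κ hκ.meas).1 hinv
  refine ⟨S', hS', fun x hx s hs => ?_⟩
  obtain ⟨z, -, -, e1, e2⟩ := hp x hx (uu i j s) 1 hs (RFV_contract ht2 s)
  rw [act_one] at e2
  exact hStbQ.2.2.2.1 _ _ (hκ.fin _) (hκ.fin _) (e2.symm.trans e1)

end TP
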