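import Vale.Agent.P007.RStm

noncomputable section
namespace TP
open MeasureTheory Filter Set ProbabilityTheory
open Vale.Agent.P007 (X lattice act Gam proj IsInvariantProb Equidistributes)
open scoped Classical Topology ENNReal

open Matrix.SpecialLinearGroup in
theorem RGen_diag {ι : Type} [Fintype ι] [DecidableEq ι] {i j : ι} (h : i ≠ j) {a : ℝ}
    (ha : a ≠ 0) : diag2n h a ha = transvection h a * transvection h.symm (-a⁻¹) *
      transvection h a * transvection h (-1) * transvection h.symm 1 * transvection h (-1) := by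
  refine Subtype.ext ?_
  simp only [coe_mul, transvection_coe, diag2n_coe, mul_add, add_mul, mul_one, one_mul,
    Matrix.single_mul_single_same, Matrix.single_mul_single_of_ne _ _ _ _ h,
    Matrix.single_mul_single_of_ne _ _ _ _ h.symm, add_zero, zero_mul]
  ext k l
  simp only [Matrix.add_apply, Matrix.single_apply, Matrix.one_apply, Matrix.diagonal_apply]
  by_cases h1 : i = k <;> by_cases h2 : j = k <;> by_cases h3 : i = l <;> by_cases h4 : j = l <;>
    simp_all [eq_comm] <;> field_simp <;> ring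

open Matrix.SpecialLinearGroup in
theorem RGen_ind {ι : Type} [Fintype ι] [DecidableEq ι]
    (P : Matrix.SpecialLinearGroup ι ℝ → Prop) (h1 : P 1)
    (ht : ∀ (i j : ι) (h : i ≠ j) (a : ℝ), P (transvection h a))
    (hm : ∀ A B, P A → P B → P (A * B)) (M : Matrix.SpecialLinearGroup ι ℝ) : P M := by
  rcases subsingleton_or_nontrivial ι with h | h
  · rwa [Subsingleton.elim M 1]
  · refine diagonal_transvection_induction' P M (fun i j hij c hc => ?_) ht hm
    rw [RGen_diag hij hc]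
    exact hm _ _ (hm _ _ (hm _ _ (hm _ _ (hm _ _ (ht _ _ _ _) (ht _ _ _ _)) (ht _ _ _ _))
      (ht _ _ _ _)) (ht _ _ _ _)) (ht _ _ _ _)

/-- Extension of a block by the identity. -/
def RGen_ext {n : ℕ} (C : Set (Fin n)) (M : Matrix C C ℝ) : Matrix (Fin n) (Fin n) ℝ :=
  Matrix.reindex (Equiv.sumCompl (· ∈ C)) (Equiv.sumCompl (· ∈ C)) (Matrix.fromBlocks M 0 0 1)

theorem RGen_det {n : ℕ} (C : Set (Fin n)) (M : Matrix C C ℝ) : (RGen_ext C M).det = M.det := by
  rw [RGen_ext, Matrix.det_reindex_self, Matrix.det_fromBlocks_zero₂₁, Matrix.det_one, mul_one]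

theorem RGen_mul {n : ℕ} (C : Set (Fin n)) (M N : Matrix C C ℝ) :
    RGen_ext C (M * N) = RGen_ext C M * RGen_ext C N := by
  simp only [RGen_ext, Matrix.reindex_apply, Matrix.submatrix_mul_equiv, Matrix.fromBlocks_multiply]
  simp

theorem RGen_eq {n : ℕ} (C : Set (Fin n)) (M : Matrix C C ℝ) (A : Matrix (Fin n) (Fin n) ℝ)
    (h1 : ∀ i j : C, A i j = M i j)
    (h2 : ∀ i j, (i ∉ C ∨ j ∉ C) → A i j = (1 : Matrix (Fin n) (Fin n) ℝ) i j) :
    RGen_ext C M = A := by
  ext i j
  obtain ⟨x, rfl⟩ := (Equiv.sumCompl (· ∈ C)).surjective i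
  obtain ⟨y, rfl⟩ := (Equiv.sumCompl (· ∈ C)).surjective j
  rw [RGen_ext, Matrix.reindex_apply, Matrix.submatrix_apply, Equiv.symm_apply_apply,
    Equiv.symm_apply_apply]
  rcases x with x | x <;> rcases y with y | y
  · exact (h1 x y).symm
  · have h3 : x.1 ≠ y.1 := fun e => y.2 (e ▸ x.2)
    exact ((h2 x y (Or.inr y.2)).trans (Matrix.one_apply_ne h3)).symm
  · have h3 : x.1 ≠ y.1 := fun e => x.2 (e ▸ y.2)
    exact ((h2 x y (Or.inl x.2)).trans (Matrix.one_apply_ne h3)).symm
  · refine Eq.trans ?_ (h2 x y (Or.inl x.2)).symm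
    simp [Matrix.one_apply, Subtype.ext_iff]

theorem s_GEN : GEN := by
  intro n C H hH h hh
  have key : ∀ M : Matrix.SpecialLinearGroup C ℝ, ∀ g : G n, g.1 = RGen_ext C M.1 → g ∈ H := by
    refine RGen_ind _ ?_ ?_ ?_
    · intro g hg
      have h1 : g = 1 := Subtype.ext (hg.trans (RGen_eq C _ _
        (fun i j => by simp [Matrix.one_apply, Subtype.ext_iff]) fun _ _ _ => rfl))
      rw [h1]
      exact H.one_mem
    · intro i j hij a g hg
      have h0 : i.1 ≠ j.1 := fun e => hij (Subtype.ext e)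
      have h1 : g = uu i.1 j.1 a := by
        refine Subtype.ext (hg.trans (RGen_eq C _ _ (fun k l => ?_) fun k l hkl => ?_))
        · rw [uu_coe h0, Matrix.SpecialLinearGroup.transvection_coe]
          simp [Matrix.one_apply, Matrix.single_apply, Subtype.ext_iff]
        · rw [uu_coe h0, Matrix.add_apply, Matrix.single_apply, if_neg, add_zero]
          rintro ⟨rfl, rfl⟩
          exact hkl.elim (fun h => h i.2) fun h => h j.2
      rw [h1]
      exact hH _ i.2 _ j.2 a
    · intro A B hA hB g hg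
      obtain ⟨a, ha⟩ : ∃ a : G n, a.1 = RGen_ext C A.1 := ⟨⟨_, (RGen_det C _).trans A.2⟩, rfl⟩
      obtain ⟨b, hb⟩ : ∃ b : G n, b.1 = RGen_ext C B.1 := ⟨⟨_, (RGen_det C _).trans B.2⟩, rfl⟩
      have h1 : g = a * b := by
        refine Subtype.ext (hg.trans ?_)
        rw [Matrix.SpecialLinearGroup.coe_mul, Matrix.SpecialLinearGroup.coe_mul, ha, hb, RGen_mul]
      rw [h1]
      exact H.mul_mem (hA _ ha) (hB _ hb)
  have e := RGen_eq C (Matrix.of fun i j : C => h.1 i j) h.1 (fun _ _ => rfl) hh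
  exact key ⟨Matrix.of fun i j : C => h.1 i j, by rw [← RGen_det, e, h.2]⟩ h e.symm

/-- The elements that preserve a measure. -/
def RGen_stab {n : ℕ} (μ : Measure (X n)) : Subgroup (G n) where
  carrier := {g | MeasurePreserving (act g) μ μ}
  mul_mem' := by
    intro g h hg hh
    have e : (act (g * h) : X n → X n) = act h ∘ act g := funext fun x => (act_act g h x).symm
    show MeasurePreserving (act (g * h)) μ μ
    rw [e]
    exact MeasurePreserving.comp hh hg
  one_mem' := by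
    have e : (act (1 : G n) : X n → X n) = id := funext act_one
    show MeasurePreserving (act 1) μ μ
    rw [e]
    exact MeasurePreserving.id μ
  inv_mem' := by
    intro g hg
    have e : (act g⁻¹ : X n → X n) ∘ act g = id := funext fun x => by
      rw [Function.comp_apply, act_act, mul_inv_cancel, act_one, id]
    refine ⟨measurable_act _, ?_⟩
    have h1 : μ.map (act g) = μ := MeasurePreserving.map_eq hg
    conv_lhs => rw [← h1]
    rw [Measure.map_map (measurable_act _) (measurable_act _), e, Measure.map_id]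

theorem RGen_ret {n : ℕ} {g : G n} {P Q : G n → Prop} {x : X n} {U : Set (G n)}
    (hU : U ∈ 𝓝 (1 : G n)) (h : Ret g P x) (hQ : ∀ c ∈ U, P c → Q c) : Ret g Q x := by
  obtain ⟨m, c, h1, h2, h3⟩ := h
  obtain ⟨N, hN⟩ := eventually_atTop.1 (h2.eventually hU)
  exact ⟨fun k => m (k + N), fun k => c (k + N), h1.comp (tendsto_add_atTop_nat N),
    h2.comp (tendsto_add_atTop_nat N),
    fun k => ⟨hQ _ (hN _ (Nat.le_add_left N k)) (h3 _).1, (h3 _).2⟩⟩

theorem s_FS (hRec : Rec) (hGEN : GEN) (hFSa : FSa) (hFSb : FSb) (hALG : ALG) : FS := by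
  intro n μ R hn hμ hA hR ⟨a, b, hab, hb⟩ hs hu
  obtain ⟨C, hC⟩ : ∃ C : Set (Fin n), ∀ k, k ∈ C ↔ k = a ∨ R a k := ⟨{k | k = a ∨ R a k}, fun _ => Iff.rfl⟩
  have ha : a ∈ C := (hC a).2 (Or.inl rfl)
  have hb' : b ∈ C := (hC b).2 (Or.inr hb)
  have h1 : ∀ i ∈ C, ∀ j ∈ C, ∀ r, uu i j r ∈ RGen_stab μ := by
    intro i hi j hj r
    by_cases hij : i ≠ j
    · refine hu i j ?_ r
      rcases (hC i).1 hi with rfl | hi
      · exact ((hC j).1 hj).resolve_left hij.symm
      · rcases (hC j).1 hj with rfl | hj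
        · exact hs _ _ hi
        · exact hR.1 i a j (hs _ _ hi) hj hij
    · rw [uu, dif_neg hij]
      exact Subgroup.one_mem _
  have h2 : ∀ l : G n, InL C l → MeasurePreserving (act l) μ μ := hGEN n C (RGen_stab μ) h1
  by_cases hU : C = univ
  · intro g
    refine h2 g fun i j h => ?_
    rw [hU] at h
    exact absurd h (by simp)
  exfalso
  have h3 : ∀ i ∈ C, ∀ k, k ∉ C → ¬ R i k := by
    intro i hi k hk h
    refine hk ((hC k).2 (Or.inr ?_))
    rcases (hC i).1 hi with rfl | hi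
    · exact h
    · exact hR.1 a i k hi h fun e => hk (e ▸ ha)
  obtain ⟨K, hK, hK0, U, hU1, hKU⟩ := hFSb n μ C hμ h2 fun ε hε =>
    hFSa n μ R C ε hμ hA hR ⟨a, ha, b, hb', hab⟩ (fun i hi j hj => h1 i hi j hj 1)
      (fun i hi k hk => ⟨h3 i hi k hk, fun h => h3 i hi k hk (hs _ _ h)⟩) hε
  have r1 := hRec n μ (dA fun i => (i.1 : ℝ)) K inferInstance (hA _) hK
  have r2 := hRec n μ (uu a b 1) K inferInstance (hu a b hb 1) hK
  have r3 : ∀ᵐ x ∂μ, ∀ S : Set (Fin n), x ∈ univ → Ret (dA (tS S)) (fun c => act c x ∈ univ) x :=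
    ae_all_iff.2 fun S => hRec n μ _ univ inferInstance (hA _) MeasurableSet.univ
  obtain ⟨x, hx, q1, q2, q3⟩ := Measure.exists_mem_of_measure_ne_zero_of_ae hK0
    (ae_restrict_of_ae (r1.and (r2.and r3)))
  exact hALG n x C a b (fun i => (i.1 : ℝ)) hn ha hb' hab hU
    (fun i j e => Fin.ext (Nat.cast_injective (R := ℝ) e))
    (RGen_ret hU1 (q1 hx) (hKU x hx)) (RGen_ret hU1 (q2 hx) (hKU x hx))
    fun S _ _ => RGen_ret hU1 (q3 S (mem_univ x)) fun _ _ _ => trivial

end TP
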