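import Vale.Agent.P007.RStm

noncomputable section
namespace TP
open MeasureTheory Filter Set ProbabilityTheory
open Vale.Agent.P007 (X lattice act Gam proj IsInvariantProb Equidistributes)
open scoped Classical Topology ENNReal

theorem RHE_comm {n : ℕ} {i j k : Fin n} (hij : i ≠ j) (hjk : j ≠ k) (hik : i ≠ k) (s t : ℝ) :
    uu i j s * uu j k t = uu j k t * uu i j s * uu i k (s * t) := by
  refine Subtype.ext ?_
  change (uu i j s).1 * (uu j k t).1 = (uu j k t).1 * (uu i j s).1 * (uu i k (s * t)).1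
  rw [uu_coe hij, uu_coe hjk, uu_coe hik]
  have h1 : Matrix.single i j s * Matrix.single j k t = Matrix.single i k (s * t) :=
    Matrix.single_mul_single_same _ _ _ _ _
  have h2 : Matrix.single j k t * Matrix.single i j s = 0 :=
    Matrix.single_mul_single_of_ne _ _ _ _ hik.symm _
  have h3 : Matrix.single j k t * Matrix.single i k (s * t) = 0 :=
    Matrix.single_mul_single_of_ne _ _ _ _ hik.symm _
  have h4 : Matrix.single i j s * Matrix.single i k (s * t) = 0 :=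
    Matrix.single_mul_single_of_ne _ _ _ _ hij.symm _
  simp only [add_mul, mul_add, one_mul, mul_one, h1, h2, h3, h4, add_zero, zero_mul]
  abel

theorem RHE_full {n : ℕ} {μ : Measure (X n)} {S T : Set (X n)} (hS : Full μ S) (hT : Full μ T) :
    Full μ (S ∩ T) :=
  ⟨hS.1.inter hT.1, by rw [compl_inter]; exact measure_union_null hS.2 hT.2⟩

theorem s_HE (hLWX : LWX) (hStbQ : StbQ) (hNA : NA) (hPL : PL) : HE := by
  intro n μ κ i j k hS hij hjk hik
  obtain ⟨hij, hN1⟩ := hij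
  obtain ⟨hjk, hN2⟩ := hjk
  have L1 := hS.lw i j hij
  have L2 := hS.lw j k hjk
  have L3 := hS.lw i k hik
  obtain ⟨S1, F1, P1⟩ := hPL n μ i j i k (κ i k) hS.prob hS.ainv hij hik (fun h => hjk h.2)
    (fun h => hik h.1) L3
  obtain ⟨S2, F2, P2⟩ := hPL n μ i j j k (κ j k) hS.prob hS.ainv hij hjk (fun h => hij h.1)
    (fun h => hik h.1) L2
  obtain ⟨S3, F3, P3⟩ := hPL n μ j k i k (κ i k) hS.prob hS.ainv hjk hik (fun h => hij h.1.symm)
    (fun h => hjk h.1) L3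
  obtain ⟨S4, F4, P4⟩ := hPL n μ j k i j (κ i j) hS.prob hS.ainv hjk hij (fun h => hij h.1.symm)
    (fun h => hik h.2.symm) L1
  obtain ⟨S5, F5, P5⟩ := L3.coc
  set Sa : Set (X n) := S1 ∩ (S2 ∩ (S3 ∩ (S4 ∩ S5))) with hSa
  have FA : Full μ Sa := RHE_full F1 (RHE_full F2 (RHE_full F3 (RHE_full F4 F5)))
  have hA : ∀ᵐ x ∂μ, x ∈ Sa := FA.2
  have hB0 := (hLWX n μ j k (κ j k) L2).2 _ hA
  have hC0 := (hLWX n μ i j (κ i j) L1).2 _ hA
  have hB := (hLWX n μ i j (κ i j) L1).2 _ (hA.and hB0)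
  have hC := (hLWX n μ j k (κ j k) L2).2 _ (hA.and hC0)
  have hD1 := hNA n μ i j (κ i j) hS.prob hS.ainv hij L1 hN1
  have hD2 := hNA n μ j k (κ j k) hS.prob hS.ainv hjk L2 hN2
  filter_upwards [hA, hB, hC, hD1, hD2] with x xA xB xC xD1 xD2
  have := L1.fin x
  have := L2.fin x
  have hB' : ∀ᵐ s ∂κ i j x, act (uu i j s) x ∈ Sa ∧
      ∀ᵐ t ∂κ j k x, act (uu j k t) (act (uu i j s) x) ∈ Sa := by
    filter_upwards [xB] with s hs
    refine ⟨hs.1, ?_⟩
    have := hs.2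
    rwa [P2 x xA.2.1 s hs.1.2.1] at this
  have hC' : ∀ᵐ t ∂κ j k x, ∀ᵐ s ∂κ i j x, act (uu j k t) x ∈ Sa ∧
      act (uu i j s) (act (uu j k t) x) ∈ Sa := by
    filter_upwards [xC] with t ht
    have := ht.2
    rw [P4 x xA.2.2.2.1 t ht.1.2.2.2.1] at this
    filter_upwards [this] with s hs using ⟨ht.1, hs⟩
  have hm : MeasurableSet {p : ℝ × ℝ | act (uu j k p.1) x ∈ Sa ∧
      act (uu i j p.2) (act (uu j k p.1) x) ∈ Sa} := by
    have c1 : Continuous fun p : ℝ × ℝ => act (uu j k p.1) x :=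
      Continuous.tp_act ((continuous_uu j k).comp continuous_fst) continuous_const
    have c2 : Continuous fun p : ℝ × ℝ => act (uu i j p.2) (act (uu j k p.1) x) :=
      Continuous.tp_act ((continuous_uu i j).comp continuous_snd) c1
    exact (c1.measurable FA.1).inter (c2.measurable FA.1)
  have hC'' := (Measure.ae_ae_comm (μ := κ j k x) (ν := κ i j x)
    (p := fun t s => act (uu j k t) x ∈ Sa ∧ act (uu i j s) (act (uu j k t) x) ∈ Sa) hm).1 hC'
  have n1 : (ae (κ i j x)).NeBot := ae_neBot.2 fun h => by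
    have := L1.one x
    rw [h] at this
    simp at this
  have n2 : (ae (κ j k x)).NeBot := ae_neBot.2 fun h => by
    have := L2.one x
    rw [h] at this
    simp at this
  have z1 : ∀ᵐ s ∂κ i j x, s ≠ 0 := by
    rw [ae_iff]
    simpa using xD1 0
  have z2 : ∀ᵐ s ∂κ j k x, s ≠ 0 := by
    rw [ae_iff]
    simpa using xD2 0
  obtain ⟨s, ⟨hs1, hs2⟩, hs3, hs0⟩ := (hB'.and (hC''.and z1)).exists
  obtain ⟨t, ht1, ⟨ht2, ht3⟩, ht0⟩ := (hs2.and (hs3.and z2)).exists
  have e1 : κ i k (act (uu j k t) (act (uu i j s) x)) = κ i k x := by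
    rw [P3 _ hs1.2.2.1 t ht1.2.2.1, P1 x xA.1 s hs1.1]
  have e2 : κ i k (act (uu i j s) (act (uu j k t) x)) = κ i k x := by
    rw [P1 _ ht2.1 s ht3.1, P3 x xA.2.2.1 t ht2.2.2.1]
  have e3 : act (uu j k t) (act (uu i j s) x)
      = act (uu i k (s * t)) (act (uu i j s) (act (uu j k t) x)) := by
    rw [act_act, act_act, act_act, RHE_comm hij hjk hik, mul_assoc]
  have h5 := P5 _ ht3.2.2.2.2 (s * t) (e3 ▸ ht1.2.2.2.2)
  rw [← e3, e1, e2] at h5
  exact ⟨s * t, mul_ne_zero hs0 ht0, (hStbQ.2.1 _ _ (L3.fin x) h5.1).2 h5.2.symm⟩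


end TP
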