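import Vale.Agent.P007.RStm

noncomputable section
namespace TP
open MeasureTheory Filter Set ProbabilityTheory
open Vale.Agent.P007 (X lattice act Gam proj IsInvariantProb Equidistributes)
open scoped Classical Topology ENNReal

theorem RINV_null {Ω : Type*} [MeasurableSpace Ω] {μ : Measure Ω} [IsFiniteMeasure μ]
    {A : ℕ → Set Ω} (hm : ∀ m, MeasurableSet (A m)) (ha : Antitone A)
    (hle : ∀ m, μ (A m) ≤ μ (A (m + 1))) (h0 : μ (⋂ m, A m) = 0) : μ (A 0) = 0 := by
  have h1 := tendsto_measure_iInter_atTop (μ := μ) (fun m => (hm m).nullMeasurableSet) ha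
    ⟨0, measure_ne_top _ _⟩
  rw [h0] at h1
  have h2 : ∀ m, μ (A 0) ≤ μ (A m) := fun m => monotone_nat_of_le_succ hle (Nat.zero_le m)
  exact le_antisymm (ge_of_tendsto' h1 h2) (zero_le)

theorem RINV_sq {Ω : Type*} [MeasurableSpace Ω] {μ : Measure Ω} [IsFiniteMeasure μ] {T : Ω → Ω}
    (hT : MeasurePreserving T μ μ) {f : Ω → ℝ≥0∞} (hf : Measurable f) (hfin : ∀ x, f x ≠ ∞)
    (hsq : ∀ᵐ x ∂μ, f (T x) = f x * f x) : ∀ᵐ x ∂μ, f x ≤ 1 := by
  have key : ∀ b : ℝ, 1 < b → ∀ᵐ x ∂μ, (f x).toReal < b := fun b hb => by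
    have hm : ∀ m : ℕ, MeasurableSet {x | b ^ (2 ^ m) ≤ (f x).toReal} := fun m =>
      measurableSet_le measurable_const hf.ennreal_toReal
    have := RINV_null (μ := μ) hm (fun m m' h x hx => le_trans
      (pow_le_pow_right₀ hb.le (Nat.pow_le_pow_right (by norm_num) h)) hx) (fun m => ?_) ?_
    · rw [ae_iff]
      simpa using this
    · rw [← hT.measure_preimage (hm (m + 1)).nullMeasurableSet]
      refine measure_mono_ae ?_
      filter_upwards [hsq] with x hx h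
      change b ^ (2 ^ (m + 1)) ≤ (f (T x)).toReal
      change b ^ (2 ^ m) ≤ (f x).toReal at h
      rw [hx, ENNReal.toReal_mul, pow_succ, pow_mul, sq]
      exact mul_self_le_mul_self (by positivity) h
    · have : ⋂ m : ℕ, {x | b ^ (2 ^ m) ≤ (f x).toReal} = ∅ := by
        refine eq_empty_of_forall_notMem fun x hx => ?_
        obtain ⟨m, hm⟩ := pow_unbounded_of_one_lt (f x).toReal hb
        have h1 : b ^ (2 ^ m) ≤ (f x).toReal := mem_iInter.1 hx m
        have h2 : b ^ m ≤ b ^ (2 ^ m) := pow_le_pow_right₀ hb.le Nat.lt_two_pow_self.le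
        linarith
      rw [this, measure_empty]
  have h2 := ae_all_iff.2 fun k : ℕ => key (1 + 1 / ((k : ℝ) + 1))
    (lt_add_of_pos_right _ (by positivity))
  filter_upwards [h2] with x hx
  rw [← ENNReal.toReal_le_toReal (hfin x) ENNReal.one_ne_top, ENNReal.toReal_one]
  refine le_of_forall_pos_le_add fun ε hε => ?_
  obtain ⟨k, hk⟩ := exists_nat_one_div_lt hε
  linarith [hx k]

theorem RINV_map (κ : Measure ℝ) (s a b : ℝ) :
    κ.map (· - s) (Icc a b) = κ (Icc (a + s) (b + s)) := by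
  rw [Measure.map_apply (by fun_prop) measurableSet_Icc, preimage_sub_const_Icc]

theorem RINV_shift {κ : Measure ℝ} (h1 : κ (Icc (-1) 1) = 1) {s : ℝ} (hs : s ∈ Stb κ) :
    κ.map (· - s) = κ (Icc (s - 1) (s + 1)) • κ := by
  obtain ⟨a, -, -, ha⟩ := hs
  have := RINV_map κ s (-1) 1
  rw [ha, Measure.smul_apply, h1, smul_eq_mul, mul_one] at this
  rw [ha, this]
  congr 3 <;> ring

theorem RINV_int {κ : Measure ℝ} (h1 : κ (Icc (-1) 1) = 1) {s : ℝ} (hs : s ∈ Stb κ) (a b : ℝ) :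
    κ (Icc (a + s) (b + s)) = κ (Icc (s - 1) (s + 1)) * κ (Icc a b) := by
  rw [← RINV_map, RINV_shift h1 hs, Measure.smul_apply, smul_eq_mul]

theorem RINV_half {κ κ' : Measure ℝ} {a : ℝ≥0∞} (h1 : κ (Icc (-1) 1) = 1)
    (h1' : κ' (Icc (-1) 1) = 1) (h : κ' = a • κ.map ((1 / 2 : ℝ) * ·)) {s : ℝ} (hs : s ∈ Stb κ) :
    κ' (Icc (s - 1) (s + 1)) = κ (Icc (s - 1) (s + 1)) * κ (Icc (s - 1) (s + 1)) := by
  have e : ∀ p q : ℝ, κ' (Icc p q) = a * κ (Icc (2 * p) (2 * q)) := fun p q => by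
    rw [h, Measure.smul_apply, smul_eq_mul, Measure.map_apply (by fun_prop) measurableSet_Icc]
    congr 2
    ext r
    simp only [mem_preimage, mem_Icc]
    constructor <;> rintro ⟨h2, h3⟩ <;> constructor <;> linarith
  rw [e] at h1'
  rw [e, show 2 * (s - 1) = 2 * -1 + s + s by ring, show 2 * (s + 1) = 2 * 1 + s + s by ring,
    RINV_int h1 hs, RINV_int h1 hs]
  calc _ = κ (Icc (s - 1) (s + 1)) * κ (Icc (s - 1) (s + 1)) * (a * κ (Icc (2 * -1) (2 * 1))) := by
        ring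
    _ = _ := by rw [h1', mul_one]

theorem RINV_inv {κ : Measure ℝ} (h1 : κ (Icc (-1) 1) = 1) {s : ℝ} (hs : s ∈ Stb κ)
    (hp : κ (Icc (s - 1) (s + 1)) ≤ 1) (hn : κ (Icc (-s - 1) (-s + 1)) ≤ 1) :
    κ.map (· - s) = κ := by
  have e := RINV_int h1 hs (-s - 1) (-s + 1)
  rw [show -s - 1 + s = -1 by ring, show -s + 1 + s = 1 by ring, h1] at e
  have : κ (Icc (s - 1) (s + 1)) = 1 := by
    refine le_antisymm hp ?_
    calc 1 = _ := e
      _ ≤ κ (Icc (s - 1) (s + 1)) * 1 := by gcongr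
      _ = _ := mul_one _
  rw [RINV_shift h1 hs, this, one_smul]

theorem RINV_all (hStbP : StbP) {κ : Measure ℝ} (hf : IsFiniteMeasureOnCompacts κ) (h0 : κ ≠ 0)
    (h : ∀ k : ℕ, ∃ r, r ≠ 0 ∧ |r| ≤ 1 / ((k : ℝ) + 1) ∧ r ∈ Stb κ) (s : ℝ) : s ∈ Stb κ := by
  obtain ⟨hc, hz, ha, hn⟩ := hStbP.1 κ hf h0
  let S : AddSubgroup ℝ :=
    { carrier := Stb κ
      add_mem' := fun {a b} h1 h2 => ha a h1 b h2
      zero_mem' := hz
      neg_mem' := fun {a} h1 => hn a h1 }
  have hd : Dense (S : Set ℝ) := by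
    refine S.dense_of_not_isolated_zero fun ε hε => ?_
    obtain ⟨k, hk⟩ := exists_nat_one_div_lt hε
    obtain ⟨r, r0, r1, r2⟩ := h k
    refine ⟨|r|, ?_, abs_pos.2 r0, r1.trans_lt hk⟩
    rcases abs_choice r with h1 | h1 <;> rw [h1]
    · exact r2
    · exact hn r r2
  have : s ∈ closure (Stb κ) := hd s
  rwa [hc.closure_eq] at this

theorem RINV_ae (hStbP : StbP) (hStbQ : StbQ) {n : ℕ} {μ : Measure (X n)} {i j : Fin n}
    {κ : X n → Measure ℝ} [IsProbabilityMeasure μ] (hA : AInv μ) (hij : i ≠ j) (H : LW μ i j κ)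
    (hST : ∀ᵐ x ∂μ, ST (κ x)) (s : ℝ) : ∀ᵐ x ∂μ, (κ x).map (· - s) = κ x := by
  have h0 : ∀ x, κ x ≠ 0 := fun x h => by
    have := H.one x
    rw [h] at this
    simp at this
  set t : Fin n → ℝ := Pi.single i (Real.log 2) with ht
  have hT := hA t
  have hsc := H.scale t
  have e : Real.exp (t j - t i) = 1 / 2 := by
    rw [ht, Pi.single_eq_of_ne hij.symm, Pi.single_eq_same, zero_sub, Real.exp_neg,
      Real.exp_log two_pos, one_div]
  rw [e] at hsc
  have hQ := fun x => hStbQ.1 (κ x) (1 / 2) (H.fin x) (H.pos x) (by norm_num)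
  have hZ := (hStbP.2 _ κ H.meas H.fin h0).2
  have s1 : ∀ b : ℝ, 0 < b → ∀ᵐ x ∂μ, ∃ r, r ≠ 0 ∧ |r| ≤ b ∧ r ∈ Stb (κ x) := fun b hb => by
    have := RINV_null (μ := μ) (fun m : ℕ => (hZ (2 ^ m * b)).compl) ?_ (fun m => ?_) ?_
    · rw [pow_zero, one_mul] at this
      exact this
    · intro m m' h x hx ⟨r, r0, r1, r2⟩
      exact hx ⟨r, r0, r1.trans (by gcongr; norm_num), r2⟩
    · rw [← hT.measure_preimage (hZ _).compl.nullMeasurableSet]
      refine measure_mono_ae ?_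
      filter_upwards [hsc] with x hx h ⟨r, r0, r1, r2⟩
      refine h ⟨1 / 2 * r, by positivity, ?_, ?_⟩
      · rw [abs_mul, abs_of_pos (by norm_num : (0 : ℝ) < 1 / 2)]
        rw [pow_succ] at r1
        linarith
      · rw [hx]
        exact ((hQ x).2.1 r).2 r2
    · refine measure_mono_null ?_ (ae_iff.1 hST)
      rintro x hx ⟨r, r0, r2⟩
      obtain ⟨m, hm⟩ := pow_unbounded_of_one_lt (|r| / b) (one_lt_two (α := ℝ))
      exact mem_iInter.1 hx m ⟨r, r0, ((div_lt_iff₀ hb).1 hm).le, r2⟩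
  have s2 : ∀ᵐ x ∂μ, ∀ s, s ∈ Stb (κ x) := by
    filter_upwards [ae_all_iff.2 fun k : ℕ => s1 (1 / ((k : ℝ) + 1)) (by positivity)] with x hx
    exact RINV_all hStbP (H.fin x) (h0 x) hx
  have s3 : ∀ s : ℝ, ∀ᵐ x ∂μ, κ x (Icc (s - 1) (s + 1)) ≤ 1 := fun s => by
    refine RINV_sq hT (f := fun x => κ x (Icc (s - 1) (s + 1)))
      ((Measure.measurable_coe measurableSet_Icc).comp H.meas) (fun x => ?_) ?_
    · have := H.fin x
      exact isCompact_Icc.measure_lt_top.ne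
    · filter_upwards [hsc, s2] with x hx hx2
      obtain ⟨a, -, -, ha⟩ := (hQ x).1
      exact RINV_half (H.one x) (H.one _) (hx.trans ha) (hx2 s)
  filter_upwards [s2, s3 s, s3 (-s)] with x h1 h2 h3
  exact RINV_inv (H.one x) (h1 s) h2 h3

theorem s_INV (hLWX : LWX) (hStbP : StbP) (hStbQ : StbQ) : INV := by
  intro n μ i j κ hp hA hij H hST s
  have hinv := RINV_ae hStbP hStbQ hA hij H hST s
  have hL := (hLWX n μ i j κ H).1
  refine ⟨measurable_act _, Measure.ext fun E hE => ?_⟩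
  set f : X n → ℝ≥0∞ := E.indicator 1 with hf
  set φ : ℝ → ℝ≥0∞ := (Icc (-1 : ℝ) 1).indicator 1 with hφ
  have mf : Measurable f := measurable_one.indicator hE
  have mφ : Measurable φ := measurable_one.indicator measurableSet_Icc
  have iφ : ∀ x, ∫⁻ r, φ r ∂κ x = 1 := fun x => by
    rw [hφ, lintegral_indicator_one measurableSet_Icc, H.one]
  have h1 := hL (fun x r => f (act (uu i j s) x) * φ r)
    (((mf.comp (measurable_act _)).comp measurable_fst).mul (mφ.comp measurable_snd))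
  have h2 := hL (fun x r => f x * φ (r + s))
    ((mf.comp measurable_fst).mul (mφ.comp (measurable_snd.add_const s)))
  have l1 : ∫⁻ x, ∫⁻ r, f (act (uu i j s) x) * φ r ∂κ x ∂μ = μ.map (act (uu i j s)) E := by
    rw [← lintegral_indicator_one hE, lintegral_map mf (measurable_act _)]
    refine lintegral_congr fun x => ?_
    rw [lintegral_const_mul _ mφ, iφ, mul_one]
  have l2 : ∫⁻ x, ∫⁻ r, f x * φ (r + s) ∂κ x ∂μ = μ E := by
    rw [← lintegral_indicator_one hE]
    refine lintegral_congr_ae ?_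
    filter_upwards [hinv] with x hx
    rw [← hx, (measurableEmbedding_subRight s).lintegral_map]
    simp only [sub_add_cancel]
    rw [lintegral_const_mul _ mφ, iφ, mul_one]
  rw [← l1, ← l2, h1, h2]
  refine lintegral_congr_ae ?_
  filter_upwards [hinv] with x hx
  have e : ∀ r, κ x (Icc (r - s - 1) (r - s + 1)) = κ x (Icc (r - 1) (r + 1)) := fun r => by
    rw [← hx, RINV_map, hx]
    congr 2 <;> ring
  calc _ = ∫⁻ r, f (act (uu i j s) (act (uu i j r) x)) * φ (-r) *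
        (κ x (Icc (r - 1) (r + 1)))⁻¹ ∂(κ x).map (· - s) := by rw [hx]
    _ = _ := by
      rw [(measurableEmbedding_subRight s).lintegral_map]
      refine lintegral_congr fun r => ?_
      rw [e, act_act, ← uu_add, sub_add_cancel, show -(r - s) = -r + s by ring]

end TP
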