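import Vale.Agent.P007.RStm

noncomputable section
namespace TP
open MeasureTheory Filter Set ProbabilityTheory
open Vale.Agent.P007 (X lattice act Gam proj IsInvariantProb Equidistributes)
open scoped Classical Topology ENNReal

theorem RLE_lm {n : ℕ} {a b : Fin n} (hab : a ≠ b) {c : ℕ → G n} (h : Tendsto c atTop (𝓝 1)) :
    Tendsto (fun k => lm a b (c k) 0) atTop (𝓝 0) := by
  have e := @continuous_entry n
  have h1 : Continuous fun g : G n => lm a b g 0 := by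
    refine ((e a a).sub (e b b)).abs.max (continuous_const.mul ((e b a).abs.sqrt.max
      (continuous_pi fun k => ?_).norm))
    split_ifs
    · exact continuous_const
    · exact (e k a).abs.max (e b k).abs
  have h2 : lm a b (1 : G n) 0 = 0 := by
    have : (fun k => if k = a ∨ k = b then (0 : ℝ)
        else max |(1 : G n).1 k a| |(1 : G n).1 b k|) = 0 := funext fun k => by
      split_ifs with h3
      · rfl
      · rw [not_or] at h3
        simp [Matrix.one_apply_ne h3.1, Matrix.one_apply_ne' h3.2]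
    rw [lm, this]
    simp [Matrix.one_apply_ne' hab]
  exact h2 ▸ (h1.tendsto 1).comp h

theorem RLE_t {n : ℕ} (hn : 3 ≤ n) (a b : Fin n) : ∃ t : Fin n → ℝ, t a = 0 ∧ t b = 0 ∧
    (∀ i j, t i = t j → i = j ∨ ((i = a ∨ i = b) ∧ (j = a ∨ j = b))) ∧ 0 < (∑ i, t i) / n := by
  refine ⟨fun i => if i = a ∨ i = b then 0 else (i : ℕ) + 1, by simp, by simp, fun i j h => ?_, ?_⟩
  · have h1 := (i : ℕ).cast_nonneg (α := ℝ)
    have h2 := (j : ℕ).cast_nonneg (α := ℝ)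
    beta_reduce at h
    split_ifs at h with h3 h4 h4
    · exact Or.inr ⟨h3, h4⟩
    · linarith
    · linarith
    · exact Or.inl (Fin.ext (by exact_mod_cast add_right_cancel h))
  · obtain ⟨k, hk⟩ : ∃ k, k ∉ ({a, b} : Finset (Fin n)) := by
      by_contra h
      push Not at h
      have := (Finset.card_le_card fun k (_ : k ∈ Finset.univ) => h k).trans Finset.card_le_two
      rw [Finset.card_univ, Fintype.card_fin] at this
      omega
    refine div_pos (Finset.sum_pos' (fun i _ => by split_ifs <;> positivity)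
      ⟨k, Finset.mem_univ _, ?_⟩) (by exact_mod_cast (by omega : 0 < n))
    rw [if_neg (by simpa using hk)]
    positivity

theorem RLE_uu {n : ℕ} {a b : Fin n} (hab : a ≠ b) {R : Fin n → Fin n → Prop} {v : G n}
    (hv : InN (PhiAB a b) v) (h1 : ∀ k, k ≠ a → k ≠ b → ¬ R a k ∧ ¬ R k b)
    (h2 : ∀ i j, i ≠ j → ¬ R i j → v.1 i j = 0) : v = uu a b (v.1 a b) := by
  refine Subtype.ext (Matrix.ext fun i j => ?_)
  rw [uu_coe hab, Matrix.add_apply, Matrix.single_apply]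
  split_ifs with h
  · rw [← h.1, ← h.2, Matrix.one_apply_ne hab, zero_add]
  rcases eq_or_ne i j with rfl | h3
  · rw [hv.1, Matrix.one_apply_eq, add_zero]
  rw [Matrix.one_apply_ne h3, add_zero]
  by_cases h4 : PhiAB a b i j
  · rcases h4 with ⟨rfl, h4⟩ | ⟨rfl, h4⟩
    · exact h2 _ _ h3 (h1 j h4 fun h5 => h ⟨rfl, h5.symm⟩).1
    · exact h2 _ _ h3 (h1 i (fun h5 => h ⟨h5.symm, rfl⟩) h4).2
  · exact hv.2 i j h3 h4

theorem RLE_fq (hFreq : Freq) {Ω : Type} [MeasurableSpace Ω] {μ : Measure Ω} [IsFiniteMeasure μ]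
    {T : Ω → Ω} (hT : MeasurePreserving T μ μ) {B : Set Ω} (hB : MeasurableSet B) {c : ℝ}
    (hc : 0 < c) (h : μ B ≤ ENNReal.ofReal (c / 10)) :
    MeasurableSet (Fq T B c) ∧ μ (Fq T B c) ≤ ENNReal.ofReal (1 / 10) := by
  obtain ⟨h1, h2⟩ := hFreq Ω μ T B c inferInstance hT hB hc
  refine ⟨h1, (ENNReal.mul_le_mul_iff_right (ENNReal.ofReal_pos.2 hc).ne' ENNReal.ofReal_ne_top).1
    ((h2.trans h).trans_eq ?_)⟩
  rw [← ENNReal.ofReal_mul hc.le, mul_one_div]

theorem RLE_sc {n : ℕ} {μ : Measure (X n)} {a b : Fin n} {k : X n → Measure ℝ} (hab : a ≠ b)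
    (hA : AInv μ) (L : LW μ a b k) {t : Fin n → ℝ} (ha : t a = 0) (hb : t b = 0) :
    ∀ᵐ x ∂μ, (∀ m : ℕ, k (act (dA (tA a b) ^ (m + 1)) x)
      = sc (1 / 4) (k (act (dA (tA a b) ^ m) x))) ∧ ∀ m : ℕ, k (act (dA t ^ m) x) = k x := by
  refine (ae_all_iff.2 fun m => ?_).and (ae_all_iff.2 fun m => ?_)
  · have e : Real.exp (tA a b b - tA a b a) = 1 / 4 := by
      rw [tA, tA, if_neg hab.symm, if_pos rfl, if_pos rfl, Real.exp_sub, Real.exp_neg,
        Real.exp_log two_pos]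
      norm_num
    have := (hA ((m : ℝ) • tA a b)).quasiMeasurePreserving.ae (L.scale (tA a b))
    simpa only [dA_nsmul, act_act, e, ← pow_succ] using this
  · refine (L.scale ((m : ℝ) • t)).mono fun x hx => ?_
    rw [← dA_nsmul, hx]
    simp [sc, nrm, ha, hb, L.one x]

theorem s_LE (hStbP : StbP) (hStbQ : StbQ) (hLus : Lus) (hFreq : Freq) (hRec : Rec) (hNA : NA)
    (hRelP : RelP) (hSL : SL) (hMaxL : MaxL) (hER : ER) (hLEa : LEa) (hLEb : LEb) (hLEc : LEc) :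
    LE := by
  intro n μ κ a b hn hS hP hR hk
  have hab := hR.1
  have hμ := hS.prob
  refine ((hP a b hab).2).elim id fun hns => False.elim ?_
  have L := hS.lw a b hab
  have hnt := hR.2
  generalize κ a b = k at L hns hnt
  obtain ⟨η, Z2, η0, η1, mZ2, hZ2, hZ2'⟩ := hLEc _ μ k (ENNReal.ofReal (1 / 100 / 10)) inferInstance
    L.meas L.one (hNA n μ a b k hμ hS.ainv hab L hnt) (by simp)
  obtain ⟨S₀, f0, hc⟩ := L.coc
  obtain ⟨S₁, f1, hs⟩ := hSL n μ (Rel μ κ) (PhiAB a b) hμ hS.ainv (hRelP n μ κ hS hP)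
    (fun i h => h.elim (fun h => h.2 h.1) fun h => h.2 h.1) fun i j l h1 h2 => by
      rcases h1 with ⟨rfl, h1⟩ | ⟨rfl, h1⟩ <;> rcases h2 with ⟨h2, h3⟩ | ⟨h2, h3⟩
      · exact absurd h2 h1
      · exact Or.inl ⟨rfl, h2 ▸ hab.symm⟩
      · exact absurd h2 hab.symm
      · exact absurd rfl h3
  have m2 := (hStbP.2 _ k L.meas L.fin fun x h => by simpa [h] using L.one x).1
  obtain ⟨C, hC⟩ := hMaxL
  obtain ⟨K, cK, sK, hK, cF⟩ := hLus n μ (fun x => code (k x)) (S₀ ∩ S₁ ∩ {x | ST (k x)}ᶜ)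
    (ENNReal.ofReal (1 / (100 * (C + 1)))) inferInstance (hStbQ.2.2.2.2 _ k L.meas).1
    ⟨(f0.1.inter f1.1).inter m2.compl, by
      rw [compl_inter, compl_inter]
      exact measure_union_null (measure_union_null f0.2 f1.2) hns⟩
    (ENNReal.ofReal_pos.2 (by positivity)).ne'
  obtain ⟨Z, mZ, hZ, hZ'⟩ := hC n μ a b k Kᶜ hμ L cK.measurableSet.compl
  have hZ1 : μ (Z ∩ S₀)ᶜ ≤ ENNReal.ofReal (1 / 10 / 10) := by
    rw [compl_inter]
    refine (measure_union_le _ _).trans ?_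
    rw [f0.2, add_zero]
    refine hZ.trans ((mul_le_mul_right hK _).trans ?_)
    rw [← ENNReal.ofReal_natCast, ← ENNReal.ofReal_mul C.cast_nonneg]
    refine ENNReal.ofReal_le_ofReal ?_
    rw [mul_one_div, div_le_iff₀ (by positivity)]
    linarith
  obtain ⟨q1, q2⟩ := RLE_fq hFreq (hS.ainv (tA a b)) (mZ.inter f0.1).compl (by norm_num) hZ1
  obtain ⟨q3, q4⟩ := RLE_fq hFreq (hS.ainv (tA a b)) mZ2.compl (by norm_num) hZ2
  obtain ⟨t, ta, tb, t1, t2⟩ := RLE_t hn a b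
  obtain ⟨N, sN, mN, hN⟩ := exists_measurable_superset_of_null
    (ae_iff.1 (RLE_sc hab hS.ainv L ta tb))
  have hN' := fun x (hx : x ∉ N) => not_not.1 fun h => hx (sN h)
  obtain ⟨x, hx, hr⟩ : ∃ x, x ∈ (Fq (act (dA (tA a b))) (Z ∩ S₀)ᶜ (1 / 10) ∪
      Fq (act (dA (tA a b))) Z2ᶜ (1 / 100) ∪ N)ᶜ ∧ Ret (dA t) (fun c => act c x ∈
        (Fq (act (dA (tA a b))) (Z ∩ S₀)ᶜ (1 / 10) ∪
          Fq (act (dA (tA a b))) Z2ᶜ (1 / 100) ∪ N)ᶜ) x := by
    have mW := ((q1.union q3).union mN).compl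
    refine Measure.exists_mem_of_measure_ne_zero_of_ae (fun h0 => ?_)
      ((ae_restrict_iff' mW).2 (hRec n μ _ _ inferInstance (hS.ainv t) mW))
    rw [prob_compl_eq_zero_iff ((q1.union q3).union mN)] at h0
    have h1 := h0.ge.trans ((measure_union_le _ _).trans (add_le_add
      ((measure_union_le _ _).trans (add_le_add q2 q4)) hN.le))
    rw [add_zero, ← ENNReal.ofReal_add (by norm_num) (by norm_num), ENNReal.one_le_ofReal] at h1
    norm_num at h1
  obtain ⟨p, c, hp, c1, hr⟩ := hr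
  simp only [mem_compl_iff, mem_union, not_or] at hx hr
  have e1 : ∀ᶠ l in atTop, lm a b (c l) 0 ≠ 0 := by
    by_contra h
    obtain ⟨φ, h1, h2⟩ := extraction_of_frequently_atTop (not_eventually.1 h)
    exact hER n x a b t hab (ta.trans tb.symm) t1 (ta ▸ t2) ⟨p ∘ φ, c ∘ φ,
      hp.comp h1.tendsto_atTop, c1.comp h1.tendsto_atTop, fun l => ⟨not_not.1 (h2 l), (hr _).2⟩⟩
  obtain ⟨ψ, ψ1, ψ2⟩ := extraction_of_eventually_atTop (e1.and
    ((RLE_lm hab c1).eventually_le_const (show (0 : ℝ) < 1 / 4 ^ 10 by norm_num)))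
  choose m ρ r d1 d2 d3 d4 d5 d6 using fun l => hLEb n a b η k K (Z ∩ S₀) Z2 x (c (ψ l)) hab η0
    L.fin L.one L.pos (fun z hz => hZ' z hz.1) hZ2' (by
      rintro y (rfl | rfl)
      · exact ⟨hx.1.1, (hN' _ hx.2).1⟩
      · exact ⟨(hr _).1.1.1, (hN' _ (hr _).1.2).1⟩) hx.1.2
    (by rw [← (hr _).2, (hN' _ hx.2).2])
    (((abs_nonneg _).trans (le_max_left _ _)).lt_of_ne' (ψ2 l).1) (ψ2 l).2
  obtain ⟨φ, v, -, v1, v2, v3⟩ := hLEa n a b η (fun l => c (ψ l)) m ρ r hab η0 η1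
    (c1.comp ψ1.tendsto_atTop) d1
  obtain ⟨z, hz, χ, χ1, χ2⟩ := cK.tendsto_subseq fun l => d5 (φ l)
  have lim : Tendsto (fun l => act (uu a b (r (φ (χ l)))) (act (dA (tA a b) ^ m (φ (χ l)))
      (act (c (ψ (φ (χ l)))) x))) atTop (𝓝 (act v z)) := by
    refine (tendsto_act (v3.comp χ1.tendsto_atTop) χ2).congr fun l => ?_
    simp only [Function.comp_apply, act_act]
    congr 1
    group
  have hz' : act v z ∈ K := cK.isClosed.mem_of_tendsto lim (Eventually.of_forall fun l => d6 _)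
  have e2 : k (act v z) = k z := by
    refine hStbQ.2.2.2.1 _ _ (L.fin _) (L.fin _) (tendsto_nhds_unique
      ((cF _ hz').tendsto.comp (tendsto_nhdsWithin_iff.2 ⟨lim, Eventually.of_forall fun l => d6 _⟩))
      (((cF _ hz).tendsto.comp (tendsto_nhdsWithin_iff.2
        ⟨χ2, Eventually.of_forall fun l => d5 _⟩)).congr fun l => ?_))
    simp only [Function.comp_apply]
    rw [(hc _ (d2 _).2 _ (sK (d5 _)).1.1).2, (hc _ (d3 _).2 _ (sK (d6 _)).1.1).2, d4]
  have e3 := RLE_uu hab v1 hk (hs z (sK hz).1.2 v v1 (sK hz').1.2)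
  rw [e3] at hz' e2
  obtain ⟨h1, h2⟩ := hc z (sK hz).1.1 _ (sK hz').1.1
  refine (sK hz).2 ⟨_, fun h => v2 ?_, (hStbQ.2.1 _ _ (L.fin z) h1).2 (h2.symm.trans e2)⟩
  rw [e3, h, uu_zero]

end TP
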