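import Vale.Agent.P007.RStm

noncomputable section
namespace TP
open MeasureTheory Filter Set ProbabilityTheory
open Vale.Agent.P007 (X lattice act Gam proj IsInvariantProb Equidistributes)
open scoped Classical Topology ENNReal

variable {n : ℕ}

/-- The off block norm in the rate of divergence. -/
def RLEa_N (a b : Fin n) (h : G n) : ℝ :=
  ‖fun k => if k = a ∨ k = b then (0 : ℝ) else max |h.1 k a| |h.1 b k|‖

theorem RLEa_lm (a b : Fin n) (h : G n) (m : ℕ) : lm a b h m =
    max |h.1 a a - h.1 b b| (2 ^ m * max (√|h.1 b a|) (RLEa_N a b h)) := rfl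

theorem RLEa_N_ge (a b : Fin n) (h : G n) {k : Fin n} (ha : k ≠ a) (hb : k ≠ b) :
    |h.1 k a| ≤ RLEa_N a b h ∧ |h.1 b k| ≤ RLEa_N a b h := by
  have h1 := norm_le_pi_norm
    (fun k => if k = a ∨ k = b then (0 : ℝ) else max |h.1 k a| |h.1 b k|) k
  rw [if_neg (by simp [ha, hb]), Real.norm_eq_abs] at h1
  have h2 := (le_abs_self _).trans h1
  exact ⟨(le_max_left _ _).trans h2, (le_max_right _ _).trans h2⟩

theorem RLEa_N_le (a b : Fin n) (h : G n) {c : ℝ} (hc : 0 ≤ c)
    (hk : ∀ k, k ≠ a → k ≠ b → |h.1 k a| ≤ c ∧ |h.1 b k| ≤ c) : RLEa_N a b h ≤ c := by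
  refine (pi_norm_le_iff_of_nonneg hc).2 fun k => ?_
  by_cases h1 : k = a ∨ k = b
  · simp only [if_pos h1, norm_zero, hc]
  · rw [if_neg h1, Real.norm_eq_abs, abs_of_nonneg (le_max_of_le_left (abs_nonneg _))]
    push Not at h1
    exact max_le (hk k h1.1 h1.2).1 (hk k h1.1 h1.2).2

theorem RLEa_d_le (a b : Fin n) (h : G n) (m : ℕ) : |h.1 a a - h.1 b b| ≤ lm a b h m :=
  le_max_left _ _

theorem RLEa_s_le (a b : Fin n) (h : G n) (m : ℕ) : 2 ^ m * √|h.1 b a| ≤ lm a b h m :=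
  (mul_le_mul_of_nonneg_left (le_max_left _ _) (by positivity)).trans (le_max_right _ _)

theorem RLEa_n_le (a b : Fin n) (h : G n) (m : ℕ) : 2 ^ m * RLEa_N a b h ≤ lm a b h m :=
  (mul_le_mul_of_nonneg_left (le_max_right _ _) (by positivity)).trans (le_max_right _ _)

theorem RLEa_four (m : ℕ) : (4 : ℝ) ^ m = 2 ^ m * 2 ^ m := by
  rw [← mul_pow]
  norm_num

theorem RLEa_e (x : ℝ) (m : ℕ) : |x * 4 ^ m| = (2 ^ m * √|x|) * (2 ^ m * √|x|) := by
  have := Real.mul_self_sqrt (abs_nonneg x)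
  rw [abs_mul, abs_of_pos (by positivity : (0 : ℝ) < 4 ^ m), RLEa_four]
  linear_combination (-(2 ^ m * 2 ^ m)) * this

/-- The rate tends to zero. -/
theorem RLEa_lm0 (a b : Fin n) (hab : a ≠ b) {h : ℕ → G n} (hh : Tendsto h atTop (𝓝 1)) :
    Tendsto (fun l => lm a b (h l) 0) atTop (𝓝 0) := by
  have hc : Continuous fun g : G n => lm a b g 0 := by
    unfold lm
    refine (((continuous_entry a a).sub (continuous_entry b b)).abs).max
      (continuous_const.mul (((continuous_entry b a).abs.sqrt).max (Continuous.norm ?_)))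
    refine continuous_pi fun k => ?_
    by_cases h1 : k = a ∨ k = b
    · simp only [if_pos h1]
      exact continuous_const
    · simp only [if_neg h1]
      exact (continuous_entry k a).abs.max (continuous_entry b k).abs
  have h0 : lm a b (1 : G n) 0 = 0 := by
    have h1 : RLEa_N a b (1 : G n) = 0 := by
      refine le_antisymm (RLEa_N_le a b 1 le_rfl fun k ha hb => ?_) (norm_nonneg _)
      simp [ha, hb.symm]
    rw [RLEa_lm, h1]
    simp [hab.symm]
  have := (hc.tendsto 1).comp hh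
  rwa [h0] at this

/-- The lower bound for the divergence. -/
theorem RLEa_low (a b : Fin n) (η : ℝ) (h : G n) (m : ℕ) (ρ r : ℝ) (hη : 0 < η) (hη1 : η ≤ 1)
    (D : Dv a b η h m ρ r)
    (h1 : |r * (h.1 a a - h.1 b b - r * (h.1 b a * 4 ^ m))| < η ^ 2 / 16)
    (h2 : ∀ k, k ≠ a → k ≠ b →
      |r * (h.1 k a * 2 ^ m)| < η ^ 2 / 16 ∧ |r * (h.1 b k * 2 ^ m)| < η ^ 2 / 16) : False := by
  obtain ⟨-, -, d3, -, d5, d6, d7⟩ := D
  have hl : 0 ≤ lm a b h m := (abs_nonneg _).trans (RLEa_d_le a b h m)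
  have hρ : 0 < ρ := by
    by_contra hρ
    have := mul_nonpos_of_nonpos_of_nonneg (not_lt.1 hρ) hl
    linarith
  have hr : 0 < |r| := (mul_pos hη hρ).trans_le d6
  have h2m : (0 : ℝ) < 2 ^ m := by positivity
  have hN : ρ * (2 ^ m * RLEa_N a b h) < 1 / 4 := by
    have h3 : RLEa_N a b h ≤ η ^ 2 / 16 / (|r| * 2 ^ m) := by
      refine RLEa_N_le a b h (by positivity) fun k ha hb => ?_
      obtain ⟨p, q⟩ := h2 k ha hb
      rw [abs_mul, abs_mul, abs_of_pos h2m] at p q
      constructor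
      · rw [le_div_iff₀ (by positivity)]
        linarith
      · rw [le_div_iff₀ (by positivity)]
        linarith
    rw [le_div_iff₀ (by positivity)] at h3
    have h4 : 0 ≤ RLEa_N a b h := norm_nonneg _
    have h5 : η * ρ * (2 ^ m * RLEa_N a b h) ≤ |r| * (2 ^ m * RLEa_N a b h) :=
      mul_le_mul_of_nonneg_right d6 (by positivity)
    have h6 : η * (ρ * (2 ^ m * RLEa_N a b h)) ≤ η * (η / 16) := by nlinarith
    have h7 := le_of_mul_le_mul_left h6 hη
    linarith
  have hS : ρ * (2 ^ m * √|h.1 b a|) < 1 / 4 := by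
    by_contra hS
    push Not at hS
    have he := RLEa_e (h.1 b a) m
    have h3 : 1 / 16 ≤ ρ * ρ * |h.1 b a * 4 ^ m| := by
      rw [he]
      nlinarith
    have h4 : h.1 b a * 4 ^ m ≠ 0 := by
      intro h5
      rw [h5, abs_zero] at h3
      linarith
    have h5 : r * (h.1 a a - h.1 b b - r * (h.1 b a * 4 ^ m)) =
        -(r * (h.1 b a * 4 ^ m) * (r - (h.1 a a - h.1 b b) / (4 ^ m * h.1 b a))) := by
      have h6 : 4 ^ m * h.1 b a ≠ 0 := by rwa [mul_comm]
      have h7 : h.1 b a ≠ 0 := right_ne_zero_of_mul h6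
      field_simp
      ring
    rw [h5, abs_neg, abs_mul, abs_mul r] at h1
    have h6 : η * ρ * |h.1 b a * 4 ^ m| * (η * ρ) ≤ |r| * |h.1 b a * 4 ^ m| *
        |r - (h.1 a a - h.1 b b) / (4 ^ m * h.1 b a)| :=
      mul_le_mul (mul_le_mul_of_nonneg_right d6 (abs_nonneg _)) d7 (by positivity) (by positivity)
    have h7 : η ^ 2 * (1 / 16) ≤ η ^ 2 * (ρ * ρ * |h.1 b a * 4 ^ m|) :=
      mul_le_mul_of_nonneg_left h3 (by positivity)
    nlinarith
  have hD : 1 / 4 ≤ ρ * |h.1 a a - h.1 b b| := by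
    rw [RLEa_lm] at d3
    rcases le_total |h.1 a a - h.1 b b| (2 ^ m * max (√|h.1 b a|) (RLEa_N a b h)) with h3 | h3
    · rw [max_eq_right h3] at d3
      rcases le_total (√|h.1 b a|) (RLEa_N a b h) with h4 | h4
      · rw [max_eq_right h4] at d3
        linarith
      · rw [max_eq_left h4] at d3
        linarith
    · rwa [max_eq_left h3] at d3
  have he := RLEa_e (h.1 b a) m
  have hs0 : 0 ≤ ρ * (2 ^ m * √|h.1 b a|) := by positivity
  have h3 : ρ * ρ * |h.1 b a * 4 ^ m| ≤ 1 / 16 := by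
    rw [he]
    nlinarith
  have h4 : |h.1 a a - h.1 b b| - |r| * |h.1 b a * 4 ^ m| ≤
      |h.1 a a - h.1 b b - r * (h.1 b a * 4 ^ m)| := by
    rw [← abs_mul]
    exact abs_sub_abs_le_abs_sub _ _
  have h5 : ρ * (|r| * |h.1 b a * 4 ^ m|) ≤ ρ * (ρ * |h.1 b a * 4 ^ m|) :=
    mul_le_mul_of_nonneg_left (mul_le_mul_of_nonneg_right d5 (abs_nonneg _)) hρ.le
  have h6 : 3 / 16 ≤ ρ * |h.1 a a - h.1 b b - r * (h.1 b a * 4 ^ m)| := by nlinarith
  rw [abs_mul] at h1
  have h7 : η * ρ * |h.1 a a - h.1 b b - r * (h.1 b a * 4 ^ m)| ≤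
      |r| * |h.1 a a - h.1 b b - r * (h.1 b a * 4 ^ m)| :=
    mul_le_mul_of_nonneg_right d6 (abs_nonneg _)
  nlinarith

/-- The scaling factor of an entry. -/
def RLEa_s (a b i j : Fin n) : ℝ := Real.exp (tA a b j - tA a b i)

theorem RLEa_conj (a b : Fin n) (h : G n) (m : ℕ) (i j : Fin n) :
    ((dA (tA a b) ^ m)⁻¹ * h * dA (tA a b) ^ m).1 i j = h.1 i j * RLEa_s a b i j ^ m := by
  rw [← dA_nsmul, dA_conj, RLEa_s, ← Real.exp_nat_mul]
  simp only [Pi.smul_apply, smul_eq_mul]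
  congr 2
  ring

theorem RLEa_s_ba {a b : Fin n} (hab : a ≠ b) : RLEa_s a b b a = 4 := by
  rw [RLEa_s, tA, tA, if_pos rfl, if_neg hab.symm, if_pos rfl, sub_neg_eq_add, Real.exp_add,
    Real.exp_log two_pos]
  norm_num

theorem RLEa_s_ka {a b k : Fin n} (ha : k ≠ a) (hb : k ≠ b) : RLEa_s a b k a = 2 := by
  rw [RLEa_s, tA, tA, if_pos rfl, if_neg ha, if_neg hb, sub_zero, Real.exp_log two_pos]

theorem RLEa_s_bk {a b k : Fin n} (hab : a ≠ b) (ha : k ≠ a) (hb : k ≠ b) :
    RLEa_s a b b k = 2 := by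
  rw [RLEa_s, tA, tA, if_neg ha, if_neg hb, if_neg hab.symm, if_pos rfl, sub_neg_eq_add, zero_add,
    Real.exp_log two_pos]

theorem RLEa_s_ii (a b i : Fin n) : RLEa_s a b i i = 1 := by
  rw [RLEa_s, sub_self, Real.exp_zero]

theorem RLEa_s_le_one {a b i j : Fin n} (hi : i ≠ b) (hj : j ≠ a) :
    RLEa_s a b i j ≤ 1 := by
  have h2 : 0 < Real.log 2 := Real.log_pos one_lt_two
  rw [RLEa_s, Real.exp_le_one_iff, tA, tA, if_neg hj, if_neg hi]
  split_ifs <;> linarith

theorem RLEa_two {x y : ℝ} {m : ℕ} (hy : 0 ≤ y) (h1 : x ≤ y) (h2 : 4 ^ m * y ≤ 1) :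
    2 ^ m * x ≤ √y := by
  refine (mul_le_mul_of_nonneg_left h1 (by positivity)).trans (Real.le_sqrt_of_sq_le ?_)
  rw [RLEa_four] at h2
  nlinarith

/-- The conjugated sequence still tends to one. -/
theorem RLEa_tend (a b : Fin n) (hab : a ≠ b) {h : ℕ → G n} {m : ℕ → ℕ}
    (hh : Tendsto h atTop (𝓝 1)) (hm : ∀ l, 4 ^ m l * lm a b (h l) 0 ≤ 1) :
    Tendsto (fun l => (dA (tA a b) ^ m l)⁻¹ * h l * dA (tA a b) ^ m l) atTop (𝓝 1) := by
  have h0 := RLEa_lm0 a b hab hh
  have hs : Tendsto (fun l => √(lm a b (h l) 0)) atTop (𝓝 0) := by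
    have := h0.sqrt
    rwa [Real.sqrt_zero] at this
  have hl : ∀ l, 0 ≤ lm a b (h l) 0 := fun l => (abs_nonneg _).trans (RLEa_d_le a b (h l) 0)
  refine tendsto_G.2 fun i j => ?_
  simp only [RLEa_conj]
  have he := tendsto_G.1 hh i j
  by_cases hij : i = j
  · subst hij
    simpa only [RLEa_s_ii, one_pow, mul_one] using he
  have h1 : (1 : G n).1 i j = 0 := by simp [hij]
  rw [h1] at he ⊢
  have h2m : ∀ l, (0 : ℝ) < 2 ^ m l := fun l => by positivity
  by_cases hi : i = b
  · subst hi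
    by_cases hj : j = a
    · subst hj
      rw [RLEa_s_ba hab]
      refine squeeze_zero_norm (fun l => ?_) h0
      rw [Real.norm_eq_abs, RLEa_e]
      have h3 := RLEa_s_le j i (h l) 0
      rw [pow_zero, one_mul] at h3
      have h4 := RLEa_two (hl l) h3 (hm l)
      exact (mul_self_le_mul_self (by positivity) h4).trans (Real.mul_self_sqrt (hl l)).le
    · rw [RLEa_s_bk hab hj (Ne.symm hij)]
      refine squeeze_zero_norm (fun l => ?_) hs
      rw [Real.norm_eq_abs, abs_mul, abs_of_pos (h2m l), mul_comm]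
      have h3 := RLEa_n_le a i (h l) 0
      rw [pow_zero, one_mul] at h3
      exact RLEa_two (hl l) ((RLEa_N_ge a i (h l) hj (Ne.symm hij)).2.trans h3) (hm l)
  · by_cases hj : j = a
    · subst hj
      rw [RLEa_s_ka hij hi]
      refine squeeze_zero_norm (fun l => ?_) hs
      rw [Real.norm_eq_abs, abs_mul, abs_of_pos (h2m l), mul_comm]
      have h3 := RLEa_n_le j b (h l) 0
      rw [pow_zero, one_mul] at h3
      exact RLEa_two (hl l) ((RLEa_N_ge j b (h l) hij hi).1.trans h3) (hm l)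
    · have h3 : 0 < RLEa_s a b i j := Real.exp_pos _
      have h4 := he.abs
      rw [abs_zero] at h4
      refine squeeze_zero_norm (fun l => ?_) h4
      rw [Real.norm_eq_abs, abs_mul, abs_of_pos (pow_pos h3 _)]
      exact mul_le_of_le_one_right (abs_nonneg _) (pow_le_one₀ h3.le (RLEa_s_le_one hi hj))

/-- The entries of the conjugate by a root element. -/
theorem RLEa_uu (a b : Fin n) (hab : a ≠ b) (g : G n) (r : ℝ) (i j : Fin n) :
    ((uu a b r)⁻¹ * g * uu a b r).1 i j = g.1 i j + ((if j = b then r * g.1 i a else 0)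
      - (if i = a then r * g.1 b j else 0) - if i = a ∧ j = b then r * (r * g.1 b a) else 0) := by
  rw [← uu_neg]
  change ((uu a b (-r)).1 * g.1 * (uu a b r).1) i j = _
  rw [uu_coe hab, uu_coe hab]
  simp only [Matrix.add_mul, Matrix.mul_add, Matrix.one_mul, Matrix.mul_one, Matrix.add_apply]
  by_cases hi : i = a
  · by_cases hj : j = b
    · subst hi hj
      simp only [Matrix.mul_single_apply_same, Matrix.single_mul_apply_same, if_true, and_self]
      ring
    · subst hi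
      simp only [Matrix.mul_single_apply_of_ne _ _ _ _ _ hj, Matrix.single_mul_apply_same,
        if_true, hj, and_false, if_false]
      ring
  · by_cases hj : j = b
    · subst hj
      simp only [Matrix.mul_single_apply_same, Matrix.single_mul_apply_of_ne _ _ _ _ _ hi,
        if_true, hi, false_and, if_false]
      ring
    · simp only [Matrix.mul_single_apply_of_ne _ _ _ _ _ hj,
        Matrix.single_mul_apply_of_ne _ _ _ _ _ hi, hi, hj, false_and, if_false]
      ring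

/-- Bounds for the correction terms. -/
theorem RLEa_bd (a b : Fin n) (η : ℝ) (h : G n) (m : ℕ) (ρ r : ℝ) (D : Dv a b η h m ρ r) :
    |r * (h.1 b a * 4 ^ m)| ≤ √(lm a b h 0) ∧ √(lm a b h 0) ≤ 1 ∧
    |r * (h.1 a a - h.1 b b)| ≤ 1 ∧ |r * (r * (h.1 b a * 4 ^ m))| ≤ 1 ∧
    ∀ k, k ≠ a → k ≠ b → |r * (h.1 k a * 2 ^ m)| ≤ 1 ∧ |r * (h.1 b k * 2 ^ m)| ≤ 1 := by
  obtain ⟨d1, d2, -, d4, d5, -, -⟩ := D
  have hρ : 0 ≤ ρ := (abs_nonneg _).trans d5
  have h2m : (0 : ℝ) < 2 ^ m := by positivity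
  have key : ∀ x : ℝ, 0 ≤ x → x ≤ lm a b h m → |r| * x ≤ 1 := fun x hx hx' =>
    (mul_le_mul d5 hx' hx hρ).trans d4
  have hs := key _ (by positivity) (RLEa_s_le a b h m)
  have h3 := RLEa_s_le a b h 0
  rw [pow_zero, one_mul] at h3
  have h4 := RLEa_two d1.le h3 d2
  refine ⟨?_, ?_, ?_, ?_, fun k ha hb => ?_⟩
  · rw [abs_mul, RLEa_e, ← mul_assoc]
    exact (mul_le_mul hs h4 (by positivity) zero_le_one).trans (one_mul _).le
  · have h5 : (1 : ℝ) ≤ 4 ^ m := one_le_pow₀ (by norm_num)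
    rw [Real.sqrt_le_one]
    nlinarith
  · rw [abs_mul]
    exact key _ (abs_nonneg _) (RLEa_d_le a b h m)
  · rw [abs_mul, abs_mul, RLEa_e]
    have h5 : 0 ≤ |r| * (2 ^ m * √|h.1 b a|) := by positivity
    nlinarith
  · obtain ⟨p, q⟩ := RLEa_N_ge a b h ha hb
    have h5 := RLEa_n_le a b h m
    rw [abs_mul, abs_mul, abs_mul, abs_mul, abs_of_pos h2m]
    exact ⟨key _ (by positivity) (by nlinarith), key _ (by positivity) (by nlinarith)⟩

theorem s_LEa : LEa := by
  intro n a b η h m ρ r hab hη hη1 hh D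
  set g : ℕ → G n := fun l => (dA (tA a b) ^ m l)⁻¹ * h l * dA (tA a b) ^ m l with hg
  have hg1 : Tendsto g atTop (𝓝 1) := RLEa_tend a b hab hh fun l => (D l).2.1
  have gaa : ∀ l i, (g l).1 i i = (h l).1 i i := fun l i => by
    rw [hg, RLEa_conj, RLEa_s_ii, one_pow, mul_one]
  have gba : ∀ l, (g l).1 b a = (h l).1 b a * 4 ^ m l := fun l => by
    rw [hg, RLEa_conj, RLEa_s_ba hab]
  have gka : ∀ l k, k ≠ a → k ≠ b → (g l).1 k a = (h l).1 k a * 2 ^ m l := fun l k ha hb => by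
    rw [hg, RLEa_conj, RLEa_s_ka ha hb]
  have gbk : ∀ l k, k ≠ a → k ≠ b → (g l).1 b k = (h l).1 b k * 2 ^ m l := fun l k ha hb => by
    rw [hg, RLEa_conj, RLEa_s_bk hab ha hb]
  set w : ℕ → G n := fun l => (uu a b (r l))⁻¹ * g l * uu a b (r l) with hw
  have wab : ∀ l, (w l).1 a b = (g l).1 a b +
      r l * ((h l).1 a a - (h l).1 b b - r l * ((h l).1 b a * 4 ^ m l)) := fun l => by
    rw [hw, RLEa_uu a b hab, if_pos rfl, if_pos rfl, if_pos ⟨rfl, rfl⟩, gaa, gaa, gba]
    ring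
  have waj : ∀ l j, j ≠ b → (w l).1 a j = (g l).1 a j - r l * (g l).1 b j := fun l j hj => by
    rw [hw, RLEa_uu a b hab, if_neg hj, if_pos rfl, if_neg (fun h1 => hj h1.2)]
    ring
  have wib : ∀ l i, i ≠ a → (w l).1 i b = (g l).1 i b + r l * (g l).1 i a := fun l i hi => by
    rw [hw, RLEa_uu a b hab, if_pos rfl, if_neg hi, if_neg (fun h1 => hi h1.1)]
    ring
  have wij : ∀ l i j, i ≠ a → j ≠ b → (w l).1 i j = (g l).1 i j := fun l i j hi hj => by
    rw [hw, RLEa_uu a b hab, if_neg hj, if_neg hi, if_neg (fun h1 => hi h1.1)]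
    ring
  have hre : Tendsto (fun l => r l * (g l).1 b a) atTop (𝓝 0) := by
    have := (RLEa_lm0 a b hab hh).sqrt
    rw [Real.sqrt_zero] at this
    refine squeeze_zero_norm (fun l => ?_) this
    rw [gba, Real.norm_eq_abs]
    exact (RLEa_bd a b η _ _ _ _ (D l)).1
  have hb1 : ∀ l i j, |(w l).1 i j - (g l).1 i j| ≤ 2 := fun l i j => by
    obtain ⟨p1, p2, p3, p4, p5⟩ := RLEa_bd a b η _ _ _ _ (D l)
    by_cases hi : i = a
    · subst hi
      by_cases hj : j = b
      · subst hj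
        rw [wab, add_sub_cancel_left, mul_sub]
        exact (abs_sub _ _).trans (by linarith)
      · rw [waj l j hj, sub_sub_cancel_left, abs_neg]
        by_cases hj' : j = i
        · subst hj'
          rw [gba]
          linarith
        · rw [gbk l j hj' hj]
          linarith [(p5 j hj' hj).2]
    · by_cases hj : j = b
      · subst hj
        rw [wib l i hi, add_sub_cancel_left]
        by_cases hi' : i = j
        · subst hi'
          rw [gba]
          linarith
        · rw [gka l i hi hi']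
          linarith [(p5 i hi hi').1]
      · rw [wij l i j hi hj, sub_self, abs_zero]
        norm_num
  have hb2 : ∀ᶠ l in atTop, ∀ i j, |(g l).1 i j| ≤ 2 := by
    refine eventually_all.2 fun i => eventually_all.2 fun j => ?_
    have h1 : |(1 : G n).1 i j| < 2 := by
      by_cases hij : i = j
      · simp [hij]
      · simp [hij]
    exact ((tendsto_G.1 hg1 i j).abs.eventually (gt_mem_nhds h1)).mono fun l hl => hl.le
  have hb3 : ∀ᶠ l in atTop, w l ∈ {v : G n | ∀ i j, |v.1 i j| ≤ 4} := hb2.mono fun l hl i j => by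
    have h1 := abs_sub_abs_le_abs_sub ((w l).1 i j) ((g l).1 i j)
    linarith [hb1 l i j, hl i j]
  obtain ⟨v, -, φ, hφ, hv⟩ := (isCompact_G (n := n) 4).tendsto_subseq' hb3.frequently
  have hφt := hφ.tendsto_atTop
  have hwv : ∀ i j, Tendsto (fun l => (w (φ l)).1 i j) atTop (𝓝 (v.1 i j)) := tendsto_G.1 hv
  have hgφ : ∀ i j, Tendsto (fun l => (g (φ l)).1 i j) atTop (𝓝 ((1 : G n).1 i j)) :=
    fun i j => (tendsto_G.1 hg1 i j).comp hφt
  have hreφ : Tendsto (fun l => r (φ l) * (g (φ l)).1 b a) atTop (𝓝 0) := hre.comp hφt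
  have h11 : ∀ i, (1 : G n).1 i i = 1 := fun i => by simp
  have h10 : ∀ i j, i ≠ j → (1 : G n).1 i j = 0 := fun i j hij => by simp [hij]
  refine ⟨φ, v, hφ, ⟨fun i => ?_, fun i j hij hP => ?_⟩, fun hv1 => ?_, hv⟩
  · refine tendsto_nhds_unique (hwv i i) ?_
    by_cases hi : i = a
    · subst hi
      have := (hgφ i i).sub hreφ
      rw [h11, sub_zero] at this
      exact this.congr fun l => (waj _ i hab).symm
    · by_cases hi' : i = b
      · subst hi'
        have := (hgφ i i).add hreφ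
        rw [h11, add_zero] at this
        exact this.congr fun l => (wib _ i hi).symm
      · have := hgφ i i
        rw [h11] at this
        exact this.congr fun l => (wij _ i i hi hi').symm
  · have hi : i ≠ a := fun hi => hP (Or.inl ⟨hi, fun hj => hij (hi.trans hj.symm)⟩)
    have hj : j ≠ b := fun hj => hP (Or.inr ⟨hj, fun hi => hij (hi.trans hj.symm)⟩)
    refine tendsto_nhds_unique (hwv i j) ?_
    have := hgφ i j
    rw [h10 i j hij] at this
    exact this.congr fun l => (wij _ i j hi hj).symm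
  · subst hv1
    have hε : (0 : ℝ) < η ^ 2 / 16 := by positivity
    have hd : ∀ i j, ∀ᶠ l in atTop, |(w (φ l)).1 i j - (g (φ l)).1 i j| < η ^ 2 / 16 := fun i j => by
      have := ((hwv i j).sub (hgφ i j)).abs
      rw [sub_self, abs_zero] at this
      exact this.eventually (gt_mem_nhds hε)
    obtain ⟨l, hl⟩ := (eventually_all.2 fun i => eventually_all.2 fun j => hd i j).exists
    refine RLEa_low a b η _ _ _ _ hη hη1 (D (φ l)) ?_ fun k ha hb => ⟨?_, ?_⟩
    · have := hl a b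
      rwa [wab, add_sub_cancel_left] at this
    · have := hl k b
      rwa [wib _ k ha, add_sub_cancel_left, gka _ k ha hb] at this
    · have := hl a k
      rwa [waj _ k hb, sub_sub_cancel_left, abs_neg, gbk _ k ha hb] at this

end TP
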