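import Vale.Agent.P007.RStm

noncomputable section
namespace TP
open MeasureTheory Filter Set ProbabilityTheory
open Vale.Agent.P007 (X lattice act Gam proj IsInvariantProb Equidistributes)
open scoped Classical Topology ENNReal

theorem RLEb_near {l : ℝ} (h0 : 0 < l) (h1 : l ≤ 1) :
    ∃ k : ℕ, 4 ^ k * l ≤ 1 ∧ 1 < 4 ^ (k + 1) * l := by
  obtain ⟨k, h2, h3⟩ := exists_nat_pow_near ((one_le_div h0).2 h1) (by norm_num : (1 : ℝ) < 4)
  exact ⟨k, (le_div_iff₀ h0).1 h2, (div_lt_iff₀ h0).1 h3⟩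

theorem RLEb_cnt {l : ℕ → ℝ} (h0 : 0 < l 0) (h1 : l 0 ≤ 1 / 4 ^ 10) (hm : ∀ m, l m ≤ l (m + 1))
    (h2 : ∀ m, l (m + 1) ≤ 2 * l m) {P Q R : ℕ → Prop}
    (hP : ∀ N : ℕ, (((Finset.range N).filter P).card : ℝ) ≤ 1 / 10 * N)
    (hQ : ∀ N : ℕ, (((Finset.range N).filter Q).card : ℝ) ≤ 1 / 10 * N)
    (hR : ∀ N : ℕ, (((Finset.range N).filter R).card : ℝ) ≤ 1 / 100 * N) :
    ∃ m k, ¬ P m ∧ ¬ Q m ∧ ¬ R (m + k) ∧ 4 ^ m * l 0 ≤ 1 ∧ 1 / 4 ≤ 4 ^ k * l m ∧
      4 ^ k * l m ≤ 1 := by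
  have g1 : ∀ m, l 0 ≤ l m := fun m => monotone_nat_of_le_succ hm m.zero_le
  have g2 : ∀ m i, l (m + i) ≤ 2 ^ i * l m := fun m i => by
    induction i with
    | zero => simp
    | succ i ih => rw [← add_assoc, pow_succ]; linarith [h2 (m + i)]
  obtain ⟨M, hM, hM'⟩ := RLEb_near h0 (h1.trans (by norm_num))
  have M0 : 0 < M := Nat.pos_of_ne_zero fun h => by
    rw [h, zero_add] at hM'
    linarith
  have g3 : ∀ m < M, 4 ^ m * l 0 ≤ 1 := fun m h => le_trans (by gcongr; norm_num) hM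
  have g4 : ∀ m, ∃ k : ℕ, m < M → 4 ^ k * l m ≤ 1 ∧ 1 < 4 ^ (k + 1) * l m := fun m => by
    by_cases h : m < M
    · obtain ⟨k, hk⟩ := RLEb_near (h0.trans_le (g1 m)) (le_trans (by
        have := g2 0 m
        rw [zero_add] at this
        exact this.trans (by gcongr; norm_num)) (g3 m h))
      exact ⟨k, fun _ => hk⟩
    · exact ⟨0, fun h' => absurd h' h⟩
  choose k hk using g4
  have g5 : ∀ m m', m < m' → m' < M → m + k m = m' + k m' → m % 2 = m' % 2 → False := by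
    intro m m' a1 a2 a3 a4
    obtain ⟨i, rfl⟩ : ∃ i, m' = m + (i + 2) := ⟨m' - m - 2, by omega⟩
    have b1 := (hk m (a1.trans a2)).1
    have b2 := (hk _ a2).2.trans_le (mul_le_mul_of_nonneg_left (g2 m (i + 2)) (by positivity))
    rw [show k m = k (m + (i + 2)) + (i + 2) by omega] at b1
    have b3 : (2 : ℝ) ^ i ≤ 4 ^ i := by gcongr; norm_num
    have b4 : 0 < 4 ^ k (m + (i + 2)) * l m := mul_pos (by positivity) (h0.trans_le (g1 m))
    simp only [pow_add] at b1 b2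
    nlinarith
  by_contra hc
  have c1 : Finset.range M ⊆ (Finset.range M).filter P ∪ (Finset.range M).filter Q ∪
      (Finset.range M).filter fun m => R (m + k m) := fun m h => by
    have h' := Finset.mem_range.1 h
    simp only [Finset.mem_union, Finset.mem_filter, h, true_and]
    by_contra hn
    simp only [not_or] at hn
    have := (hk m h').2
    exact hc ⟨m, k m, hn.1.1, hn.1.2, hn.2, g3 m h', by rw [pow_succ] at this; linarith,
      (hk m h').1⟩
  have c2 : ((Finset.range M).filter fun m => R (m + k m)).card ≤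
      ((Finset.range (2 * M)).filter R ×ˢ Finset.range 2).card := by
    refine Finset.card_le_card_of_injOn (fun m => (m + k m, m % 2)) (fun m h => ?_)
      fun m h m' h' e => ?_
    · simp only [Finset.coe_filter, Finset.mem_range, mem_ofPred_eq, Finset.coe_product, mem_prod,
        Finset.coe_range, mem_Iio] at h ⊢
      have b1 : (4 : ℝ) ^ k m * l 0 < 4 ^ (M + 1) * l 0 :=
        (le_trans (by gcongr; exact g1 m) (hk m h.1).1).trans_lt hM'
      have b2 := (pow_lt_pow_iff_right₀ (by norm_num : (1 : ℝ) < 4)).1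
        (lt_of_mul_lt_mul_right b1 h0.le)
      exact ⟨⟨by omega, h.2⟩, by omega⟩
    · simp only [Finset.coe_filter, Finset.mem_range, mem_ofPred_eq, Prod.mk.injEq] at h h' e
      rcases lt_trichotomy m m' with a | a | a
      · exact (g5 m m' a h'.1 e.1 e.2).elim
      · exact a
      · exact (g5 m' m a h.1 e.1.symm e.2.symm).elim
  have c3 := (Finset.card_le_card c1).trans ((Finset.card_union_le _ _).trans
    (add_le_add (Finset.card_union_le _ _) c2))
  rw [Finset.card_product, Finset.card_range, Finset.card_range] at c3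
  have c4 := (Nat.cast_le (α := ℝ)).2 c3
  have c5 := hR (2 * M)
  have c6 : (0 : ℝ) < M := by exact_mod_cast M0
  push_cast at c4 c5
  linarith [hP M, hQ M]

theorem RLEb_sc (hStbQ : StbQ) {κ : ℕ → Measure ℝ} (h1 : ∀ m, IsFiniteMeasureOnCompacts (κ m))
    (h2 : ∀ m (ε : ℝ), 0 < ε → κ m (Icc (-ε) ε) ≠ 0) (h3 : ∀ m, κ (m + 1) = sc (1 / 4) (κ m))
    (m k : ℕ) : ∃ c : ℝ≥0∞, c ≠ ∞ ∧ ∀ s t : ℝ,
      κ (m + k) (Icc s t) = c * κ m (Icc (4 ^ k * s) (4 ^ k * t)) := by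
  induction k with
  | zero => exact ⟨1, ENNReal.one_ne_top, fun s t => by simp⟩
  | succ k ih =>
    obtain ⟨c, hc, h⟩ := ih
    obtain ⟨a, -, ha, e⟩ := (hStbQ.1 _ (1 / 4) (h1 (m + k)) (h2 _) (by norm_num)).1
    refine ⟨a * c, ENNReal.mul_ne_top ha hc, fun s t => ?_⟩
    rw [← add_assoc, h3, e, Measure.smul_apply, Measure.map_apply (measurable_const_mul _)
      measurableSet_Icc, preimage_const_mul_Icc₀ _ _ (by norm_num), h, smul_eq_mul, mul_assoc]
    rw [show s / (1 / 4) = 4 * s by ring, show t / (1 / 4) = 4 * t by ring, pow_succ, mul_assoc,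
      mul_assoc]

theorem RLEb_pt {ν : Measure ℝ} {I A B C D : Set ℝ} (h0 : ν I ≠ 0) (h1 : ν I ≠ ∞)
    (hA : 10 * ν (A ∩ I) ≤ ν I) (hB : 10 * ν (B ∩ I) ≤ ν I) (hC : 10 * ν (C ∩ I) ≤ ν I)
    (hD : 10 * ν (D ∩ I) ≤ ν I) : ∃ r ∈ I, r ∉ A ∧ r ∉ B ∧ r ∉ C ∧ r ∉ D := by
  by_contra hc
  have h2 : I ⊆ A ∩ I ∪ B ∩ I ∪ C ∩ I ∪ D ∩ I := fun r hr => by
    by_contra hn
    simp only [mem_union, mem_inter_iff, hr, and_true, not_or] at hn
    exact hc ⟨r, hr, hn.1.1.1, hn.1.1.2, hn.1.2, hn.2⟩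
  have h3 := (measure_mono (μ := ν) h2).trans ((measure_union_le _ _).trans (add_le_add_left
    ((measure_union_le _ _).trans (add_le_add_left (measure_union_le _ _) _)) _))
  have h4 : 10 * ν I ≤ 4 * ν I := (mul_le_mul_right h3 10).trans (by
    rw [mul_add, mul_add, mul_add]
    exact (add_le_add (add_le_add (add_le_add hA hB) hC) hD).trans_eq (by ring))
  exact absurd ((ENNReal.mul_le_mul_iff_left h0 h1).1 h4) (by norm_num)

theorem s_LEb (hStbQ : StbQ) : LEb := by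
  intro n a b η κ K Z1 Z2 x h _ hη hf hJ hp hZ1 hZ2 hy hx hκ h0 h1
  have fq : ∀ {B : Set (X n)} {c : ℝ} {y : X n}, y ∉ Fq (act (dA (tA a b))) B c → ∀ N : ℕ,
      (((Finset.range N).filter fun m => act (dA (tA a b) ^ m) y ∈ B).card : ℝ) ≤ c * N :=
    fun hB N => by simpa only [act_iter] using not_lt.1 fun h => hB ⟨N, h⟩
  obtain ⟨m, k, a1, a2, a3, a4, a5, a6⟩ := RLEb_cnt (l := lm a b h) h0 h1
    (fun m => max_le_max_left _ (by gcongr <;> norm_num))
    (fun m => by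
      unfold lm
      rw [mul_max_of_nonneg _ _ (zero_le_two (α := ℝ))]
      exact max_le_max (by linarith [abs_nonneg (h.1 a a - h.1 b b)]) (le_of_eq (by ring)))
    (fq (hy x (.inl rfl)).1) (fq (hy _ (.inr rfl)).1) (fq hx)
  have e : ∀ m : ℕ, κ (act (dA (tA a b) ^ m) (act h x)) = κ (act (dA (tA a b) ^ m) x) := fun m => by
    induction m with
    | zero => rw [pow_zero, act_one, act_one, hκ]
    | succ m ih => rw [(hy x (.inl rfl)).2, (hy _ (.inr rfl)).2, ih]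
  obtain ⟨c, hc, hs⟩ := RLEb_sc hStbQ (κ := fun m => κ (act (dA (tA a b) ^ m) x)) (fun _ => hf _)
    (fun _ => hp _) (hy x (.inl rfl)).2 m k
  have b1 := hs (-1) 1
  rw [hJ, mul_neg, mul_one] at b1
  have c0 : c ≠ 0 := fun h => by simp [h] at b1
  have b2 : ∀ s : ℝ, 10 * κ (act (dA (tA a b) ^ m) x) (Icc (s - η * 4 ^ k) (s + η * 4 ^ k) ∩
      Icc (-4 ^ k) (4 ^ k)) ≤ κ (act (dA (tA a b) ^ m) x) (Icc (-4 ^ k) (4 ^ k)) := fun s => by
    have b3 := hZ2 _ (not_not.1 a3) (s / 4 ^ k)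
    rw [Icc_inter_Icc, hs, b1, mul_left_comm, ENNReal.mul_le_mul_iff_right c0 hc,
      mul_max_of_nonneg _ _ (by positivity), mul_min_of_nonneg _ _ (by positivity),
      ← Icc_inter_Icc, mul_neg, mul_one, mul_sub, mul_add, mul_div_cancel₀ _ (by positivity),
      mul_comm _ η] at b3
    exact b3
  have := hf (act (dA (tA a b) ^ m) x)
  obtain ⟨r, r1, r2, r3, r4, r5⟩ := RLEb_pt (hp _ _ (by positivity)) measure_Icc_lt_top.ne
    (hZ1 _ (not_not.1 a1) k) (e m ▸ hZ1 _ (not_not.1 a2) k) (b2 0)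
    (b2 ((h.1 a a - h.1 b b) / (4 ^ m * h.1 b a)))
  refine ⟨m, 4 ^ k, r, ⟨h0, a4, a5, a6, abs_le.2 r1, ?_, ?_⟩, not_not.1 a1, not_not.1 a2, e m,
    not_not.1 r2, not_not.1 r3⟩
  · by_contra hn
    have := abs_lt.1 (not_le.1 hn)
    exact r4 ⟨by linarith, by linarith⟩
  · by_contra hn
    have := abs_lt.1 (not_le.1 hn)
    exact r5 ⟨by linarith, by linarith⟩

end TP
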