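import Vale.Agent.P007.RStm

noncomputable section
namespace TP
open MeasureTheory Filter Set ProbabilityTheory
open Vale.Agent.P007 (X lattice act Gam proj IsInvariantProb Equidistributes)
open scoped Classical Topology ENNReal

theorem RLW0a_dis {Ω : Type} [MeasurableSpace Ω] (ν : Measure Ω) {φ : Ω → ℝ≥0∞}
    (hφ : Measurable φ) (hi : ∫⁻ g, φ g ∂ν ≠ ∞) {p : Ω → Ω} {ρ : Ω → ℝ} (hp : Measurable p)
    (hρ : Measurable ρ) : ∃ η : Kernel Ω ℝ, IsMarkovKernel η ∧
      ∀ F : Ω × ℝ → ℝ≥0∞, Measurable F →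
        ∫⁻ g, φ g * F (p g, ρ g) ∂ν = ∫⁻ g, φ g * ∫⁻ t, F (p g, t) ∂η (p g) ∂ν := by
  have := isFiniteMeasure_withDensity hi
  have hm : Measurable fun g => (p g, ρ g) := hp.prodMk hρ
  let m : Measure (Ω × ℝ) := (ν.withDensity φ).map fun g => (p g, ρ g)
  refine ⟨m.condKernel, inferInstance, fun F hF => ?_⟩
  have h1 := Measure.lintegral_condKernel (ρ := m) hF
  have h2 : m.fst = (ν.withDensity φ).map p := Measure.fst_map_prodMk hρ
  have h3 : Measurable fun b => ∫⁻ t, F (b, t) ∂m.condKernel b := hF.lintegral_kernel_prod_right'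
  rw [h2, lintegral_map h3 hp, lintegral_withDensity_eq_lintegral_mul _ hφ (h3.fun_comp hp)] at h1
  refine Eq.trans ?_ h1.symm
  rw [lintegral_map hF hm, lintegral_withDensity_eq_lintegral_mul _ hφ (hF.fun_comp hm)]
  rfl

theorem s_LW0a : LW0a := by
  intro Ω _ ν u ρ φ hF hW
  let p : Ω → Ω := fun g => u (-ρ g) g
  have hp : Measurable p := hF.meas.comp (hF.mrho.neg.prodMk measurable_id)
  have hpu : ∀ r g, p (u r g) = p g := fun r g => by
    simp only [p, hF.add, hF.coc]
    congr 1
    ring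
  have hup : ∀ t g, u t (p g) = u (t - ρ g) g := fun t g => by
    simp only [p, hF.add]
    congr 1
    ring
  have h0 : ∀ g, φ g ≠ 0 := fun g => by
    obtain ⟨c, hc, h⟩ := hW.pos g 0
    have h1 := h 0 (by simp)
    rw [hF.zero] at h1
    exact fun e => hc (le_antisymm (e ▸ h1) bot_le)
  obtain ⟨η, hη, hdis⟩ := RLW0a_dis ν hW.meas hW.int hp hF.mrho
  have hu : ∀ g, Measurable fun t => u t g := fun g =>
    hF.meas.comp (measurable_id.prodMk measurable_const)
  have hd : ∀ g, Measurable fun t => (φ (u t g))⁻¹ := fun g => (hW.meas.comp (hu g)).inv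
  let lam : Ω → Measure ℝ := fun g =>
    ((η (p g)).withDensity fun t => (φ (u t (p g)))⁻¹).map (· - ρ g)
  have hl : ∀ g (f : ℝ → ℝ≥0∞), Measurable f →
      ∫⁻ r, f r ∂lam g = ∫⁻ t, (φ (u t (p g)))⁻¹ * f (t - ρ g) ∂η (p g) := by
    intro g f hf
    rw [lintegral_map hf (measurable_sub_const _),
      lintegral_withDensity_eq_lintegral_mul _ (hd _) (hf.fun_comp (measurable_sub_const _))]
    rfl
  have hs : ∀ g s, MeasurableSet s →
      lam g s = ∫⁻ t, (φ (u t (p g)))⁻¹ * s.indicator 1 (t - ρ g) ∂η (p g) := by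
    intro g s hs
    rw [← hl g _ (measurable_one.indicator hs), lintegral_indicator_one hs]
  refine ⟨lam, Measure.measurable_of_measurable_coe _ fun s hs' => ?_, fun g => ⟨fun K hK => ?_⟩,
    fun g r => ?_, fun g => ?_, fun h f hh hf hinv => ?_⟩
  · simp only [hs _ s hs']
    have h1 : Measurable fun q : Ω × ℝ =>
        (φ (u q.2 (p q.1)))⁻¹ * s.indicator (1 : ℝ → ℝ≥0∞) (q.2 - ρ q.1) :=
      (hW.meas.comp (hF.meas.comp (measurable_snd.prodMk (hp.comp measurable_fst)))).inv.mul
        ((measurable_one.indicator hs').comp (measurable_snd.sub (hF.mrho.comp measurable_fst)))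
    exact h1.lintegral_kernel_prod_right' (κ := η.comap p hp)
  · obtain ⟨R, hR⟩ := hK.isBounded.exists_norm_le
    obtain ⟨c, hc, h⟩ := hW.pos g R
    rw [hs g K hK.measurableSet]
    refine lt_of_le_of_lt (lintegral_mono (g := fun _ => c⁻¹) fun t => ?_) ?_
    · by_cases ht : t - ρ g ∈ K
      · rw [indicator_of_mem ht, Pi.one_apply, mul_one, hup]
        exact ENNReal.inv_le_inv.2 (h _ (hR _ ht))
      · simp [indicator_of_notMem ht]
    · simpa [pos_iff_ne_zero] using hc
  · simp only [lam, hpu, hF.coc]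
    rw [Measure.map_map (measurable_sub_const _) (measurable_sub_const _)]
    congr 1
    funext t
    simp only [Function.comp]
    ring
  · rw [hl g _ (hW.meas.fun_comp (hu g))]
    simp only [← hup, ENNReal.inv_mul_cancel (h0 _) (hW.fin _)]
    simp
  · have hu2 : Measurable fun q : Ω × ℝ => u q.2 q.1 :=
      hF.meas.comp (measurable_snd.prodMk measurable_fst)
    have h1 := hdis (fun q => h q.1 * ((φ (u q.2 q.1))⁻¹ * f (u q.2 q.1)))
      ((hh.comp measurable_fst).mul ((hW.meas.comp hu2).inv.mul (hf.comp hu2)))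
    have hh2 : ∀ g, h (p g) = h g := fun g => hinv _ g
    refine Eq.trans (lintegral_congr fun g => ?_) (h1.trans (lintegral_congr fun g => ?_))
    · simp only [hup, sub_self, hF.zero, hh2]
      rw [mul_left_comm, ← mul_assoc (φ g), ENNReal.mul_inv_cancel (h0 g) (hW.fin g), one_mul]
    · dsimp only
      rw [hl g _ (hf.fun_comp (hu g)),
        lintegral_const_mul _ ((hd _).fun_mul (hf.fun_comp (hu _))), mul_comm]
      simp only [← hup, hh2]

end TP
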