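import Vale.Agent.P007.RStm

noncomputable section
namespace TP
open MeasureTheory Filter Set ProbabilityTheory
open Vale.Agent.P007 (X lattice act Gam proj IsInvariantProb Equidistributes)
open scoped Classical Topology ENNReal

theorem RLW0b_null (κ : Measure ℝ) {ε : ℝ} (hε : 0 < ε) :
    κ {r | κ (Icc (r - ε) (r + ε)) = 0} = 0 := by
  refine measure_null_of_locally_null _ fun r hr => ?_
  exact ⟨Icc (r - ε) (r + ε), mem_nhdsWithin_of_mem_nhds
    (Icc_mem_nhds (by linarith) (by linarith)), hr⟩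

theorem RLW0b_pos {Ω : Type} [MeasurableSpace Ω] {ν : Measure Ω} {u : ℝ → Ω → Ω}
    {φ : Ω → ℝ≥0∞} {lam : Ω → Measure ℝ} (hD : Dis ν u φ lam) {ε : ℝ} (hε : 0 < ε) :
    ∀ᵐ g ∂ν, lam g (Icc (-ε) ε) ≠ 0 := by
  have hN : MeasurableSet {g | lam g (Icc (-ε) ε) = 0} :=
    ((Measure.measurable_coe measurableSet_Icc).comp hD.meas) (measurableSet_singleton 0)
  have h1 := hD.star (fun _ => 1) ({g | lam g (Icc (-ε) ε) = 0}.indicator 1) measurable_const
    (measurable_one.indicator hN) fun _ _ => rfl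
  have h2 : ∀ g, ∫⁻ r, ({g | lam g (Icc (-ε) ε) = 0}.indicator (1 : Ω → ℝ≥0∞)) (u r g) ∂lam g
      = 0 := fun g => by
    refine lintegral_eq_zero_of_ae_eq_zero ?_
    have h3 : ∀ᵐ r ∂lam g, ¬ lam g (Icc (r - ε) (r + ε)) = 0 := by
      rw [ae_iff]
      simpa only [not_not] using RLW0b_null (lam g) hε
    filter_upwards [h3] with r hr
    refine indicator_of_notMem (fun h => hr ?_) _
    have h4 : lam (u r g) (Icc (-ε) ε) = 0 := h
    rw [hD.coc, Measure.map_apply (measurable_sub_const r) measurableSet_Icc] at h4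
    have e : (fun x => x - r) ⁻¹' Icc (-ε) ε = Icc (r - ε) (r + ε) := by
      ext x
      simp only [mem_preimage, mem_Icc]
      constructor <;> rintro ⟨a, b⟩ <;> constructor <;> linarith
    rwa [e] at h4
  simp only [h2, one_mul, zero_mul, lintegral_zero] at h1
  rw [lintegral_indicator_one hN] at h1
  rw [ae_iff]
  simpa only [not_not] using h1

theorem RLW0b_swap {Ω : Type} [MeasurableSpace Ω] {ν : Measure Ω} {u : ℝ → Ω → Ω} {ρ : Ω → ℝ}
    {φ : Ω → ℝ≥0∞} {lam : Ω → Measure ℝ} (hF : Flw u ρ) (hD : Dis ν u φ lam)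
    {k : Ω → ℝ → ℝ≥0∞} (hk : Measurable (Function.uncurry k)) (g : Ω) :
    ∫⁻ t, ∫⁻ r, k (u t g) r ∂lam (u t g) ∂lam g
      = ∫⁻ t, ∫⁻ r, k (u r (u t g)) (-r) ∂lam (u t g) ∂lam g := by
  have := hD.fin g
  have hu : Measurable fun t => u t g := hF.meas.comp (measurable_id.prodMk measurable_const)
  have e1 : ∀ t, ∫⁻ r, k (u t g) r ∂lam (u t g) = ∫⁻ r, k (u t g) (r - t) ∂lam g := fun t => by
    have hm : Measurable fun r => k (u t g) r := hk.comp (measurable_const.prodMk measurable_id)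
    rw [hD.coc, lintegral_map hm (measurable_sub_const t)]
  have e2 : ∀ t, ∫⁻ r, k (u r (u t g)) (-r) ∂lam (u t g) = ∫⁻ r, k (u r g) (t - r) ∂lam g :=
    fun t => by
      have hm : Measurable fun r => k (u r (u t g)) (-r) :=
        hk.comp ((hF.meas.comp (measurable_id.prodMk measurable_const)).prodMk measurable_neg)
      rw [hD.coc, lintegral_map hm (measurable_sub_const t)]
      simp only [hF.add, add_sub_cancel, neg_sub]
  simp only [e1, e2]
  have hm : Measurable (Function.uncurry fun t r : ℝ => k (u t g) (r - t)) :=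
    hk.comp ((hu.comp measurable_fst).prodMk (measurable_snd.sub measurable_fst))
  exact lintegral_lintegral_swap hm.aemeasurable

theorem s_LW0b : LW0b := by
  intro Ω _ ν u ρ φ lam hF _ hD
  refine ⟨?_, fun k hk => ?_⟩
  · have h1 : ∀ᵐ g ∂ν, ∀ m : ℕ, lam g (Icc (-(1 / ((m : ℝ) + 1))) (1 / ((m : ℝ) + 1))) ≠ 0 :=
      ae_all_iff.2 fun m => RLW0b_pos hD Nat.one_div_pos_of_nat
    filter_upwards [h1] with g hg ε hε h0
    obtain ⟨m, hm⟩ := exists_nat_one_div_lt hε
    exact hg m (measure_mono_null (Icc_subset_Icc (by linarith) hm.le) h0)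
  · have hk' : Measurable (Function.uncurry fun g r => k (u r g) (-r)) :=
      hk.comp ((hF.meas.comp measurable_swap).prodMk (measurable_neg.comp measurable_snd))
    have h1 := hD.star (fun _ => 1) _ measurable_const (meas_lint hD.meas hD.fin hk) fun _ _ => rfl
    have h2 := hD.star (fun _ => 1) _ measurable_const (meas_lint hD.meas hD.fin hk') fun _ _ => rfl
    simp only [one_mul] at h1 h2
    rw [h1, h2]
    exact lintegral_congr fun g => by rw [RLW0b_swap hF hD hk g]


end TP
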