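import Vale.Agent.P007.RStm

noncomputable section
namespace TP
open MeasureTheory Filter Set ProbabilityTheory
open Vale.Agent.P007 (X lattice act Gam proj IsInvariantProb Equidistributes)
open scoped Classical Topology ENNReal

/-- Two functions with equal finite integrals over the sets where one is below the other. -/
theorem RLW0c_ae_eq {Ω : Type} [MeasurableSpace Ω] {m : Measure Ω} {A B : Ω → ℝ≥0∞}
    (hA : Measurable A) (hB : Measurable B) (hf : ∫⁻ g, A g ∂m ≠ ∞) (hf' : ∫⁻ g, B g ∂m ≠ ∞)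
    (h1 : ∫⁻ g in {g | A g < B g}, A g ∂m = ∫⁻ g in {g | A g < B g}, B g ∂m)
    (h2 : ∫⁻ g in {g | B g < A g}, A g ∂m = ∫⁻ g in {g | B g < A g}, B g ∂m) :
    ∀ᵐ g ∂m, A g = B g := by
  have key : ∀ A B : Ω → ℝ≥0∞, Measurable A → Measurable B → ∫⁻ g, A g ∂m ≠ ∞ →
      ∫⁻ g in {g | A g < B g}, A g ∂m = ∫⁻ g in {g | A g < B g}, B g ∂m →
      ∀ᵐ g ∂m, ¬ A g < B g := by
    intro A B hA hB hf h
    have hs : MeasurableSet {g | A g < B g} := measurableSet_lt hA hB
    by_contra hne
    have h0 : m.restrict {g | A g < B g} ≠ 0 := by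
      intro h0
      apply hne
      rw [Measure.restrict_eq_zero] at h0
      rw [ae_iff]
      simpa using h0
    have hfin : ∫⁻ g in {g | A g < B g}, A g ∂m ≠ ∞ :=
      ne_top_of_le_ne_top hf (setLIntegral_le_lintegral _ _)
    have := lintegral_strict_mono h0 hB.aemeasurable hfin
      ((ae_restrict_iff' hs).2 (Eventually.of_forall fun g hg => hg))
    exact this.ne h
  filter_upwards [key A B hA hB hf h1, key B A hB hA hf' h2.symm] with g a b
  exact le_antisymm (not_lt.1 b) (not_lt.1 a)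

theorem s_LW0c : LW0c := by
  intro Ω _ ν u ρ φ lam hF hW hD T c hc hT hTu
  have hφ0 : ∀ g, φ g ≠ 0 := fun g => by
    obtain ⟨a, ha, h⟩ := hW.pos g 0
    have := h 0 (by simp)
    rw [hF.zero] at this
    exact fun h0 => ha (le_antisymm (h0 ▸ this) bot_le)
  have hu : ∀ g, Measurable fun r => u r g := fun g =>
    hF.meas.comp (measurable_id.prodMk measurable_const)
  let L : (Ω → ℝ≥0∞) → Ω → ℝ≥0∞ := fun f g => ∫⁻ r, f (u r g) ∂lam g
  have hLm : ∀ f, Measurable f → Measurable (L f) := fun f hf =>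
    meas_lint hD.meas hD.fin (k := fun g r => f (u r g))
      (hf.comp (hF.meas.comp (measurable_snd.prodMk measurable_fst)))
  have hLi : ∀ f, Measurable f → ∀ r g, L f (u r g) = L f g := fun f hf r g => by
    simp only [L]
    rw [hD.coc, lintegral_map (f := fun s => f (u s (u r g))) (g := fun x => x - r) (hf.comp (hu _))
      (measurable_id.sub_const r)]
    refine lintegral_congr fun s => ?_
    rw [hF.add]
    congr 2
    ring
  have hTm : Measurable T := T.measurable
  have hTs : ∀ s y, T.symm (u s y) = u (s / c) (T.symm y) := fun s y => by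
    apply T.injective
    rw [hTu, T.apply_symm_apply, T.apply_symm_apply, mul_div_cancel₀ _ hc.ne']
  -- the basic identity
  have hid : ∀ h f : Ω → ℝ≥0∞, Measurable h → Measurable f → (∀ r g, h (u r g) = h g) →
      ∫⁻ g, h g * L (f ∘ T) g * φ g ∂ν = ∫⁻ g, h g * (L f (T g) * L (φ ∘ T) g) * φ g ∂ν := by
    intro h f hh hf hi
    have e1 := hD.star h (f ∘ T) hh (hf.comp hTm) hi
    have e2 := hD.star (h ∘ T.symm) f (hh.comp T.symm.measurable) hf
      (fun r g => by simp only [Function.comp, hTs, hi])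
    have e3 := hD.star (fun g => h g * L f (T g)) (φ ∘ T) (hh.mul ((hLm f hf).comp hTm))
      (hW.meas.comp hTm) (fun r g => by simp only [hi, hTu, hLi f hf])
    have e4 := hT.lintegral_comp (f := fun g => (h ∘ T.symm) g * f g)
      ((hh.comp T.symm.measurable).mul hf)
    have e5 := hT.lintegral_comp (f := fun g => (h ∘ T.symm) g * L f g * φ g)
      (((hh.comp T.symm.measurable).mul (hLm f hf)).mul hW.meas)
    simp only [Function.comp, T.symm_apply_apply] at e1 e2 e3 e4 e5
    calc ∫⁻ g, h g * L (f ∘ T) g * φ g ∂ν = ∫⁻ g, h g * f (T g) ∂ν := e1.symm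
      _ = ∫⁻ g, h (T.symm g) * L f g * φ g ∂ν := e4.trans e2
      _ = ∫⁻ g, h g * L f (T g) * φ (T g) ∂ν := e5.symm
      _ = ∫⁻ g, h g * L f (T g) * L (φ ∘ T) g * φ g ∂ν := e3
      _ = _ := lintegral_congr fun g => by ring
  have hfinA : ∀ f : Ω → ℝ≥0∞, Measurable f → (∀ g, f g ≤ φ g) →
      ∫⁻ g, L (f ∘ T) g * φ g ∂ν ≠ ∞ := fun f hf hle => by
    have e1 := hD.star (fun _ => 1) (f ∘ T) measurable_const (hf.comp hTm) fun _ _ => rfl
    simp only [one_mul] at e1
    refine ne_top_of_le_ne_top hW.int (le_of_eq_of_le e1.symm ?_)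
    rw [← hT.lintegral_comp hW.meas]
    exact lintegral_mono fun g => hle _
  have hae : ∀ f : Ω → ℝ≥0∞, Measurable f → (∀ g, f g ≤ φ g) →
      ∀ᵐ g ∂ν, L (f ∘ T) g = L f (T g) * L (φ ∘ T) g := fun f hf hle => by
    have hA : Measurable (L (f ∘ T)) := hLm _ (hf.comp hTm)
    have hB : Measurable fun g => L f (T g) * L (φ ∘ T) g :=
      ((hLm f hf).comp hTm).mul (hLm _ (hW.meas.comp hTm))
    have hAi : ∀ r g, L (f ∘ T) (u r g) = L (f ∘ T) g := hLi _ (hf.comp hTm)
    have hBi : ∀ r g, L f (T (u r g)) * L (φ ∘ T) (u r g) = L f (T g) * L (φ ∘ T) g :=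
      fun r g => by rw [hTu, hLi f hf, hLi _ (hW.meas.comp hTm)]
    have hS : ∀ S : Set Ω, MeasurableSet S → (∀ r g, u r g ∈ S ↔ g ∈ S) →
        ∫⁻ g in S, L (f ∘ T) g * φ g ∂ν = ∫⁻ g in S, L f (T g) * L (φ ∘ T) g * φ g ∂ν := by
      intro S hS hi
      have := hid (S.indicator 1) f (measurable_one.indicator hS) hf fun r g => by
        by_cases h : g ∈ S
        · rw [indicator_of_mem h, indicator_of_mem ((hi r g).2 h)]
          rfl
        · rw [indicator_of_notMem h, indicator_of_notMem fun h' => h ((hi r g).1 h')]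
      rw [← lintegral_indicator hS, ← lintegral_indicator hS]
      refine (lintegral_congr fun g => ?_).trans (this.trans (lintegral_congr fun g => ?_))
      · by_cases h : g ∈ S <;> simp [h]
      · by_cases h : g ∈ S <;> simp [h]
    have hlt : ∀ a b : ℝ≥0∞, ∀ g, a * φ g < b * φ g ↔ a < b := fun a b g =>
      ENNReal.mul_lt_mul_iff_left (hφ0 g) (hW.fin g)
    have := RLW0c_ae_eq (m := ν) (A := fun g => L (f ∘ T) g * φ g)
      (B := fun g => L f (T g) * L (φ ∘ T) g * φ g) (hA.mul hW.meas) (hB.mul hW.meas)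
      (hfinA f hf hle) (by
        have := hS univ MeasurableSet.univ fun _ _ => by simp
        rw [Measure.restrict_univ] at this
        rw [← this]
        exact hfinA f hf hle)
      (hS _ (measurableSet_lt (hA.mul hW.meas) (hB.mul hW.meas)) fun r g => by
        simp only [mem_ofPred_eq, hlt, hAi, hBi])
      (hS _ (measurableSet_lt (hB.mul hW.meas) (hA.mul hW.meas)) fun r g => by
        simp only [mem_ofPred_eq, hlt, hAi, hBi])
    filter_upwards [this] with g hg
    exact (ENNReal.mul_left_inj (hφ0 g) (hW.fin g)).1 hg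
  have hafin : ∀ᵐ g ∂ν, L (φ ∘ T) g ≠ ∞ := by
    have := ae_lt_top ((hLm _ (hW.meas.comp hTm)).mul hW.meas) (hfinA φ hW.meas fun _ => le_rfl)
    filter_upwards [this] with g hg
    intro h
    rw [Pi.mul_apply, h, ENNReal.top_mul (hφ0 g)] at hg
    exact lt_irrefl _ hg
  have ha0 : ∀ g, L (φ ∘ T) g ≠ 0 := fun g h => by
    have h1 := (lintegral_eq_zero_iff ((hW.meas.comp hTm).comp (hu g))).1 h
    have h2 : lam g = 0 := by
      rw [← ae_eq_bot, ← Filter.eventually_false_iff_eq_bot]
      filter_upwards [h1] with r hr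
      exact hφ0 _ hr
    have := hD.one g
    rw [h2, lintegral_zero_measure] at this
    exact zero_ne_one this
  let f : ℚ × ℚ → Ω → ℝ≥0∞ := fun q => (ρ ⁻¹' Ioo (q.1 : ℝ) q.2).indicator φ
  have hfm : ∀ q, Measurable (f q) := fun q => hW.meas.indicator (hF.mrho measurableSet_Ioo)
  have hq : ∀ᵐ g ∂ν, ∀ q, L (f q ∘ T) g = L (f q) (T g) * L (φ ∘ T) g :=
    ae_all_iff.2 fun q => hae (f q) (hfm q) fun g => indicator_le_self _ _ g
  filter_upwards [hafin, hq] with g hg hq
  set a := L (φ ∘ T) g with ha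
  set y := T g with hy
  have hψ : Measurable fun s => φ (u s y) := hW.meas.comp (hu y)
  have hcm : Measurable fun r : ℝ => c * r := measurable_const.mul measurable_id
  let e : ℝ ≃ᵐ ℝ := MeasurableEquiv.addLeft (ρ y)
  have hint : ∀ (κ : Measure ℝ) (q : ℚ × ℚ), ((κ.withDensity fun s => φ (u s y)).map e)
      (Ioo (q.1 : ℝ) q.2) = ∫⁻ s, f q (u s y) ∂κ := fun κ q => by
    have hm : MeasurableSet (e ⁻¹' Ioo (q.1 : ℝ) q.2) := e.measurable measurableSet_Ioo
    rw [e.map_apply, withDensity_apply _ hm, ← lintegral_indicator hm]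
    refine lintegral_congr fun s => ?_
    have : s ∈ e ⁻¹' Ioo (q.1 : ℝ) q.2 ↔ u s y ∈ ρ ⁻¹' Ioo (q.1 : ℝ) q.2 := by
      rw [mem_preimage, mem_preimage, hF.coc]
      rfl
    by_cases h : s ∈ e ⁻¹' Ioo (q.1 : ℝ) q.2
    · simp only [f]
      rw [indicator_of_mem h, indicator_of_mem (this.1 h)]
    · simp only [f]
      rw [indicator_of_notMem h, indicator_of_notMem fun h' => h (this.2 h')]
  have hfin : IsFiniteMeasure (((a • lam y).withDensity fun s => φ (u s y))) := by
    refine isFiniteMeasure_withDensity ?_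
    rw [lintegral_smul_measure, hD.one, smul_eq_mul, mul_one]
    exact hg
  have heq : ((a • lam y).withDensity fun s => φ (u s y)).map e
      = (((lam g).map (c * ·)).withDensity fun s => φ (u s y)).map e := by
    refine Real.measure_ext_Ioo_rat fun p q => ?_
    rw [hint _ (p, q), hint _ (p, q), lintegral_smul_measure, smul_eq_mul,
      lintegral_map (f := fun s => f (p, q) (u s y)) ((hfm _).comp (hu y)) hcm, mul_comm]
    refine (hq (p, q)).symm.trans (lintegral_congr fun r => ?_)
    simp only [Function.comp, hTu, hy]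
  have heq' := e.map_measurableEquiv_injective heq
  have hcancel : ∀ κ : Measure ℝ, (κ.withDensity fun s => φ (u s y)).withDensity
      (fun s => (φ (u s y))⁻¹) = κ := fun κ =>
    withDensity_inv_same hψ (Eventually.of_forall fun _ => hφ0 _)
      (Eventually.of_forall fun _ => hW.fin _)
  have hfinal : a • lam y = (lam g).map (c * ·) := by
    rw [← hcancel (a • lam y), heq', hcancel]
  refine ⟨a⁻¹, ENNReal.inv_ne_zero.2 hg, ENNReal.inv_ne_top.2 (ha0 g), ?_⟩
  rw [← hfinal, smul_smul, ENNReal.inv_mul_cancel (ha0 g) hg, one_smul]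

end TP
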