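import Vale.Agent.P007.RStm

noncomputable section
namespace TP
open MeasureTheory Filter Set ProbabilityTheory
open Vale.Agent.P007 (X lattice act Gam proj IsInvariantProb Equidistributes act_proj)
open scoped Classical Topology ENNReal

theorem RLWX_mI {Ω : Type*} [MeasurableSpace Ω] {κ : Ω → Measure ℝ} (hκ : Measurable κ)
    (hf : ∀ x, IsFiniteMeasureOnCompacts (κ x)) :
    Measurable fun p : Ω × ℝ => κ p.1 (Icc (p.2 - 1) (p.2 + 1)) := by
  have hs : MeasurableSet {q : (Ω × ℝ) × ℝ | q.1.2 - 1 ≤ q.2 ∧ q.2 ≤ q.1.2 + 1} :=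
    (measurableSet_le (measurable_fst.snd.sub_const 1) measurable_snd).inter
      (measurableSet_le measurable_snd (measurable_fst.snd.add_const 1))
  have := meas_lint (κ := fun p : Ω × ℝ => κ p.1) (hκ.comp measurable_fst) (fun p => hf p.1)
    (k := fun p r => (Icc (p.2 - 1) (p.2 + 1)).indicator 1 r) (measurable_one.indicator hs)
  simpa only [lintegral_indicator_one measurableSet_Icc] using this

theorem RLWX_mu {n : ℕ} (i j : Fin n) :
    Measurable fun p : X n × ℝ => act (uu i j p.2) p.1 :=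
  measurable_act₂ ((continuous_uu i j).measurable.comp measurable_snd) measurable_fst

theorem RLWX_one (hExSec : ExSec) (hLiftA : LiftA) {n : ℕ} {μ : Measure (X n)} {i j : Fin n}
    {κ : X n → Measure ℝ} (H : LW μ i j κ) (k : X n → ℝ → ℝ≥0∞)
    (hk : Measurable (Function.uncurry k)) :
    ∫⁻ x, ∫⁻ r, k x r ∂κ x ∂μ
      = ∫⁻ x, ∫⁻ r, k (act (uu i j r) x) (-r) * (κ x (Icc (r - 1) (r + 1)))⁻¹ ∂κ x ∂μ := by
  obtain ⟨L1, -, -, -, -, -, -, -, L9, L10⟩ := hLiftA n
  have hsec := (hExSec n).1.2.1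
  set b : G n → ℝ≥0∞ := (range (sec : X n → G n)).indicator 1 with hb
  have mb : Measurable b := measurable_one.indicator L9
  have mp : Measurable (proj : G n → X n) := continuous_proj.measurable
  have mk : Measurable fun p : G n × ℝ => k (proj p.1) p.2 :=
    hk.comp ((mp.comp measurable_fst).prodMk measurable_snd)
  have mK : Measurable (Function.uncurry fun (g : G n) (r : ℝ) => b g * k (proj g) r) :=
    (mb.comp measurable_fst).mul mk
  have mU : Measurable fun p : G n × ℝ => p.1 * uu i j p.2 :=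
    (continuous_fst.mul ((continuous_uu i j).comp continuous_snd)).measurable
  have mI := RLWX_mI H.meas H.fin
  have mK' : Measurable (Function.uncurry fun (g : G n) (r : ℝ) =>
      b (g * uu i j r) * k (proj (g * uu i j r)) (-r) *
        (κ (proj g) (Icc (r - 1) (r + 1)))⁻¹) :=
    (mK.comp (mU.prodMk measurable_snd.neg)).mul
      (mI.comp ((mp.comp measurable_fst).prodMk measurable_snd)).inv
  have h := H.mtG _ mK
  have mκ : Measurable fun g : G n => κ (proj g) := H.meas.comp mp
  rw [L1 μ _ (meas_lint mκ (fun g => H.fin _) mK),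
    L1 μ _ (meas_lint mκ (fun g => H.fin _) mK')] at h
  have hp : ∀ (γ : Gam n) x, proj (γ.1 * sec x) = x := fun γ x => by rw [proj_gam, hsec]
  have hq : ∀ (γ : Gam n) x r, proj (γ.1 * sec x * uu i j r) = act (uu i j r) x := fun γ x r => by
    rw [← act_proj, hp]
  simp only [hp, hq] at h
  have e1 : ∀ x, ∑' γ : Gam n, ∫⁻ r, b (γ.1 * sec x) * k x r ∂κ x = ∫⁻ r, k x r ∂κ x := fun x => by
    have m1 : Measurable (k x) := hk.comp measurable_prodMk_left
    simp only [lintegral_const_mul _ m1]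
    rw [ENNReal.tsum_mul_right, L10, one_mul]
  have e2 : ∀ x, ∑' γ : Gam n, ∫⁻ r, b (γ.1 * sec x * uu i j r) * k (act (uu i j r) x) (-r) *
      (κ x (Icc (r - 1) (r + 1)))⁻¹ ∂κ x
      = ∫⁻ r, k (act (uu i j r) x) (-r) * (κ x (Icc (r - 1) (r + 1)))⁻¹ ∂κ x := fun x => by
    rw [← lintegral_tsum]
    · refine lintegral_congr fun r => ?_
      simp only [mul_assoc]
      rw [ENNReal.tsum_mul_right, L10, one_mul]
    · intro γ
      have := mK'.comp (measurable_prodMk_left (x := γ.1 * sec x))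
      simp only [Function.comp_def, Function.uncurry, hp, hq] at this
      exact this.aemeasurable
  simpa only [e1, e2] using h

theorem s_LWX (hExSec : ExSec) (hLiftA : LiftA) : LWX := by
  intro n μ i j κ H
  refine ⟨RLWX_one hExSec hLiftA H, fun p hp => ?_⟩
  obtain ⟨N, hN1, hN2, hN3⟩ := exists_measurable_superset_of_null (ae_iff.1 hp)
  have mk : Measurable (Function.uncurry fun (x : X n) (r : ℝ) =>
      N.indicator (1 : X n → ℝ≥0∞) (act (uu i j r) x)) :=
    (measurable_one.indicator hN2).comp (RLWX_mu i j)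
  have h := RLWX_one hExSec hLiftA H _ mk
  have h0 : ∫⁻ x, ∫⁻ r, N.indicator (1 : X n → ℝ≥0∞) (act (uu i j (-r)) (act (uu i j r) x)) *
      (κ x (Icc (r - 1) (r + 1)))⁻¹ ∂κ x ∂μ = 0 := by
    refine lintegral_eq_zero_of_ae_eq_zero ?_
    filter_upwards [measure_eq_zero_iff_ae_notMem.1 hN3] with x hx
    simp [act_act, ← uu_add, uu_zero, act_one, indicator_of_notMem hx]
  rw [h0, lintegral_eq_zero_iff (meas_lint H.meas H.fin mk)] at h
  filter_upwards [h] with x hx
  have m1 : Measurable fun r => N.indicator (1 : X n → ℝ≥0∞) (act (uu i j r) x) :=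
    (measurable_one.indicator hN2).comp
      (measurable_act₂ (continuous_uu i j).measurable measurable_const)
  rw [Pi.zero_apply, lintegral_eq_zero_iff m1] at hx
  filter_upwards [hx] with r hr
  by_contra h1
  have h2 : act (uu i j r) x ∈ N := hN1 h1
  simp [indicator_of_mem h2] at hr

/-- The indicator of the basic cell. -/
def RLWX_chi (W : ℝ) : ℝ → ℝ≥0∞ := (Ioo 0 W).indicator 1

theorem RLWX_chi_meas (W : ℝ) : Measurable (RLWX_chi W) :=
  measurable_one.indicator measurableSet_Ioo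

theorem RLWX_set (ν : Measure ℝ) (W θ : ℝ) (F : ℝ → ℝ≥0∞) :
    ∫⁻ r in Ioo (-θ) (W - θ), F r ∂ν = ∫⁻ r, RLWX_chi W (θ + r) * F r ∂ν := by
  rw [← lintegral_indicator measurableSet_Ioo]
  refine lintegral_congr fun r => ?_
  have e : r ∈ Ioo (-θ) (W - θ) ↔ θ + r ∈ Ioo 0 W := by
    simp only [mem_Ioo]
    constructor <;> rintro ⟨h1, h2⟩ <;> constructor <;> linarith
  unfold RLWX_chi
  by_cases h : r ∈ Ioo (-θ) (W - θ)
  · rw [indicator_of_mem h, indicator_of_mem (e.1 h), Pi.one_apply, one_mul]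
  · rw [indicator_of_notMem h, indicator_of_notMem (mt e.2 h), zero_mul]

theorem RLWX_set0 (W : ℝ) (F : ℝ → ℝ≥0∞) :
    ∫⁻ r in Ioo 0 W, F r = ∫⁻ r, RLWX_chi W r * F r := by
  simpa using RLWX_set volume W 0 F

theorem RLWX_cell (ν : Measure ℝ) (W θ : ℝ) :
    ν (Ioo (-θ) (W - θ)) = ∫⁻ r, RLWX_chi W (θ + r) ∂ν := by
  simpa using RLWX_set ν W θ fun _ => 1

theorem s_Avg (hLWX : LWX) (hStbQ : StbQ) : Avg := by
  intro n μ i j κ W h g H hW mh mg
  have mχ := RLWX_chi_meas W
  have mu := RLWX_mu i j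
  have mm : Measurable fun p : X n × ℝ => κ p.1 (Ioo (-p.2) (W - p.2)) := by
    simp only [RLWX_cell]
    exact meas_lint (κ := fun p : X n × ℝ => κ p.1) (H.meas.comp measurable_fst)
      (fun p => H.fin p.1) (k := fun p r => RLWX_chi W (p.2 + r))
      (mχ.comp (measurable_fst.snd.add measurable_snd))
  have mF : Measurable fun q : (X n × ℝ) × ℝ =>
      RLWX_chi W (q.1.2 + q.2) * (h (act (uu i j q.2) q.1.1) * g (q.1.2 + q.2)) :=
    (mχ.comp (measurable_fst.snd.add measurable_snd)).mul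
      ((mh.comp (mu.comp (measurable_fst.fst.prodMk measurable_snd))).mul
        (mg.comp (measurable_fst.snd.add measurable_snd)))
  have mI : Measurable fun p : X n × ℝ =>
      ∫⁻ r, RLWX_chi W (p.2 + r) * (h (act (uu i j r) p.1) * g (p.2 + r)) ∂κ p.1 :=
    meas_lint (κ := fun p : X n × ℝ => κ p.1) (H.meas.comp measurable_fst) (fun p => H.fin p.1) mF
  simp only [RLWX_set0, RLWX_set]
  refine ⟨Measurable.lintegral_prod_right' (f := fun p : X n × ℝ => RLWX_chi W p.2 *
    ((∫⁻ r, RLWX_chi W (p.2 + r) * (h (act (uu i j r) p.1) * g (p.2 + r)) ∂κ p.1) *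
      (κ p.1 (Ioo (-p.2) (W - p.2)))⁻¹)) ((mχ.comp measurable_snd).mul (mI.mul mm.inv)), ?_⟩
  have mG : Measurable fun q : (X n × ℝ) × ℝ => RLWX_chi W q.2 *
      (RLWX_chi W (q.2 + q.1.2) * (h (act (uu i j q.1.2) q.1.1) * g (q.2 + q.1.2)) *
        (κ q.1.1 (Ioo (-q.2) (W - q.2)))⁻¹) :=
    (mχ.comp measurable_snd).mul
      ((mF.comp ((measurable_fst.fst.prodMk measurable_snd).prodMk measurable_fst.snd)).mul
        (mm.comp (measurable_fst.fst.prodMk measurable_snd)).inv)
  obtain ⟨hL, hL2⟩ := hLWX n μ i j κ H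
  have h1 := hL (fun x r => ∫⁻ θ, RLWX_chi W θ *
      (RLWX_chi W (θ + r) * (h (act (uu i j r) x) * g (θ + r)) * (κ x (Ioo (-θ) (W - θ)))⁻¹))
    (Measurable.lintegral_prod_right' mG)
  obtain ⟨S, ⟨-, hS⟩, hc⟩ := H.coc
  have hS' : ∀ᵐ x ∂μ, x ∈ S := hS
  refine Eq.trans (lintegral_congr fun x => ?_) (h1.trans ?_)
  · have := H.fin x
    have m0 : Measurable (Function.uncurry fun r θ => RLWX_chi W θ *
        (RLWX_chi W (θ + r) * (h (act (uu i j r) x) * g (θ + r)) *
          (κ x (Ioo (-θ) (W - θ)))⁻¹)) :=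
      mG.comp (((measurable_const (a := x)).prodMk measurable_fst).prodMk measurable_snd)
    rw [lintegral_lintegral_swap m0.aemeasurable]
    refine lintegral_congr fun θ => ?_
    have m1 : Measurable fun r => RLWX_chi W (θ + r) * (h (act (uu i j r) x) * g (θ + r)) :=
      mF.comp (measurable_prodMk_left (x := (x, θ)))
    rw [lintegral_const_mul _ (m1.mul_const _), lintegral_mul_const _ m1]
  rw [← lintegral_mul_const _ mh]
  refine lintegral_congr_ae ?_
  filter_upwards [hS', hL2 _ hS'] with x hx hx2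
  have hfx := H.fin x
  have mx : Measurable fun θ => κ x (Ioo (-θ) (W - θ)) := mm.comp (measurable_prodMk_left (x := x))
  have mQ : Measurable fun q : ℝ × ℝ => h x * (RLWX_chi W q.2 * g q.2) *
      (κ x (Ioo (-q.2) (W - q.2)))⁻¹ * RLWX_chi W (q.2 + q.1) :=
    ((((mχ.mul mg).const_mul _).mul mx.inv).comp measurable_snd).mul
      (mχ.comp (measurable_snd.add measurable_fst))
  calc _ = ∫⁻ r, (∫⁻ θ, h x * (RLWX_chi W θ * g θ) * (κ x (Ioo (-θ) (W - θ)))⁻¹ *
        RLWX_chi W (θ + r)) ∂κ x := by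
        refine lintegral_congr_ae ?_
        filter_upwards [hx2] with r hr
        obtain ⟨c0, hκ⟩ := hc x hx r hr
        have c1 : κ x (Icc (r - 1) (r + 1)) ≠ ∞ := isCompact_Icc.measure_lt_top.ne
        rw [(hStbQ.2.1 _ r hfx c0).1] at hκ
        rw [← lintegral_mul_const' _ _ (ENNReal.inv_ne_top.2 c0),
          ← lintegral_add_right_eq_self _ r]
        refine lintegral_congr fun θ => ?_
        rw [hκ, Measure.smul_apply, smul_eq_mul, Measure.map_apply (by fun_prop) measurableSet_Ioo,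
          preimage_sub_const_Ioo, ENNReal.mul_inv (Or.inl (ENNReal.inv_ne_zero.2 c1))
            (Or.inl (ENNReal.inv_ne_top.2 c0)), inv_inv, act_act, ← uu_add, add_neg_cancel,
          uu_zero, act_one, add_neg_cancel_right, show -(θ + r) + r = -θ by ring,
          show W - (θ + r) + r = W - θ by ring]
        calc _ = h x * (RLWX_chi W θ * g θ) * (κ x (Ioo (-θ) (W - θ)))⁻¹ * RLWX_chi W (θ + r) *
              (κ x (Icc (r - 1) (r + 1)) * (κ x (Icc (r - 1) (r + 1)))⁻¹) := by ring
          _ = _ := by rw [ENNReal.mul_inv_cancel c0 c1, mul_one]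
    _ = ∫⁻ θ, h x * (RLWX_chi W θ * g θ) := by
        rw [lintegral_lintegral_swap mQ.aemeasurable]
        refine lintegral_congr fun θ => ?_
        have m1 : Measurable fun r => RLWX_chi W (θ + r) := mχ.comp (measurable_const_add θ)
        rw [lintegral_const_mul _ m1, ← RLWX_cell]
        by_cases hθ : θ ∈ Ioo 0 W
        · have c1 : κ x (Ioo (-θ) (W - θ)) ≠ ∞ :=
            ((measure_mono Ioo_subset_Icc_self).trans_lt isCompact_Icc.measure_lt_top).ne
          have c0 : κ x (Ioo (-θ) (W - θ)) ≠ 0 := fun h0 => by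
            have p1 := hθ.1
            have p2 := sub_pos.2 hθ.2
            refine H.pos x (min θ (W - θ) / 2) (by positivity) (measure_mono_null ?_ h0)
            have q1 := min_le_left θ (W - θ)
            have q2 := min_le_right θ (W - θ)
            exact Icc_subset_Ioo (by linarith) (by linarith)
          rw [mul_assoc, ENNReal.inv_mul_cancel c0 c1, mul_one]
        · simp [RLWX_chi, indicator_of_notMem hθ]
    _ = _ := lintegral_const_mul _ (mχ.mul mg)

end TP
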