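import Vale.Agent.P007.RStm

noncomputable section
namespace TP
open MeasureTheory Filter Set ProbabilityTheory
open Vale.Agent.P007 (X lattice act Gam proj IsInvariantProb Equidistributes)
open scoped Classical Topology ENNReal

theorem RLatV_cancel {n : ℕ} (g : G n) (w : Fin n → ℝ) :
    Matrix.vecMul (Matrix.vecMul w g.1) (g⁻¹).1 = w := by
  rw [Matrix.vecMul_vecMul]
  change Matrix.vecMul w (g * g⁻¹).1 = w
  rw [mul_inv_cancel]
  exact Matrix.vecMul_one w

theorem RLatV_ne {n : ℕ} (g : G n) {w : Fin n → ℝ} (hw : w ≠ 0) : Matrix.vecMul w g.1 ≠ 0 :=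
  fun h => hw (by rw [← RLatV_cancel g w, h, Matrix.zero_vecMul])

theorem RLatV_one {n : ℕ} (g : G n) (z : Matrix (Fin n) (Fin n) ℚ) (S : Set (Fin n)) (hz : z ≠ 0)
    (h : ∀ i j, j ∉ S → ((g⁻¹).1 * z.map (Rat.cast : ℚ → ℝ) * g.1) i j = 0) :
    ∃ w ∈ lattice (proj g), w ≠ 0 ∧ ∀ j, j ∉ S → w j = 0 := by
  obtain ⟨i, k₀, hk⟩ : ∃ i k, z i k ≠ 0 := by
    by_contra hc
    push Not at hc
    exact hz (Matrix.ext hc)
  obtain ⟨b, hb⟩ := IsLocalization.exist_integer_multiples_of_finite (nonZeroDivisors ℤ) (z i)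
  choose a ha using hb
  have ha' : ∀ k, (a k : ℝ) = (b : ℤ) * (z i k : ℝ) := fun k => by
    have := ha k
    rw [zsmul_eq_mul, eq_intCast] at this
    exact_mod_cast congrArg (Rat.cast : ℚ → ℝ) this
  refine ⟨Matrix.vecMul (fun k => (a k : ℝ)) g.1, ?_, RLatV_ne g fun h0 => ?_, fun j hj => ?_⟩
  · rw [Vale.Agent.P007.lattice_proj]
    have : Matrix.vecMul (fun k => (a k : ℝ)) g.1 = ∑ k, a k • fun j => g.1 k j := by
      ext j
      simp [Matrix.vecMul, dotProduct]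
    rw [this]
    exact Submodule.sum_mem _ fun k _ => Submodule.smul_mem _ _ (Submodule.subset_span ⟨k, rfl⟩)
  · have := congrFun h0 k₀
    rw [ha'] at this
    exact mul_ne_zero (Int.cast_ne_zero.2 (nonZeroDivisors.coe_ne_zero b))
      (Rat.cast_ne_zero.2 hk) this
  · have e : z.map (Rat.cast : ℚ → ℝ) * g.1 =
        g.1 * ((g⁻¹).1 * z.map (Rat.cast : ℚ → ℝ) * g.1) := by
      rw [← mul_assoc, ← mul_assoc]
      change _ = (g * g⁻¹).1 * _ * _
      rw [mul_inv_cancel]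
      simp
    have e2 : (z.map (Rat.cast : ℚ → ℝ) * g.1) i j = 0 := by
      rw [e, Matrix.mul_apply]
      exact Finset.sum_eq_zero fun k _ => by rw [h k j hj, mul_zero]
    rw [Matrix.mul_apply] at e2
    simp only [Matrix.vecMul, dotProduct, ha', mul_assoc]
    rw [← Finset.mul_sum]
    exact mul_eq_zero_of_right _ e2

theorem RLatV_two (hLatA : LatA) {n : ℕ} (x : X n) (w t : Fin n → ℝ) (hw : w ∈ lattice x)
    (h0 : w ≠ 0) (ht : ∀ j, w j ≠ 0 → t j < (∑ i, t i) / n) : ¬ Ret (dA t) (fun _ => True) x := by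
  rintro ⟨m, c, hm, hc, h⟩
  obtain ⟨-, h2, h3, -⟩ := hLatA n
  set v : ℕ → Fin n → ℝ := fun k => Matrix.vecMul (Matrix.vecMul w (dA t ^ m k).1) (c k)⁻¹.1
    with hv
  have v1 : ∀ k, v k ∈ lattice x := fun k => by
    have a1 : Matrix.vecMul w (dA t ^ m k).1 ∈ (lattice (act (dA t ^ m k) x) : Set _) := by
      rw [h2]
      exact ⟨w, hw, rfl⟩
    rw [(h k).2, h2] at a1
    obtain ⟨u, hu, e⟩ := a1
    simp only [hv, ← e, RLatV_cancel]
    exact hu
  have v2 : ∀ k, v k ≠ 0 := fun k => RLatV_ne _ (RLatV_ne _ h0)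
  have u0 : ∀ l, Tendsto (fun k => Matrix.vecMul w (dA t ^ m k).1 l) atTop (𝓝 0) := fun l => by
    have e : ∀ k, Matrix.vecMul w (dA t ^ m k).1 l =
        w l * Real.exp (t l - (∑ i, t i) / n) ^ m k := fun k => by
      rw [← dA_nsmul, dA_coe, Matrix.vecMul_diagonal, ← Real.exp_nat_mul]
      simp only [Pi.smul_apply, smul_eq_mul, ← Finset.mul_sum]
      congr 2
      ring
    simp only [e]
    by_cases hl : w l = 0
    · simp [hl]
    · have := ((tendsto_pow_atTop_nhds_zero_of_lt_one (Real.exp_pos _).le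
        (Real.exp_lt_one_iff.2 (sub_neg.2 (ht l hl)))).comp hm).const_mul (w l)
      simpa using this
  have v3 : Tendsto v atTop (𝓝 0) := tendsto_pi_nhds.2 fun j => by
    have a1 := tendsto_G.1 hc.inv
    have := tendsto_finsetSum Finset.univ fun l _ => (u0 l).mul (a1 l j)
    simp only [zero_mul, Finset.sum_const_zero] at this
    exact this
  have hfin : ({w : Fin n → ℝ | w ∈ lattice x ∧ ‖w‖ ≤ 1} \ {0}).Finite := (h3 x 1).subset sdiff_subset
  have a1 := v3.eventually (hfin.isClosed.isOpen_compl.mem_nhds (fun h => h.2 rfl))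
  have a2 := v3.norm.eventually (ge_mem_nhds (show ‖(0 : Fin n → ℝ)‖ < 1 by simp))
  obtain ⟨k, b1, b2⟩ := (a1.and a2).exists
  exact b1 ⟨⟨v1 k, b2⟩, v2 k⟩

theorem s_LatV (hLatA : LatA) : LatV := by
  refine fun n => ⟨RLatV_one, RLatV_two hLatA, fun g h c e => ?_⟩
  rw [Vale.Agent.P007.act_proj, Vale.Agent.P007.act_proj, Vale.Agent.P007.proj_eq_iff,
    mul_inv_rev, ← mul_assoc] at e
  obtain ⟨γ, hγ⟩ := e
  exact ⟨γ.1, congrArg Subtype.val hγ⟩


end TP
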