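import Vale.Agent.P007.RStm

noncomputable section
namespace TP
open MeasureTheory Filter Set ProbabilityTheory
open Vale.Agent.P007 (X lattice act Gam proj IsInvariantProb Equidistributes)
open scoped Classical Topology ENNReal

section
variable {n : ℕ}

theorem RLiftA_re {a b : G n} (h : (proj a : X n) = proj b) (f : G n → ℝ≥0∞) :
    ∑' γ : Gam n, f (γ.1 * a) = ∑' γ : Gam n, f (γ.1 * b) := by
  rw [← (Equiv.mulRight (⟨_, (Vale.Agent.P007.proj_eq_iff a b).1 h⟩ : Gam n)).tsum_eq
    fun γ : Gam n => f (γ.1 * b)]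
  refine tsum_congr fun γ => ?_
  simp [mul_assoc]

theorem RLiftA_meas (hs : IsSec (sec : X n → G n)) {f : G n → ℝ≥0∞} (hf : Measurable f) :
    Measurable fun x => ∑' γ : Gam n, f (γ.1 * sec x) :=
  Measurable.tsum fun γ => hf.comp (hs.1.const_mul γ.1)

theorem RLiftA_int (hs : IsSec (sec : X n → G n)) (μ : Measure (X n)) (f : G n → ℝ≥0∞)
    (hf : Measurable f) : ∫⁻ g, f g ∂lift μ = ∫⁻ x, ∑' γ : Gam n, f (γ.1 * sec x) ∂μ := by
  rw [lift, lintegral_sum_measure,
    lintegral_tsum (f := fun (γ : Gam n) x => f (γ.1 * sec x))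
      fun γ : Gam n => (hf.comp (hs.1.const_mul γ.1)).aemeasurable]
  exact tsum_congr fun γ => lintegral_map hf (hs.1.const_mul γ.1)

theorem RLiftA_left (hs : IsSec (sec : X n → G n)) (μ : Measure (X n)) (γ : Gam n) :
    MeasurePreserving (fun g => γ.1 * g) (lift μ) (lift μ) := by
  refine ⟨measurable_const_mul _, Measure.ext_of_lintegral _ fun f hf => ?_⟩
  rw [lintegral_map hf (measurable_const_mul _), RLiftA_int hs μ f hf,
    RLiftA_int hs μ (fun g => f (γ.1 * g)) (hf.comp (measurable_const_mul _))]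
  refine lintegral_congr fun x => ?_
  rw [← (Equiv.mulLeft γ).tsum_eq fun γ' : Gam n => f (γ'.1 * sec x)]
  refine tsum_congr fun γ' => ?_
  simp [mul_assoc]

theorem RLiftA_right (hs : IsSec (sec : X n → G n)) (μ : Measure (X n)) (h : G n)
    (hμ : MeasurePreserving (act h) μ μ) :
    MeasurePreserving (fun g => g * h) (lift μ) (lift μ) := by
  refine ⟨measurable_mul_const _, Measure.ext_of_lintegral _ fun f hf => ?_⟩
  rw [lintegral_map hf (measurable_mul_const _), RLiftA_int hs μ f hf,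
    RLiftA_int hs μ (fun g => f (g * h)) (hf.comp (measurable_mul_const _)),
    ← hμ.lintegral_comp (RLiftA_meas hs hf)]
  refine lintegral_congr fun x => ?_
  have h1 : (proj (sec (act h x)) : X n) = proj (sec x * h) := by
    rw [hs.2.1, ← Vale.Agent.P007.act_proj, hs.2.1]
  rw [RLiftA_re h1]
  simp only [mul_assoc]

theorem RLiftA_bd (hs : IsSec (sec : X n → G n))
    (hfin : ∀ C : Set (G n), IsCompact C → {γ : Gam n | γ.1 ∈ C}.Finite) (C : Set (G n))
    (hC : IsCompact C) : ∃ M : ℕ, ∀ (μ : Measure (X n)) (E : Set (G n)) (F : Set (X n)),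
    MeasurableSet E → E ⊆ C → (∀ g ∈ E, proj g ∈ F) → lift μ E ≤ M * μ F := by
  have h0 : Continuous fun p : G n × G n => p.1 * p.2⁻¹ := by fun_prop
  have h1 := hfin _ ((hC.prod hC).image h0)
  refine ⟨h1.toFinset.card, fun μ E F hE hEC hF => ?_⟩
  rw [← lintegral_indicator_one hE, RLiftA_int hs μ _ (measurable_one.indicator hE)]
  refine le_trans (lintegral_mono fun x => ?_) (lintegral_indicator_const_le F _)
  by_cases h : ∃ γ : Gam n, γ.1 * sec x ∈ E
  · obtain ⟨γ₀, h₀⟩ := h
    have h2 : x ∈ F := by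
      have h3 := hF _ h₀
      rwa [proj_gam, hs.2.1] at h3
    rw [indicator_of_mem h2, ← RLiftA_re (proj_gam γ₀ (sec x)),
      tsum_eq_sum (s := h1.toFinset) fun γ hγ => indicator_of_notMem (fun h3 => hγ ?_) _]
    · refine (Finset.sum_le_card_nsmul _ _ (1 : ℝ≥0∞) fun γ _ =>
        indicator_le_self E (1 : G n → ℝ≥0∞) _).trans ?_
      simp
    · rw [Set.Finite.mem_toFinset]
      exact ⟨(_, _), mk_mem_prod (hEC h3) (hEC h₀), mul_inv_cancel_right _ _⟩
  · have h2 : ∀ γ : Gam n, E.indicator (1 : G n → ℝ≥0∞) (γ.1 * sec x) = 0 := fun γ =>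
      indicator_of_notMem (fun h3 => h ⟨γ, h3⟩) _
    simp only [h2, tsum_zero, zero_le]

theorem RLiftA_cond (hs : IsSec (sec : X n → G n)) (μ : Measure (X n)) (Y : Set (X n))
    (hY : MeasurableSet Y) : lift (cond μ Y) = (μ Y)⁻¹ • (lift μ).restrict (proj ⁻¹' Y) := by
  have h1 : MeasurableSet (proj ⁻¹' Y : Set (G n)) := continuous_proj.measurable hY
  refine Measure.ext_of_lintegral _ fun f hf => ?_
  rw [RLiftA_int hs _ f hf, ProbabilityTheory.cond, lintegral_smul_measure, lintegral_smul_measure,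
    ← lintegral_indicator h1, RLiftA_int hs _ _ (hf.indicator h1), ← lintegral_indicator hY]
  congr 1
  refine lintegral_congr fun x => ?_
  by_cases h : x ∈ Y
  · rw [indicator_of_mem h]
    refine tsum_congr fun γ => (indicator_of_mem ?_ _).symm
    rwa [mem_preimage, proj_gam, hs.2.1]
  · rw [indicator_of_notMem h]
    refine (ENNReal.tsum_eq_zero.2 fun γ => indicator_of_notMem ?_ _).symm
    rwa [mem_preimage, proj_gam, hs.2.1]

theorem RLiftA_range (hs : IsSec (sec : X n → G n)) (g : G n) :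
    g ∈ range (sec : X n → G n) ↔ sec (proj g) = g :=
  ⟨by rintro ⟨x, rfl⟩; rw [hs.2.1], fun h => ⟨_, h⟩⟩

theorem RLiftA_one (hs : IsSec (sec : X n → G n)) (g : G n) :
    ∑' γ : Gam n, (range (sec : X n → G n)).indicator (1 : G n → ℝ≥0∞) (γ.1 * g) = 1 := by
  rw [← RLiftA_re (hs.2.1 (proj g)), tsum_eq_single (1 : Gam n)]
  · rw [indicator_of_mem (by simp), Pi.one_apply]
  · intro γ hγ
    refine indicator_of_notMem (fun h => hγ (Subtype.ext ?_)) _
    rw [RLiftA_range hs, proj_gam, hs.2.1] at h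
    exact (mul_eq_right.1 h.symm)

end

theorem s_LiftA (hExSec : ExSec) : LiftA := by
  intro n
  obtain ⟨hs, hfin⟩ := hExSec n
  refine ⟨RLiftA_int hs, RLiftA_left hs, RLiftA_right hs, RLiftA_bd hs hfin, ?_, ?_, ?_,
    RLiftA_cond hs, ?_, RLiftA_one hs⟩
  · intro μ hμ
    have h1 : IsFiniteMeasureOnCompacts (lift μ) := ⟨fun K hK => by
      obtain ⟨M, hM⟩ := RLiftA_bd hs hfin K hK
      exact (hM μ K univ hK.measurableSet Subset.rfl fun _ _ => mem_univ _).trans_lt
        (ENNReal.mul_lt_top (ENNReal.natCast_lt_top M) (measure_lt_top _ _))⟩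
    exact ⟨h1, inferInstance⟩
  · intro μ p hp
    rw [lift, Measure.ae_sum_iff] at hp
    exact ae_all_iff.2 fun γ => ae_of_ae_map (hs.1.const_mul γ.1).aemeasurable (hp γ)
  · intro μ p hp
    obtain ⟨N, hN, hNm, hN0⟩ := exists_measurable_superset_of_null hp
    have h1 : ∀ᵐ g ∂lift μ, (proj g : X n) ∉ N := by
      rw [lift, Measure.ae_sum_iff]
      intro γ
      refine (ae_map_iff (hs.1.const_mul γ.1).aemeasurable
        (continuous_proj.measurable hNm.compl)).2 ?_
      filter_upwards [measure_eq_zero_iff_ae_notMem.1 hN0] with x hx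
      rwa [proj_gam, hs.2.1]
    filter_upwards [h1] with g hg
    by_contra h
    exact hg (hN h)
  · have h1 : range (sec : X n → G n) = {g | sec (proj g) = g} := Set.ext (RLiftA_range hs)
    rw [h1]
    exact measurableSet_eq_fun (hs.1.comp continuous_proj.measurable) measurable_id


end TP
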