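import Vale.Agent.P007.RStm

noncomputable section
namespace TP
open MeasureTheory Filter Set ProbabilityTheory
open Vale.Agent.P007 (X lattice act Gam proj IsInvariantProb Equidistributes)
open scoped Classical Topology ENNReal

theorem s_LiftB (hExSec : ExSec) (hLiftA : LiftA) : LiftB := by
  intro n μ hμ
  obtain ⟨hs, -⟩ := hExSec n
  obtain ⟨h1, -, -, -, -, h6, -⟩ := hLiftA n
  refine ⟨fun k hk hinv => ?_, ?_⟩
  · have e1 : ∀ x, ∫⁻ g, k (sec x) g ∂lift μ = ∫⁻ x', ∑' γ : Gam n, k (sec x) (γ.1 * sec x') ∂μ :=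
      fun x => h1 μ _ (hk.comp measurable_prodMk_left)
    have e2 : ∀ x, ∫⁻ g, k g (sec x) ∂lift μ = ∫⁻ x', ∑' γ : Gam n, k (γ.1 * sec x') (sec x) ∂μ :=
      fun x => h1 μ (fun g => k g (sec x)) (hk.comp measurable_prodMk_right)
    have hm : Measurable (Function.uncurry fun x x' : X n =>
        ∑' γ : Gam n, k (γ.1 * sec x') (sec x)) :=
      Measurable.tsum fun γ => hk.comp
        (((hs.1.comp measurable_snd).const_mul γ.1).prodMk (hs.1.comp measurable_fst))
    simp only [e1, e2]
    rw [lintegral_lintegral_swap hm.aemeasurable]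
    refine lintegral_congr fun x => lintegral_congr fun x' => ?_
    rw [← (Equiv.inv (Gam n)).tsum_eq]
    refine tsum_congr fun γ => ?_
    rw [← hinv γ]
    simp
  · filter_upwards [h6 μ _ (Measure.support_mem_ae (μ := lift μ))] with x hx U hU
    have h2 := hx 1
    rw [OneMemClass.coe_one, one_mul] at h2
    refine ((Measure.mem_support_iff_forall _).1 h2 _ ?_).ne'
    have h3 : Continuous fun g : G n => (sec x)⁻¹ * g := continuous_const_mul _
    exact h3.continuousAt.preimage_mem_nhds (by rwa [inv_mul_cancel])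

theorem s_UNI (hExSec : ExSec) (hLiftA : LiftA) : UNI := by
  intro n μ μ' hμ hμ'
  obtain ⟨hs, -⟩ := hExSec n
  obtain ⟨h1, -, h3, -, h5, -, -, -, h9, h10⟩ := hLiftA n
  have key : ∀ ν : Measure (X n), IsInvariantProb ν → ∃ c : ℝ≥0∞, ∀ E, MeasurableSet E →
      ν E = c * (Measure.haar (G := G n)).inv (range sec ∩ proj ⁻¹' E) := by
    intro ν hν
    have := hν.1
    have := (h5 ν inferInstance).1
    have : (lift ν).IsMulRightInvariant := ⟨fun g => (h3 ν g (hν.2 g)).map_eq⟩
    have h2 := Measure.isMulLeftInvariant_eq_smul (lift ν).inv (Measure.haar (G := G n))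
    refine ⟨Measure.haarScalarFactor (lift ν).inv (Measure.haar (G := G n)), fun E hE => ?_⟩
    have h4 : MeasurableSet (range sec ∩ proj ⁻¹' E : Set (G n)) :=
      h9.inter (continuous_proj.measurable hE)
    have h6 : lift ν (range sec ∩ proj ⁻¹' E) = ν E := by
      rw [← lintegral_indicator_one h4, h1 ν _ (measurable_one.indicator h4),
        ← lintegral_indicator_one hE]
      refine lintegral_congr fun x => ?_
      by_cases h : x ∈ E
      · rw [indicator_of_mem h, Pi.one_apply, ← h10 (sec x)]
        refine tsum_congr fun γ => ?_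
        have h7 : γ.1 * sec x ∈ (proj ⁻¹' E : Set (G n)) := by
          rwa [mem_preimage, proj_gam, hs.2.1]
        by_cases h8 : γ.1 * sec x ∈ range (sec : X n → G n)
        · rw [indicator_of_mem h8, indicator_of_mem (mem_inter h8 h7)]
        · rw [indicator_of_notMem h8, indicator_of_notMem fun h' => h8 h'.1]
      · rw [indicator_of_notMem h]
        refine ENNReal.tsum_eq_zero.2 fun γ => indicator_of_notMem (fun h' => h ?_) _
        have h7 := h'.2
        rwa [mem_preimage, proj_gam, hs.2.1] at h7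
    rw [← h6, Measure.inv_apply, ← smul_eq_mul, ← ENNReal.smul_def, ← Measure.smul_apply, ← h2,
      Measure.inv_apply, inv_inv]
  obtain ⟨c, hc⟩ := key μ hμ
  obtain ⟨c', hc'⟩ := key μ' hμ'
  have := hμ.1
  have := hμ'.1
  have h7 := hc univ MeasurableSet.univ
  have h8 := hc' univ MeasurableSet.univ
  rw [measure_univ] at h7 h8
  have h11 : c = c' :=
    (ENNReal.eq_inv_of_mul_eq_one_left h7.symm).trans (ENNReal.eq_inv_of_mul_eq_one_left h8.symm).symm
  ext E hE
  rw [hc E hE, hc' E hE, h11]


end TP
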