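import Vale.Agent.P007.RStm

noncomputable section
namespace TP
open MeasureTheory Filter Set ProbabilityTheory
open Vale.Agent.P007 (X lattice act Gam proj IsInvariantProb Equidistributes)
open scoped Classical Topology ENNReal

theorem RLim_dA {m : ℕ} (t : Fin (m + 1) → ℝ) : dA t =
    Vale.Agent.P007.diagA fun j : Fin m => t j.castSucc - (∑ i, t i) / (m + 1 : ℕ) := by
  refine Subtype.ext (congrArg Matrix.diagonal (funext fun j => congrArg Real.exp ?_))
  induction j using Fin.lastCases with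
  | cast j => rw [Fin.snoc_castSucc]
  | last =>
    rw [Fin.snoc_last, Finset.sum_sub_distrib, Finset.sum_const, Finset.card_univ, Fintype.card_fin,
      nsmul_eq_mul, Fin.sum_univ_castSucc]
    push_cast
    field_simp
    ring

theorem RLim_sub {m : ℕ} {e : ℝ} (he : e ≤ 1) :
    {x : X (m + 1) | ∀ w ∈ lattice x, w ≠ 0 → e ≤ ‖w‖}ᶜ ⊆ thinSet (m + 1) 1 0 e := by
  intro x hx
  simp only [mem_compl_iff, mem_ofPred_eq, not_forall, not_le] at hx
  obtain ⟨w, h1, h2, h3⟩ := hx
  refine ⟨w, h1, h2, h3.trans_le he, ?_⟩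
  rw [sub_zero, abs_abs, Finset.abs_prod]
  refine lt_of_le_of_lt ?_ h3
  calc _ ≤ ∏ _j : Fin (m + 1), ‖w‖ :=
        Finset.prod_le_prod (fun _ _ => abs_nonneg _) fun j _ => norm_le_pi_norm w j
    _ ≤ _ := by
        rw [Finset.prod_const, Finset.card_univ, Fintype.card_fin]
        exact pow_le_of_le_one (norm_nonneg _) (h3.le.trans he) m.succ_ne_zero

theorem s_Lim (hLatA : LatA) (hPackA : PackA) (hPackB : PackB) (hMahler : Mahler) (hRig : Rig)
    (hUNI : UNI) : Lim := by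
  intro m hp h2 D hD ν hν
  have : TopologicalSpace.MetrizableSpace (X (m + 1)) :=
    TopologicalSpace.metrizableSpace_of_t3_secondCountable _
  obtain ⟨μ, hμ⟩ : ∃ μ : ℕ → ProbabilityMeasure (X (m + 1)),
      ∀ i, (μ i : Measure (X (m + 1))) = (D i).measure (ν i) :=
    ⟨fun i => ⟨_, ((hPackA m (D i)).2.2.2 (ν i) (hν i)).1⟩, fun _ => rfl⟩
  have hB : ∀ B : ℝ, ∃ C : ℝ, 0 < C ∧ ∀ s ε η : ℝ, 0 ≤ s → 0 < ε → ε ≤ 1 → 0 < η →
      ∀ᶠ i in atTop, (μ i : Measure (X (m + 1))) (thinSet (m + 1) B s ε)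
        ≤ ENNReal.ofReal (C * ε ^ (1 / 4 : ℝ) + η) := fun B => by
    obtain ⟨C, hC, h⟩ := hPackB m B
    refine ⟨C, hC, fun s ε η h1 h2 h3 h4 => ?_⟩
    obtain ⟨D0, h5⟩ := h s ε η h1 h2 h3 h4
    exact (hD.eventually_ge_atTop D0).mono fun i hi => hμ i ▸ h5 _ hi _ (hν i)
  have esc : ∀ ε : ℝ, 0 < ε → ∃ K : Set (X (m + 1)), IsCompact K ∧
      ∀ᶠ i in atTop, (μ i : Measure (X (m + 1))) Kᶜ ≤ ENNReal.ofReal ε := fun ε hε => by
    obtain ⟨C, hC, h⟩ := hB 1
    have h0 : 0 < min 1 (ε / (2 * C)) := lt_min one_pos (by positivity)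
    have h1 : min 1 (ε / (2 * C)) ^ 4 ≤ 1 := pow_le_one₀ h0.le (min_le_left _ _)
    refine ⟨_, hMahler (m + 1) _ (pow_pos h0 4), (h 0 _ (ε / 2) le_rfl (pow_pos h0 4) h1
      (half_pos hε)).mono fun i hi => (measure_mono (RLim_sub h1)).trans (hi.trans
        (ENNReal.ofReal_le_ofReal ?_))⟩
    have h3 : (min 1 (ε / (2 * C)) ^ 4) ^ (1 / 4 : ℝ) = min 1 (ε / (2 * C)) := by
      rw [one_div]
      exact_mod_cast Real.pow_rpow_inv_natCast h0.le (n := 4) (by norm_num)
    have h4 := mul_le_mul_of_nonneg_left (min_le_right 1 (ε / (2 * C))) hC.le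
    rw [show C * (ε / (2 * C)) = ε / 2 by field_simp] at h4
    rw [h3]
    linarith
  have hc : IsCompact (closure (range μ)) := by
    refine isCompact_closure_of_isTightMeasureSet
      (isTightMeasureSet_iff_exists_isCompact_measure_compl_le.2 fun ε hε => ?_)
    obtain ⟨δ, -, h3, h4⟩ := ENNReal.lt_iff_exists_real_btwn.1 hε
    obtain ⟨K, hK, h5⟩ := esc δ (ENNReal.ofReal_pos.1 h3)
    obtain ⟨N, hN⟩ := eventually_atTop.1 h5
    refine ⟨K ∪ ⋃ i ∈ Iio N, ⋃₀ (D i).packet, hK.union ((finite_Iio N).isCompact_biUnion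
      fun i _ => (hPackA m (D i)).1.isCompact_sUnion fun S hS =>
        ((hPackA m (D i)).2.2.1 S hS).2.1), ?_⟩
    rintro _ ⟨_, ⟨i, rfl⟩, rfl⟩
    rcases le_or_gt N i with h | h
    · exact (measure_mono (compl_subset_compl.2 subset_union_left)).trans ((hN i h).trans h4.le)
    · rw [hμ]
      exact (measure_mono (compl_subset_compl.2 ((subset_biUnion_of_mem
        (u := fun i => ⋃₀ (D i).packet) (mem_Iio.2 h)).trans subset_union_right))).trans
        (((hPackA m (D i)).2.2.2 (ν i) (hν i)).2.1.trans_le zero_le)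
  have key : ∀ μ₀ : ProbabilityMeasure (X (m + 1)), MapClusterPt μ₀ atTop μ →
      IsInvariantProb (μ₀ : Measure (X (m + 1))) := fun μ₀ h => by
    obtain ⟨U, hU, h1⟩ := mapClusterPt_iff_ultrafilter.1 h
    refine ⟨inferInstance, hRig _ _ hp (by omega) inferInstance (fun t => ?_) fun B => ?_⟩
    · have h3 := ProbabilityMeasure.tendsto_map_of_tendsto_of_continuous _ _ h1
        (continuous_act (dA t))
      have h4 : ∀ i, (μ i).map (continuous_act (dA t)).measurable.aemeasurable = μ i := fun i =>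
        Subtype.ext (by
          show (μ i : Measure (X (m + 1))).map _ = (μ i : Measure (X (m + 1)))
          rw [hμ, RLim_dA]
          exact (((hPackA m (D i)).2.2.2 (ν i) (hν i)).2.2 _).map_eq)
      simp only [h4] at h3
      exact ⟨measurable_act _,
        congrArg ProbabilityMeasure.toMeasure (tendsto_nhds_unique h3 h1)⟩
    · obtain ⟨C, hC, h3⟩ := hB B
      refine ⟨C + 1, by positivity, fun s ε a1 a2 a3 => ?_⟩
      refine (ProbabilityMeasure.le_liminf_measure_open_of_tendsto h1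
        ((hLatA _).2.2.2 B s ε)).trans (liminf_le_of_frequently_le' ?_)
      rw [add_one_mul]
      exact ((h3 s ε _ a1 a2 a3 (Real.rpow_pos_of_pos a2 _)).filter_mono hU).frequently
  have hm : ∀ᶠ i in atTop, μ i ∈ closure (range μ) :=
    Eventually.of_forall fun i => subset_closure (mem_range_self i)
  obtain ⟨μ₀, -, h0⟩ := hc.exists_mapClusterPt_of_frequently hm.frequently
  have lim : Tendsto μ atTop (𝓝 μ₀) := hc.tendsto_nhds_of_unique_mapClusterPt hm fun x _ hx =>
    Subtype.ext (hUNI _ _ _ (key x hx) (key μ₀ h0))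
  refine ⟨μ₀, key μ₀ h0, fun f => ?_, fun ε hε => ?_⟩
  · simp only [← hμ]
    exact ProbabilityMeasure.tendsto_iff_forall_integral_tendsto.1 lim
      f.toBoundedContinuousFunction
  · obtain ⟨K, hK, h⟩ := esc ε hε
    refine ⟨K, hK, h.mono fun i hi => ?_⟩
    rw [← hμ, ENNReal.ofReal_sub _ hε.le, ENNReal.ofReal_one, tsub_le_iff_right,
      ← prob_add_prob_compl (μ := (μ i : Measure (X (m + 1)))) hK.measurableSet]
    exact add_le_add_right hi _

end TP
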