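import Vale.Agent.P007.RStm
import Vale.Agent.P188.MaxErg

noncomputable section
namespace TP
open MeasureTheory Filter Set ProbabilityTheory
open Vale.Agent.P007 (X lattice act Gam proj IsInvariantProb Equidistributes)
open scoped Classical Topology ENNReal

theorem s_Lus : Lus := by
  intro n μ F S ε hμ hF hS hε
  have hB := TopologicalSpace.isBasis_countableBasis (ℚ × ℚ → ℝ)
  have := (TopologicalSpace.countable_countableBasis (ℚ × ℚ → ℝ)).to_subtype
  obtain ⟨δ, δ0, hδ⟩ := ENNReal.exists_pos_sum_of_countable hε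
    (TopologicalSpace.countableBasis (ℚ × ℚ → ℝ))
  have key : ∀ V : TopologicalSpace.countableBasis (ℚ × ℚ → ℝ), ∃ C C' : Set (X n),
      IsCompact C ∧ IsCompact C' ∧ C ⊆ S ∩ F ⁻¹' V ∧ C' ⊆ S \ F ⁻¹' V ∧ μ (C ∪ C')ᶜ ≤ δ V := by
    intro V
    have hV : MeasurableSet (F ⁻¹' V) := hF (hB.isOpen V.2).measurableSet
    have h0 : (δ V : ℝ≥0∞) / 2 ≠ 0 :=
      (ENNReal.half_pos (ENNReal.coe_pos.2 (δ0 V)).ne').ne'
    obtain ⟨C, c1, c2, c3⟩ := (hS.1.inter hV).exists_isCompact_sdiff_lt (measure_ne_top μ _) h0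
    obtain ⟨C', d1, d2, d3⟩ := (hS.1.diff hV).exists_isCompact_sdiff_lt (measure_ne_top μ _) h0
    refine ⟨C, C', c2, d2, c1, d1, ?_⟩
    have hs : (C ∪ C')ᶜ ⊆ Sᶜ ∪ (((S ∩ F ⁻¹' V) \ C) ∪ ((S \ F ⁻¹' V) \ C')) := by
      intro x hx
      rw [mem_compl_iff, mem_union, not_or] at hx
      by_cases h1 : x ∈ S
      · by_cases h2 : x ∈ F ⁻¹' V
        · exact Or.inr (Or.inl ⟨⟨h1, h2⟩, hx.1⟩)
        · exact Or.inr (Or.inr ⟨⟨h1, h2⟩, hx.2⟩)
      · exact Or.inl h1
    refine (measure_mono hs).trans ((measure_union_le _ _).trans ?_)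
    rw [hS.2, zero_add, ← ENNReal.add_halves (δ V)]
    exact (measure_union_le _ _).trans (add_le_add c3.le d3.le)
  choose C C' c1 c2 c3 c4 c5 using key
  obtain ⟨V₀, hV₀, -⟩ := hB.exists_subset_of_mem_open (mem_univ 0) isOpen_univ
  refine ⟨⋂ V, C V ∪ C' V, ((c1 ⟨V₀, hV₀⟩).union (c2 _)).of_isClosed_subset
    (isClosed_iInter fun V => ((c1 V).union (c2 V)).isClosed) (iInter_subset _ _),
    (iInter_subset _ ⟨V₀, hV₀⟩).trans (union_subset ((c3 _).trans inter_subset_left)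
      ((c4 _).trans sdiff_subset)), ?_, hB.continuousOn_iff.2 fun V hV => ?_⟩
  · rw [compl_iInter]
    exact (measure_iUnion_le _).trans ((ENNReal.tsum_le_tsum c5).trans hδ.le)
  · refine ⟨(C' ⟨V, hV⟩)ᶜ, (c2 _).isClosed.isOpen_compl, Set.ext fun x => ?_⟩
    refine and_congr_left fun hx => ⟨fun h1 h2 => (c4 _ h2).2 h1, fun h1 => ?_⟩
    exact (c3 _ ((mem_iInter.1 hx ⟨V, hV⟩).resolve_right h1)).2

theorem s_Freq : Freq := by
  intro Ω _ μ T B c hμ hT hB hc
  have e : Fq T B c = {x | ∃ N : ℕ, c * N <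
      ∑ j ∈ Finset.range N, B.indicator (fun _ => (1 : ℝ)) (T^[j] x)} := by
    ext x
    simp only [Fq, mem_ofPred_eq, Finset.card_filter, indicator_apply, Nat.cast_sum, Nat.cast_ite,
      Nat.cast_one, Nat.cast_zero]
  have hm : Measurable (B.indicator fun _ => (1 : ℝ)) := measurable_const.indicator hB
  have h := Vale.Agent.P188.maxErg_pf Ω μ T hT _ hm
    (fun x => indicator_nonneg (fun _ _ => zero_le_one) x) ((integrable_const 1).indicator hB) c hc
  rw [← e, integral_indicator hB, setIntegral_const, smul_eq_mul, mul_one, le_div_iff₀ hc] at h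
  refine ⟨?_, ?_⟩
  · rw [e, ofPred_exists]
    exact MeasurableSet.iUnion fun N => measurableSet_lt measurable_const
      (Finset.measurable_sum _ fun j _ => hm.comp (hT.measurable.iterate j))
  · rw [← ofReal_measureReal (measure_ne_top μ (Fq T B c)), ← ofReal_measureReal
      (measure_ne_top μ B), ← ENNReal.ofReal_mul hc.le, mul_comm]
    exact ENNReal.ofReal_le_ofReal h

theorem s_Rec : Rec := by
  intro n μ g W hμ hg hW
  have hB := TopologicalSpace.isBasis_countableBasis (X n)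
  have h : ∀ U ∈ TopologicalSpace.countableBasis (X n), ∀ᵐ x ∂μ, x ∈ W ∩ U →
      ∃ᶠ k in atTop, (act g)^[k] x ∈ W ∩ U := fun U hU =>
    hg.conservative.ae_mem_imp_frequently_image_mem
      (hW.inter (hB.isOpen hU).measurableSet).nullMeasurableSet
  filter_upwards [(ae_ball_iff (TopologicalSpace.countable_countableBasis (X n))).2 h]
    with x hx hxW
  obtain ⟨U, hU⟩ := (𝓝 x).exists_antitone_basis
  have h1 : ∀ k, ∃ᶠ m in atTop, (act g)^[m] x ∈ W ∩ U k := fun k => by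
    obtain ⟨V, hV, h2, h3⟩ := hB.mem_nhds_iff.1 (hU.mem k)
    exact (hx V hV ⟨hxW, h2⟩).mono fun m hm => ⟨hm.1, h3 hm.2⟩
  obtain ⟨φ, hφ, h2⟩ := extraction_forall_of_frequently h1
  obtain ⟨c, h3, h4⟩ := exists_lift (hU.tendsto fun k => (h2 k).2)
  refine ⟨φ, c, hφ.tendsto_atTop, h3, fun k => ⟨?_, ?_⟩⟩
  · have := (h2 k).1
    rwa [h4] at this
  · rw [← act_iter, h4]


end TP
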