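import Vale.Agent.P007.RStm

noncomputable section
namespace TP
open MeasureTheory Filter Set ProbabilityTheory
open Vale.Agent.P007 (X lattice act Gam proj IsInvariantProb Equidistributes)
open scoped Classical Topology ENNReal

theorem s_Cov1 : Cov1 := by
  obtain ⟨N, τ, hτ, hN⟩ := HasBesicovitchCovering.no_satelliteConfig (α := ℝ)
  refine ⟨N, fun ν E B W c R _ hB hE => ?_⟩
  choose ρ h0 hR hW hc using hE
  let q : Besicovitch.BallPackage E ℝ :=
    ⟨fun t => t.1, fun t => ρ t.1 t.2, fun t => h0 _ _, R, fun t => hR _ _⟩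
  obtain ⟨s, hs, hcov⟩ := Besicovitch.exist_disjoint_covering_families hτ hN q
  have h1 : ∀ i, c * ν (⋃ j ∈ s i, Metric.ball (q.c j) (q.r j)) ≤ ν (B ∩ W) := fun i => by
    have hcount : (s i).Countable := (hs i).countable_of_nonempty_interior fun j _ =>
      (Metric.nonempty_ball.2 (q.rpos j)).mono Metric.ball_subset_interior_closedBall
    have hd : (s i).PairwiseDisjoint fun j => B ∩ Metric.closedBall (q.c j) (q.r j) :=
      (hs i).mono fun j => inter_subset_right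
    calc c * ν (⋃ j ∈ s i, Metric.ball (q.c j) (q.r j))
        ≤ c * ∑' j : s i, ν (Metric.ball (q.c j) (q.r j)) :=
          mul_le_mul_right (measure_biUnion_le ν hcount _) c
      _ = ∑' j : s i, c * ν (Metric.ball (q.c j) (q.r j)) := ENNReal.tsum_mul_left.symm
      _ ≤ ∑' j : s i, ν (B ∩ Metric.closedBall (q.c j) (q.r j)) := by
          refine ENNReal.tsum_le_tsum fun j => ?_
          refine (mul_le_mul_right (measure_mono Metric.ball_subset_closedBall) c).trans ?_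
          rw [Real.closedBall_eq_Icc]
          exact hc _ _
      _ = ν (⋃ j ∈ s i, B ∩ Metric.closedBall (q.c j) (q.r j)) :=
          (measure_biUnion hcount hd fun j _ => hB.inter measurableSet_closedBall).symm
      _ ≤ ν (B ∩ W) := by
          refine measure_mono (iUnion₂_subset fun j _ => inter_subset_inter_right _ ?_)
          rw [Real.closedBall_eq_Icc]
          exact hW _ _
  have h2 : E ⊆ ⋃ i, ⋃ j ∈ s i, Metric.ball (q.c j) (q.r j) := fun t ht => hcov ⟨⟨t, ht⟩, rfl⟩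
  calc c * ν E ≤ c * ∑ i, ν (⋃ j ∈ s i, Metric.ball (q.c j) (q.r j)) :=
        mul_le_mul_right ((measure_mono h2).trans (measure_iUnion_fintype_le _ _)) c
    _ ≤ N * ν (B ∩ W) := by
        rw [Finset.mul_sum]
        refine (Finset.sum_le_card_nsmul _ _ _ fun i _ => h1 i).trans_eq ?_
        rw [Finset.card_univ, Fintype.card_fin, nsmul_eq_mul]

theorem RMaxL_shift (κ : Measure ℝ) (r ρ : ℝ) {B : Set ℝ} (hB : MeasurableSet B)
    (h : sh r κ (Icc (-ρ) ρ) < 10 * sh r κ ({s | r + s ∈ B} ∩ Icc (-ρ) ρ)) :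
    10⁻¹ * κ (Icc (r - ρ) (r + ρ)) ≤ κ (B ∩ Icc (r - ρ) (r + ρ)) := by
  have hm : Measurable fun s : ℝ => s - r := measurable_id.sub_const r
  have hB' : MeasurableSet {s | r + s ∈ B} := measurable_const_add r hB
  have e1 : (fun s : ℝ => s - r) ⁻¹' Icc (-ρ) ρ = Icc (r - ρ) (r + ρ) := by
    ext s
    simp only [mem_preimage, mem_Icc]
    constructor <;> rintro ⟨h1, h2⟩ <;> constructor <;> linarith
  have e2 : (fun s : ℝ => s - r) ⁻¹' {s | r + s ∈ B} = B := by
    ext s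
    simp
  unfold sh nrm at h
  rw [Measure.smul_apply, Measure.smul_apply, smul_eq_mul, smul_eq_mul,
    Measure.map_apply hm (s := Icc (-ρ) ρ) measurableSet_Icc,
    Measure.map_apply hm (hB'.inter measurableSet_Icc), preimage_inter, e1, e2, mul_left_comm] at h
  have h2 : κ (Icc (r - ρ) (r + ρ)) ≤ 10 * κ (B ∩ Icc (r - ρ) (r + ρ)) := by
    by_contra h3
    exact h.not_ge (mul_le_mul_right (not_le.1 h3).le _)
  refine (mul_le_mul_right h2 _).trans_eq ?_
  rw [← mul_assoc, ENNReal.inv_mul_cancel (by norm_num) (by norm_num), one_mul]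

/-- The points at which the inequality fails at scale `m`. -/
def RMaxL_bad {n : ℕ} (i j : Fin n) (κ : X n → Measure ℝ) (B : Set (X n)) (m : ℕ) : Set (X n) :=
  {x | κ x (Icc (-4 ^ m) (4 ^ m)) <
    10 * κ x ({r | act (uu i j r) x ∈ B} ∩ Icc (-4 ^ m) (4 ^ m))}

theorem RMaxL_mB {n : ℕ} (i j : Fin n) {B : Set (X n)} (hB : MeasurableSet B) (x : X n) :
    MeasurableSet {r : ℝ | act (uu i j r) x ∈ B} :=
  measurable_act₂ (continuous_uu i j).measurable measurable_const hB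

theorem RMaxL_meas {n : ℕ} {μ : Measure (X n)} {i j : Fin n} {κ : X n → Measure ℝ}
    (h : LW μ i j κ) {B : Set (X n)} (hB : MeasurableSet B) (m : ℕ) :
    MeasurableSet (RMaxL_bad i j κ B m) := by
  refine measurableSet_lt ((Measure.measurable_coe measurableSet_Icc).comp h.meas)
    (Measurable.const_mul ?_ 10)
  have h1 : MeasurableSet {p : X n × ℝ | act (uu i j p.2) p.1 ∈ B ∧
      p.2 ∈ Icc (-4 ^ m : ℝ) (4 ^ m)} :=
    (measurable_act₂ ((continuous_uu i j).measurable.comp measurable_snd) measurable_fst hB).inter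
      (measurable_snd measurableSet_Icc)
  have h2 := meas_lint h.meas h.fin (k := fun x r => indicator {p : X n × ℝ |
    act (uu i j p.2) p.1 ∈ B ∧ p.2 ∈ Icc (-4 ^ m : ℝ) (4 ^ m)} 1 (x, r))
    (measurable_one.indicator h1)
  refine (congrArg Measurable (funext fun x => ?_)).mp h2
  exact lintegral_indicator_one ((RMaxL_mB i j hB x).inter measurableSet_Icc)

theorem RMaxL_pt {C : ℕ} (hC : ∀ (ν : Measure ℝ) (E B W : Set ℝ) (c : ℝ≥0∞) (R : ℝ),
      IsFiniteMeasureOnCompacts ν → MeasurableSet B → (∀ t ∈ E, ∃ ρ : ℝ, 0 < ρ ∧ ρ ≤ R ∧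
      Icc (t - ρ) (t + ρ) ⊆ W ∧ c * ν (Icc (t - ρ) (t + ρ)) ≤ ν (B ∩ Icc (t - ρ) (t + ρ))) →
      c * ν E ≤ C * ν (B ∩ W))
    {n : ℕ} {i j : Fin n} {κ : X n → Measure ℝ} {B : Set (X n)} (hB : MeasurableSet B) (M : ℕ)
    (x : X n) (hx : IsFiniteMeasureOnCompacts (κ x))
    (hs : ∀ᵐ r ∂κ x, κ (act (uu i j r) x) = sh r (κ x)) (θ : ℝ) :
    ∫⁻ r in Ioo (-θ) (4 * 4 ^ M - θ), indicator (⋃ m ≤ M, RMaxL_bad i j κ B m) 1 (act (uu i j r) x)
      * indicator (Ioo (4 ^ M : ℝ) (3 * 4 ^ M)) 1 (θ + r) ∂κ x ≤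
    10 * C * ∫⁻ r in Ioo (-θ) (4 * 4 ^ M - θ), indicator B 1 (act (uu i j r) x) * 1 ∂κ x := by
  have h1 := hC (κ x) {r | act (uu i j r) x ∈ (⋃ m ≤ M, RMaxL_bad i j κ B m) ∧
    θ + r ∈ Ioo (4 ^ M : ℝ) (3 * 4 ^ M) ∧ κ (act (uu i j r) x) = sh r (κ x)}
    {r | act (uu i j r) x ∈ B} (Ioo (-θ) (4 * 4 ^ M - θ)) 10⁻¹ (4 ^ M) hx (RMaxL_mB i j hB x) (by
      rintro r ⟨h1, h2, h3⟩
      obtain ⟨m, hm, h4⟩ := mem_iUnion₂.1 h1
      have h5 : (4 : ℝ) ^ m ≤ 4 ^ M := pow_le_pow_right₀ (by norm_num) hm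
      refine ⟨4 ^ m, by positivity, h5, fun s hs => ⟨by linarith [hs.1, h2.1],
        by linarith [hs.2, h2.2]⟩, RMaxL_shift _ _ _ (RMaxL_mB i j hB x) ?_⟩
      simp only [RMaxL_bad, mem_ofPred_eq, h3, act_act, ← uu_add] at h4 ⊢
      exact h4)
  have h2 : ∫⁻ r in Ioo (-θ) (4 * 4 ^ M - θ), indicator B 1 (act (uu i j r) x) * 1 ∂κ x =
      κ x ({r | act (uu i j r) x ∈ B} ∩ Ioo (-θ) (4 * 4 ^ M - θ)) := by
    rw [← Measure.restrict_apply (RMaxL_mB i j hB x), ← lintegral_indicator_one (RMaxL_mB i j hB x)]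
    exact lintegral_congr fun r => mul_one _
  rw [h2, mul_assoc]
  refine le_trans ?_ (mul_le_mul_right h1 10)
  rw [← mul_assoc, ENNReal.mul_inv_cancel (by norm_num) (by norm_num), one_mul]
  refine (setLIntegral_le_lintegral _ _).trans
    ((lintegral_mono_ae ?_).trans (lintegral_indicator_one_le _))
  filter_upwards [hs] with r hr
  by_cases a : act (uu i j r) x ∈ (⋃ m ≤ M, RMaxL_bad i j κ B m)
  · by_cases b : θ + r ∈ Ioo (4 ^ M : ℝ) (3 * 4 ^ M)
    · rw [indicator_of_mem a, indicator_of_mem b, indicator_of_mem (by exact ⟨a, b, hr⟩)]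
      simp
    · rw [indicator_of_notMem b, mul_zero]
      exact zero_le
  · rw [indicator_of_notMem a, zero_mul]
    exact zero_le

theorem s_MaxL (hCov1 : Cov1) (hAvg : Avg) (hLWX : LWX) (hStbQ : StbQ) : MaxL := by
  obtain ⟨C, hC⟩ := hCov1
  refine ⟨20 * C, fun n μ i j κ B _ h hB => ?_⟩
  have hm : ∀ M, MeasurableSet (⋃ m ≤ M, RMaxL_bad i j κ B m) := fun M =>
    MeasurableSet.iUnion fun m => MeasurableSet.iUnion fun _ => RMaxL_meas h hB m
  have key : ∀ M, μ (⋃ m ≤ M, RMaxL_bad i j κ B m) ≤ (20 * C : ℕ) * μ B := fun M => by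
    have hW : (0 : ℝ) < 4 ^ M := by positivity
    have h1 := (hAvg n μ i j κ (4 * 4 ^ M) _ _ h (by positivity) (measurable_one.indicator (hm M))
      (measurable_one.indicator (measurableSet_Ioo (a := (4 ^ M : ℝ)) (b := 3 * 4 ^ M)))).2
    have h2 := (hAvg n μ i j κ (4 * 4 ^ M) _ (fun _ => 1) h (by positivity)
      (measurable_one.indicator hB) measurable_const).2
    obtain ⟨S, hS, hS'⟩ := h.coc
    have hS1 : ∀ᵐ x ∂μ, x ∈ S := hS.2
    have hfin : (10 : ℝ≥0∞) * C ≠ ∞ := ENNReal.mul_ne_top (by norm_num) (ENNReal.natCast_ne_top _)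
    have h3 := h1.ge.trans ((lintegral_mono_ae (by
      filter_upwards [hS1, (hLWX n μ i j κ h).2 _ hS1] with x a b
      refine (lintegral_mono fun θ => ?_).trans_eq (lintegral_const_mul' _ _ hfin)
      exact (mul_le_mul_left (RMaxL_pt hC hB M x (h.fin x)
        (b.mono fun r hr => (hS' x a r hr).2) θ) _).trans_eq (mul_assoc _ _ _))).trans_eq
      ((lintegral_const_mul' _ _ hfin).trans (congrArg _ h2)))
    rw [lintegral_indicator_one (hm M), lintegral_indicator_one hB,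
      lintegral_indicator_one measurableSet_Ioo, Measure.restrict_apply measurableSet_Ioo,
      inter_eq_left.2 (Ioo_subset_Ioo hW.le (by linarith)), setLIntegral_const, one_mul,
      Real.volume_Ioo, Real.volume_Ioo, show (3 : ℝ) * 4 ^ M - 4 ^ M = 2 * 4 ^ M by ring,
      show (4 : ℝ) * 4 ^ M - 0 = 2 * (2 * 4 ^ M) by ring, ENNReal.ofReal_mul (p := 2) (q := 2 * 4 ^ M)
      (by norm_num), ENNReal.ofReal_ofNat] at h3
    refine (ENNReal.mul_le_mul_iff_left (c := ENNReal.ofReal (2 * 4 ^ M)) (by simp)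
      ENNReal.ofReal_ne_top).1 (h3.trans_eq ?_)
    push_cast
    ring
  refine ⟨(⋃ m, RMaxL_bad i j κ B m)ᶜ, (MeasurableSet.iUnion (RMaxL_meas h hB)).compl, ?_,
    fun x hx m => not_lt.1 fun h' => hx (mem_iUnion.2 ⟨m, h'⟩)⟩
  rw [compl_compl, measure_iUnion_eq_iSup_accumulate]
  exact iSup_le key

end TP
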