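import Vale.Agent.P007.RStm

noncomputable section
namespace TP
open MeasureTheory Filter Set ProbabilityTheory
open Vale.Agent.P007 (X lattice act Gam proj IsInvariantProb Equidistributes)
open scoped Classical Topology ENNReal

theorem RNA_two {κ : Measure ℝ} {r : ℝ} (h1 : κ (Icc (-1) 1) = 1) (h0 : κ {0}ᶜ = 0)
    (hr : κ {r}ᶜ = 0) : r = 0 := by
  by_contra hne
  have h2 : κ (Icc (-1) 1) = 0 := by
    refine measure_mono_null (fun x _ => ?_) (measure_union_null h0 hr)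
    by_cases hx : x = 0
    · exact Or.inr fun h => hne (h.symm.trans hx)
    · exact Or.inl hx
  rw [h1] at h2
  exact one_ne_zero h2

/-- the share of the atom at zero -/
def RNA_f (b : ℝ) (κ : Measure ℝ) : ℝ≥0∞ := κ {0} / κ (Icc (-b) b)

theorem RNA_f_le {b : ℝ} (hb : 0 < b) (κ : Measure ℝ) : RNA_f b κ ≤ 1 :=
  ENNReal.div_le_of_le_mul (by
    rw [one_mul]
    exact measure_mono (singleton_subset_iff.2 ⟨by linarith, hb.le⟩))

theorem RNA_f_anti {b : ℝ} (hb : 0 < b) (κ : Measure ℝ) : RNA_f (2 * b) κ ≤ RNA_f b κ :=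
  ENNReal.div_le_div_left (measure_mono (Icc_subset_Icc (by linarith) (by linarith))) _

theorem RNA_f_smul (b : ℝ) (κ : Measure ℝ) {a : ℝ≥0∞} (h0 : a ≠ 0) (h1 : a ≠ ∞) :
    RNA_f b (a • κ.map ((1 / 2 : ℝ) * ·)) = RNA_f (2 * b) κ := by
  unfold RNA_f
  rw [Measure.smul_apply, Measure.smul_apply, smul_eq_mul, smul_eq_mul,
    ENNReal.mul_div_mul_left _ _ h0 h1,
    Measure.map_apply (measurable_const_mul _) (measurableSet_singleton 0),
    Measure.map_apply (measurable_const_mul _) measurableSet_Icc]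
  congr 2
  · ext x
    simp
  · ext x
    simp only [mem_preimage, mem_Icc]
    constructor <;> rintro ⟨h2, h3⟩ <;> constructor <;> linarith

theorem RNA_atom {κ : Measure ℝ} (hf : IsFiniteMeasureOnCompacts κ) (hN : NT κ)
    (h : ∀ k : ℤ, RNA_f (2 * 2 ^ k) κ = RNA_f (2 ^ k) κ) : κ {0} = 0 := by
  by_contra h0
  apply hN
  have h1 : κ {0} ≠ ∞ := isCompact_singleton.measure_lt_top.ne
  have h2 : ∀ k : ℤ, κ (Icc (-(2 * 2 ^ k)) (2 * 2 ^ k) \ Icc (-2 ^ k) (2 ^ k)) = 0 := by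
    intro k
    have h3 := h k
    have hb : (0 : ℝ) < 2 ^ k := by positivity
    unfold RNA_f at h3
    rw [div_eq_mul_inv, div_eq_mul_inv, ENNReal.mul_right_inj h0 h1, inv_inj] at h3
    rw [measure_sdiff (Icc_subset_Icc (by linarith) (by linarith))
      measurableSet_Icc.nullMeasurableSet isCompact_Icc.measure_lt_top.ne, h3, tsub_self]
  refine measure_mono_null (fun x hx => ?_) (measure_iUnion_null h2)
  obtain ⟨k, h3, h4⟩ := exists_mem_Ioc_zpow (abs_pos.2 hx) (one_lt_two (α := ℝ))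
  rw [zpow_add_one₀ two_ne_zero, mul_comm] at h4
  exact mem_iUnion.2 ⟨k, abs_le.1 h4, fun h5 => h3.not_ge (abs_le.2 h5)⟩

theorem s_NA (hLWX : LWX) (hStbQ : StbQ) : NA := by
  intro n μ i j κ hμ hA hij hL hN
  let t : Fin n → ℝ := fun k => if k = i then Real.log 2 else 0
  have ht : Real.exp (t j - t i) = 1 / 2 := by
    simp only [t, if_neg hij.symm, if_true, zero_sub]
    rw [Real.exp_neg, Real.exp_log two_pos, one_div]
  have hm : ∀ b, Measurable fun x => RNA_f b (κ x) := fun b =>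
    ((Measure.measurable_coe (measurableSet_singleton 0)).comp hL.meas).div
      ((Measure.measurable_coe measurableSet_Icc).comp hL.meas)
  have h1 : ∀ b : ℝ, 0 < b → ∀ᵐ x ∂μ, RNA_f (2 * b) (κ x) = RNA_f b (κ x) := by
    intro b hb
    have h2 : ∀ᵐ x ∂μ, RNA_f b (κ (act (dA t) x)) = RNA_f (2 * b) (κ x) := by
      filter_upwards [hL.scale t] with x hx
      obtain ⟨⟨a, h0, h1, h2⟩, -⟩ := hStbQ.1 (κ x) (1 / 2) (hL.fin x) (hL.pos x) one_half_pos
      rw [hx, ht, h2, RNA_f_smul b _ h0 h1]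
    have h3 : ∫⁻ x, RNA_f (2 * b) (κ x) ∂μ = ∫⁻ x, RNA_f b (κ x) ∂μ := by
      rw [← lintegral_congr_ae h2]
      exact (hA t).lintegral_comp (hm b)
    refine ae_eq_of_ae_le_of_lintegral_le (Eventually.of_forall fun x => RNA_f_anti hb _) ?_
      (hm b).aemeasurable h3.ge
    refine ne_top_of_le_ne_top ?_ (lintegral_mono fun x => RNA_f_le (by linarith) _)
    simp
  have h2 : ∀ᵐ x ∂μ, κ x {0} = 0 := by
    filter_upwards [hN, ae_all_iff.2 fun k : ℤ => h1 (2 ^ k) (by positivity)] with x h3 h4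
    exact RNA_atom (hL.fin x) h3 h4
  obtain ⟨S, ⟨-, hS⟩, hc⟩ := hL.coc
  have hS' : ∀ᵐ x ∂μ, x ∈ S := hS
  filter_upwards [hS', (hLWX n μ i j κ hL).2 _ (hS'.and h2)] with x hx h3 r
  by_contra h4
  have h5 : act (uu i j r) x ∈ S ∧ κ (act (uu i j r) x) {0} = 0 := by
    by_contra h5
    exact h4 (measure_mono_null (singleton_subset_iff.2 h5) (ae_iff.1 h3))
  obtain ⟨h6, h7⟩ := hc x hx r h5.1
  have := hL.fin x
  have h8 := h5.2
  rw [h7, (hStbQ.2.1 (κ x) r (hL.fin x) h6).1, Measure.smul_apply, smul_eq_mul, mul_eq_zero,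
    Measure.map_apply (measurable_sub_const r) (measurableSet_singleton 0)] at h8
  rcases h8 with h8 | h8
  · exact isCompact_Icc.measure_lt_top.ne (ENNReal.inv_eq_zero.1 h8)
  · refine h4 (measure_mono_null ?_ h8)
    simp

theorem s_RelP (hHE : HE) (hStbQ : StbQ) : RelP := by
  intro n μ κ hS hP
  refine ⟨fun i j k h1 h2 hik => ⟨hik, ?_⟩, fun i j hij hR => ?_⟩
  · filter_upwards [hHE n μ κ i j k hS h1 h2 hik] with x hx
    exact hStbQ.2.2.1 _ ((hS.lw i k hik).one x) hx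
  · have hL := hS.lw i j hij
    have h1 : ∀ᵐ x ∂μ, ¬ NT (κ i j x) := (hP i j hij).1.resolve_left fun h => hR ⟨hij, h⟩
    obtain ⟨S, ⟨hS1, hS2⟩, hc⟩ := hL.coc
    have hS' : ∀ᵐ x ∂μ, x ∈ S := hS2
    refine ⟨S ∩ {x | NT (κ i j x)}ᶜ, ⟨hS1.inter (hStbQ.2.2.2.2 _ _ hL.meas).2.compl,
      hS'.and h1⟩, fun x hx r hr => ?_⟩
    obtain ⟨h6, h7⟩ := hc x hx.1 r hr.1
    have := hL.fin x
    have h8 : κ i j (act (uu i j r) x) {0}ᶜ = 0 := not_not.1 hr.2
    rw [h7, (hStbQ.2.1 _ r (hL.fin x) h6).1, Measure.smul_apply, smul_eq_mul, mul_eq_zero,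
      Measure.map_apply (measurable_sub_const r) (measurableSet_singleton 0).compl] at h8
    rcases h8 with h8 | h8
    · exact absurd (ENNReal.inv_eq_zero.1 h8) isCompact_Icc.measure_lt_top.ne
    · refine RNA_two (hL.one x) (not_not.1 hx.2) (measure_mono_null (fun y hy => ?_) h8)
      exact fun h => hy (sub_eq_zero.1 h)


end TP
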