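import Vale.Agent.P007.RStm

noncomputable section
namespace TP
open MeasureTheory Filter Set ProbabilityTheory
open Vale.Agent.P007 (X lattice act Gam proj IsInvariantProb Equidistributes)
open scoped Classical Topology ENNReal

theorem RRestr_tend {n : ℕ} {i j : Fin n} (hij : i ≠ j) (r : ℝ) :
    Tendsto (fun m : ℕ => (dA (Pi.single i (1 : ℝ)) ^ m)⁻¹ * uu i j r * dA (Pi.single i 1) ^ m)
      atTop (𝓝 1) := by
  have h1 : Tendsto (fun m : ℕ => Real.exp (-(m : ℝ)) * r) atTop (𝓝 0) := by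
    simpa using (Real.tendsto_exp_neg_atTop_nhds_zero.comp tendsto_natCast_atTop_atTop).mul_const r
  have h2 := ((continuous_uu i j).tendsto 0).comp h1
  rw [uu_zero] at h2
  refine h2.congr fun m => ?_
  rw [← dA_nsmul, uu_conj]
  simp [hij.symm]

theorem RRestr_leaf (hLWX : LWX) (hFV : FV) {n : ℕ} {μ : Measure (X n)} {i j : Fin n}
    {κ : X n → Measure ℝ} {Y : Set (X n)} (h1 : IsProbabilityMeasure μ) (h2 : AInv μ) (hij : i ≠ j)
    (h3 : LW μ i j κ) (hY : MeasurableSet Y) (h4 : ∀ t, ∀ᵐ x ∂μ, act (dA t) x ∈ Y ↔ x ∈ Y) :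
    ∀ᵐ x ∂μ, ∀ᵐ r ∂κ x, act (uu i j r) x ∈ Y ↔ x ∈ Y := by
  obtain ⟨S, ⟨-, h5⟩, h6⟩ := hFV n μ (dA (Pi.single i 1)) univ
    (fun x _ => if x ∈ Y then 1 else 0) h1 (h2 _) ⟨MeasurableSet.univ, by simp⟩
    (measurable_pi_lambda _ fun _ => Measurable.ite hY measurable_const measurable_const)
    ((h4 _).mono fun x hx => funext fun _ => if_congr hx rfl rfl)
  have h7 : ∀ᵐ x ∂μ, x ∈ S := h5
  filter_upwards [h7, (hLWX n μ i j κ h3).2 _ h7] with x a b
  filter_upwards [b] with r c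
  obtain ⟨z, -, -, e1, e2⟩ := h6 x a _ 1 c (RRestr_tend hij r)
  rw [act_one, e1] at e2
  have e3 := congrFun e2 (0, 0)
  by_cases k1 : x ∈ Y <;> by_cases k2 : act (uu i j r) x ∈ Y <;> simp_all

theorem s_Restr (hLiftA : LiftA) (hLWX : LWX) (hFV : FV) : Restr := by
  intro n μ κ Y hS hY h0 hinv
  have := hS.prob
  have hac : cond μ Y ≪ μ := cond_absolutelyContinuous
  refine ⟨cond_isProbabilityMeasure h0, fun t => ?_, fun i j hij => ?_⟩
  · have h1 := (hS.ainv t).restrict_preimage hY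
    rw [Measure.restrict_congr_set (s := act (dA t) ⁻¹' Y) (t := Y)
      ((hinv t).mono fun x hx => propext hx)] at h1
    exact h1.smul_measure _
  have hL := hS.lw i j hij
  obtain ⟨-, -, -, -, -, -, l7, l8, -⟩ := hLiftA n
  refine ⟨hL.meas, hL.fin, hL.one, hL.pos,
    hL.coc.imp fun S h => ⟨⟨h.1.1, hac h.1.2⟩, h.2⟩, fun t => hac.ae_le (hL.scale t), fun k hk => ?_⟩
  have hP : MeasurableSet (proj ⁻¹' Y) := continuous_proj.measurable hY
  have h1 := hL.mtG (fun g r => if proj g ∈ Y then k g r else 0)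
    (Measurable.ite (measurable_fst hP) hk measurable_const)
  rw [l8 μ Y hY, lintegral_smul_measure, lintegral_smul_measure, ← lintegral_indicator hP,
    ← lintegral_indicator hP]
  refine congrArg _ (Eq.trans (lintegral_congr fun g => ?_) (h1.trans (lintegral_congr_ae ?_)))
  · by_cases h : proj g ∈ Y <;> simp [h]
  · filter_upwards [l7 μ _ (RRestr_leaf hLWX hFV this hS.ainv hij hL hY hinv)] with g hg
    rw [lintegral_congr_ae (g := fun r => (if proj g ∈ Y then k (g * uu i j r) (-r) else 0) *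
      (κ i j (proj g) (Icc (r - 1) (r + 1)))⁻¹) (hg.mono fun r hr => by
        simp only [← Vale.Agent.P007.act_proj, hr])]
    by_cases h : proj g ∈ Y <;> simp [h]

theorem s_PureDec (hRestr : Restr) (hStbP : StbP) (hStbQ : StbQ) : PureDec := by
  intro n μ κ hS H g
  have := hS.prob
  let p : X n → {q : Fin n × Fin n // q.1 ≠ q.2} → Prop × Prop := fun x q =>
    (NT (κ q.1.1 q.1.2 x), ST (κ q.1.1 q.1.2 x))
  have hp : Measurable p := measurable_pi_lambda _ fun q => by
    have hL := hS.lw _ _ q.2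
    refine Measurable.prodMk (measurableSet_setOfPred.1 (hStbQ.2.2.2.2 _ _ hL.meas).2)
      (measurableSet_setOfPred.1 (hStbP.2 _ _ hL.meas hL.fin fun x h => ?_).1)
    simpa [h] using hL.one x
  have hi : ∀ t, ∀ᵐ x ∂μ, p (act (dA t) x) = p x := fun t => by
    filter_upwards [ae_all_iff.2 fun q : {q : Fin n × Fin n // q.1 ≠ q.2} =>
      (hS.lw _ _ q.2).scale t] with x hx
    funext q
    have hL := hS.lw _ _ q.2
    obtain ⟨-, -, a, b⟩ := hStbQ.1 _ _ (hL.fin x) (hL.pos x) (Real.exp_pos (t q.1.2 - t q.1.1))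
    simp only [p, hx q, a, b]
  have hG : ∀ a, μ (p ⁻¹' {a}) ≠ 0 → GInv (cond μ (p ⁻¹' {a})) := fun a h0 => by
    have hm := hp (measurableSet_singleton a)
    refine H _ hm h0 (hRestr n μ κ _ hS hm h0 fun t => (hi t).mono fun x hx => by
      simp only [mem_preimage, hx]) fun i j hij => ?_
    have h1 : ∀ᵐ x ∂cond μ (p ⁻¹' {a}), (NT (κ i j x) ↔ (a ⟨(i, j), hij⟩).1) ∧
        (ST (κ i j x) ↔ (a ⟨(i, j), hij⟩).2) := (ae_cond_mem hm).mono fun x hx => by
      rw [← show p x = a from hx]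
      exact ⟨Iff.rfl, Iff.rfl⟩
    constructor
    · by_cases h : (a ⟨(i, j), hij⟩).1
      exacts [Or.inl (h1.mono fun x hx => hx.1.2 h), Or.inr (h1.mono fun x hx c => h (hx.1.1 c))]
    · by_cases h : (a ⟨(i, j), hij⟩).2
      exacts [Or.inl (h1.mono fun x hx => hx.2.2 h), Or.inr (h1.mono fun x hx c => h (hx.2.1 c))]
  refine ⟨measurable_act g, Measure.ext fun E hE => ?_⟩
  rw [Measure.map_apply (measurable_act g) hE, ← sum_meas_smul_cond_fiber hp μ,
    Measure.finsetSum_apply, Measure.finsetSum_apply]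
  refine Finset.sum_congr rfl fun a _ => ?_
  by_cases h0 : μ (p ⁻¹' {a}) = 0
  · simp [h0]
  · rw [Measure.smul_apply, Measure.smul_apply, (hG a h0 g).measure_preimage hE.nullMeasurableSet]

end TP
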