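import Vale.Agent.P007.RStm

noncomputable section
namespace TP
open MeasureTheory Filter Set ProbabilityTheory
open Vale.Agent.P007 (X lattice act Gam proj IsInvariantProb Equidistributes)
open scoped Classical Topology ENNReal

variable {n : ℕ}

/-- a pair outside `R` without intermediate index -/
lemma RSL_min {R Φ : Fin n → Fin n → Prop} (hR : ∀ i j k, R i j → R j k → i ≠ k → R i k)
    (h1 : ∀ i, ¬ Φ i i) (h2 : ∀ i j k, Φ i j → Φ j k → Φ i k) (h : ∃ i j, Φ i j ∧ ¬ R i j) :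
    ∃ i j, Φ i j ∧ ¬ R i j ∧ ∀ k, Φ i k → ¬ Φ k j := by
  obtain ⟨i, j, h3, h4⟩ := h
  induction hm : (Finset.univ.filter fun k => Φ i k ∧ Φ k j).card using Nat.strong_induction_on
    generalizing i j with
  | _ m ih =>
    by_cases hk : ∃ k, Φ i k ∧ Φ k j
    · obtain ⟨k, k1, k2⟩ := hk
      have hij : i ≠ j := fun e => h1 i (e ▸ h3)
      by_cases r1 : R i k
      · refine ih _ (hm ▸ Finset.card_lt_card ⟨fun l hl => ?_, fun hs => ?_⟩) k j k2
          (fun r2 => h4 (hR i k j r1 r2 hij)) rfl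
        · simp only [Finset.mem_filter, Finset.mem_univ, true_and] at hl ⊢
          exact ⟨h2 _ _ _ k1 hl.1, hl.2⟩
        · have := hs (Finset.mem_filter.2 ⟨Finset.mem_univ k, k1, k2⟩)
          exact h1 k (Finset.mem_filter.1 this).2.1
      · refine ih _ (hm ▸ Finset.card_lt_card ⟨fun l hl => ?_, fun hs => ?_⟩) i k k1 r1 rfl
        · simp only [Finset.mem_filter, Finset.mem_univ, true_and] at hl ⊢
          exact ⟨hl.1, h2 _ _ _ hl.2 k2⟩
        · have := hs (Finset.mem_filter.2 ⟨Finset.mem_univ k, k1, k2⟩)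
          exact h1 k (Finset.mem_filter.1 this).2.2
    · exact ⟨i, j, h3, h4, fun k k1 k2 => hk ⟨k, k1, k2⟩⟩

/-- a direction that fixes the root `(i, j)` and contracts the others -/
lemma RSL_dir {Φ : Fin n → Fin n → Prop} (h1 : ∀ i, ¬ Φ i i)
    (h2 : ∀ i j k, Φ i j → Φ j k → Φ i k) {i j : Fin n} (h3 : Φ i j) (h4 : ∀ k, Φ i k → ¬ Φ k j) :
    ∃ t : Fin n → ℝ, t i = t j ∧ ∀ k l, Φ k l → ¬ (k = i ∧ l = j) → t l < t k := by
  let D : Fin n → Finset (Fin n) := fun k => Finset.univ.filter fun l =>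
    (l = k ∨ Φ k l) ∨ ((j = k ∨ Φ k j) ∧ (l = i ∨ Φ i l))
  refine ⟨fun k => (D k).card, ?_, fun k l hkl hne => ?_⟩
  · have : D i = D j := by
      ext l
      simp only [D, Finset.mem_filter, Finset.mem_univ, true_and, true_or]
      constructor
      · rintro (h | h)
        exacts [Or.inr h, Or.inr h.2]
      · rintro ((rfl | h) | h)
        exacts [Or.inl (Or.inr h3), Or.inl (Or.inr (h2 _ _ _ h3 h)), Or.inl h]
    simp only [this]
  · refine Nat.cast_lt.2 (Finset.card_lt_card ⟨fun a ha => ?_, fun hs => ?_⟩)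
    · simp only [D, Finset.mem_filter, Finset.mem_univ, true_and] at ha ⊢
      rcases ha with (rfl | h) | ⟨rfl | h, h'⟩
      exacts [Or.inl (Or.inr hkl), Or.inl (Or.inr (h2 _ _ _ hkl h)), Or.inr ⟨Or.inr hkl, h'⟩,
        Or.inr ⟨Or.inr (h2 _ _ _ hkl h), h'⟩]
    · have := hs (x := k) (by simp [D])
      simp only [D, Finset.mem_filter, Finset.mem_univ, true_and] at this
      rcases this with (rfl | h) | ⟨rfl | h, rfl | h'⟩
      exacts [h1 _ hkl, h1 _ (h2 _ _ _ hkl h), hne ⟨rfl, rfl⟩, h4 _ h' hkl, h4 _ hkl h,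
        h4 _ h' (h2 _ _ _ hkl h)]

lemma RSL_lim {Φ : Fin n → Fin n → Prop} {i j : Fin n} (hij : i ≠ j) {t : Fin n → ℝ}
    (t1 : t i = t j) (t2 : ∀ k l, Φ k l → ¬ (k = i ∧ l = j) → t l < t k) {h : G n}
    (hh : InN Φ h) :
    Tendsto (fun m : ℕ => (dA t ^ m)⁻¹ * h * dA t ^ m) atTop (𝓝 (uu i j (h.1 i j))) := by
  refine tendsto_G.2 fun a b => ?_
  simp only [← dA_nsmul, dA_conj, uu_coe hij, Matrix.add_apply, Pi.smul_apply, smul_eq_mul]
  by_cases hab : a = b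
  · subst hab
    have : ¬ (i = a ∧ j = a) := fun e => hij (e.1.trans e.2.symm)
    simp [hh.1, this]
  by_cases e : a = i ∧ b = j
  · obtain ⟨rfl, rfl⟩ := e
    simp [t1, hab]
  have e' : ¬ (i = a ∧ j = b) := fun e' => e ⟨e'.1.symm, e'.2.symm⟩
  rw [Matrix.one_apply_ne hab, Matrix.single_apply, if_neg e', add_zero]
  by_cases hΦ : Φ a b
  · have k1 : Tendsto (fun m : ℕ => (m : ℝ) * t b - m * t a) atTop atBot := by
      simp only [← mul_sub]
      exact tendsto_natCast_atTop_atTop.atTop_mul_const_of_neg (sub_neg.2 (t2 a b hΦ e))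
    simpa using (Real.tendsto_exp_atBot.comp k1).const_mul (h.1 a b)
  · simp [hh.2 a b hab hΦ]

theorem s_SL (hFV : FV) : SL := by
  intro n μ R Φ hμ hA hR h1 h2
  induction hm : {p : Fin n × Fin n | Φ p.1 p.2}.ncard
    using Nat.strong_induction_on generalizing Φ with
  | _ m ih =>
    by_cases hex : ∃ i j, Φ i j ∧ ¬ R i j
    · obtain ⟨i, j, h3, h4, h5⟩ := RSL_min hR.1 h1 h2 hex
      have hij : i ≠ j := fun e => h1 i (e ▸ h3)
      obtain ⟨t, t1, t2⟩ := RSL_dir h1 h2 h3 h5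
      obtain ⟨S₁, f1, hS₁⟩ := hR.2 i j hij h4
      obtain ⟨S', f', hS'⟩ := hFV n μ (dA t) S₁ (fun _ => 0) hμ (hA t) f1 measurable_const
        (Eventually.of_forall fun _ => rfl)
      obtain ⟨S₂, f2, hS₂⟩ := ih _ (hm ▸ Set.ncard_lt_ncard ⟨fun p hp => And.left hp,
          fun hs => (hs (a := (i, j)) h3).2 ⟨rfl, rfl⟩⟩ (Set.toFinite _))
        (fun a b => Φ a b ∧ ¬ (a = i ∧ b = j)) (fun a ha => h1 a ha.1)
        (fun a b c k1 k2 => ⟨h2 _ _ _ k1.1 k2.1, fun e => h5 b (e.1 ▸ k1.1) (e.2 ▸ k2.1)⟩) rfl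
      refine ⟨S' ∩ S₂, ⟨f'.1.inter f2.1, ?_⟩, fun x hx h hh hhx => ?_⟩
      · rw [compl_inter]
        exact measure_union_null f'.2 f2.2
      · obtain ⟨z, z1, z2, -⟩ := hS' x hx.1 h _ hhx.1 (RSL_lim hij t1 t2 hh)
        have h0 := hS₁ z z1 _ z2
        refine hS₂ x hx.2 h ⟨hh.1, fun a b hab hn => ?_⟩ hhx.2
        by_cases e : a = i ∧ b = j
        · rw [e.1, e.2, h0]
        · exact hh.2 a b hab fun k => hn ⟨k, e⟩
    · exact ⟨univ, ⟨MeasurableSet.univ, by simp⟩, fun x _ h hh _ i j hij hn =>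
        hh.2 i j hij fun k => hex ⟨i, j, k, hn⟩⟩


end TP
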