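import Vale.Agent.P007.RStm

noncomputable section
namespace TP
open MeasureTheory Filter Set ProbabilityTheory
open Vale.Agent.P007 (X lattice act Gam proj IsInvariantProb Equidistributes)
open scoped Classical Topology ENNReal

theorem RSLA_full {n : ℕ} {μ : Measure (X n)} {p : X n → Prop} (h : ∀ᵐ x ∂μ, p x) :
    ∃ S, Full μ S ∧ ∀ x ∈ S, p x := by
  obtain ⟨N, h1, h2, h3⟩ := exists_measurable_superset_of_null (ae_iff.1 h)
  refine ⟨Nᶜ, ⟨h2.compl, by rw [compl_compl]; exact h3⟩, fun x hx => ?_⟩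
  by_contra hc
  exact hx (h1 hc)

theorem RSLA_det {n : ℕ} {t : Fin n → ℝ} (ht : Function.Injective t)
    (M : Matrix (Fin n) (Fin n) ℝ) (hM : ∀ i j, t i < t j → M i j = 0) :
    M.det = ∏ i, M i i := by
  rw [Matrix.det_apply', Finset.sum_eq_single (1 : Equiv.Perm (Fin n))]
  · simp
  · intro σ _ hσ
    have h1 : ∃ i, t (σ i) < t i := by
      by_contra hc
      simp only [not_exists, not_lt] at hc
      have h2 : ∑ i, t i = ∑ i, t (σ i) := (Equiv.sum_comp σ t).symm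
      have h3 := (Finset.sum_eq_sum_iff_of_le (fun i _ => hc i)).1 h2
      exact hσ (Equiv.ext fun i => (ht (h3 i (Finset.mem_univ i))).symm)
    obtain ⟨i, hi⟩ := h1
    rw [Finset.prod_eq_zero (f := fun i => M (σ i) i) (Finset.mem_univ i) (hM _ _ hi), mul_zero]
  · intro h
    exact absurd (Finset.mem_univ _) h

theorem RSLA_entry {n : ℕ} (h : G n) (hp : ∀ i, 0 < h.1 i i) (hd : ∏ i, h.1 i i = 1)
    (τ : Fin n → ℝ) (i j : Fin n) :
    ((dA ((fun a => Real.log (h.1 a a)) + τ))⁻¹ * h * dA τ).1 i j =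
      (h.1 i i)⁻¹ * h.1 i j * Real.exp (τ j - τ i) := by
  have hs : ∑ a, Real.log (h.1 a a) = 0 := by
    rw [← Real.log_prod (fun a _ => (hp a).ne'), hd, Real.log_one]
  have e : (dA ((fun a => Real.log (h.1 a a)) + τ))⁻¹ * h * dA τ =
      (dA τ)⁻¹ * (dA (-fun a => Real.log (h.1 a a)) * h) * dA τ := by
    rw [dA_add, dA_neg]
    group
  rw [e, dA_conj]
  congr 1
  change ((dA (-fun a => Real.log (h.1 a a))).1 * h.1) i j = _
  rw [dA_coe, Matrix.diagonal_mul]
  simp only [Pi.neg_apply, Finset.sum_neg_distrib, hs, neg_zero, zero_div, sub_zero]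
  rw [Real.exp_neg, Real.exp_log (hp i)]

theorem s_SLA (hSL : SL) : SLA := by
  intro n μ R t hμ hA hR ht
  obtain ⟨S, hS, hp⟩ := hSL n μ R (fun i j => t j < t i) hμ hA hR (fun i => lt_irrefl _)
    (fun i j k h1 h2 => h2.trans h1)
  have hm : MeasurableSet {p : X n × (Fin n → ℝ) | act (dA p.2) p.1 ∈ S} :=
    measurable_act₂ (continuous_dA.measurable.comp measurable_snd) measurable_fst hS.1
  have hae : ∀ᵐ x ∂μ, ∀ᵐ τ ∂(volume : Measure (Fin n → ℝ)), act (dA τ) x ∈ S := by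
    rw [Measure.ae_ae_comm hm]
    exact Eventually.of_forall fun τ => (hA τ).quasiMeasurePreserving.ae (mem_ae_iff.2 hS.2)
  obtain ⟨S', hS', hq⟩ := RSLA_full hae
  refine ⟨S', hS', fun x hx h h0 hpos hy i j hij hn => ?_⟩
  have hd : ∏ i, h.1 i i = 1 := by rw [← RSLA_det ht h.1 h0, h.2]
  have h1 := (measurePreserving_add_left (volume : Measure (Fin n → ℝ))
    (fun a => Real.log (h.1 a a))).quasiMeasurePreserving.ae (hq x hx)
  obtain ⟨τ, h2, h3⟩ := (h1.and (hq _ hy)).exists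
  have h4 := hp _ h2 ((dA ((fun a => Real.log (h.1 a a)) + τ))⁻¹ * h * dA τ) ?_ ?_ i j hij hn
  · rw [RSLA_entry h hpos hd] at h4
    rcases mul_eq_zero.1 h4 with h5 | h5
    · rcases mul_eq_zero.1 h5 with h6 | h6
      · exact absurd h6 (inv_pos.2 (hpos i)).ne'
      · exact h6
    · exact absurd h5 (Real.exp_pos _).ne'
  · refine ⟨fun a => ?_, fun a b hab hn' => ?_⟩
    · rw [RSLA_entry h hpos hd, inv_mul_cancel₀ (hpos a).ne', sub_self, Real.exp_zero, mul_one]
    · rw [RSLA_entry h hpos hd, h0 a b (lt_of_le_of_ne (not_lt.1 hn') fun e => hab (ht e)),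
        mul_zero, zero_mul]
  · rw [act_act] at h3 ⊢
    rw [mul_assoc, mul_inv_cancel_left]
    exact h3

end TP
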