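import Vale.Agent.P007.RStm

noncomputable section
namespace TP
open MeasureTheory Filter Set ProbabilityTheory
open Vale.Agent.P007 (X lattice act Gam proj IsInvariantProb Equidistributes)
open scoped Classical Topology ENNReal

theorem RSec_fin {n : ℕ} (C : Set (G n)) (hC : IsCompact C) : {γ : Gam n | γ.1 ∈ C}.Finite := by
  have h0 : Continuous fun (g : G n) (i j : Fin n) => g.1 i j :=
    continuous_pi fun i => continuous_pi fun j => continuous_entry i j
  obtain ⟨B, hB⟩ := (hC.image h0).isBounded.exists_norm_le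
  obtain ⟨M, hM⟩ := exists_nat_ge B
  have h1 : {A : Fin n → Fin n → ℤ | ∀ i, A i ∈ {a : Fin n → ℤ | ∀ j, a j ∈ Icc (-(M : ℤ)) M}}.Finite :=
    Set.Finite.pi' fun _ => Set.Finite.pi' fun _ => Set.finite_Icc _ _
  have h2 := h1.preimage (f := fun A : Matrix.SpecialLinearGroup (Fin n) ℤ =>
    (A.1 : Fin n → Fin n → ℤ)) (Subtype.val_injective.injOn)
  refine (h2.image (Matrix.SpecialLinearGroup.map (n := Fin n)
    (Int.castRingHom ℝ)).rangeRestrict).subset ?_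
  rintro ⟨_, A, rfl⟩ hA
  refine ⟨A, fun i j => ?_, rfl⟩
  have h3 := hB _ (mem_image_of_mem _ hA)
  have h4 : |((A.1 i j : ℤ) : ℝ)| ≤ M :=
    ((norm_le_pi_norm _ j).trans ((norm_le_pi_norm _ i).trans h3)).trans hM
  rw [← Int.cast_abs] at h4
  have h5 : |A.1 i j| ≤ (M : ℤ) := by exact_mod_cast h4
  exact abs_le.1 h5

theorem RSec_loc {n : ℕ} (g : G n) : ∃ V C : Set (G n), IsOpen V ∧ g ∈ V ∧ IsCompact C ∧ V ⊆ C ∧
    InjOn (proj : G n → X n) V := by
  obtain ⟨C₁, hC₁, h1⟩ := exists_compact_mem_nhds (1 : G n)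
  have h2 : ((Subtype.val '' {γ : Gam n | γ.1 ∈ C₁}) \ {1}).Finite :=
    ((RSec_fin C₁ hC₁).image _).sdiff
  have h3 : C₁ ∩ ((Subtype.val '' {γ : Gam n | γ.1 ∈ C₁}) \ {1})ᶜ ∈ 𝓝 (1 : G n) :=
    inter_mem h1 (h2.isClosed.isOpen_compl.mem_nhds fun h => h.2 rfl)
  have h4 : Continuous fun p : G n × G n => p.1 * p.2⁻¹ := by fun_prop
  have h5 : (fun p : G n × G n => p.1 * p.2⁻¹) ⁻¹'
      (C₁ ∩ ((Subtype.val '' {γ : Gam n | γ.1 ∈ C₁}) \ {1})ᶜ) ∈ 𝓝 (g, g) :=
    h4.continuousAt.preimage_mem_nhds (by simpa only [mul_inv_cancel] using h3)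
  obtain ⟨U, hU, U', hU', h6⟩ := mem_nhds_prod_iff.1 h5
  obtain ⟨C, hC, h7⟩ := exists_compact_mem_nhds g
  obtain ⟨V, hV, hVo, hgV⟩ := mem_nhds_iff.1 (inter_mem (inter_mem hU hU') h7)
  refine ⟨V, C, hVo, hgV, hC, fun a ha => (hV ha).2, fun a ha b hb e => ?_⟩
  have h8 := h6 (mk_mem_prod (hV ha).1.1 (hV hb).1.2)
  by_contra h9
  exact h8.2 ⟨⟨⟨_, (Vale.Agent.P007.proj_eq_iff a b).1 e⟩, h8.1, rfl⟩,
    fun h => h9 (mul_inv_eq_one.1 h)⟩

theorem RSec_sec {n : ℕ} {V : Set (G n)} (hV : IsOpen V) (hi : InjOn (proj : G n → X n) V) :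
    ∃ s : X n → G n, Measurable s ∧ ∀ g ∈ V, s (proj g) = g := by
  have h1 : Topology.IsOpenEmbedding fun v : V => (proj v.1 : X n) :=
    Topology.IsOpenEmbedding.of_continuous_injective_isOpenMap
      (continuous_proj.comp continuous_subtype_val)
      (fun a b e => Subtype.ext (hi a.2 b.2 e))
      ((Vale.Agent.P007.isOpenQuotientMap_proj n).isOpenMap.comp hV.isOpenMap_subtype_val)
  refine ⟨Function.extend (fun v : V => (proj v.1 : X n)) Subtype.val fun _ => 1,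
    h1.measurableEmbedding.measurable_extend measurable_subtype_coe measurable_const,
    fun g hg => ?_⟩
  exact h1.injective.extend_apply Subtype.val _ ⟨g, hg⟩

theorem RSec_ex (n : ℕ) : ∃ s : X n → G n, IsSec s := by
  choose V C hV hg hC hVC hi using RSec_loc (n := n)
  choose s hs hs' using fun g => RSec_sec (hV g) (hi g)
  obtain ⟨T, hT, hU⟩ := TopologicalSpace.countable_cover_nhds fun g => (hV g).mem_nhds (hg g)
  have hne : T.Nonempty := by
    obtain ⟨g, h, _⟩ := mem_iUnion₂.1 (hU.symm ▸ mem_univ (1 : G n))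
    exact ⟨g, h⟩
  obtain ⟨e, rfl⟩ := hT.exists_eq_range hne
  have hO : ∀ l, IsOpen (proj '' V (e l) : Set (X n)) := fun l =>
    (Vale.Agent.P007.isOpenQuotientMap_proj n).isOpenMap _ (hV _)
  have hex : ∀ x : X n, ∃ l, x ∈ proj '' V (e l) := by
    intro x
    obtain ⟨g, rfl⟩ := proj_surj x
    obtain ⟨_, ⟨l, rfl⟩, h⟩ := mem_iUnion₂.1 (hU.symm ▸ mem_univ g)
    exact ⟨l, g, h, rfl⟩
  have key : ∀ x, proj (s (e (Nat.find (hex x))) x) = x ∧
      s (e (Nat.find (hex x))) x ∈ V (e (Nat.find (hex x))) := by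
    intro x
    obtain ⟨g, h1, h2⟩ := Nat.find_spec (hex x)
    have h3 := hs' _ g h1
    rw [h2] at h3
    rw [h3]
    exact ⟨h2, h1⟩
  refine ⟨fun x => s (e (Nat.find (hex x))) x,
    Measurable.find (f := fun l => s (e l)) (fun l => hs _) (fun l => (hO l).measurableSet) hex,
    fun x => (key x).1, fun K hK => ?_⟩
  obtain ⟨t, ht⟩ := hK.elim_finite_subcover _ hO fun x _ => mem_iUnion.2 (hex x)
  refine ⟨⋃ l ∈ Finset.range (t.sup id + 1), C (e l),
    (Finset.range _).isCompact_biUnion fun l _ => hC _, fun x hx => ?_⟩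
  obtain ⟨l, hl, h1⟩ := mem_iUnion₂.1 (ht hx)
  refine mem_iUnion₂.2 ⟨Nat.find (hex x), Finset.mem_range.2 (Nat.lt_succ_of_le ?_),
    hVC _ (key x).2⟩
  exact (Nat.find_min' (hex x) h1).trans (Finset.le_sup (f := id) hl)

theorem s_ExSec : ExSec := by
  intro n
  exact ⟨Classical.epsilon_spec (RSec_ex n), RSec_fin⟩


end TP
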