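import Vale.Agent.P007.RStm

noncomputable section
namespace TP
open MeasureTheory Filter Set ProbabilityTheory
open Vale.Agent.P007 (X lattice act Gam proj IsInvariantProb Equidistributes)
open scoped Classical Topology ENNReal

/-- Trapezoidal test functions. -/
def RStbP_psi (i : ℚ × ℚ × ℕ) (t : ℝ) : ℝ :=
  max 0 (min 1 ((i.2.2 + 1) * min (t - i.1) (i.2.1 - t)))

theorem RStbP_cont (i : ℚ × ℚ × ℕ) : Continuous (RStbP_psi i) := by
  unfold RStbP_psi
  fun_prop

theorem RStbP_nonneg (i : ℚ × ℚ × ℕ) (t : ℝ) : 0 ≤ RStbP_psi i t := le_max_left _ _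

theorem RStbP_le (i : ℚ × ℚ × ℕ) (t : ℝ) : RStbP_psi i t ≤ 1 :=
  max_le zero_le_one (min_le_left _ _)

theorem RStbP_zero (i : ℚ × ℚ × ℕ) {t : ℝ} (h : t ∉ Ioo (i.1 : ℝ) i.2.1) : RStbP_psi i t = 0 := by
  refine max_eq_left ((min_le_right _ _).trans (mul_nonpos_of_nonneg_of_nonpos (by positivity) ?_))
  by_contra h'
  rw [not_le, lt_min_iff] at h'
  exact h ⟨by linarith [h'.1], by linarith [h'.2]⟩

theorem RStbP_bd (i : ℚ × ℚ × ℕ) {s : Set ℝ} {t u : ℝ} (h : u ∈ Ioo (i.1 : ℝ) i.2.1 → t ∈ s) :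
    ‖RStbP_psi i u‖ ≤ s.indicator (fun _ => (1 : ℝ)) t := by
  rw [Real.norm_of_nonneg (RStbP_nonneg _ _)]
  by_cases h1 : t ∈ s
  · rw [indicator_of_mem h1]
    exact RStbP_le _ _
  · rw [indicator_of_notMem h1, RStbP_zero i fun h2 => h1 (h h2)]

theorem RStbP_int (κ : Measure ℝ) [IsFiniteMeasureOnCompacts κ] (a b : ℝ) :
    Integrable ((Icc a b).indicator fun _ => (1 : ℝ)) κ :=
  (integrable_indicator_iff measurableSet_Icc).2
    (integrableOn_const isCompact_Icc.measure_lt_top.ne)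

theorem RStbP_lim (κ : Measure ℝ) [IsFiniteMeasureOnCompacts κ] (p q : ℚ) :
    Tendsto (fun k : ℕ => ∫ t, RStbP_psi (p, q, k) t ∂κ) atTop (𝓝 (κ.real (Ioo (p : ℝ) q))) := by
  rw [← integral_indicator_one measurableSet_Ioo]
  refine tendsto_integral_of_dominated_convergence _
    (fun k => (RStbP_cont _).aestronglyMeasurable) (RStbP_int κ p q)
    (fun k => ae_of_all _ fun t => RStbP_bd _ fun h => Ioo_subset_Icc_self h)
    (ae_of_all _ fun t => ?_)
  by_cases h : t ∈ Ioo (p : ℝ) q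
  · rw [indicator_of_mem h]
    have h0 : 0 < min (t - p) (q - t) := lt_min (sub_pos.2 h.1) (sub_pos.2 h.2)
    obtain ⟨N, hN⟩ := exists_nat_ge (1 / min (t - p) (q - t))
    refine tendsto_const_nhds.congr' ?_
    filter_upwards [eventually_ge_atTop N] with k hk
    have h1 : (1 : ℝ) ≤ (k + 1) * min (t - p) (q - t) := by
      rw [← div_le_iff₀ h0]
      have : (N : ℝ) ≤ k := by exact_mod_cast hk
      linarith
    simp only [RStbP_psi, Pi.one_apply]
    rw [min_eq_left h1, max_eq_right zero_le_one]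
  · rw [indicator_of_notMem h]
    refine tendsto_const_nhds.congr fun k => (RStbP_zero (p, q, k) h).symm

theorem RStbP_ext {κ κ' : Measure ℝ} [IsFiniteMeasureOnCompacts κ] [IsFiniteMeasureOnCompacts κ']
    (h : ∀ i, ∫ t, RStbP_psi i t ∂κ = ∫ t, RStbP_psi i t ∂κ') : κ = κ' := by
  refine Real.measure_ext_Ioo_rat fun p q => ?_
  have h1 := RStbP_lim κ p q
  simp only [h] at h1
  have h2 := tendsto_nhds_unique h1 (RStbP_lim κ' p q)
  exact (ENNReal.toReal_eq_toReal_iff'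
    ((measure_mono Ioo_subset_Icc_self).trans_lt isCompact_Icc.measure_lt_top).ne
    ((measure_mono Ioo_subset_Icc_self).trans_lt isCompact_Icc.measure_lt_top).ne).1 h2

/-- The integrals of the translated test functions. -/
def RStbP_I (κ : Measure ℝ) (i : ℚ × ℚ × ℕ) (r : ℝ) : ℝ := ∫ t, RStbP_psi i (t - r) ∂κ

theorem RStbP_Icont (κ : Measure ℝ) [IsFiniteMeasureOnCompacts κ] (i : ℚ × ℚ × ℕ) :
    Continuous (RStbP_I κ i) := by
  refine continuous_iff_continuousAt.2 fun r₀ => ?_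
  have hc := RStbP_cont i
  refine continuousAt_of_dominated (bound := (Icc (i.1 + r₀ - 1) (i.2.1 + r₀ + 1)).indicator
    fun _ => (1 : ℝ)) (Eventually.of_forall fun r => ?_) ?_ (RStbP_int κ _ _)
    (ae_of_all _ fun t => ?_)
  · exact (hc.comp (continuous_id.sub continuous_const)).aestronglyMeasurable
  · filter_upwards [Ioo_mem_nhds (sub_one_lt r₀) (lt_add_one r₀)] with r hr
    exact ae_of_all _ fun t => RStbP_bd _ fun h =>
      ⟨by linarith [h.1, hr.1], by linarith [h.2, hr.2]⟩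
  · exact (hc.comp (continuous_const.sub continuous_id)).continuousAt

theorem RStbP_Imap (κ : Measure ℝ) (i : ℚ × ℚ × ℕ) (r : ℝ) :
    RStbP_I κ i r = ∫ t, RStbP_psi i t ∂κ.map (· - r) :=
  (integral_map (measurable_sub_const r).aemeasurable (RStbP_cont i).aestronglyMeasurable).symm

theorem RStbP_I0 (κ : Measure ℝ) (i : ℚ × ℚ × ℕ) : RStbP_I κ i 0 = ∫ t, RStbP_psi i t ∂κ := by
  simp [RStbP_I]

theorem RStbP_iff (κ : Measure ℝ) [IsFiniteMeasureOnCompacts κ] (h0 : κ ≠ 0) (r : ℝ) :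
    r ∈ Stb κ ↔ ∀ p : (ℚ × ℚ × ℕ) × ℚ × ℚ × ℕ,
      RStbP_I κ p.1 r * RStbP_I κ p.2 0 - RStbP_I κ p.1 0 * RStbP_I κ p.2 r = 0 := by
  constructor
  · rintro ⟨a, -, -, h⟩ p
    simp only [RStbP_I0, RStbP_Imap κ _ r, h, integral_smul_measure, smul_eq_mul]
    ring
  · intro h
    obtain ⟨j, hj⟩ : ∃ j, RStbP_I κ j 0 ≠ 0 := by
      by_contra h1
      push Not at h1
      exact h0 (RStbP_ext fun i => by rw [← RStbP_I0, h1, integral_zero_measure])
    have hn : ∀ s, 0 ≤ RStbP_I κ j s := fun s => integral_nonneg fun t => RStbP_nonneg _ _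
    have : IsFiniteMeasureOnCompacts (κ.map (· - r)) :=
      Measure.IsFiniteMeasureOnCompacts.map κ (Homeomorph.subRight r)
    have : IsFiniteMeasureOnCompacts (ENNReal.ofReal (RStbP_I κ j r / RStbP_I κ j 0) • κ) :=
      IsFiniteMeasureOnCompacts.smul κ ENNReal.ofReal_ne_top
    have e : κ.map (· - r) = ENNReal.ofReal (RStbP_I κ j r / RStbP_I κ j 0) • κ := by
      refine RStbP_ext fun i => ?_
      rw [← RStbP_Imap, integral_smul_measure, ENNReal.toReal_ofReal (div_nonneg (hn _) (hn _)),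
        ← RStbP_I0, smul_eq_mul, div_mul_eq_mul_div, eq_div_iff hj]
      linear_combination h (i, j)
    refine ⟨_, fun h1 => h0 ?_, ENNReal.ofReal_ne_top, e⟩
    rw [h1, zero_smul] at e
    exact (Measure.map_eq_zero_iff (measurable_sub_const r).aemeasurable).1 e

theorem RStbP_proj {Ω ι : Type} [MeasurableSpace Ω] [Countable ι] {Δ : ι → Ω → ℝ → ℝ}
    (hm : ∀ i r, Measurable fun x => Δ i x r) (hc : ∀ i x, Continuous (Δ i x)) {C : Set ℝ}
    (hC : IsCompact C) : MeasurableSet {x | ∃ r ∈ C, ∀ i, Δ i x r = 0} := by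
  obtain ⟨D, hD, hD1, hD2⟩ :=
    (TopologicalSpace.IsSeparable.of_separableSpace C).exists_countable_dense_subset
  have e : {x | ∃ r ∈ C, ∀ i, Δ i x r = 0} = ⋂ u : Finset (ι × ℕ), ⋃ r ∈ D, ⋂ p ∈ u,
      {x | |Δ p.1 x r| < 1 / ((p.2 : ℝ) + 1)} := by
    ext x
    simp only [mem_ofPred_eq, mem_iInter, mem_iUnion, exists_prop]
    constructor
    · rintro ⟨r, hr, h⟩ u
      have ho : IsOpen (⋂ p ∈ u, {s | |Δ p.1 x s| < 1 / ((p.2 : ℝ) + 1)}) :=
        isOpen_biInter_finset fun p _ => isOpen_lt (hc _ _).abs continuous_const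
      obtain ⟨s, h1, h2⟩ := mem_closure_iff.1 (hD2 hr) _ ho (by
        simp only [mem_iInter, mem_ofPred_eq, h, abs_zero]
        intro p _
        positivity)
      exact ⟨s, h2, by simpa only [mem_iInter, mem_ofPred_eq] using h1⟩
    · intro h
      obtain ⟨r, hr, h1⟩ := hC.inter_iInter_nonempty
        (fun p : ι × ℕ => {s | |Δ p.1 x s| ≤ 1 / ((p.2 : ℝ) + 1)})
        (fun p => isClosed_le (hc _ _).abs continuous_const) fun u => by
          obtain ⟨r, h1, h2⟩ := h u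
          exact ⟨r, hD h1, by
            simp only [mem_iInter, mem_ofPred_eq]
            exact fun p hp => (h2 p hp).le⟩
      refine ⟨r, hr, fun i => abs_nonpos_iff.1 ?_⟩
      exact ge_of_tendsto' tendsto_one_div_add_atTop_nhds_zero_nat fun N => mem_iInter.1 h1 (i, N)
  rw [e]
  exact MeasurableSet.iInter fun u => MeasurableSet.biUnion hD1 fun r _ =>
    u.measurableSet_biInter fun p _ => measurableSet_lt (hm _ _).abs measurable_const

theorem RStbP_Imeas {Ω : Type} [MeasurableSpace Ω] {κ : Ω → Measure ℝ} (hκ : Measurable κ)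
    (i : ℚ × ℚ × ℕ) (r : ℝ) : Measurable fun x => RStbP_I (κ x) i r := by
  have hc : Continuous fun t => RStbP_psi i (t - r) :=
    (RStbP_cont i).comp (continuous_id.sub continuous_const)
  have e : (fun x => RStbP_I (κ x) i r) =
      fun x => (∫⁻ t, ENNReal.ofReal (RStbP_psi i (t - r)) ∂κ x).toReal := funext fun x =>
    integral_eq_lintegral_of_nonneg_ae (ae_of_all _ fun t => RStbP_nonneg _ _)
      hc.aestronglyMeasurable
  rw [e]
  exact ((Measure.measurable_lintegral hc.measurable.ennreal_ofReal).comp hκ).ennreal_toReal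

theorem s_StbP : StbP := by
  refine ⟨fun κ hκ h0 => ⟨?_, ⟨1, one_ne_zero, ENNReal.one_ne_top, by simp⟩, ?_, ?_⟩,
    fun Ω _ κ hκ hf h0 => ?_⟩
  · have e : Stb κ = ⋂ p : (ℚ × ℚ × ℕ) × ℚ × ℚ × ℕ,
        {r | RStbP_I κ p.1 r * RStbP_I κ p.2 0 - RStbP_I κ p.1 0 * RStbP_I κ p.2 r = 0} := by
      ext r
      rw [RStbP_iff κ h0, mem_iInter]
      rfl
    rw [e]
    exact isClosed_iInter fun p => isClosed_eq (((RStbP_Icont κ _).mul continuous_const).sub
      (continuous_const.mul (RStbP_Icont κ _))) continuous_const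
  · rintro r ⟨a, a0, a1, ha⟩ s ⟨b, b0, b1, hb⟩
    refine ⟨a * b, mul_ne_zero a0 b0, ENNReal.mul_ne_top a1 b1, ?_⟩
    rw [mul_smul, ← hb, ← Measure.map_smul, ← ha,
      Measure.map_map (measurable_sub_const s) (measurable_sub_const r)]
    congr 1
    funext t
    simp only [Function.comp_apply]
    ring
  · rintro r ⟨a, a0, a1, ha⟩
    refine ⟨a⁻¹, ENNReal.inv_ne_zero.2 a1, ENNReal.inv_ne_top.2 a0, ?_⟩
    have e : κ = a • κ.map (· - -r) := by
      rw [← Measure.map_smul, ← ha,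
        Measure.map_map (measurable_sub_const _) (measurable_sub_const r)]
      have : ((fun t : ℝ => t - -r) ∘ fun t => t - r) = id := funext fun t => by simp
      rw [this, Measure.map_id]
    conv_rhs => rw [e]
    rw [smul_smul, ENNReal.inv_mul_cancel a0 a1, one_smul]
  · have hb : ∀ b : ℝ, MeasurableSet {x | ∃ r, r ≠ 0 ∧ |r| ≤ b ∧ r ∈ Stb (κ x)} := fun b => by
      have e : {x | ∃ r, r ≠ 0 ∧ |r| ≤ b ∧ r ∈ Stb (κ x)} = ⋃ N : ℕ, {x | ∃ r ∈ Icc (-b) b ∩
          {r : ℝ | 1 / ((N : ℝ) + 1) ≤ |r|}, ∀ p : (ℚ × ℚ × ℕ) × ℚ × ℚ × ℕ,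
          RStbP_I (κ x) p.1 r * RStbP_I (κ x) p.2 0 -
            RStbP_I (κ x) p.1 0 * RStbP_I (κ x) p.2 r = 0} := by
        ext x
        have := hf x
        simp only [mem_ofPred_eq, mem_iUnion, ← RStbP_iff (κ x) (h0 x), mem_inter_iff, mem_Icc,
          ← abs_le]
        constructor
        · rintro ⟨r, h1, h2, h3⟩
          obtain ⟨N, hN⟩ := exists_nat_one_div_lt (abs_pos.2 h1)
          exact ⟨N, r, ⟨h2, hN.le⟩, h3⟩
        · rintro ⟨N, r, ⟨h1, h2⟩, h3⟩
          exact ⟨r, abs_pos.1 (lt_of_lt_of_le (by positivity) h2), h1, h3⟩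
      rw [e]
      refine MeasurableSet.iUnion fun N => RStbP_proj (fun p r => ?_) (fun p x => ?_)
        (isCompact_Icc.inter_right (isClosed_le continuous_const continuous_abs))
      · exact ((RStbP_Imeas hκ _ _).mul (RStbP_Imeas hκ _ _)).sub
          ((RStbP_Imeas hκ _ _).mul (RStbP_Imeas hκ _ _))
      · have := hf x
        exact ((RStbP_Icont _ _).mul continuous_const).sub
          (continuous_const.mul (RStbP_Icont _ _))
    refine ⟨?_, hb⟩
    have e : {x | ST (κ x)} = ⋃ N : ℕ, {x | ∃ r : ℝ, r ≠ 0 ∧ |r| ≤ N ∧ r ∈ Stb (κ x)} := by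
      ext x
      simp only [mem_ofPred_eq, mem_iUnion, ST]
      constructor
      · rintro ⟨r, h1, h2⟩
        obtain ⟨N, hN⟩ := exists_nat_ge |r|
        exact ⟨N, r, h1, hN, h2⟩
      · rintro ⟨N, r, h1, -, h2⟩
        exact ⟨r, h1, h2⟩
    rw [e]
    exact MeasurableSet.iUnion fun N => hb N

end TP
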