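import Vale.Agent.P007.RStm

noncomputable section
namespace TP
open MeasureTheory Filter Set ProbabilityTheory
open Vale.Agent.P007 (X lattice act Gam proj IsInvariantProb Equidistributes)
open scoped Classical Topology ENNReal

theorem RStbQ_cancel {a : ℝ≥0∞} (h0 : a ≠ 0) (h1 : a ≠ ∞) {μ ν : Measure ℝ} (h : a • μ = a • ν) :
    μ = ν := by
  have := congrArg (fun m : Measure ℝ => a⁻¹ • m) h
  simpa only [smul_smul, ENNReal.inv_mul_cancel h0 h1, one_smul] using this

theorem RStbQ_two {κ : Measure ℝ} {r : ℝ} (h1 : κ (Icc (-1) 1) = 1) (h0 : κ {0}ᶜ = 0)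
    (hr : κ {r}ᶜ = 0) : r = 0 := by
  by_contra hne
  have h2 : κ (Icc (-1) 1) = 0 := by
    refine measure_mono_null (fun x _ => ?_) (measure_union_null h0 hr)
    by_cases hx : x = 0
    · exact Or.inr fun h => hne (h.symm.trans hx)
    · exact Or.inl hx
  rw [h1] at h2
  exact one_ne_zero h2

theorem RStbQ_sub (κ : Measure ℝ) (r : ℝ) : κ.map (· - r) {0}ᶜ = κ {r}ᶜ := by
  rw [Measure.map_apply (measurable_sub_const r) (measurableSet_singleton 0).compl]
  congr 1
  ext x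
  simp [sub_eq_zero]

theorem RStbQ_stb {κ : Measure ℝ} {c : ℝ} (hc : 0 < c) {a : ℝ≥0∞} (h0 : a ≠ 0) (h1 : a ≠ ∞)
    (r : ℝ) : c * r ∈ Stb (a • κ.map (c * ·)) ↔ r ∈ Stb κ := by
  have e : (a • κ.map (c * ·)).map (· - c * r) = a • (κ.map (· - r)).map (c * ·) := by
    rw [Measure.map_smul, Measure.map_map (measurable_sub_const _) (measurable_const_mul c),
      Measure.map_map (measurable_const_mul c) (measurable_sub_const _)]
    congr 2
    ext x
    simp [mul_sub]
  refine exists_congr fun b => and_congr_right fun _ => and_congr_right fun _ => ?_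
  rw [e, smul_comm b a, ← Measure.map_smul b]
  refine ⟨fun h => ?_, fun h => by rw [h]⟩
  exact (measurableEmbedding_mulLeft₀ hc.ne').map_injective (RStbQ_cancel h0 h1 h)

/-- a finite measure without atoms gives small mass to short intervals -/
theorem RStbQ_small {κ : Measure ℝ} (h1 : κ (Icc (-1) 1) = 1) (h0 : ∀ r, κ {r} = 0) :
    ∃ δ : ℝ, 0 < δ ∧ ∀ s : ℝ, 10 * κ (Icc (s - δ) (s + δ) ∩ Icc (-1) 1) ≤ 1 := by
  have : IsFiniteMeasure (κ.restrict (Icc (-1) 1)) :=
    isFiniteMeasure_restrict.2 (by rw [h1]; exact ENNReal.one_ne_top)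
  have h2 : ∀ t : ℝ, ∃ U ⊇ {t}, IsOpen U ∧ κ.restrict (Icc (-1) 1) U < 10⁻¹ := fun t =>
    Set.exists_isOpen_lt_of_lt _ _ (lt_of_le_of_lt (Measure.restrict_apply_le _ _)
      (by rw [h0]; simp))
  choose U hU1 hU2 hU3 using h2
  obtain ⟨δ, hδ, h3⟩ := lebesgue_number_lemma_of_metric (isCompact_Icc (a := (-1 : ℝ)) (b := 1))
    hU2 fun x _ => mem_iUnion.2 ⟨x, hU1 x rfl⟩
  refine ⟨δ / 3, by positivity, fun s => ?_⟩
  rcases (Icc (s - δ / 3) (s + δ / 3) ∩ Icc (-1) 1).eq_empty_or_nonempty with h | ⟨x, hx, hx'⟩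
  · simp [h]
  obtain ⟨t, ht⟩ := h3 x hx'
  have h4 : κ (Icc (s - δ / 3) (s + δ / 3) ∩ Icc (-1) 1) ≤ 10⁻¹ := by
    refine le_trans ?_ (hU3 t).le
    rw [Measure.restrict_apply (hU2 t).measurableSet]
    refine measure_mono (inter_subset_inter_left _ fun y hy => ht ?_)
    rw [Metric.mem_ball, Real.dist_eq, abs_lt]
    constructor <;> linarith [hx.1, hx.2, hy.1, hy.2]
  refine (mul_le_mul_right h4 _).trans ?_
  rw [ENNReal.mul_inv_cancel (by simp) (by simp)]

theorem s_StbQ : StbQ := by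
  refine ⟨fun κ c hf hp hc => ?_, fun κ r hf h0 => ?_, fun κ h1 ⟨r, hr, a, _, _, ha⟩ h0 => ?_,
    fun κ κ' hf hf' h => ?_, fun Ω _ κ hκ => ⟨?_, ?_⟩⟩
  · have e : κ.map (c * ·) (Icc (-1) 1) = κ (Icc (-c⁻¹) c⁻¹) := by
      rw [Measure.map_apply (measurable_const_mul c) measurableSet_Icc,
        preimage_const_mul_Icc₀ _ _ hc, neg_div, one_div]
    have h0 : (κ.map (c * ·) (Icc (-1) 1))⁻¹ ≠ 0 := by
      rw [e]
      exact ENNReal.inv_ne_zero.2 isCompact_Icc.measure_lt_top.ne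
    have h1 : (κ.map (c * ·) (Icc (-1) 1))⁻¹ ≠ ∞ := by
      rw [e]
      exact ENNReal.inv_ne_top.2 (hp _ (inv_pos.2 hc))
    have h2 : ∀ r, c * r ∈ Stb (sc c κ) ↔ r ∈ Stb κ := RStbQ_stb hc h0 h1
    refine ⟨⟨_, h0, h1, rfl⟩, h2, ?_, ⟨fun ⟨r, hr, h⟩ => ⟨c⁻¹ * r,
      mul_ne_zero (inv_ne_zero hc.ne') hr, (h2 _).1 (by rwa [mul_inv_cancel_left₀ hc.ne'])⟩,
      fun ⟨r, hr, h⟩ => ⟨c * r, mul_ne_zero hc.ne' hr, (h2 r).2 h⟩⟩⟩
    have h3 : κ.map (c * ·) {0}ᶜ = κ {0}ᶜ := by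
      rw [Measure.map_apply (measurable_const_mul c) (measurableSet_singleton 0).compl]
      congr 1
      ext x
      simp [hc.ne']
    unfold NT sc nrm
    rw [Measure.smul_apply, smul_eq_mul, h3, mul_ne_zero_iff]
    exact and_iff_right h0
  · have e : sh r κ = (κ (Icc (r - 1) (r + 1)))⁻¹ • κ.map (· - r) := by
      unfold sh nrm
      rw [Measure.map_apply (measurable_sub_const r) measurableSet_Icc, preimage_sub_const_Icc,
        add_comm 1 r, neg_add_eq_sub]
    have h1 : κ (Icc (r - 1) (r + 1)) ≠ ∞ := isCompact_Icc.measure_lt_top.ne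
    refine ⟨e, fun h => ⟨_, h0, h1, ?_⟩⟩
    have h2 := congrArg (fun m : Measure ℝ => κ (Icc (r - 1) (r + 1)) • m) (e.symm.trans h)
    simpa only [smul_smul, ENNReal.mul_inv_cancel h0 h1, one_smul] using h2
  · refine hr (RStbQ_two h1 h0 ?_)
    rw [← RStbQ_sub, ha, Measure.smul_apply, h0, smul_zero]
  · refine Real.measure_ext_Ioo_rat fun a b => ?_
    exact (ENNReal.toReal_eq_toReal_iff' measure_Ioo_lt_top.ne measure_Ioo_lt_top.ne).1
      (congrFun h (a, b))
  · exact measurable_pi_lambda _ fun q =>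
      ((Measure.measurable_coe measurableSet_Ioo).comp hκ).ennreal_toReal
  · exact ((Measure.measurable_coe (measurableSet_singleton 0).compl).comp hκ)
      (measurableSet_singleton 0).compl

theorem s_LEc : LEc := by
  intro Ω _ μ κ ε hμ hκ h1 h0 hε
  let Z : ℕ → Set Ω := fun k => {z | ∀ q : ℚ,
    10 * κ z (Icc ((q : ℝ) - 2 / (k + 1)) (q + 2 / (k + 1)) ∩ Icc (-1) 1) ≤ 1}
  have hZ : ∀ k, MeasurableSet (Z k) := fun k => by
    simp only [Z, ofPred_forall]
    exact MeasurableSet.iInter fun q => measurableSet_le (measurable_const.mul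
      ((Measure.measurable_coe (measurableSet_Icc.inter measurableSet_Icc)).comp hκ))
      measurable_const
  have hm : Antitone fun k => (Z k)ᶜ := by
    intro k l hkl z hz hz'
    refine hz fun q => le_trans (mul_le_mul_right (measure_mono ?_) _) (hz' q)
    have h2 : (2 : ℝ) / (l + 1) ≤ 2 / (k + 1) := by
      have : (k : ℝ) ≤ l := by exact_mod_cast hkl
      gcongr
    exact inter_subset_inter_left _ (Icc_subset_Icc (by linarith) (by linarith))
  have h2 := tendsto_measure_iInter_atTop (μ := μ) (fun k => (hZ k).compl.nullMeasurableSet) hm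
    ⟨0, measure_ne_top _ _⟩
  have h3 : μ (⋂ k, (Z k)ᶜ) = 0 := by
    refine measure_mono_null (fun z hz => ?_) (ae_iff.1 h0)
    intro hz'
    obtain ⟨δ, hδ, h4⟩ := RStbQ_small (h1 z) hz'
    obtain ⟨k, hk⟩ := exists_nat_one_div_lt (half_pos hδ)
    refine mem_iInter.1 hz k fun q => le_trans (mul_le_mul_right (measure_mono ?_) _) (h4 q)
    have h5 : (2 : ℝ) / (k + 1) = 2 * (1 / (k + 1)) := by ring
    exact inter_subset_inter_left _ (Icc_subset_Icc (by linarith) (by linarith))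
  rw [h3] at h2
  obtain ⟨k, hk⟩ := (h2.eventually (ge_mem_nhds (pos_iff_ne_zero.2 hε))).exists
  have hk0 : (0 : ℝ) < 1 / (k + 1) := by positivity
  refine ⟨1 / (k + 1), Z k, hk0, ?_, hZ k, hk, fun z hz s => ?_⟩
  · rw [div_le_one (by positivity)]
    linarith [Nat.cast_nonneg (α := ℝ) k]
  · obtain ⟨q, h4, h5⟩ := exists_rat_btwn (lt_add_of_pos_right s hk0)
    refine le_trans (mul_le_mul_right (measure_mono ?_) _) (hz q)
    have h6 : (2 : ℝ) / (k + 1) = 2 * (1 / (k + 1)) := by ring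
    exact inter_subset_inter_left _ (Icc_subset_Icc (by linarith) (by linarith))


end TP
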