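import Vale.Agent.P007.RStm

noncomputable section
namespace TP
open MeasureTheory Filter Set ProbabilityTheory
open Vale.Agent.P007 (X lattice act Gam proj IsInvariantProb Equidistributes)
open scoped Classical Topology ENNReal

/-- The standard regular direction. -/
def RSym_t0 (n : ℕ) (i : Fin n) : ℝ := (i : ℝ) / n

theorem RSym_t0_inj (n : ℕ) : Function.Injective (RSym_t0 n) := by
  intro i j h
  have hn : (n : ℝ) ≠ 0 := by have := i.pos; positivity
  unfold RSym_t0 at h
  rw [div_left_inj' hn] at h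
  exact Fin.ext (by exact_mod_cast h)

theorem RSym_t0_mem (n : ℕ) (i : Fin n) : 0 ≤ RSym_t0 n i ∧ RSym_t0 n i ≤ 1 := by
  have hn : (0 : ℝ) < n := by have := i.pos; positivity
  unfold RSym_t0
  refine ⟨by positivity, ?_⟩
  rw [div_le_one hn]
  exact_mod_cast i.2.le

theorem s_Sym (hNA : NA) (hRelP : RelP) (hSLA : SLA) (hELow1 : ELow1) (hELow2 : ELow2)
    (hEUp : EUp) : Sym := by
  intro n μ κ hn hS hP hT
  have hA := hRelP n μ κ hS hP
  constructor
  · by_contra hne
    push Not at hne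
    obtain ⟨S, hF, hSl⟩ := hSLA n μ _ _ hS.prob hS.ainv hA (RSym_t0_inj n)
    obtain ⟨c, hc, h1⟩ := hELow1 n μ _ hn hS.prob hS.ainv hT (RSym_t0_inj n)
    set D : ℝ := (n * n : ℕ) * 3 + 3 with hD
    have hD0 : 0 ≤ D := by positivity
    set L := (D + 1) / c with hL
    have hL0 : 0 ≤ L := by positivity
    have hcL : c * L = D + 1 := by rw [hL]; field_simp
    have h2 := hEUp n μ (RSym_t0 n) 0 0 L (fun _ _ => False) S hS.prob hS.ainv (RSym_t0_inj n)
      le_rfl hL0 (by simp) (by simp) hF fun x hx h a b c i j hij _ =>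
        hSl x hx h a b c i j (fun e => by rw [e] at hij; exact lt_irrefl _ hij) (hne i j)
    obtain ⟨N, hN⟩ := eventually_atTop.1 (h1.and h2)
    have h3 : ∀ k : ℕ, Hh μ (RSym_t0 n) (N + k * L) ≤ Hh μ (RSym_t0 n) N + k * D := by
      intro k
      induction k with
      | zero => simp
      | succ k ih =>
        have := (hN (N + k * L) (le_add_of_nonneg_right (by positivity))).2
        rw [mul_zero, add_zero, ← hD] at this
        rw [show N + ((k + 1 : ℕ) : ℝ) * L = N + k * L + L by push_cast; ring]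
        push_cast
        linarith
    obtain ⟨k, hk⟩ := exists_nat_gt (Hh μ (RSym_t0 n) N - c * N)
    have h4 := (hN (N + k * L) (le_add_of_nonneg_right (by positivity))).1
    have h5 := h3 k
    have : c * (N + k * L) = c * N + k * (D + 1) := by rw [← hcL]; ring
    linarith
  · intro a b hab
    by_contra hba
    set S : Set (Fin n) := {k | k = b ∨ Rel μ κ b k} with hSd
    have haS : a ∉ S := by
      rintro (h | h)
      · exact hab.1 h
      · exact hba h
    have hbS : b ∈ S := Or.inl rfl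
    have hno : ∀ i ∈ S, ∀ j, j ∉ S → ¬ Rel μ κ i j := by
      rintro i (rfl | hi) j hj hij
      · exact hj (Or.inr hij)
      · exact hj (Or.inr (hA.1 b i j hi hij fun e => hj (Or.inl e.symm)))
    have hlw := hS.lw a b hab.1
    obtain ⟨L0, hL0, h1⟩ := hELow2 n μ a b _ hS.prob hS.ainv hab.1 hlw
      ((hNA n μ a b _ hS.prob hS.ainv hab.1 hlw hab.2).mono fun x hx => hx 0)
    set m : ℝ := ((n * n : ℕ) : ℝ) with hm
    have hm0 : 0 ≤ m := by positivity
    set β : ℝ := 1 / (4 * m * L0 + 2) with hβ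
    have hβ0 : 0 < β := by positivity
    have hβ1 : β * (4 * m * L0 + 2) = 1 := by rw [hβ]; field_simp
    have hmL : 0 ≤ β * (m * L0) := by positivity
    have hβ2 : β ≤ 1 / 2 := by nlinarith
    have hβ3 : 4 * (β * (m * L0)) ≤ 1 := by nlinarith
    set t' : Fin n → ℝ := fun i => β * RSym_t0 n i with ht'
    set t : Fin n → ℝ := fun i => (if i ∈ S then 1 else 0) + t' i with ht
    have hd : ∀ i j, |t' i - t' j| ≤ β := fun i j => by
      obtain ⟨a1, a2⟩ := RSym_t0_mem n i
      obtain ⟨a3, a4⟩ := RSym_t0_mem n j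
      simp only [ht']
      rw [abs_le]
      constructor <;> nlinarith
    have hgap : ∀ i ∈ S, ∀ j, j ∉ S → 1 / 2 ≤ t i - t j := fun i hi j hj => by
      have := (abs_le.1 (hd i j)).1
      simp only [ht, if_pos hi, if_neg hj]
      linarith
    have hsame : ∀ i j, (i ∈ S ↔ j ∈ S) → t i - t j = t' i - t' j := fun i j h => by
      by_cases hi : i ∈ S
      · simp only [ht, if_pos hi, if_pos (h.1 hi)]; ring
      · simp only [ht, if_neg hi, if_neg (mt h.2 hi)]; ring
    have hinj : Function.Injective t := by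
      intro i j h
      by_cases hij : i ∈ S ↔ j ∈ S
      · have := hsame i j hij
        rw [h, sub_self] at this
        refine RSym_t0_inj n (mul_left_cancel₀ hβ0.ne' ?_)
        simp only [ht'] at this
        linarith
      · by_cases hi : i ∈ S
        · have := hgap i hi j fun hj => hij ⟨fun _ => hj, fun _ => hi⟩
          linarith
        · have hj : j ∈ S := by
            by_contra hj; exact hij ⟨fun h => absurd h hi, fun h => absurd h hj⟩
          have := hgap j hj i hi
          linarith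
    obtain ⟨S', hF, hSl⟩ := hSLA n μ _ _ hS.prob hS.ainv hA hinj
    have h3 : ∀ N : ℝ, 0 ≤ N → ∀ k : ℕ, Hh μ t N + k ≤ Hh μ t (N + k * L0) := by
      intro N hN k
      induction k with
      | zero => simp
      | succ k ih =>
        have := h1 t (hgap b hbS a haS) (N + k * L0) (by positivity)
        rw [show N + ((k + 1 : ℕ) : ℝ) * L0 = N + k * L0 + L0 by push_cast; ring]
        push_cast
        linarith
    obtain ⟨k, hk⟩ := exists_nat_gt (6 * m + 6)
    have h2 := hEUp n μ t t' β (k * L0) (fun i j => i ∈ S ↔ j ∈ S) S' hS.prob hS.ainv hinj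
      hβ0.le (by positivity) hd (fun i j h => (hsame i j h).le) hF
      fun x hx h a b c i j hij hΦ => by
        refine hSl x hx h a b c i j (fun e => by rw [e] at hij; exact lt_irrefl _ hij) ?_
        by_cases hi : i ∈ S
        · exact hno i hi j fun hj => hΦ ⟨fun _ => hj, fun _ => hi⟩
        · have hj : j ∈ S := by
            by_contra hj; exact hΦ ⟨fun h => absurd h hi, fun h => absurd h hj⟩
          have := hgap j hj i hi
          linarith
    obtain ⟨N, hN1, hN2⟩ := (h2.and (eventually_ge_atTop 0)).exists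
    have h4 := h3 N hN2 k
    rw [← hm] at hN1
    have e : m * (3 + 2 * (k * L0) * β) + 3 = 3 * m + 3 + 2 * k * (β * (m * L0)) := by ring
    have hk0 : (0 : ℝ) ≤ k := Nat.cast_nonneg k
    have := mul_le_mul_of_nonneg_left hβ3 hk0
    nlinarith

theorem RSym_thin {n : ℕ} {μ : Measure (X n)} [IsFiniteMeasure μ] (hT : Thin μ) {Y : Set (X n)}
    (hY : MeasurableSet Y) (h0 : μ Y ≠ 0) : Thin (cond μ Y) := by
  intro B
  obtain ⟨C, hC, h⟩ := hT B
  have h1 : (μ Y)⁻¹ ≠ ∞ := ENNReal.inv_ne_top.2 h0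
  have h2 : 0 < (μ Y)⁻¹.toReal :=
    ENNReal.toReal_pos (ENNReal.inv_ne_zero.2 (measure_ne_top _ _)) h1
  refine ⟨(μ Y)⁻¹.toReal * C, by positivity, fun s ε hs hε hε1 => ?_⟩
  rw [cond_apply hY, mul_assoc, ENNReal.ofReal_mul h2.le, ENNReal.ofReal_toReal h1]
  exact mul_le_mul_right ((measure_mono inter_subset_right).trans (h s ε hs hε hε1)) _

theorem s_Rig (hExLW : ExLW) (hPureDec : PureDec) (hINV : INV) (hHE : HE) (hRelP : RelP)
    (hLE : LE) (hSym : Sym) (hFS : FS) : Rig := by
  intro n μ hp hn hμ hA hT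
  have hex : ∀ i j : Fin n, ∃ κ : X n → Measure ℝ, i ≠ j → LW μ i j κ := fun i j => by
    by_cases h : i ≠ j
    · obtain ⟨κ, hκ⟩ := hExLW n μ i j hμ hA h
      exact ⟨κ, fun _ => hκ⟩
    · exact ⟨fun _ => 0, fun h' => absurd h' h⟩
  choose κ hκ using hex
  refine hPureDec n μ κ ⟨hμ, hA, hκ⟩ fun Y hY h0 hS hP => ?_
  obtain ⟨⟨a, b, hab⟩, hsym⟩ := hSym n _ κ (by omega) hS hP (RSym_thin hT hY h0)
  have hAd := hRelP n _ κ hS hP
  refine hFS n _ _ hp hS.prob hS.ainv hAd ⟨a, b, hab.1, hab⟩ hsym fun a b hab => ?_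
  refine hINV n _ a b _ hS.prob hS.ainv hab.1 (hS.lw a b hab.1) ?_
  by_cases h : ∀ k, k ≠ a → k ≠ b → ¬ Rel (cond μ Y) κ a k ∧ ¬ Rel (cond μ Y) κ k b
  · exact hLE n _ κ a b hn hS hP hab h
  push Not at h
  obtain ⟨k, hka, hkb, h⟩ := h
  by_cases h1 : Rel (cond μ Y) κ a k
  · exact hHE n _ κ a k b hS h1 (hAd.1 k a b (hsym a k h1) hab hkb) hab.1
  · exact hHE n _ κ a k b hS (hAd.1 a b k hab (hsym k b (h h1)) hka.symm) (h h1) hab.1

end TP
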