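import Vale.Agent.P007.NMain
import Vale.Agent.P007.RSec
import Vale.Agent.P007.RLiftA
import Vale.Agent.P007.RLiftB
import Vale.Agent.P007.RLW0a
import Vale.Agent.P007.RLW0b
import Vale.Agent.P007.RLW0c
import Vale.Agent.P007.RExLW
import Vale.Agent.P007.RLWX
import Vale.Agent.P007.RStbP
import Vale.Agent.P007.RStbQ
import Vale.Agent.P007.RLus
import Vale.Agent.P007.RFV
import Vale.Agent.P007.RRestr
import Vale.Agent.P007.RNA
import Vale.Agent.P007.RINV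
import Vale.Agent.P007.RHE
import Vale.Agent.P007.RSL
import Vale.Agent.P007.RSLA
import Vale.Agent.P007.RMaxL
import Vale.Agent.P007.RLatV
import Vale.Agent.P007.RER
import Vale.Agent.P007.RLEa
import Vale.Agent.P007.RLEb
import Vale.Agent.P007.RLE
import Vale.Agent.P007.RBox
import Vale.Agent.P007.RDL
import Vale.Agent.P007.REnt0
import Vale.Agent.P007.RELow1
import Vale.Agent.P007.RELow2
import Vale.Agent.P007.REUp
import Vale.Agent.P007.RSym
import Vale.Agent.P007.RGen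
import Vale.Agent.P007.RFSa
import Vale.Agent.P007.RFSd
import Vale.Agent.P007.RFSb
import Vale.Agent.P007.RALG
import Vale.Agent.P007.RLim

/-! Torus packets: assembly of the measure rigidity half. -/

namespace TP

theorem t_ExSec : ExSec := s_ExSec
theorem t_LiftA : LiftA := s_LiftA t_ExSec
theorem t_LiftB : LiftB := s_LiftB t_ExSec t_LiftA
theorem t_UNI : UNI := s_UNI t_ExSec t_LiftA
theorem t_LW0a : LW0a := s_LW0a
theorem t_LW0b : LW0b := s_LW0b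
theorem t_LW0c : LW0c := s_LW0c
theorem t_ExLW : ExLW := s_ExLW t_ExSec t_LiftA t_LW0a t_LW0b t_LW0c
theorem t_LWX : LWX := s_LWX t_ExSec t_LiftA
theorem t_StbP : StbP := s_StbP
theorem t_StbQ : StbQ := s_StbQ
theorem t_Avg : Avg := s_Avg t_LWX t_StbQ
theorem t_LEc : LEc := s_LEc
theorem t_Lus : Lus := s_Lus
theorem t_Freq : Freq := s_Freq
theorem t_Rec : Rec := s_Rec
theorem t_FV : FV := s_FV t_Lus t_Freq
theorem t_PL : PL := s_PL t_FV t_StbQ
theorem t_Restr : Restr := s_Restr t_LiftA t_LWX t_FV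
theorem t_PureDec : PureDec := s_PureDec t_Restr t_StbP t_StbQ
theorem t_NA : NA := s_NA t_LWX t_StbQ
theorem t_INV : INV := s_INV t_LWX t_StbP t_StbQ
theorem t_HE : HE := s_HE t_LWX t_StbQ t_NA t_PL
theorem t_RelP : RelP := s_RelP t_HE t_StbQ
theorem t_SL : SL := s_SL t_FV
theorem t_SLA : SLA := s_SLA t_SL
theorem t_Cov1 : Cov1 := s_Cov1
theorem t_MaxL : MaxL := s_MaxL t_Cov1 t_Avg t_LWX t_StbQ
theorem t_LatV : LatV := s_LatV t_LatA
theorem t_ER : ER := s_ER t_LatV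
theorem t_LEa : LEa := s_LEa
theorem t_LEb : LEb := s_LEb t_StbQ
theorem t_LE : LE :=
  s_LE t_StbP t_StbQ t_Lus t_Freq t_Rec t_NA t_RelP t_SL t_MaxL t_ER t_LEa t_LEb t_LEc
theorem t_BoxA : BoxA := s_BoxA
theorem t_DL : DL := s_DL t_ExSec t_LiftA t_LiftB t_BoxA
theorem t_Ent0 : Ent0 := s_Ent0 t_ExSec t_LiftA t_LiftB t_BoxA t_DL
theorem t_Ent1 : Ent1 := s_Ent1 t_BoxA t_Ent0
theorem t_ELow1 : ELow1 := s_ELow1 t_ExSec t_LiftA t_LiftB t_BoxA t_DL t_Lus t_Ent0 t_Ent1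
theorem t_ELow2 : ELow2 := s_ELow2 t_ExSec t_LiftA t_LiftB t_BoxA t_DL t_Ent0 t_Ent1
theorem t_EUp : EUp := s_EUp t_ExSec t_LiftA t_LiftB t_BoxA t_DL t_Lus t_Ent0 t_Ent1
theorem t_Sym : Sym := s_Sym t_NA t_RelP t_SLA t_ELow1 t_ELow2 t_EUp
theorem t_GEN : GEN := s_GEN
theorem t_FSa : FSa := s_FSa t_Lus t_Freq t_SL t_LEa
theorem t_FSd : FSd := s_FSd
theorem t_FSb : FSb := s_FSb t_FSd
theorem t_ALG : ALG := s_ALG t_LatV
theorem t_FS : FS := s_FS t_Rec t_GEN t_FSa t_FSb t_ALG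
theorem t_Rig : Rig := s_Rig t_ExLW t_PureDec t_INV t_HE t_RelP t_LE t_Sym t_FS
theorem t_Lim : Lim := s_Lim t_LatA t_PackA t_PackB t_Mahler t_Rig t_UNI

end TP
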