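import Vale.Agent.P007.RBase

/-! Torus packets in prime degree, measure rigidity: definitions and the statements of the parts.
Each statement is proved in its own file; files that use one take it as a hypothesis. -/

noncomputable section
namespace TP
open MeasureTheory Filter Set ProbabilityTheory
open Vale.Agent.P007 (X lattice act Gam proj IsInvariantProb Equidistributes)
open scoped Classical Topology ENNReal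

section Defs
variable {n : ℕ}

/-- A measurable, locally bounded section of the projection. -/
def IsSec (s : X n → G n) : Prop := Measurable s ∧ (∀ x, proj (s x) = x) ∧
  ∀ K : Set (X n), IsCompact K → ∃ C : Set (G n), IsCompact C ∧ ∀ x ∈ K, s x ∈ C
/-- The chosen section. -/
def sec : X n → G n := Classical.epsilon IsSec
/-- The lift of a measure to the group. -/
def lift (μ : Measure (X n)) : Measure (G n) :=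
  Measure.sum fun γ : Gam n => μ.map fun x => γ.1 * sec x
/-- Invariance under the diagonal group. -/
def AInv (μ : Measure (X n)) : Prop := ∀ t, MeasurePreserving (act (dA t)) μ μ
/-- Invariance under the whole group. -/
def GInv (μ : Measure (X n)) : Prop := ∀ g : G n, MeasurePreserving (act g) μ μ
/-- The norms of the bounded vectors do not concentrate. -/
def Thin (μ : Measure (X n)) : Prop := ∀ B : ℝ, ∃ C : ℝ, 0 < C ∧ ∀ s ε : ℝ, 0 ≤ s → 0 < ε → ε ≤ 1 →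
  μ (thinSet n B s ε) ≤ ENNReal.ofReal (C * ε ^ (1 / 4 : ℝ))
/-- A measurable set of full measure. -/
def Full (μ : Measure (X n)) (S : Set (X n)) : Prop := MeasurableSet S ∧ μ Sᶜ = 0

/-- Normalisation. -/
def nrm (κ : Measure ℝ) : Measure ℝ := (κ (Icc (-1) 1))⁻¹ • κ
/-- Normalised shift. -/
def sh (r : ℝ) (κ : Measure ℝ) : Measure ℝ := nrm (κ.map (· - r))
/-- Normalised dilation. -/
def sc (c : ℝ) (κ : Measure ℝ) : Measure ℝ := nrm (κ.map (c * ·))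
/-- The translations that preserve a measure up to a factor. -/
def Stb (κ : Measure ℝ) : Set ℝ := {r | ∃ a : ℝ≥0∞, a ≠ 0 ∧ a ≠ ∞ ∧ κ.map (· - r) = a • κ}
/-- Not concentrated at zero. -/
def NT (κ : Measure ℝ) : Prop := κ {0}ᶜ ≠ 0
/-- Nontrivial stabiliser. -/
def ST (κ : Measure ℝ) : Prop := ∃ r, r ≠ 0 ∧ r ∈ Stb κ
/-- A code for locally finite measures. -/
def code (κ : Measure ℝ) (q : ℚ × ℚ) : ℝ := (κ (Ioo (q.1 : ℝ) q.2)).toReal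

/-- A measurable flow with a measurable time coordinate. -/
structure Flw {Ω : Type} [MeasurableSpace Ω] (u : ℝ → Ω → Ω) (ρ : Ω → ℝ) : Prop where
  meas : Measurable (Function.uncurry u)
  zero : ∀ g, u 0 g = g
  add : ∀ r s g, u r (u s g) = u (s + r) g
  mrho : Measurable ρ
  coc : ∀ r g, ρ (u r g) = ρ g + r
/-- An admissible weight. -/
structure Wgt {Ω : Type} [MeasurableSpace Ω] (ν : Measure Ω) (u : ℝ → Ω → Ω) (φ : Ω → ℝ≥0∞) :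
    Prop where
  meas : Measurable φ
  fin : ∀ g, φ g ≠ ∞
  pos : ∀ g (R : ℝ), ∃ c : ℝ≥0∞, c ≠ 0 ∧ ∀ r, |r| ≤ R → c ≤ φ (u r g)
  int : ∫⁻ g, φ g ∂ν ≠ ∞
/-- Disintegration along the orbits of a flow. -/
structure Dis {Ω : Type} [MeasurableSpace Ω] (ν : Measure Ω) (u : ℝ → Ω → Ω) (φ : Ω → ℝ≥0∞)
    (lam : Ω → Measure ℝ) : Prop where
  meas : Measurable lam
  fin : ∀ g, IsFiniteMeasureOnCompacts (lam g)
  coc : ∀ g r, lam (u r g) = (lam g).map (· - r)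
  one : ∀ g, ∫⁻ r, φ (u r g) ∂lam g = 1
  star : ∀ h f : Ω → ℝ≥0∞, Measurable h → Measurable f → (∀ r g, h (u r g) = h g) →
    ∫⁻ g, h g * f g ∂ν = ∫⁻ g, h g * (∫⁻ r, f (u r g) ∂lam g) * φ g ∂ν

/-- Leafwise measures along a root subgroup. -/
structure LW (μ : Measure (X n)) (i j : Fin n) (κ : X n → Measure ℝ) : Prop where
  meas : Measurable κ
  fin : ∀ x, IsFiniteMeasureOnCompacts (κ x)
  one : ∀ x, κ x (Icc (-1) 1) = 1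
  pos : ∀ x (ε : ℝ), 0 < ε → κ x (Icc (-ε) ε) ≠ 0
  coc : ∃ S, Full μ S ∧ ∀ x ∈ S, ∀ r, act (uu i j r) x ∈ S →
    κ x (Icc (r - 1) (r + 1)) ≠ 0 ∧ κ (act (uu i j r) x) = sh r (κ x)
  scale : ∀ t, ∀ᵐ x ∂μ, κ (act (dA t) x) = sc (Real.exp (t j - t i)) (κ x)
  mtG : ∀ k : G n → ℝ → ℝ≥0∞, Measurable (Function.uncurry k) →
    ∫⁻ g, ∫⁻ r, k g r ∂κ (proj g) ∂lift μ
      = ∫⁻ g, ∫⁻ r, k (g * uu i j r) (-r) * (κ (proj g) (Icc (r - 1) (r + 1)))⁻¹ ∂κ (proj g) ∂lift μ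
/-- An invariant probability with all its leafwise measures. -/
structure Sys (μ : Measure (X n)) (κ : Fin n → Fin n → X n → Measure ℝ) : Prop where
  prob : IsProbabilityMeasure μ
  ainv : AInv μ
  lw : ∀ i j, i ≠ j → LW μ i j (κ i j)
/-- The type of the leafwise measures is constant. -/
def Pure (μ : Measure (X n)) (κ : Fin n → Fin n → X n → Measure ℝ) : Prop := ∀ i j, i ≠ j →
  ((∀ᵐ x ∂μ, NT (κ i j x)) ∨ ∀ᵐ x ∂μ, ¬ NT (κ i j x)) ∧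
  ((∀ᵐ x ∂μ, ST (κ i j x)) ∨ ∀ᵐ x ∂μ, ¬ ST (κ i j x))
/-- The nontrivial roots. -/
def Rel (μ : Measure (X n)) (κ : Fin n → Fin n → X n → Measure ℝ) (i j : Fin n) : Prop :=
  i ≠ j ∧ ∀ᵐ x ∂μ, NT (κ i j x)
/-- Generic orbits of the root subgroup carry one point. -/
def Triv (μ : Measure (X n)) (i j : Fin n) : Prop :=
  ∃ S, Full μ S ∧ ∀ x ∈ S, ∀ r, act (uu i j r) x ∈ S → r = 0
/-- A transitive set of roots outside which the measure is trivial. -/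
def Adm (μ : Measure (X n)) (R : Fin n → Fin n → Prop) : Prop :=
  (∀ i j k, R i j → R j k → i ≠ k → R i k) ∧ ∀ i j, i ≠ j → ¬ R i j → Triv μ i j
/-- The unipotent group of a strict order. -/
def InN (Φ : Fin n → Fin n → Prop) (h : G n) : Prop :=
  (∀ i, h.1 i i = 1) ∧ ∀ i j, i ≠ j → ¬ Φ i j → h.1 i j = 0
/-- The roots that commute with `(a, b)` and bracket into it. -/
def PhiAB (a b i j : Fin n) : Prop := (i = a ∧ j ≠ a) ∨ (j = b ∧ i ≠ b)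
/-- The points whose orbit visits `B` with frequency above `c` in some initial segment. -/
def Fq {Ω : Type} (T : Ω → Ω) (B : Set Ω) (c : ℝ) : Set Ω :=
  {x | ∃ N : ℕ, c * N < (((Finset.range N).filter fun m => T^[m] x ∈ B).card : ℝ)}
/-- The point returns to itself along powers of `g` with small corrections in `P`. -/
def Ret (g : G n) (P : G n → Prop) (x : X n) : Prop := ∃ (m : ℕ → ℕ) (c : ℕ → G n),
  Tendsto m atTop atTop ∧ Tendsto c atTop (𝓝 1) ∧ ∀ k, P (c k) ∧ act (g ^ m k) x = act (c k) x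
/-- The direction used in the low entropy method. -/
def tA (a b i : Fin n) : ℝ := if i = a then Real.log 2 else if i = b then -Real.log 2 else 0
/-- The rate of divergence. -/
def lm (a b : Fin n) (h : G n) (m : ℕ) : ℝ := max |h.1 a a - h.1 b b|
  (2 ^ m * max (√|h.1 b a|) ‖fun k => if k = a ∨ k = b then 0 else max |h.1 k a| |h.1 b k|‖)
/-- The data of one divergence step. -/
def Dv (a b : Fin n) (η : ℝ) (h : G n) (m : ℕ) (ρ r : ℝ) : Prop :=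
  0 < lm a b h 0 ∧ 4 ^ m * lm a b h 0 ≤ 1 ∧ 1 / 4 ≤ ρ * lm a b h m ∧ ρ * lm a b h m ≤ 1 ∧
  |r| ≤ ρ ∧ η * ρ ≤ |r| ∧ η * ρ ≤ |r - (h.1 a a - h.1 b b) / (4 ^ m * h.1 b a)|
/-- Boxes. -/
def Bx (w : Fin n → Fin n → ℝ) (δ : ℝ) : Set (G n) :=
  {h | ∀ i j, |h.1 i j - (1 : Matrix (Fin n) (Fin n) ℝ) i j| ≤ δ * w i j}
/-- Submultiplicative weights. -/
def Sbm (w : Fin n → Fin n → ℝ) : Prop :=
  (∀ i, w i i = 1) ∧ (∀ i j, 0 < w i j) ∧ ∀ i j k, w i j * w j k ≤ w i k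
/-- The weights of a Bowen box. -/
def wt (s t : Fin n → ℝ) (i j : Fin n) : ℝ := min (Real.exp (s i - s j)) (Real.exp (t i - t j))
/-- The translate of a set by the lift of a point. -/
def Nb (x : X n) (Q : Set (G n)) : Set (G n) := {g | (sec x)⁻¹ * g ∈ Q}
/-- The information function. -/
def ell (μ : Measure (X n)) (w : Fin n → Fin n → ℝ) (δ : ℝ) (x : X n) : ℝ :=
  -Real.log (lift μ (Nb x (Bx w δ))).toReal
/-- The size of the boxes. -/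
def dl (n : ℕ) : ℝ := 1 / (24 * (n + 1))
/-- The entropy function. -/
def Hh (μ : Measure (X n)) (t : Fin n → ℝ) (a : ℝ) : ℝ :=
  ∫ x, (ell μ (wt 0 (a • t)) (dl n) x - ell μ (wt 0 0) (dl n) x) ∂μ
/-- The block `SL(C)`. -/
def InL (C : Set (Fin n)) (h : G n) : Prop :=
  ∀ i j, (i ∉ C ∨ j ∉ C) → h.1 i j = (1 : Matrix (Fin n) (Fin n) ℝ) i j
/-- Block diagonal matrices. -/
def InM (C : Set (Fin n)) (h : G n) : Prop := ∀ i j, ¬ (i ∈ C ↔ j ∈ C) → h.1 i j = 0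
/-- The direction that contracts the coordinates in `S`. -/
def tS (S : Set (Fin n)) (i : Fin n) : ℝ := if i ∈ S then -1 else 0
end Defs

/-- The section exists and the lattice is discrete. -/
def ExSec : Prop := ∀ n : ℕ, IsSec (sec : X n → G n) ∧
  ∀ C : Set (G n), IsCompact C → {γ : Gam n | γ.1 ∈ C}.Finite
/-- Properties of the lift. -/
def LiftA : Prop := ∀ n : ℕ,
  (∀ (μ : Measure (X n)) (f : G n → ℝ≥0∞), Measurable f →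
    ∫⁻ g, f g ∂lift μ = ∫⁻ x, ∑' γ : Gam n, f (γ.1 * sec x) ∂μ) ∧
  (∀ (μ : Measure (X n)) (γ : Gam n), MeasurePreserving (fun g => γ.1 * g) (lift μ) (lift μ)) ∧
  (∀ (μ : Measure (X n)) (h : G n), MeasurePreserving (act h) μ μ →
    MeasurePreserving (fun g => g * h) (lift μ) (lift μ)) ∧
  (∀ C : Set (G n), IsCompact C → ∃ M : ℕ, ∀ (μ : Measure (X n)) (E : Set (G n)) (F : Set (X n)),
    MeasurableSet E → E ⊆ C → (∀ g ∈ E, proj g ∈ F) → lift μ E ≤ M * μ F) ∧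
  (∀ μ : Measure (X n), IsFiniteMeasure μ →
    IsFiniteMeasureOnCompacts (lift μ) ∧ SigmaFinite (lift μ)) ∧
  (∀ (μ : Measure (X n)) (p : G n → Prop), (∀ᵐ g ∂lift μ, p g) →
    ∀ᵐ x ∂μ, ∀ γ : Gam n, p (γ.1 * sec x)) ∧
  (∀ (μ : Measure (X n)) (p : X n → Prop), (∀ᵐ x ∂μ, p x) → ∀ᵐ g ∂lift μ, p (proj g)) ∧
  (∀ (μ : Measure (X n)) (Y : Set (X n)), MeasurableSet Y →
    lift (cond μ Y) = (μ Y)⁻¹ • (lift μ).restrict (proj ⁻¹' Y)) ∧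
  MeasurableSet (range (sec : X n → G n)) ∧
  ∀ g : G n, ∑' γ : Gam n, (range (sec : X n → G n)).indicator (1 : G n → ℝ≥0∞) (γ.1 * g) = 1
/-- Mass transport on the group, and the support of the lift. -/
def LiftB : Prop := ∀ (n : ℕ) (μ : Measure (X n)), IsFiniteMeasure μ →
  (∀ k : G n → G n → ℝ≥0∞, Measurable (Function.uncurry k) →
    (∀ (γ : Gam n) g g', k (γ.1 * g) (γ.1 * g') = k g g') →
    ∫⁻ x, ∫⁻ g, k (sec x) g ∂lift μ ∂μ = ∫⁻ x, ∫⁻ g, k g (sec x) ∂lift μ ∂μ) ∧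
  ∀ᵐ x ∂μ, ∀ U ∈ 𝓝 (1 : G n), lift μ (Nb x U) ≠ 0
def LW0a : Prop := ∀ (Ω : Type) [MeasurableSpace Ω] (ν : Measure Ω) (u : ℝ → Ω → Ω) (ρ : Ω → ℝ)
  (φ : Ω → ℝ≥0∞), Flw u ρ → Wgt ν u φ → ∃ lam, Dis ν u φ lam
def LW0b : Prop := ∀ (Ω : Type) [MeasurableSpace Ω] (ν : Measure Ω) (u : ℝ → Ω → Ω) (ρ : Ω → ℝ)
  (φ : Ω → ℝ≥0∞) (lam : Ω → Measure ℝ), Flw u ρ → Wgt ν u φ → Dis ν u φ lam →
  (∀ᵐ g ∂ν, ∀ ε : ℝ, 0 < ε → lam g (Icc (-ε) ε) ≠ 0) ∧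
  ∀ k : Ω → ℝ → ℝ≥0∞, Measurable (Function.uncurry k) →
    ∫⁻ g, ∫⁻ r, k g r ∂lam g ∂ν = ∫⁻ g, ∫⁻ r, k (u r g) (-r) ∂lam g ∂ν
def LW0c : Prop := ∀ (Ω : Type) [MeasurableSpace Ω] (ν : Measure Ω) (u : ℝ → Ω → Ω) (ρ : Ω → ℝ)
  (φ : Ω → ℝ≥0∞) (lam : Ω → Measure ℝ), Flw u ρ → Wgt ν u φ → Dis ν u φ lam →
  ∀ (T : Ω ≃ᵐ Ω) (c : ℝ), 0 < c → MeasurePreserving T ν ν →
    (∀ r g, T (u r g) = u (c * r) (T g)) →
    ∀ᵐ g ∂ν, ∃ a : ℝ≥0∞, a ≠ 0 ∧ a ≠ ∞ ∧ lam (T g) = a • (lam g).map (c * ·)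
/-- Leafwise measures exist. -/
def ExLW : Prop := ∀ (n : ℕ) (μ : Measure (X n)) (i j : Fin n), IsProbabilityMeasure μ → AInv μ →
  i ≠ j → ∃ κ, LW μ i j κ
/-- Mass transport along the leaves, on the quotient. -/
def LWX : Prop := ∀ (n : ℕ) (μ : Measure (X n)) (i j : Fin n) (κ : X n → Measure ℝ), LW μ i j κ →
  (∀ k : X n → ℝ → ℝ≥0∞, Measurable (Function.uncurry k) →
    ∫⁻ x, ∫⁻ r, k x r ∂κ x ∂μ
      = ∫⁻ x, ∫⁻ r, k (act (uu i j r) x) (-r) * (κ x (Icc (r - 1) (r + 1)))⁻¹ ∂κ x ∂μ) ∧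
  ∀ p : X n → Prop, (∀ᵐ x ∂μ, p x) → ∀ᵐ x ∂μ, ∀ᵐ r ∂κ x, p (act (uu i j r) x)
/-- Stabilisers and codes. -/
def StbP : Prop :=
  (∀ κ : Measure ℝ, IsFiniteMeasureOnCompacts κ → κ ≠ 0 → IsClosed (Stb κ) ∧ 0 ∈ Stb κ ∧
    (∀ r ∈ Stb κ, ∀ s ∈ Stb κ, r + s ∈ Stb κ) ∧ ∀ r ∈ Stb κ, -r ∈ Stb κ) ∧
  (∀ (Ω : Type) [MeasurableSpace Ω] (κ : Ω → Measure ℝ), Measurable κ →
    (∀ x, IsFiniteMeasureOnCompacts (κ x)) → (∀ x, κ x ≠ 0) → MeasurableSet {x | ST (κ x)} ∧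
    ∀ b : ℝ, MeasurableSet {x | ∃ r, r ≠ 0 ∧ |r| ≤ b ∧ r ∈ Stb (κ x)})
def StbQ : Prop :=
  (∀ (κ : Measure ℝ) (c : ℝ), IsFiniteMeasureOnCompacts κ → (∀ ε : ℝ, 0 < ε → κ (Icc (-ε) ε) ≠ 0) →
    0 < c → (∃ a : ℝ≥0∞, a ≠ 0 ∧ a ≠ ∞ ∧ sc c κ = a • κ.map (c * ·)) ∧
    (∀ r, c * r ∈ Stb (sc c κ) ↔ r ∈ Stb κ) ∧ (NT (sc c κ) ↔ NT κ) ∧ (ST (sc c κ) ↔ ST κ)) ∧
  (∀ (κ : Measure ℝ) (r : ℝ), IsFiniteMeasureOnCompacts κ → κ (Icc (r - 1) (r + 1)) ≠ 0 →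
    sh r κ = (κ (Icc (r - 1) (r + 1)))⁻¹ • κ.map (· - r) ∧ (sh r κ = κ → r ∈ Stb κ)) ∧
  (∀ κ : Measure ℝ, κ (Icc (-1) 1) = 1 → ST κ → NT κ) ∧
  (∀ κ κ' : Measure ℝ, IsFiniteMeasureOnCompacts κ → IsFiniteMeasureOnCompacts κ' →
    code κ = code κ' → κ = κ') ∧
  ∀ (Ω : Type) [MeasurableSpace Ω] (κ : Ω → Measure ℝ), Measurable κ →
    (Measurable fun x => code (κ x)) ∧ MeasurableSet {x | NT (κ x)}
/-- Lusin's theorem. -/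
def Lus : Prop := ∀ (n : ℕ) (μ : Measure (X n)) (F : X n → ℚ × ℚ → ℝ) (S : Set (X n)) (ε : ℝ≥0∞),
  IsFiniteMeasure μ → Measurable F → Full μ S → ε ≠ 0 →
  ∃ K, IsCompact K ∧ K ⊆ S ∧ μ Kᶜ ≤ ε ∧ ContinuousOn F K
/-- The maximal inequality. -/
def Freq : Prop := ∀ (Ω : Type) [MeasurableSpace Ω] (μ : Measure Ω) (T : Ω → Ω) (B : Set Ω) (c : ℝ),
  IsFiniteMeasure μ → MeasurePreserving T μ μ → MeasurableSet B → 0 < c →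
  MeasurableSet (Fq T B c) ∧ ENNReal.ofReal c * μ (Fq T B c) ≤ μ B
/-- Recurrence. -/
def Rec : Prop := ∀ (n : ℕ) (μ : Measure (X n)) (g : G n) (W : Set (X n)), IsFiniteMeasure μ →
  MeasurePreserving (act g) μ μ → MeasurableSet W →
  ∀ᵐ x ∂μ, x ∈ W → Ret g (fun c => act c x ∈ W) x
/-- The Hopf argument. -/
def FV : Prop := ∀ (n : ℕ) (μ : Measure (X n)) (g : G n) (S : Set (X n)) (F : X n → ℚ × ℚ → ℝ),
  IsProbabilityMeasure μ → MeasurePreserving (act g) μ μ → Full μ S → Measurable F →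
  (∀ᵐ x ∂μ, F (act g x) = F x) → ∃ S', Full μ S' ∧ ∀ x ∈ S', ∀ h h₀ : G n, act h x ∈ S' →
    Tendsto (fun m : ℕ => (g ^ m)⁻¹ * h * g ^ m) atTop (𝓝 h₀) →
    ∃ z ∈ S, act h₀ z ∈ S ∧ F z = F x ∧ F (act h₀ z) = F (act h x)
/-- Restriction to an invariant set. -/
def Restr : Prop := ∀ (n : ℕ) (μ : Measure (X n)) (κ : Fin n → Fin n → X n → Measure ℝ)
  (Y : Set (X n)), Sys μ κ → MeasurableSet Y → μ Y ≠ 0 →
  (∀ t, ∀ᵐ x ∂μ, act (dA t) x ∈ Y ↔ x ∈ Y) → Sys (cond μ Y) κ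
/-- Reduction to pure systems. -/
def PureDec : Prop := ∀ (n : ℕ) (μ : Measure (X n)) (κ : Fin n → Fin n → X n → Measure ℝ),
  Sys μ κ → (∀ Y, MeasurableSet Y → μ Y ≠ 0 → Sys (cond μ Y) κ → Pure (cond μ Y) κ →
    GInv (cond μ Y)) → GInv μ
/-- Nontrivial leafwise measures have no atoms. -/
def NA : Prop := ∀ (n : ℕ) (μ : Measure (X n)) (i j : Fin n) (κ : X n → Measure ℝ),
  IsProbabilityMeasure μ → AInv μ → i ≠ j → LW μ i j κ → (∀ᵐ x ∂μ, NT (κ x)) →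
  ∀ᵐ x ∂μ, ∀ r, κ x {r} = 0
/-- From a nontrivial stabiliser to invariance. -/
def INV : Prop := ∀ (n : ℕ) (μ : Measure (X n)) (i j : Fin n) (κ : X n → Measure ℝ),
  IsProbabilityMeasure μ → AInv μ → i ≠ j → LW μ i j κ → (∀ᵐ x ∂μ, ST (κ x)) →
  ∀ r, MeasurePreserving (act (uu i j r)) μ μ
/-- Leafwise measures are constant along the other root subgroups. -/
def PL : Prop := ∀ (n : ℕ) (μ : Measure (X n)) (i j k l : Fin n) (κ : X n → Measure ℝ),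
  IsProbabilityMeasure μ → AInv μ → i ≠ j → k ≠ l → ¬ (i = k ∧ j = l) → ¬ (i = l ∧ j = k) →
  LW μ k l κ → ∃ S, Full μ S ∧ ∀ x ∈ S, ∀ s, act (uu i j s) x ∈ S → κ (act (uu i j s) x) = κ x
/-- The high entropy lemma. -/
def HE : Prop := ∀ (n : ℕ) (μ : Measure (X n)) (κ : Fin n → Fin n → X n → Measure ℝ)
  (i j k : Fin n), Sys μ κ → Rel μ κ i j → Rel μ κ j k → i ≠ k → ∀ᵐ x ∂μ, ST (κ i k x)
/-- The nontrivial roots of a pure system. -/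
def RelP : Prop := ∀ (n : ℕ) (μ : Measure (X n)) (κ : Fin n → Fin n → X n → Measure ℝ),
  Sys μ κ → Pure μ κ → Adm μ (Rel μ κ)
/-- The support lemma. -/
def SL : Prop := ∀ (n : ℕ) (μ : Measure (X n)) (R Φ : Fin n → Fin n → Prop),
  IsProbabilityMeasure μ → AInv μ → Adm μ R → (∀ i, ¬ Φ i i) →
  (∀ i j k, Φ i j → Φ j k → Φ i k) → ∃ S, Full μ S ∧ ∀ x ∈ S, ∀ h : G n, InN Φ h → act h x ∈ S →
    ∀ i j, i ≠ j → ¬ R i j → h.1 i j = 0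
/-- The support lemma for triangular matrices. -/
def SLA : Prop := ∀ (n : ℕ) (μ : Measure (X n)) (R : Fin n → Fin n → Prop) (t : Fin n → ℝ),
  IsProbabilityMeasure μ → AInv μ → Adm μ R → Function.Injective t →
  ∃ S, Full μ S ∧ ∀ x ∈ S, ∀ h : G n, (∀ i j, t i < t j → h.1 i j = 0) → (∀ i, 0 < h.1 i i) →
    act h x ∈ S → ∀ i j, i ≠ j → ¬ R i j → h.1 i j = 0
/-- The covering lemma on the line. -/
def Cov1 : Prop := ∃ C : ℕ, ∀ (ν : Measure ℝ) (E B W : Set ℝ) (c : ℝ≥0∞) (R : ℝ),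
  IsFiniteMeasureOnCompacts ν → MeasurableSet B → (∀ t ∈ E, ∃ ρ : ℝ, 0 < ρ ∧ ρ ≤ R ∧
    Icc (t - ρ) (t + ρ) ⊆ W ∧ c * ν (Icc (t - ρ) (t + ρ)) ≤ ν (B ∩ Icc (t - ρ) (t + ρ))) →
  c * ν E ≤ C * ν (B ∩ W)
/-- Averages over random cells of the leaves. -/
def Avg : Prop := ∀ (n : ℕ) (μ : Measure (X n)) (i j : Fin n) (κ : X n → Measure ℝ) (W : ℝ)
  (h : X n → ℝ≥0∞) (g : ℝ → ℝ≥0∞), LW μ i j κ → 0 < W → Measurable h → Measurable g →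
  (Measurable fun x => ∫⁻ θ in Ioo 0 W, (∫⁻ r in Ioo (-θ) (W - θ),
    h (act (uu i j r) x) * g (θ + r) ∂κ x) * (κ x (Ioo (-θ) (W - θ)))⁻¹) ∧
  ∫⁻ x, (∫⁻ θ in Ioo 0 W, (∫⁻ r in Ioo (-θ) (W - θ), h (act (uu i j r) x) * g (θ + r) ∂κ x) *
    (κ x (Ioo (-θ) (W - θ)))⁻¹) ∂μ = (∫⁻ x, h x ∂μ) * ∫⁻ θ in Ioo 0 W, g θ
/-- The maximal inequality along the leaves. -/
def MaxL : Prop := ∃ C : ℕ, ∀ (n : ℕ) (μ : Measure (X n)) (i j : Fin n) (κ : X n → Measure ℝ)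
  (B : Set (X n)), IsProbabilityMeasure μ → LW μ i j κ → MeasurableSet B →
  ∃ Z, MeasurableSet Z ∧ μ Zᶜ ≤ C * μ B ∧ ∀ x ∈ Z, ∀ m : ℕ,
    10 * κ x ({r | act (uu i j r) x ∈ B} ∩ Icc (-4 ^ m) (4 ^ m)) ≤ κ x (Icc (-4 ^ m) (4 ^ m))
/-- Rational matrices give lattice vectors in coordinate subspaces, and these cannot recur. -/
def LatV : Prop := ∀ n : ℕ,
  (∀ (g : G n) (z : Matrix (Fin n) (Fin n) ℚ) (S : Set (Fin n)), z ≠ 0 →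
    (∀ i j, j ∉ S → ((g⁻¹).1 * z.map (Rat.cast : ℚ → ℝ) * g.1) i j = 0) →
    ∃ w ∈ lattice (proj g), w ≠ 0 ∧ ∀ j, j ∉ S → w j = 0) ∧
  (∀ (x : X n) (w t : Fin n → ℝ), w ∈ lattice x → w ≠ 0 →
    (∀ j, w j ≠ 0 → t j < (∑ i, t i) / n) → ¬ Ret (dA t) (fun _ => True) x) ∧
  ∀ (g h c : G n), act h (proj g) = act c (proj g) →
    ∃ γ : Matrix (Fin n) (Fin n) ℤ, γ.map (Int.cast : ℤ → ℝ) = (g * h * c⁻¹ * g⁻¹).1
/-- There are no exceptional returns. -/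
def ER : Prop := ∀ (n : ℕ) (x : X n) (a b : Fin n) (t : Fin n → ℝ), a ≠ b → t a = t b →
  (∀ i j, t i = t j → i = j ∨ ((i = a ∨ i = b) ∧ (j = a ∨ j = b))) → t a < (∑ i, t i) / n →
  ¬ Ret (dA t) (fun c => lm a b c 0 = 0) x
/-- Polynomial divergence. -/
def LEa : Prop := ∀ (n : ℕ) (a b : Fin n) (η : ℝ) (h : ℕ → G n) (m : ℕ → ℕ) (ρ r : ℕ → ℝ), a ≠ b →
  0 < η → η ≤ 1 → Tendsto h atTop (𝓝 1) → (∀ l, Dv a b η (h l) (m l) (ρ l) (r l)) →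
  ∃ (φ : ℕ → ℕ) (v : G n), StrictMono φ ∧ InN (PhiAB a b) v ∧ v ≠ 1 ∧
    Tendsto (fun l => (uu a b (r (φ l)))⁻¹ * ((dA (tA a b) ^ m (φ l))⁻¹ * h (φ l) *
      dA (tA a b) ^ m (φ l)) * uu a b (r (φ l))) atTop (𝓝 v)
/-- The choice of the time and of the point on the leaf. -/
def LEb : Prop := ∀ (n : ℕ) (a b : Fin n) (η : ℝ) (κ : X n → Measure ℝ) (K Z1 Z2 : Set (X n))
  (x : X n) (h : G n), a ≠ b → 0 < η → (∀ z, IsFiniteMeasureOnCompacts (κ z)) →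
  (∀ z, κ z (Icc (-1) 1) = 1) → (∀ z (ε : ℝ), 0 < ε → κ z (Icc (-ε) ε) ≠ 0) →
  (∀ z ∈ Z1, ∀ m : ℕ, 10 * κ z ({r | act (uu a b r) z ∈ Kᶜ} ∩ Icc (-4 ^ m) (4 ^ m))
    ≤ κ z (Icc (-4 ^ m) (4 ^ m))) →
  (∀ z ∈ Z2, ∀ s : ℝ, 10 * κ z (Icc (s - η) (s + η) ∩ Icc (-1) 1) ≤ 1) →
  (∀ y, y = x ∨ y = act h x → y ∉ Fq (act (dA (tA a b))) Z1ᶜ (1 / 10) ∧ ∀ m : ℕ,
    κ (act (dA (tA a b) ^ (m + 1)) y) = sc (1 / 4) (κ (act (dA (tA a b) ^ m) y))) →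
  x ∉ Fq (act (dA (tA a b))) Z2ᶜ (1 / 100) → κ (act h x) = κ x →
  0 < lm a b h 0 → lm a b h 0 ≤ 1 / 4 ^ 10 → ∃ (m : ℕ) (ρ r : ℝ), Dv a b η h m ρ r ∧
    act (dA (tA a b) ^ m) x ∈ Z1 ∧ act (dA (tA a b) ^ m) (act h x) ∈ Z1 ∧
    κ (act (dA (tA a b) ^ m) (act h x)) = κ (act (dA (tA a b) ^ m) x) ∧
    act (uu a b r) (act (dA (tA a b) ^ m) x) ∈ K ∧
    act (uu a b r) (act (dA (tA a b) ^ m) (act h x)) ∈ K
/-- Measures without atoms do not concentrate. -/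
def LEc : Prop := ∀ (Ω : Type) [MeasurableSpace Ω] (μ : Measure Ω) (κ : Ω → Measure ℝ) (ε : ℝ≥0∞),
  IsFiniteMeasure μ → Measurable κ → (∀ z, κ z (Icc (-1) 1) = 1) → (∀ᵐ z ∂μ, ∀ r, κ z {r} = 0) →
  ε ≠ 0 → ∃ (η : ℝ) (Z : Set Ω), 0 < η ∧ η ≤ 1 ∧ MeasurableSet Z ∧ μ Zᶜ ≤ ε ∧
    ∀ z ∈ Z, ∀ s : ℝ, 10 * κ z (Icc (s - η) (s + η) ∩ Icc (-1) 1) ≤ 1
/-- The low entropy method. -/
def LE : Prop := ∀ (n : ℕ) (μ : Measure (X n)) (κ : Fin n → Fin n → X n → Measure ℝ) (a b : Fin n),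
  3 ≤ n → Sys μ κ → Pure μ κ → Rel μ κ a b →
  (∀ k, k ≠ a → k ≠ b → ¬ Rel μ κ a k ∧ ¬ Rel μ κ k b) → ∀ᵐ x ∂μ, ST (κ a b x)
/-- The algebra of boxes. -/
def BoxA : Prop := ∀ n : ℕ,
  (∀ (w : Fin n → Fin n → ℝ) (δ δ' : ℝ) (h h' : G n), Sbm w → 0 ≤ δ → 0 ≤ δ' → h ∈ Bx w δ →
    h' ∈ Bx w δ' → h * h' ∈ Bx w (δ + δ' + n * δ * δ')) ∧
  (∀ (w : Fin n → Fin n → ℝ) (δ : ℝ) (h : G n), Sbm w → 0 ≤ δ → 2 * n * δ ≤ 1 → h ∈ Bx w δ →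
    h⁻¹ ∈ Bx w (2 * δ)) ∧
  (∀ (w : Fin n → Fin n → ℝ) (δ : ℝ), IsCompact (Bx w δ) ∧
    ((∀ i j, 0 < w i j) → 0 < δ → Bx w δ ∈ 𝓝 (1 : G n))) ∧
  (∀ s t : Fin n → ℝ, Sbm (wt s t)) ∧
  (∀ (s t r : Fin n → ℝ) (δ : ℝ) (h : G n),
    h ∈ Bx (wt s t) δ ↔ dA r * h * (dA r)⁻¹ ∈ Bx (wt (s + r) (t + r)) δ) ∧
  ∀ (w w' : Fin n → Fin n → ℝ) (Λ δ δ' : ℝ), Sbm w → Sbm w' → 1 ≤ Λ → (∀ i j, w i j ≤ Λ * w' i j) →
    0 < δ → 0 < δ' → 8 * n * δ ≤ 1 → ∃ E : Finset (Set (G n)),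
      (E.card : ℝ) ≤ (10 * Λ ^ 2 * δ / δ' + 3) ^ (n * n) ∧ (∀ e ∈ E, MeasurableSet e) ∧
      (∀ h ∈ Bx w δ, ∃ e ∈ E, h⁻¹ ∈ e) ∧ ∀ e ∈ E, ∀ h ∈ e, ∀ h' ∈ e, h⁻¹ * h' ∈ Bx w' δ'
/-- The doubling lemma. -/
def DL : Prop := ∀ (n : ℕ) (μ : Measure (X n)), IsFiniteMeasure μ →
  (∀ (Q : Set (G n)) (f : X n → ℝ≥0∞), MeasurableSet Q → Measurable f →
    Measurable fun x => ∫⁻ g in Nb x Q, f (proj g) ∂lift μ) ∧
  (∀ Q : Set (G n), MeasurableSet Q → Measurable fun x => lift μ (Nb x Q)) ∧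
  (∀ (Q : Set (G n)) (x : X n), IsCompact Q → lift μ (Nb x Q) ≠ ∞) ∧
  ∀ (w w' : Fin n → Fin n → ℝ) (Λ δ δ' : ℝ) (f : X n → ℝ≥0∞), Sbm w → Sbm w' → 1 ≤ Λ →
    (∀ i j, w i j ≤ Λ * w' i j) → 0 < δ → 0 < δ' → 8 * n * δ ≤ 1 → Measurable f →
    ∫⁻ x, (∫⁻ g in Nb x (Bx w δ), f (proj g) ∂lift μ) * (lift μ (Nb x (Bx w' δ')))⁻¹ ∂μ
      ≤ ENNReal.ofReal ((10 * Λ ^ 2 * δ / δ' + 3) ^ (n * n)) * ∫⁻ x, f x ∂μ
/-- The information function. -/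
def Ent0 : Prop := ∀ (n : ℕ) (μ : Measure (X n)), IsProbabilityMeasure μ → AInv μ →
  (∀ w δ, Measurable (ell μ w δ)) ∧
  (∀ (w w' : Fin n → Fin n → ℝ) (δ δ' : ℝ), Sbm w → Sbm w' → 0 < δ → 0 < δ' → 8 * n * δ ≤ 1 →
    8 * n * δ' ≤ 1 → Integrable (fun x => ell μ w' δ' x - ell μ w δ x) μ) ∧
  (∀ (w w' : Fin n → Fin n → ℝ) (Λ δ δ' : ℝ), Sbm w → Sbm w' → 1 ≤ Λ → (∀ i j, w i j ≤ Λ * w' i j) →
    0 < δ → 0 < δ' → 8 * n * δ ≤ 1 → 8 * n * δ' ≤ 1 →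
    ∫ x, (ell μ w' δ' x - ell μ w δ x) ∂μ ≤ (n * n : ℕ) * Real.log (10 * Λ ^ 2 * δ / δ' + 3)) ∧
  (∀ (w w' : Fin n → Fin n → ℝ) (δ δ' : ℝ), (∀ i j, 0 < w' i j) → 0 < δ' → Bx w' δ' ⊆ Bx w δ →
    ∀ᵐ x ∂μ, ell μ w δ x ≤ ell μ w' δ' x) ∧
  ∀ (s t r : Fin n → ℝ) (δ : ℝ) (x : X n),
    ell μ (wt s t) δ (act (dA r) x) = ell μ (wt (s + r) (t + r)) δ x
/-- The entropy function. -/
def Ent1 : Prop := ∀ (n : ℕ) (μ : Measure (X n)) (t : Fin n → ℝ), IsProbabilityMeasure μ → AInv μ →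
  (∀ (p q : ℝ) (r : Fin n → ℝ),
    ∫ x, (ell μ (wt (p • t) (q • t)) (dl n) x - ell μ (wt r r) (dl n) x) ∂μ = Hh μ t (q - p)) ∧
  ∀ p q p' q' : ℝ, ∫ x, (ell μ (wt (p • t) (q • t)) (dl n) x
    - ell μ (wt (p' • t) (q' • t)) (dl n) x) ∂μ = Hh μ t (q - p) - Hh μ t (q' - p')
/-- Thin measures have positive entropy. -/
def ELow1 : Prop := ∀ (n : ℕ) (μ : Measure (X n)) (t : Fin n → ℝ), 2 ≤ n → IsProbabilityMeasure μ →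
  AInv μ → Thin μ → Function.Injective t → ∃ c : ℝ, 0 < c ∧ ∀ᶠ a in atTop, c * a ≤ Hh μ t a
/-- A nontrivial unstable root gives entropy. -/
def ELow2 : Prop := ∀ (n : ℕ) (μ : Measure (X n)) (a b : Fin n) (κ : X n → Measure ℝ),
  IsProbabilityMeasure μ → AInv μ → a ≠ b → LW μ a b κ → (∀ᵐ x ∂μ, κ x {0} = 0) →
  ∃ L : ℝ, 0 < L ∧ ∀ t : Fin n → ℝ, 1 / 2 ≤ t b - t a → ∀ N : ℝ, 0 ≤ N →
    1 ≤ Hh μ t (N + L) - Hh μ t N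
/-- The entropy is bounded by the nontrivial stable roots. -/
def EUp : Prop := ∀ (n : ℕ) (μ : Measure (X n)) (t t' : Fin n → ℝ) (β L : ℝ)
  (Φ : Fin n → Fin n → Prop) (S : Set (X n)), IsProbabilityMeasure μ → AInv μ →
  Function.Injective t → 0 ≤ β → 0 ≤ L → (∀ i j, |t' i - t' j| ≤ β) →
  (∀ i j, Φ i j → t i - t j ≤ t' i - t' j) → Full μ S →
  (∀ x ∈ S, ∀ h : G n, (∀ i j, t i < t j → h.1 i j = 0) → (∀ i, 0 < h.1 i i) → act h x ∈ S →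
    ∀ i j, t j < t i → ¬ Φ i j → h.1 i j = 0) →
  ∀ᶠ N in atTop, Hh μ t (N + L) - Hh μ t N ≤ (n * n : ℕ) * (3 + 2 * L * β) + 3
/-- The nontrivial roots form a nonempty symmetric set. -/
def Sym : Prop := ∀ (n : ℕ) (μ : Measure (X n)) (κ : Fin n → Fin n → X n → Measure ℝ), 2 ≤ n →
  Sys μ κ → Pure μ κ → Thin μ → (∃ a b, Rel μ κ a b) ∧ ∀ a b, Rel μ κ a b → Rel μ κ b a
/-- Generation by elementary matrices. -/
def GEN : Prop := ∀ (n : ℕ) (C : Set (Fin n)) (H : Subgroup (G n)),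
  (∀ i ∈ C, ∀ j ∈ C, ∀ r, uu i j r ∈ H) → ∀ h, InL C h → h ∈ H
/-- Divergence transversal to the block. -/
def FSa : Prop := ∀ (n : ℕ) (μ : Measure (X n)) (R : Fin n → Fin n → Prop) (C : Set (Fin n))
  (ε : ℝ≥0∞), IsProbabilityMeasure μ → AInv μ → Adm μ R → (∃ a ∈ C, ∃ b ∈ C, a ≠ b) →
  (∀ i ∈ C, ∀ j ∈ C, MeasurePreserving (act (uu i j 1)) μ μ) →
  (∀ i ∈ C, ∀ k, k ∉ C → ¬ R i k ∧ ¬ R k i) → ε ≠ 0 →
  ∃ K, MeasurableSet K ∧ μ Kᶜ ≤ ε ∧ ∃ U ∈ 𝓝 (1 : G n), ∀ z ∈ K, ∀ g ∈ U, act g z ∈ K →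
    (∃ c : ℝ, ∀ i ∈ C, ∀ j ∈ C, g.1 i j = if i = j then c else 0) → InM C g
/-- Splitting off the block. -/
def FSd : Prop := ∀ (n : ℕ) (C : Set (Fin n)) (B : Set (G n)), IsCompact B → (∀ l ∈ B, InL C l) →
  ∀ U ∈ 𝓝 (1 : G n), ∀ V ∈ 𝓝 (1 : G n), ∃ U' ∈ 𝓝 (1 : G n), ∀ g ∈ U', ∃ l₀ ∈ V, InL C l₀ ∧
    ∀ l ∈ B, l⁻¹ * (l₀⁻¹ * g) * l ∈ U ∧
      (∃ c : ℝ, ∀ i ∈ C, ∀ j ∈ C, (l⁻¹ * (l₀⁻¹ * g) * l).1 i j = if i = j then c else 0) ∧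
      (InM C (l⁻¹ * (l₀⁻¹ * g) * l) → InM C g)
/-- Close generic points differ by a block diagonal matrix. -/
def FSb : Prop := ∀ (n : ℕ) (μ : Measure (X n)) (C : Set (Fin n)), IsProbabilityMeasure μ →
  (∀ l : G n, InL C l → MeasurePreserving (act l) μ μ) →
  (∀ ε : ℝ≥0∞, ε ≠ 0 → ∃ K, MeasurableSet K ∧ μ Kᶜ ≤ ε ∧ ∃ U ∈ 𝓝 (1 : G n), ∀ z ∈ K, ∀ g ∈ U,
    act g z ∈ K → (∃ c : ℝ, ∀ i ∈ C, ∀ j ∈ C, g.1 i j = if i = j then c else 0) → InM C g) →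
  ∃ K, MeasurableSet K ∧ μ K ≠ 0 ∧ ∃ U ∈ 𝓝 (1 : G n), ∀ z ∈ K, ∀ g ∈ U, act g z ∈ K → InM C g
/-- In prime dimension there is no proper block. -/
def ALG : Prop := ∀ (n : ℕ) (x : X n) (C : Set (Fin n)) (a b : Fin n) (t : Fin n → ℝ), n.Prime →
  a ∈ C → b ∈ C → a ≠ b → C ≠ univ → Function.Injective t → Ret (dA t) (InM C) x →
  Ret (uu a b 1) (InM C) x →
  (∀ S : Set (Fin n), S.Nonempty → S ≠ univ → Ret (dA (tS S)) (fun _ => True) x) → False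
/-- The final step. -/
def FS : Prop := ∀ (n : ℕ) (μ : Measure (X n)) (R : Fin n → Fin n → Prop), n.Prime →
  IsProbabilityMeasure μ → AInv μ → Adm μ R → (∃ a b, a ≠ b ∧ R a b) → (∀ a b, R a b → R b a) →
  (∀ a b, R a b → ∀ r, MeasurePreserving (act (uu a b r)) μ μ) → GInv μ
/-- Uniqueness of the invariant probability. -/
def UNI : Prop := ∀ (n : ℕ) (μ μ' : Measure (X n)), IsInvariantProb μ → IsInvariantProb μ' → μ = μ'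
/-- Measure rigidity. -/
def Rig : Prop := ∀ (n : ℕ) (μ : Measure (X n)), n.Prime → 3 ≤ n → IsProbabilityMeasure μ →
  AInv μ → Thin μ → GInv μ
/-- Equidistribution in prime degree. -/
def Lim : Prop := ∀ m : ℕ, (m + 1).Prime → 2 ≤ m → Equidistributes m

end TP
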